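import Vale.Agent.P268.H288.ElemSL

/-!
# P268: adjacent slides generate all congruences of determinant one
-/

namespace Vale.Agent.P268.T

open Matrix Vale.Agent.P268.H288

section Adj

variable {r : ℕ}

/-- The matrices along which all forms are related. -/
def Along (R : Matrix (Fin r) (Fin r) ℤ → Matrix (Fin r) (Fin r) ℤ → Prop)
    (T : Matrix (Fin r) (Fin r) ℤ) : Prop := ∀ L, R L (Tᵀ * L * T)

variable {R : Matrix (Fin r) (Fin r) ℤ → Matrix (Fin r) (Fin r) ℤ → Prop}

theorem Along.mul (hR : Equivalence R) {S T : Matrix (Fin r) (Fin r) ℤ} (hS : Along R S)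
    (hT : Along R T) : Along R (S * T) := by
  intro L
  have h := hR.trans (hS L) (hT _)
  rw [transpose_mul]
  simpa only [Matrix.mul_assoc] using h

theorem Along.inv (hR : Equivalence R) {S T : Matrix (Fin r) (Fin r) ℤ} (hS : Along R S)
    (h : T * S = 1) : Along R T := by
  intro L
  have h1 := hS (Tᵀ * L * T)
  have h2 : Sᵀ * (Tᵀ * L * T) * S = L := by
    have h3 : Sᵀ * Tᵀ = 1 := by rw [← transpose_mul, h, transpose_one]
    calc Sᵀ * (Tᵀ * L * T) * S = (Sᵀ * Tᵀ) * L * (T * S) := by simp only [Matrix.mul_assoc]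
      _ = L := by rw [h3, h, Matrix.one_mul, Matrix.mul_one]
  rw [h2] at h1
  exact hR.symm h1

theorem comm_unipotent {A : Type*} [Ring A] {a b : A} (ha : a * a = 0) (hb : b * b = 0)
    (hba : b * a = 0) : (1 + a) * (1 + b) * (1 - a) * (1 - b) = 1 + a * b := by
  have h1 : (1 + a) * (1 + b) * (1 - a) * (1 - b) = 1 + a * b - a * a + a * a * b - b * b - b * a
      + b * a * b - a * (b * b) - a * (b * a) + a * (b * a) * b := by noncomm_ring
  rw [h1, ha, hb, hba]
  simp

theorem Along.trv (hR : Equivalence R) {i j k : Fin r} (hij : i ≠ j) (hjk : j ≠ k) (hik : i ≠ k)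
    (h1 : Along R (transvection i j 1)) (h2 : Along R (transvection j k 1)) :
    Along R (transvection i k 1) := by
  have ha : (single i j (1 : ℤ)) * (single i j (1 : ℤ)) = 0 :=
    single_mul_single_of_ne _ _ _ _ hij.symm _
  have hb : (single j k (1 : ℤ)) * (single j k (1 : ℤ)) = 0 :=
    single_mul_single_of_ne _ _ _ _ hjk.symm _
  have hba : (single j k (1 : ℤ)) * (single i j (1 : ℤ)) = 0 :=
    single_mul_single_of_ne _ _ _ _ hik.symm _
  have e : transvection i k (1 : ℤ) = transvection i j 1 * transvection j k 1 *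
      (1 - single i j 1) * (1 - single j k 1) := by
    simp only [transvection]
    rw [comm_unipotent ha hb hba, single_mul_single_same, mul_one]
  have e1 : (1 - single i j (1 : ℤ)) * transvection i j 1 = 1 := by
    simp only [transvection]
    rw [sub_mul, one_mul, mul_add, mul_one, ha]; abel
  have e2 : (1 - single j k (1 : ℤ)) * transvection j k 1 = 1 := by
    simp only [transvection]
    rw [sub_mul, one_mul, mul_add, mul_one, hb]; abel
  rw [e]
  exact ((h1.mul hR h2).mul hR (h1.inv hR e1)).mul hR (h2.inv hR e2)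

/-- Adjacent slides generate all slides. -/
theorem Along.all (hR : Equivalence R)
    (hup : ∀ i j : Fin r, (i : ℕ) + 1 = j → Along R (transvection i j 1))
    (hdn : ∀ i j : Fin r, (j : ℕ) + 1 = i → Along R (transvection i j 1)) :
    ∀ i j : Fin r, i ≠ j → Along R (transvection i j 1) := by
  have key : ∀ d : ℕ, ∀ i j : Fin r, ((i : ℕ) + d + 1 = j ∨ (j : ℕ) + d + 1 = i) →
      Along R (transvection i j 1) := by
    intro d
    induction d with
    | zero =>
      rintro i j (h | h)
      · exact hup i j h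
      · exact hdn i j h
    | succ d ih =>
      rintro i j (h | h)
      · have hk : (i : ℕ) + 1 < r := by omega
        refine Along.trv hR (j := ⟨(i : ℕ) + 1, hk⟩) ?_ ?_ ?_ (hup _ _ rfl)
          (ih _ _ (Or.inl (by show (i : ℕ) + 1 + d + 1 = j; omega)))
        · exact fun e => absurd (congrArg Fin.val e) (by show (i : ℕ) ≠ (i : ℕ) + 1; omega)
        · exact fun e => absurd (congrArg Fin.val e) (by show (i : ℕ) + 1 ≠ j; omega)
        · exact fun e => absurd (congrArg Fin.val e) (by omega)
      · have hk : (j : ℕ) + 1 < r := by omega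
        refine Along.trv hR (j := ⟨(j : ℕ) + 1, hk⟩) ?_ ?_ ?_
          (ih _ _ (Or.inr (by show (j : ℕ) + 1 + d + 1 = i; omega))) (hdn _ _ rfl)
        · exact fun e => absurd (congrArg Fin.val e) (by show (i : ℕ) ≠ (j : ℕ) + 1; omega)
        · exact fun e => absurd (congrArg Fin.val e) (by show (j : ℕ) + 1 ≠ j; omega)
        · exact fun e => absurd (congrArg Fin.val e) (by omega)
  intro i j hij
  have hne : (i : ℕ) ≠ j := fun h => hij (Fin.ext h)
  rcases lt_or_gt_of_ne hne with h | h
  · exact key ((j : ℕ) - i - 1) i j (Or.inl (by omega))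
  · exact key ((i : ℕ) - j - 1) i j (Or.inr (by omega))

/-- **Congruences of determinant one from adjacent slides.** -/
theorem rel_of_step_slides {B : Type*} {rel : B → B → Prop} (hrel : Equivalence rel)
    {typ : B → Matrix (Fin r) (Fin r) ℤ → Prop}
    (hex : ∀ V, ∃ b, typ b V)
    (hpair : ∀ V b b', typ b V → typ b' V → rel b b')
    (hup : ∀ V (i j : Fin r), (i : ℕ) + 1 = j → ∃ b b', typ b V ∧
      typ b' ((transvection i j 1)ᵀ * V * transvection i j 1) ∧ rel b b')
    (hdn : ∀ V (i j : Fin r), (j : ℕ) + 1 = i → ∃ b b', typ b V ∧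
      typ b' ((transvection i j 1)ᵀ * V * transvection i j 1) ∧ rel b b')
    {V P : Matrix (Fin r) (Fin r) ℤ} (hP : P.det = 1) {b b' : B} (hb : typ b V)
    (hb' : typ b' (Pᵀ * V * P)) : rel b b' := by
  let R : Matrix (Fin r) (Fin r) ℤ → Matrix (Fin r) (Fin r) ℤ → Prop :=
    fun V V' => ∀ b b', typ b V → typ b' V' → rel b b'
  have hR : Equivalence R := by
    refine ⟨fun V b b' h h' => hpair V b b' h h', fun h b b' hb hb' => hrel.symm (h _ _ hb' hb),
      fun {V V' V''} h h' b b'' hb hb'' => ?_⟩
    obtain ⟨b', hb'⟩ := hex V'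
    exact hrel.trans (h _ _ hb hb') (h' _ _ hb' hb'')
  have h1 : ∀ i j : Fin r, (i : ℕ) + 1 = j → Along R (transvection i j 1) := by
    intro i j hij V b b' hb hb'
    obtain ⟨a, a', ha, ha', haa⟩ := hup V i j hij
    exact hrel.trans (hpair _ _ _ hb ha) (hrel.trans haa (hpair _ _ _ ha' hb'))
  have h2 : ∀ i j : Fin r, (j : ℕ) + 1 = i → Along R (transvection i j 1) := by
    intro i j hij V b b' hb hb'
    obtain ⟨a, a', ha, ha', haa⟩ := hdn V i j hij
    exact hrel.trans (hpair _ _ _ hb ha) (hrel.trans haa (hpair _ _ _ ha' hb'))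
  exact congruence_of_slides hR (fun V i j hij => Along.all hR h1 h2 i j hij V) V hP b b' hb hb'

end Adj
end Vale.Agent.P268.T
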