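import Vale.Agent.P268.T.Weight
import Vale.Agent.P268.Z.FinalStmt

/-!
# P268, topological half: chain polynomials are of class `O`, and the final passage
-/

set_option linter.unusedSectionVars false

namespace Vale.Agent.P268.T

open Set Filter Topology Vale.Agent.P268.Z

/-! ### Weights of chain polynomials -/

/-- The weight of the head variable: `0` for the empty chain, `(1 - headWt c) / a` for
`a :: c`. -/
noncomputable def headWt : List ℕ → ℝ
  | [] => 0
  | a :: c => (1 - headWt c) / a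

theorem headWt_bounds {c : List ℕ} (hc : ∀ a ∈ c, 2 ≤ a) : 0 ≤ headWt c ∧ headWt c ≤ 1 / 2 := by
  induction c with
  | nil => simp [headWt]
  | cons a c ih =>
    obtain ⟨h1, h2⟩ := ih fun b hb => hc b (List.mem_cons_of_mem _ hb)
    have ha : (2 : ℝ) ≤ a := by exact_mod_cast hc a List.mem_cons_self
    refine ⟨div_nonneg (by linarith) (by linarith), ?_⟩
    rw [headWt, div_le_div_iff₀ (by linarith) (by norm_num)]
    linarith

theorem headWt_pos {c : List ℕ} (hc : ∀ a ∈ c, 2 ≤ a) (h0 : c ≠ []) : 0 < headWt c := by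
  cases c with
  | nil => exact absurd rfl h0
  | cons a c =>
    obtain ⟨h1, h2⟩ := headWt_bounds fun b hb => hc b (List.mem_cons_of_mem a hb)
    have ha : (2 : ℝ) ≤ a := by exact_mod_cast hc a List.mem_cons_self
    exact div_pos (by linarith) (by linarith)

/-- The weights of the chain polynomial. -/
noncomputable def chainWt (c : List ℕ) (j : Fin c.length) : ℝ := headWt (c.drop j)

theorem chainWt_pos {c : List ℕ} (hc : ∀ a ∈ c, 2 ≤ a) (j : Fin c.length) : 0 < chainWt c j :=
  headWt_pos (fun a ha => hc a (List.mem_of_mem_drop ha)) (by simp)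

theorem chainWt_rel {c : List ℕ} (hc : ∀ a ∈ c, 2 ≤ a) (j : Fin c.length) :
    chainWt c j * (c.get j : ℕ) +
      (if h : (j : ℕ) + 1 < c.length then chainWt c ⟨j + 1, h⟩ else 0) = 1 := by
  have h1 : (if h : (j : ℕ) + 1 < c.length then chainWt c ⟨j + 1, h⟩ else 0) =
      headWt (c.drop (j + 1)) := by
    split_ifs with h
    · rfl
    · rw [List.drop_eq_nil_of_le (by omega)]; rfl
  have h2 : c.drop j = c.get j :: c.drop (j + 1) := by simp
  have h3 : ((c.get j : ℕ) : ℝ) ≠ 0 := by
    have := hc _ (List.get_mem c j)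
    exact_mod_cast (by omega : c.get j ≠ 0)
  rw [h1, chainWt, h2, headWt]
  field_simp
  ring

theorem chainFun_hom {c : List ℕ} (hc : ∀ a ∈ c, 2 ≤ a) (r : ℝ) (hr : 0 ≤ r)
    (z : Fin c.length → ℂ) :
    chainFun c (fun i => (r ^ (chainWt c i) : ℝ) • z i) = r • chainFun c z := by
  rw [chainFun, chainFun, Finset.smul_sum]
  refine Finset.sum_congr rfl fun j _ => ?_
  rcases hr.eq_or_lt with rfl | hr
  · rw [Real.zero_rpow (chainWt_pos hc j).ne', zero_smul, zero_smul, zero_pow, zero_mul]
    have := hc _ (List.get_mem c j)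
    omega
  · have hrel := chainWt_rel hc j
    split_ifs with h
    · rw [dif_pos h] at hrel
      rw [smul_pow, smul_mul_smul_comm, ← Real.rpow_mul_natCast hr.le, ← Real.rpow_add hr, hrel,
        Real.rpow_one]
    · rw [dif_neg h, add_zero] at hrel
      rw [smul_pow, mul_one, mul_one, ← Real.rpow_mul_natCast hr.le, hrel, Real.rpow_one]

theorem contDiff_chainFun (c : List ℕ) : ContDiff ℂ 1 (chainFun c) := by
  refine ContDiff.sum fun j _ => ?_
  refine ((contDiff_apply ℂ ℂ j).pow _).mul ?_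
  split_ifs with h
  · exact contDiff_apply ℂ ℂ _
  · exact contDiff_const

theorem chainFun_crit {c : List ℕ} (hc : ∀ a ∈ c, 2 ≤ a) (z : Fin c.length → ℂ)
    (hz : fderiv ℂ (chainFun c) z = 0) : z = 0 := by
  funext j
  refine chain_crit hc z (fun j => ?_) j
  set v : Fin c.length → ℂ := fun l => if l = j then 1 else 0 with hv
  have hd : HasFDerivAt (chainFun c) (0 : (Fin c.length → ℂ) →L[ℂ] ℂ) z := by
    rw [← hz]
    exact ((contDiff_chainFun c).differentiable one_ne_zero z).hasFDerivAt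
  have hl : HasDerivAt (fun t : ℂ => z + t • v) v 0 := by
    simpa using ((hasDerivAt_id (0 : ℂ)).smul_const v).const_add z
  have hz' : z = z + (0 : ℂ) • v := by simp
  rw [hz'] at hd
  have h1 := hd.comp_hasDerivAt (0 : ℂ) hl
  have h2 := hasDerivAt_chainFun c z v
  have h3 : (fun t : ℂ => chainFun c (fun l => z l + t * v l)) =
      chainFun c ∘ (fun t : ℂ => z + t • v) := by
    funext t
    rfl
  rw [h3] at h2
  simpa using h2.unique h1

/-- The space of the chain polynomial `c`. -/
abbrev CE (c : List ℕ) : Type := EuclideanSpace ℂ (Fin c.length)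

/-- The chain polynomial, made homogeneous of degree one. -/
noncomputable def P (c : List ℕ) (x : CE c) : ℂ := chainFun c (Wc (chainWt c) x)

theorem wFam_chain {T : Type*} [TopologicalSpace T] {c : List ℕ} (hc : ∀ a ∈ c, 2 ≤ a)
    (s : Set T) : WFam (chainWt c) s (fun _ => chainFun c) :=
  WFam.const (chainFun_hom hc) (contDiff_chainFun c) (chainFun_crit hc) s

/-- Chain polynomials are of class `O`. -/
theorem oFam_P {T : Type*} [TopologicalSpace T] {c : List ℕ} (hc : ∀ a ∈ c, 2 ≤ a)
    (s : Set T) : OFam s (fun _ => P c) :=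
  (wFam_chain hc s).oFam (chainWt_pos hc)

/-- A sum of chain polynomials in disjoint variables, made homogeneous of degree one. -/
noncomputable def sumP {ι : Type} [Fintype ι] (F : ι → List ℕ) (x : ∀ i, CE (F i)) : ℂ :=
  ∑ i, P (F i) (x i)

/-! ### The final passage -/

/-- The coordinates of a point of the product of the spaces of the summands. -/
noncomputable def coords {ι : Type} {F : ι → List ℕ} (x : ∀ i, CE (F i)) (q : Vars F) : ℂ :=
  Wc (chainWt (F q.1)) (x q.1) q.2

theorem coords_mk {ι : Type} {F : ι → List ℕ} (x : ∀ i, CE (F i)) (i : ι) :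
    (fun j => coords x ⟨i, j⟩) = Wc (chainWt (F i)) (x i) := rfl

theorem continuous_coords {ι : Type} {F : ι → List ℕ} (hF : ∀ i, ∀ a ∈ F i, 2 ≤ a) (q : Vars F) :
    Continuous fun x : ∀ i, CE (F i) => coords x q :=
  (continuous_apply q.2).comp
    ((continuous_Wc (chainWt_pos (hF q.1))).comp (continuous_apply q.1))

/-- The homeomorphism between the product of the spaces of the summands and `ℂᴺ`. -/
noncomputable def homeoSum {ι : Type} {F : ι → List ℕ} {N : ℕ} (e : Vars F ≃ Fin N)
    (hF : ∀ i, ∀ a ∈ F i, 2 ≤ a) : (∀ i, CE (F i)) ≃ₜ (Fin N → ℂ) where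
  toFun x := fun k => coords x (e.symm k)
  invFun z := fun i => (WcHomeo (chainWt_pos (hF i))).symm fun j => z (e ⟨i, j⟩)
  left_inv x := by
    funext i
    simp only [Equiv.symm_apply_apply, coords_mk]
    exact (WcHomeo (chainWt_pos (hF i))).symm_apply_apply (x i)
  right_inv z := by
    funext k
    have h1 : ∀ q : Vars F, coords (fun i => (WcHomeo (chainWt_pos (hF i))).symm
        fun j => z (e ⟨i, j⟩)) q = z (e q) := by
      rintro ⟨i, j⟩
      exact congrFun ((WcHomeo (chainWt_pos (hF i))).apply_symm_apply fun j => z (e ⟨i, j⟩)) j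
    exact (h1 (e.symm k)).trans (congrArg z (e.apply_symm_apply k))
  continuous_toFun := continuous_pi fun k => continuous_coords hF (e.symm k)
  continuous_invFun := continuous_pi fun i => (WcHomeo (chainWt_pos (hF i))).symm.continuous.comp
    (continuous_pi fun j => continuous_apply (e ⟨i, j⟩))

theorem homeoSum_apply {ι : Type} {F : ι → List ℕ} {N : ℕ} (e : Vars F ≃ Fin N)
    (hF : ∀ i, ∀ a ∈ F i, 2 ≤ a) (x : ∀ i, CE (F i)) (k : Fin N) :
    homeoSum e hF x k = coords x (e.symm k) := rfl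

theorem sumFun_homeoSum {ι : Type} [Fintype ι] {F : ι → List ℕ} {N : ℕ} (e : Vars F ≃ Fin N)
    (hF : ∀ i, ∀ a ∈ F i, 2 ≤ a) (x : ∀ i, CE (F i)) :
    sumFun F (homeoSum e hF x ∘ e) = sumP F x := by
  rw [sumFun, sumP]
  refine Finset.sum_congr rfl fun i _ => ?_
  rw [P, ← coords_mk]
  congr 1
  funext j
  rw [Function.comp_apply, homeoSum_apply, Equiv.symm_apply_apply]

/-- A sum of chain polynomials has the same zero set as its homogeneous version. -/
theorem veq_sum {ι : Type} [Fintype ι] {F : ι → List ℕ} {N : ℕ} (e : Vars F ≃ Fin N)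
    (hF : ∀ i, ∀ a ∈ F i, 2 ≤ a) :
    VEq (sumP F) (fun z : Fin N → ℂ => sumFun F (z ∘ e)) := by
  refine ⟨homeoSum e hF, ?_, fun x => by rw [← sumFun_homeoSum e hF]⟩
  funext k
  rw [homeoSum_apply, coords, Pi.zero_apply, Wc_zero]
  rfl

/-- Equivalent zero sets give ambiently homeomorphic germs. -/
theorem VEq.ambHomeo {E : Type*} [NormedAddCommGroup E] [NormedSpace ℂ E] {f g : E → ℂ}
    (h : VEq f g) : AmbHomeo f g := by
  obtain ⟨h, h0, hh⟩ := h
  refine ⟨h.toOpenPartialHomeomorph, mem_univ _, h0, ?_⟩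
  simp only [Homeomorph.toOpenPartialHomeomorph_source, Homeomorph.toOpenPartialHomeomorph_target,
    inter_univ, Homeomorph.toOpenPartialHomeomorph_apply]
  ext y
  constructor
  · rintro ⟨x, hx, rfl⟩
    exact (hh x).mp hx
  · intro hy
    refine ⟨h.symm y, (hh _).mpr ?_, h.apply_symm_apply y⟩
    rw [h.apply_symm_apply]
    exact hy

/-- **The final passage**: it suffices to compare the homogeneous versions. -/
theorem ambHomeo_of_veq {ι κ : Type} [Fintype ι] [Fintype κ] {F : ι → List ℕ} {G : κ → List ℕ}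
    {N : ℕ} (e : Vars F ≃ Fin N) (e' : Vars G ≃ Fin N) (hF : ∀ i, ∀ a ∈ F i, 2 ≤ a)
    (hG : ∀ i, ∀ a ∈ G i, 2 ≤ a) (h : VEq (sumP F) (sumP G)) :
    AmbHomeo (fun z : Fin N → ℂ => sumFun F (z ∘ e)) (fun z => sumFun G (z ∘ e')) :=
  ((veq_sum e hF).symm.trans (h.trans (veq_sum e' hG))).ambHomeo

/-- The disproof of Zariski's multiplicity conjecture from `Star` and the comparison of zero
sets. -/
theorem zariski_of_veq (h : Star)
    (top : ∀ (m n : ℕ) (F : Fin m → List ℕ) (G : Fin n → List ℕ),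
      ∑ i, (F i).length = ∑ i, (G i).length → 4 ≤ ∑ i, (F i).length →
      (∀ i, ∀ a ∈ F i, 2 ≤ a) → (∀ i, ∀ a ∈ G i, 2 ≤ a) →
      Congruent (seifert F) (seifert G) → VEq (sumP F) (sumP G)) :
    ∃ (N : ℕ) (f g : (Fin N → ℂ) → ℂ), Red f ∧ Red g ∧ AmbHomeo f g ∧ mult f ≠ mult g := by
  refine zariski_of_star h fun m n N F G e e' h4 hF hG hFG => ambHomeo_of_veq e e' hF hG ?_
  have hcF : ∑ i, (F i).length = N := by
    have := Fintype.card_congr e
    simpa [Vars] using this
  have hcG : ∑ i, (G i).length = N := by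
    have := Fintype.card_congr e'
    simpa [Vars] using this
  exact top m n F G (hcF.trans hcG.symm) (hcF ▸ h4) hF hG hFG

/-- The final passage for one pair of sums of chain polynomials, over arbitrary finite index
types. Whatever else is known about the pair (congruence, Euclid condition, …) may be used to
prove the hypothesis `h`. -/
theorem zariski_of_pair {ι κ : Type} [Fintype ι] [Fintype κ] {F : ι → List ℕ} {G : κ → List ℕ}
    (hι : 2 ≤ Fintype.card ι) (hκ : 2 ≤ Fintype.card κ) (hF0 : ∀ i, F i ≠ []) (hG0 : ∀ i, G i ≠ [])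
    (hF : ∀ i, ∀ a ∈ F i, 2 ≤ a) (hG : ∀ i, ∀ a ∈ G i, 2 ≤ a)
    (hF3 : ∀ i, ∃ (l : List ℕ) (x : ℕ), F i = l ++ [x] ∧ 3 ≤ x)
    (h3 : ∃ i, F i = [3]) (h2 : ∃ i, G i = [2])
    (hN : ∑ i, (F i).length = ∑ i, (G i).length) (h : VEq (sumP F) (sumP G)) :
    ∃ (N : ℕ) (f g : (Fin N → ℂ) → ℂ), Red f ∧ Red g ∧ AmbHomeo f g ∧ mult f ≠ mult g := by
  have hcF : Fintype.card (Vars F) = ∑ i, (F i).length := by simp [Vars]
  have hcG : Fintype.card (Vars G) = ∑ i, (F i).length := by simp [Vars, hN]
  obtain ⟨i, i', hii⟩ := Fintype.one_lt_card_iff.mp hι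
  obtain ⟨k, k', hkk⟩ := Fintype.one_lt_card_iff.mp hκ
  obtain ⟨i₃, hi₃⟩ := h3
  obtain ⟨i₂, hi₂⟩ := h2
  refine ⟨∑ i, (F i).length, fun z => sumFun F (z ∘ Fintype.equivFinOfCardEq hcF),
    fun z => sumFun G (z ∘ Fintype.equivFinOfCardEq hcG),
    red_sumFun F _ hF hii (hF0 _) (hF0 _), red_sumFun G _ hG hkk (hG0 _) (hG0 _),
    ambHomeo_of_veq _ _ hF hG h, ?_⟩
  rw [mult_eq_three F _ hF hF3 ⟨i₃, hi₃⟩, mult_eq_two G _ hG ⟨i₂, hi₂⟩]
  decide

/-! ### Sums over a finite index type -/

section Pi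

variable {ι : Type*} [Fintype ι] {E : ι → Type*} [∀ i, NormedAddCommGroup (E i)]
  [∀ i, NormedSpace ℝ (E i)] {Z : Type*} [NormedAddCommGroup Z] [NormedSpace ℝ Z]
  {T : Type*} [TopologicalSpace T]

theorem cont_sum {s : Set T} {F : ∀ i, T → E i → Z}
    (hF : ∀ i, ContinuousOn (fun p : T × E i => F i p.1 p.2) (s ×ˢ univ)) :
    ContinuousOn (fun p : T × (∀ i, E i) => ∑ i, F i p.1 (p.2 i)) (s ×ˢ univ) := by
  refine continuousOn_finsetSum _ fun i _ => ?_
  have h1 : ContinuousOn (fun p : T × (∀ i, E i) => (p.1, p.2 i)) (s ×ˢ univ) :=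
    (continuous_fst.prodMk ((continuous_apply i).comp continuous_snd)).continuousOn
  exact (hF i).comp h1 (fun p hp => ⟨hp.1, mem_univ _⟩)

/-- A sum in disjoint variables is regular where one summand is. -/
theorem RegAt.sum [DecidableEq ι] {s : Set T} {F : ∀ i, T → E i → Z} {t₀ : T} {x₀ : ∀ i, E i}
    (i : ι) (h : RegAt s (F i) t₀ (x₀ i)) :
    RegAt s (fun t x => ∑ i, F i t (x i)) t₀ x₀ := by
  have key : RegAt s (fun t (x : ∀ i, E i) => ∑ j ∈ Finset.univ.erase i,
      F j t (Function.update x i 0 j) + F i t (x i)) t₀ x₀ := by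
    refine RegAt.pull (s := s) (π := fun x : ∀ i, E i => Function.update x i 0)
      (q := fun x => x i) (S := univ) (ι := ContinuousLinearMap.single ℝ E i) (t₀ := t₀) (x₀ := x₀)
      (by fun_prop) (continuous_apply i).continuousAt univ_mem (fun _ _ => mem_univ _) ?_ ?_
      (f := fun t b v => ∑ j ∈ Finset.univ.erase i, F j t (b j) + F i t v) ?_
    · intro x _ v _
      funext j
      rcases eq_or_ne j i with rfl | hj
      · simp
      · simp [Function.update_of_ne hj, Pi.single_eq_of_ne hj]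
    · intro x _ v _
      simp
    · exact RegAt.add_const (s := s ×ˢ (univ : Set (∀ i, E i)))
        (t₀ := (t₀, Function.update x₀ i 0)) (x₀ := x₀ i)
        (F := fun (tb : T × (∀ i, E i)) v => F i tb.1 v)
        (RegAt.param (φ := Prod.fst) continuousWithinAt_fst (fun p hp => hp.1) h)
        (fun tb => ∑ j ∈ Finset.univ.erase i, F j tb.1 (tb.2 j))
  refine key.congr ⟨univ, univ_mem, Eventually.of_forall fun t x _ => ?_⟩
  rw [← Finset.sum_erase_add _ _ (Finset.mem_univ i)]
  congr 1
  refine Finset.sum_congr rfl fun j hj => ?_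
  rw [Function.update_of_ne (Finset.ne_of_mem_erase hj)]

/-- Sums of families of class `O` are of class `O`. -/
theorem OFam.sum {s : Set T} {F : ∀ i, T → E i → Z} (hF : ∀ i, OFam s (F i)) :
    OFam s (fun t (x : ∀ i, E i) => ∑ i, F i t (x i)) where
  cont := cont_sum fun i => (hF i).cont
  hom := fun t ht r hr x => by
    rw [Finset.smul_sum]
    exact Finset.sum_congr rfl fun i _ => (hF i).hom t ht r hr (x i)
  reg := fun t ht x hx => by
    classical
    obtain ⟨i, hi⟩ : ∃ i, x i ≠ 0 := by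
      by_contra hcon
      push Not at hcon
      exact hx (funext hcon)
    exact RegAt.sum i ((hF i).reg t ht (x i) hi)

/-- Sums of families, one of class `R` and the others of class `O`, are of class `R`. -/
theorem RFam.sum {s : Set T} {F : ∀ i, T → E i → Z} (i₀ : ι) (h₀ : RFam s (F i₀))
    (hF : ∀ i, i ≠ i₀ → OFam s (F i)) :
    RFam s (fun t (x : ∀ i, E i) => ∑ i, F i t (x i)) where
  cont := by
    classical
    refine cont_sum fun i => ?_
    rcases eq_or_ne i i₀ with rfl | h
    · exact h₀.cont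
    · exact (hF i h).cont
  hom := fun t ht r hr x => by
    rw [Finset.smul_sum]
    refine Finset.sum_congr rfl fun i _ => ?_
    rcases eq_or_ne i i₀ with rfl | h
    · exact h₀.hom t ht r hr (x i)
    · exact (hF i h).hom t ht r hr (x i)
  reg := fun t ht x hx h0 => by
    classical
    by_cases hex : ∃ i, i ≠ i₀ ∧ x i ≠ 0
    · obtain ⟨i, hi, hxi⟩ := hex
      exact RegAt.sum i ((hF i hi).reg t ht (x i) hxi)
    · push Not at hex
      have hx0 : x i₀ ≠ 0 := by
        intro hx0
        refine hx (funext fun i => ?_)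
        rcases eq_or_ne i i₀ with rfl | h
        · exact hx0
        · exact hex i h
      refine RegAt.sum i₀ (h₀.reg t ht (x i₀) hx0 ?_)
      have h1 : ∑ i, F i t (x i) = F i₀ t (x i₀) := by
        refine Fintype.sum_eq_single i₀ fun i hi => ?_
        rw [hex i hi]
        exact ((hF i hi).hom t ht).zero
      rw [← h1]
      exact h0

end Pi

/-- Sums of chain polynomials are of class `O`. -/
theorem oFam_sumP {T : Type*} [TopologicalSpace T] {ι : Type} [Fintype ι] {F : ι → List ℕ}
    (hF : ∀ i, ∀ a ∈ F i, 2 ≤ a) (s : Set T) : OFam s (fun _ => sumP F) :=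
  OFam.sum (F := fun i _ => P (F i)) fun i => oFam_P (hF i) s

end Vale.Agent.P268.T
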