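import Vale.Agent.P268.T.Gen
import Vale.Agent.P268.Z.Chain

/-!
# P268, topological half: congruence induction for `Congruent`
-/

namespace Vale.Agent.P268.T

open Matrix Vale.Agent.P268.Z

section

variable {α β : Type} [Fintype α] [Fintype β] [DecidableEq α] [DecidableEq β]

/-- A congruence is a reindexing followed by a unimodular change of basis. -/
theorem congruent_exists {A : Matrix α α ℤ} {B : Matrix β β ℤ} (h : Congruent A B) :
    ∃ (e : α ≃ β) (U : Matrix α α ℤ), IsUnit U ∧ A = Uᵀ * B.submatrix e e * U := by
  obtain ⟨P, Q, hQP, hPQ, hA⟩ := h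
  have hcard : Fintype.card β = Fintype.card α := Matrix.square_of_invertible P Q hPQ hQP
  let e : α ≃ β := (Fintype.equivOfCardEq hcard).symm
  refine ⟨e, P.submatrix e id, ?_, ?_⟩
  · have h1 : P.submatrix e id * Q.submatrix id e = 1 := by
      rw [← Matrix.submatrix_mul P Q e id e Function.bijective_id, hPQ,
        Matrix.submatrix_one_equiv]
    have h2 : Q.submatrix id e * P.submatrix e id = 1 := by
      rw [← Matrix.submatrix_mul Q P id e id e.bijective, hQP, Matrix.submatrix_id_id]
    exact ⟨⟨_, _, h1, h2⟩, rfl⟩
  · rw [← hA, Matrix.transpose_submatrix,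
      ← Matrix.submatrix_mul Pᵀ B id e e e.bijective,
      ← Matrix.submatrix_mul (Pᵀ * B) P id e id e.bijective, Matrix.submatrix_id_id]

/-- Congruence induction for `Congruent`: a relation between integral matrices on `α` which is
invariant under slides and sign changes passes from `A` to a reindexing of every congruent `B`. -/
theorem congruent_induction {Rel : Matrix α α ℤ → Matrix α α ℤ → Prop} (hrefl : ∀ L, Rel L L)
    (htrans : ∀ L M N, Rel L M → Rel M N → Rel L N)
    (hslide : ∀ L i j, i ≠ j → Rel L ((transvection i j (1 : ℤ))ᵀ * L * transvection i j 1))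
    (hneg : ∀ L i, Rel L (signM i * L * signM i))
    {A : Matrix α α ℤ} {B : Matrix β β ℤ} (h : Congruent A B) :
    ∃ e : α ≃ β, Rel (B.submatrix e e) A := by
  obtain ⟨e, U, hU, rfl⟩ := congruent_exists h
  exact ⟨e, congr_induction hrefl htrans hslide hneg _ hU⟩

end

end Vale.Agent.P268.T
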