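import Vale.Agent.P268.T.HEq
import Vale.Agent.P268.T.S708.StarSL
import Vale.Agent.P268.T.Adj

/-!
# P268, topological half: the reduction of the theorem to normal forms, classes and slides

`zariski_of_blocks`: the final theorem from normal forms for the sums of Euclid chain polynomials,
where the normal forms `Nf n r b` (`b : Br n r`) have types `V` (integer matrices) such that every
matrix is the type of some `b`, normal forms of the same type have equivalent zero sets, and for
every slide of adjacent sheets there are `b, b'` of the corresponding types with equivalent zero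
sets.  It is enough to know the type of the normal form of a sum of chain polynomials for
enumerations of the staircase which are linear extensions.
-/

namespace Vale.Agent.P268.T

open Matrix Vale.Agent.P268.Z Vale.Agent.P268.H288

/-! ### Linear extensions -/

/-- Enumerations of a finite set of functions which are linear extensions of the product order. -/
def LinExt {σ ι : Type} {r : ℕ} (K : σ → ι → ℕ) (e : σ ≃ Fin r) : Prop :=
  ∀ x y, (∀ j, K x j ≤ K y j) → x ≠ y → e x < e y

/-- Enumerations sorted by the sum of the coordinates. -/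
def Sorted {σ ι : Type} [Fintype ι] {r : ℕ} (K : σ → ι → ℕ) (e : σ ≃ Fin r) : Prop :=
  ∀ x y, ∑ j, K x j < ∑ j, K y j → e x < e y

theorem Sorted.linExt {σ ι : Type} [Fintype ι] {r : ℕ} {K : σ → ι → ℕ} {e : σ ≃ Fin r}
    (hK : Function.Injective K) (h : Sorted K e) : LinExt K e := by
  intro x y hxy hne
  refine h x y (Finset.sum_lt_sum (fun j _ => hxy j) ?_)
  by_contra hcon
  push Not at hcon
  exact hne (hK (funext fun j => le_antisymm (hxy j) (hcon j (Finset.mem_univ j))))

theorem exists_sorted {σ ι : Type} [Fintype ι] [Fintype σ] (K : σ → ι → ℕ) :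
    ∃ e : σ ≃ Fin (Fintype.card σ), Sorted K e := by
  let ε := Fintype.equivFin σ
  let f : Fin (Fintype.card σ) → ℕ := fun i => ∑ j, K (ε.symm i) j
  refine ⟨ε.trans (Tuple.sort f).symm, fun x y hxy => ?_⟩
  by_contra hcon
  have h1 := Tuple.monotone_sort f (not_lt.mp hcon)
  simp only [Function.comp_apply, Equiv.trans_apply, Equiv.apply_symm_apply, f,
    Equiv.symm_apply_apply] at h1
  exact absurd hxy (not_lt.mpr h1)

theorem Sorted.swap {σ ι : Type} [Fintype ι] [DecidableEq σ] {r : ℕ} {K : σ → ι → ℕ}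
    {e : σ ≃ Fin r} (h : Sorted K e) {a b : σ} (hab : ∑ j, K a j = ∑ j, K b j) :
    Sorted K ((Equiv.swap a b).trans e) := by
  have key : ∀ x, ∑ j, K (Equiv.swap a b x) j = ∑ j, K x j := by
    intro x
    rcases eq_or_ne x a with rfl | ha
    · rw [Equiv.swap_apply_left, hab]
    rcases eq_or_ne x b with rfl | hb
    · rw [Equiv.swap_apply_right, hab]
    · rw [Equiv.swap_apply_of_ne_of_ne ha hb]
  intro x y hxy
  rw [Equiv.trans_apply, Equiv.trans_apply]
  exact h _ _ (by rw [key, key]; exact hxy)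

/-- The matrix of the product order on a finite family of points of `ℕ^ι`. -/
def zetaK {σ ι : Type} [Fintype ι] {r : ℕ} (K : σ → ι → ℕ) (e : σ ≃ Fin r) :
    Matrix (Fin r) (Fin r) ℤ :=
  fun x y => if ∀ j, K (e.symm x) j ≤ K (e.symm y) j then 1 else 0

theorem zetaK_eq {ι : Type} [Fintype ι] {F : ι → List ℕ} {r : ℕ} (e : StairF F ≃ Fin r) :
    zetaK (fun p : StairF F => p.1) e = (zetaF F).submatrix e.symm e.symm := rfl

/-- The unit vector of a summand `[3]`. -/
def unitF {ι : Type} [DecidableEq ι] {F : ι → List ℕ} (hF : ∀ i, ∀ a ∈ F i, 2 ≤ a) (i : ι)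
    (hi : F i = [3]) : StairF F :=
  ⟨fun v => if v.1 = i then 1 else 0, fun k j => by
    by_cases hk : k = i
    · subst hk
      refine Or.inl ?_
      have h1 : (F k).get j ∈ F k := List.get_mem _ _
      have h2 : (F k).get j = 3 := List.mem_singleton.mp (hi ▸ h1)
      rw [h2]
      simp
    · refine Or.inl ?_
      have h1 := hF k _ (List.get_mem (F k) j)
      simp only [hk, if_false]
      omega⟩

theorem unitF_sum {ι : Type} [Fintype ι] [DecidableEq ι] {F : ι → List ℕ}
    (hF : ∀ i, ∀ a ∈ F i, 2 ≤ a) (i : ι) (hi : F i = [3]) :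
    ∑ v, (unitF hF i hi).1 v = 1 := by
  rw [Fintype.sum_sigma, Finset.sum_eq_single i]
  · simp [unitF, hi]
  · intro k _ hk
    simp [unitF, hk]
  · exact fun h => absurd (Finset.mem_univ i) h

theorem unitF_ne {ι : Type} [Fintype ι] [DecidableEq ι] {F : ι → List ℕ}
    (hF : ∀ i, ∀ a ∈ F i, 2 ≤ a) {i j : ι} (hij : i ≠ j) (hi : F i = [3]) (hj : F j = [3]) :
    unitF hF i hi ≠ unitF hF j hj := by
  intro h
  have h1 := congrFun (congrArg Subtype.val h) ⟨i, ⟨0, by rw [hi]; simp⟩⟩
  simp [unitF, hij] at h1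

/-! ### The congruence in terms of enumerations -/

theorem exists_enum {m n : ℕ} {F : Fin m → List ℕ} {G : Fin n → List ℕ}
    (e : StairF F ≃ StairF G) {U : Matrix (StairF F) (StairF F) ℤ} (hU : U.det = 1)
    (h : zetaF F = Uᵀ * (zetaF G).submatrix e e * U) {r : ℕ} (ε : StairF F ≃ Fin r)
    (δ : StairF G ≃ Fin r) :
    ∃ P : Matrix (Fin r) (Fin r) ℤ,
      P.det = Equiv.Perm.sign ((ε.symm.trans e).trans δ : Equiv.Perm (Fin r)) ∧
        (zetaF F).submatrix ε.symm ε.symm = Pᵀ * (zetaF G).submatrix δ.symm δ.symm * P := by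
  let π : Equiv.Perm (Fin r) := (ε.symm.trans e).trans δ
  let Q : Matrix (Fin r) (Fin r) ℤ := π.toPEquiv.toMatrix
  have hQ : Q.det = Equiv.Perm.sign π := Matrix.det_permutation π
  refine ⟨Qᵀ * U.submatrix ε.symm ε.symm, ?_, ?_⟩
  · rw [Matrix.det_mul, Matrix.det_submatrix_equiv_self, hU, mul_one, Matrix.det_transpose, hQ]
  · have h1 : ((zetaF G).submatrix e e).submatrix ε.symm ε.symm =
        Q * (zetaF G).submatrix δ.symm δ.symm * Qᵀ := by
      have h2 : Qᵀ = (π.symm.toPEquiv.toMatrix : Matrix (Fin r) (Fin r) ℤ) := by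
        rw [← PEquiv.toMatrix_symm, Equiv.toPEquiv_symm]
      rw [h2, PEquiv.toMatrix_toPEquiv_mul, PEquiv.mul_toMatrix_toPEquiv]
      ext x y
      simp [π]
    calc (zetaF F).submatrix ε.symm ε.symm =
        (U.submatrix ε.symm ε.symm)ᵀ * ((zetaF G).submatrix e e).submatrix ε.symm ε.symm *
          U.submatrix ε.symm ε.symm := by
          rw [Matrix.transpose_submatrix, Matrix.submatrix_mul_equiv, Matrix.submatrix_mul_equiv,
            ← h]
      _ = _ := by
          rw [h1, Matrix.transpose_mul, Matrix.transpose_transpose]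
          simp only [Matrix.mul_assoc]

/-- The congruence of determinant one, for linear extensions. -/
theorem exists_enum_linExt {m n : ℕ} {F : Fin m → List ℕ} {G : Fin n → List ℕ}
    (hF : ∀ i, ∀ a ∈ F i, 2 ≤ a)
    (e : StairF F ≃ StairF G) {U : Matrix (StairF F) (StairF F) ℤ} (hU : U.det = 1)
    (h : zetaF F = Uᵀ * (zetaF G).submatrix e e * U) {i j : Fin m} (hij : i ≠ j)
    (hi : F i = [3]) (hj : F j = [3]) :
    ∃ (r : ℕ) (ε : StairF F ≃ Fin r) (δ : StairF G ≃ Fin r) (P : Matrix (Fin r) (Fin r) ℤ),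
      LinExt (fun p : StairF F => p.1) ε ∧ LinExt (fun p : StairF G => p.1) δ ∧ P.det = 1 ∧
        zetaK (fun p : StairF F => p.1) ε = Pᵀ * zetaK (fun p : StairF G => p.1) δ * P := by
  classical
  obtain ⟨ε, hε⟩ := exists_sorted (fun p : StairF F => p.1)
  obtain ⟨δ', hδ'⟩ := exists_sorted (fun p : StairF G => p.1)
  have hc : Fintype.card (StairF G) = Fintype.card (StairF F) := (Fintype.card_congr e).symm
  obtain ⟨δ, hδ⟩ : ∃ δ : StairF G ≃ Fin (Fintype.card (StairF F)),
      Sorted (fun p : StairF G => p.1) δ := by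
    rw [← hc]
    exact ⟨δ', hδ'⟩
  have hδ2 := hδ.linExt Subtype.val_injective
  rcases Int.units_eq_one_or (Equiv.Perm.sign ((ε.symm.trans e).trans δ)) with hs | hs
  · obtain ⟨P, hP, hP2⟩ := exists_enum e hU h ε δ
    exact ⟨_, ε, δ, P, hε.linExt Subtype.val_injective, hδ2, by rw [hP, hs]; rfl, hP2⟩
  · let a := unitF hF i hi
    let b := unitF hF j hj
    have hab : a ≠ b := unitF_ne hF hij hi hj
    have hab' : ∑ v, a.1 v = ∑ v, b.1 v := by rw [unitF_sum, unitF_sum]
    obtain ⟨P, hP, hP2⟩ := exists_enum e hU h ((Equiv.swap a b).trans ε) δ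
    refine ⟨_, (Equiv.swap a b).trans ε, δ, P,
      (hε.swap hab').linExt Subtype.val_injective, hδ2, ?_, hP2⟩
    have h1 : ((((Equiv.swap a b).trans ε).symm.trans e).trans δ) =
        ((ε.symm.trans (Equiv.swap a b)).trans ε).trans ((ε.symm.trans e).trans δ) := by
      refine Equiv.ext fun x => ?_
      simp only [Equiv.trans_apply, Equiv.symm_trans_apply, Equiv.symm_swap,
        Equiv.symm_apply_apply]
    rw [hP, h1, Equiv.Perm.sign_trans, hs, Equiv.Perm.sign_symm_trans_trans,
      Equiv.Perm.sign_swap hab]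
    rfl

/-- **The final theorem from the blocks of the topological half.**  `Br k r` are the data of the
normal forms with `r` (moving) sheets in `k + 4` complex variables, `Nf k r b` is the normal form,
`typ k r b V` says that the data `b` have the Seifert-type matrix `V`. -/
theorem zariski_of_blocks {Br : ℕ → ℕ → Type} {S : ℕ → Type}
    [∀ k, NormedAddCommGroup (S k)] [∀ k, NormedSpace ℝ (S k)]
    (Nf : ∀ k r : ℕ, Br k r → S k → ℂ)
    (typ : ∀ k r : ℕ, Br k r → Matrix (Fin r) (Fin r) ℤ → Prop)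
    (hex : ∀ k r, ∀ V : Matrix (Fin r) (Fin r) ℤ, ∃ b : Br k r, typ k r b V)
    (hpair : ∀ k r, ∀ (V : Matrix (Fin r) (Fin r) ℤ) (b b' : Br k r),
      typ k r b V → typ k r b' V → VEq (Nf k r b) (Nf k r b'))
    (hslide : ∀ k r, ∀ (V : Matrix (Fin r) (Fin r) ℤ) (i j : Fin r),
      ((i : ℕ) + 1 = j ∨ (j : ℕ) + 1 = i) → ∃ b b' : Br k r, typ k r b V ∧
        typ k r b' ((transvection i j 1)ᵀ * V * transvection i j 1) ∧
        VEq (Nf k r b) (Nf k r b'))
    (hnf : ∀ (k m r : ℕ) (F : Fin m → List ℕ), ∑ i, (F i).length = k + 4 →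
      (∀ i, F i ≠ []) → (∀ i, ∀ a ∈ F i, 2 ≤ a) → (∀ i, (F i).IsChain (· < ·)) →
      ∀ ε : StairF F ≃ Fin r, LinExt (fun p : StairF F => p.1) ε → ∃ b : Br k r,
        typ k r b (zetaK (fun p : StairF F => p.1) ε) ∧ VEq (sumP F) (Nf k r b)) :
    ∃ (N : ℕ) (f g : (Fin N → ℂ) → ℂ), Red f ∧ Red g ∧ AmbHomeo f g ∧ mult f ≠ mult g := by
  obtain ⟨m, n, F, G, hm, hn, hF0, hG0, hF, hG, hF3, h3, h2, hFG, h4, hFc, hGc, ⟨eK, hFK⟩, hGK,
    e, U, hU, hUFG⟩ := starSL 2
  refine zariski_of_pair (by simpa using hm) (by simpa using hn) hF0 hG0 hF hG hF3 h3 h2 hFG ?_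
  have hne : eK 0 ≠ eK 1 := fun h => absurd (eK.injective h) (by decide)
  obtain ⟨r, ε, δ, P, hε, hδ, hP, hV⟩ := exists_enum_linExt hF e hU hUFG hne (hFK 0) (hFK 1)
  obtain ⟨k, hk⟩ : ∃ k, ∑ i, (F i).length = k + 4 := ⟨_, (Nat.sub_add_cancel h4).symm⟩
  obtain ⟨b, hb, hb1⟩ := hnf k m r F hk hF0 hF hFc ε hε
  obtain ⟨b', hb', hb1'⟩ := hnf k n r G (hFG ▸ hk) hG0 hG hGc δ hδ
  have hrel : Equivalence fun b b' : Br k r => VEq (Nf k r b) (Nf k r b') :=
    ⟨fun b => VEq.refl _, fun h => h.symm, fun h h' => h.trans h'⟩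
  have key : VEq (Nf k r b') (Nf k r b) := rel_of_step_slides hrel (hex k r) (hpair k r)
    (fun V i j h => hslide k r V i j (Or.inl h)) (fun V i j h => hslide k r V i j (Or.inr h))
    hP hb' (hV ▸ hb)
  exact (hb1.trans key.symm).trans hb1'.symm

end Vale.Agent.P268.T
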