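import Vale.Agent.P268.T.Delta
import Vale.Agent.P268.T.A109.Assembly

/-!
# P268, topological half: normal forms of braids

`frk k`: the standard frame of `Vk k = ℝ^(k+4)`; `cubeM`: the chart `[-1,1]^(k+3) → I^(k+2) × I`
(last coordinate = depth `t`, rim face `t = 0`); `shB φ p ρ`, `nuB φ p`: the sheets and normals of
the relative spheroid `p` of framed configurations, with a constant sheet `none` at `-ρ e`.
`NBr k r`: braids with admissible parameters, `Nfb b` their normal form, types are 109's `HasType`.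
-/

set_option linter.unusedSectionVars false

namespace Vale.Agent.P268.T

open scoped unitInterval Topology Topology.Homotopy RealInnerProductSpace Matrix
open Set Metric Vale.Agent.P268.H288 Vale.Agent.P268.T.A109

/-! ### The chart of the cube -/

/-- The chart `[-1,1]^(m+1) → I^m × I`. -/
noncomputable def cubeM {m : ℕ} (x : Fin (m + 1) → ℝ) : (Fin m → I) × I :=
  (fun i => projIcc 0 1 zero_le_one ((x i.castSucc + 1) / 2),
    projIcc 0 1 zero_le_one ((x (Fin.last m) + 1) / 2))

theorem continuous_cubeM {m : ℕ} : Continuous (cubeM : (Fin (m + 1) → ℝ) → (Fin m → I) × I) := by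
  refine Continuous.prodMk (continuous_pi fun i => ?_) ?_
  · exact continuous_projIcc.comp (by fun_prop)
  · exact continuous_projIcc.comp (by fun_prop)

/-- The boundary of the cube: sides and top, or rim. -/
theorem cubeM_boundary {m : ℕ} {x : Fin (m + 1) → ℝ} (hx : ‖x‖ = 1) :
    (cubeM x).1 ∈ Cube.boundary (Fin m) ∨ (cubeM x).2 = 1 ∨ (cubeM x).2 = 0 := by
  obtain ⟨i, hi⟩ : ∃ i, |x i| = 1 := by
    by_contra hcon
    push Not at hcon
    have h1 : ∀ i, ‖x i‖ < 1 := fun i =>
      lt_of_le_of_ne ((norm_le_pi_norm x i).trans hx.le) (hcon i)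
    have h2 : ‖x‖ < 1 := (pi_norm_lt_iff one_pos).mpr h1
    exact absurd hx h2.ne
  have key : ∀ a : ℝ, |a| = 1 → projIcc (0 : ℝ) 1 zero_le_one ((a + 1) / 2) = 0 ∨
      projIcc (0 : ℝ) 1 zero_le_one ((a + 1) / 2) = 1 := by
    intro a ha
    rcases (abs_eq zero_le_one).mp ha with h | h
    · right
      rw [h, projIcc_of_right_le]
      · rfl
      · norm_num
    · left
      rw [h, projIcc_of_le_left]
      · rfl
      · norm_num
  rcases Fin.eq_castSucc_or_eq_last i with ⟨j, rfl⟩ | rfl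
  · exact Or.inl ⟨j, key _ hi⟩
  · rcases key _ hi with h | h
    · exact Or.inr (Or.inr h)
    · exact Or.inr (Or.inl h)

/-! ### The sheets of a braid -/

section Sheets

variable {V : Type*} [NormedAddCommGroup V] [InnerProductSpace ℝ V] (φ : Fr V) {m r : ℕ}

/-- Centres of the sheets of a map of the cube into framed configurations; the sheet `none` is
constant. -/
noncomputable def shF (f : (Fin m → I) × I → BX V r) (ρ : ℝ) :
    Option (Fin r) → (Fin (m + 1) → ℝ) → V
  | none, _ => -(ρ • φ.e)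
  | some i, x => (f (cubeM x)).1.1 i

/-- Normals of the sheets. -/
noncomputable def nuF (f : (Fin m → I) × I → BX V r) :
    Option (Fin r) → (Fin (m + 1) → ℝ) → V
  | none, _ => φ.h
  | some i, x => (f (cubeM x)).2 i

/-- Centres of the sheets of a braid. -/
noncomputable def shB (p : φ.BrL (Fin m) r) (ρ : ℝ) : Option (Fin r) → (Fin (m + 1) → ℝ) → V :=
  shF φ (fun q => (p q.1).1 q.2) ρ

/-- Normals of the sheets of a braid. -/
noncomputable def nuB (p : φ.BrL (Fin m) r) : Option (Fin r) → (Fin (m + 1) → ℝ) → V :=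
  nuF φ (fun q => (p q.1).1 q.2)

/-- The values of a relative spheroid on the boundary of the cube. -/
theorem rel_boundary {F : (Fin m → I) × I → BX V r} (hF : PP.Rel (φ.BA r) (φ.bx r) F)
    {x : Fin (m + 1) → ℝ} (hx : ‖x‖ = 1) : F (cubeM x) ∈ φ.BA r := by
  rcases cubeM_boundary hx with h | h | h
  · have h1 := hF.side _ h (cubeM x).2
    have h2 : F (cubeM x) = φ.bx r := h1
    rw [h2]
    exact φ.bx_mem r
  · have h1 := hF.top (cubeM x).1
    have h2 : F (cubeM x) = φ.bx r := by rw [← h1, ← h]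
    rw [h2]
    exact φ.bx_mem r
  · have h1 := hF.rim (cubeM x).1
    rw [← h] at h1
    exact h1

theorem continuous_cen (i : Fin r) : Continuous fun c : BX V r => c.1.1 i :=
  (continuous_apply i).comp (continuous_subtype_val.comp continuous_fst)

theorem continuous_nrm (i : Fin r) : Continuous fun c : BX V r => (c.2 i : V) :=
  continuous_subtype_val.comp ((continuous_apply i).comp continuous_snd)

/-- A homotopy of relative spheroids, with a moving constant sheet, gives a family of data. -/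
theorem bFam_of_rel {H : ℝ → (Fin m → I) × I → BX V r}
    (hH : Continuous fun z : ℝ × ((Fin m → I) × I) => H z.1 z.2)
    (hrel : ∀ t ∈ Icc (0 : ℝ) 1, PP.Rel (φ.BA r) (φ.bx r) (H t)) {ρ : ℝ → ℝ} (hρ : Continuous ρ)
    (hbd : ∀ t ∈ Icc (0 : ℝ) 1, ∀ i q, ‖(H t q).1.1 i‖ < ρ t) :
    BFam (Icc (0 : ℝ) 1) φ.h (fun t => shF φ (H t) (ρ t)) (fun t => nuF φ (H t)) where
  cb a := by
    refine Continuous.continuousOn ?_
    cases a with
    | none => exact ((hρ.comp continuous_fst).smul continuous_const).neg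
    | some i =>
      exact (continuous_cen i).comp (hH.comp
        (continuous_fst.prodMk (continuous_cubeM.comp continuous_snd)))
  cn a := by
    refine Continuous.continuousOn ?_
    cases a with
    | none => exact continuous_const
    | some i =>
      exact (continuous_nrm i).comp (hH.comp
        (continuous_fst.prodMk (continuous_cubeM.comp continuous_snd)))
  nn t _ a x _ := by
    cases a with
    | none => exact φ.hh
    | some i => exact ((H t (cubeM x)).2 i).2
  inj t ht x _ := by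
    have hne : ∀ i, -(ρ t • φ.e) ≠ (H t (cubeM x)).1.1 i := by
      intro i h
      have h1 := hbd t ht i (cubeM x)
      have h0 : 0 < ρ t := (norm_nonneg _).trans_lt h1
      rw [← h, norm_neg, norm_smul, φ.he, mul_one, Real.norm_eq_abs, abs_of_pos h0] at h1
      exact lt_irrefl _ h1
    intro a b hab
    cases a with
    | none =>
      cases b with
      | none => rfl
      | some j => exact absurd hab (hne j)
    | some i =>
      cases b with
      | none => exact absurd hab.symm (hne i)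
      | some j => exact congrArg some ((H t (cubeM x)).1.2 hab)
  bh t ht a x hx := by
    cases a with
    | none =>
      show ⟪-(ρ t • φ.e), φ.h⟫ = 0
      rw [inner_neg_left, inner_smul_left, real_inner_comm, φ.heh, mul_zero, neg_zero]
    | some i =>
      show ⟪(H t (cubeM x)).1.1 i, φ.h⟫ = 0
      rw [real_inner_comm]
      exact (rel_boundary φ (hrel t ht) hx).1 i
  nh t ht a x hx := by
    cases a with
    | none => rfl
    | some i =>
      exact congrArg Subtype.val ((rel_boundary φ (hrel t ht) hx).2 i)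

/-- Bounds for a braid. -/
theorem exists_bound_rel {f : (Fin m → I) × I → BX V r} (hf : Continuous f) :
    ∃ ρ : ℝ, ∀ i q, ‖(f q).1.1 i‖ < ρ := by
  have h1 : ∀ i, ∃ ρ : ℝ, ∀ q, ‖(f q).1.1 i‖ ≤ ρ := by
    intro i
    have h2 : Continuous fun q => ‖(f q).1.1 i‖ := ((continuous_cen i).comp hf).norm
    obtain ⟨ρ, hρ⟩ := (isCompact_univ (X := (Fin m → I) × I)).exists_bound_of_continuousOn
      h2.continuousOn
    exact ⟨ρ, fun q => by simpa using hρ q (mem_univ _)⟩
  choose ρ hρ using h1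
  refine ⟨∑ i, |ρ i| + 1, fun i q => ?_⟩
  have h2 : |ρ i| ≤ ∑ i, |ρ i| :=
    Finset.single_le_sum (f := fun i => |ρ i|) (fun _ _ => abs_nonneg _) (Finset.mem_univ i)
  linarith [hρ i q, le_abs_self (ρ i)]

theorem continuous_ofBr (p : φ.BrL (Fin m) r) :
    Continuous fun q : (Fin m → I) × I => (p q.1).1 q.2 :=
  (PP.ofGL p).continuous

end Sheets

/-! ### The standard frame, braids with parameters, types -/

/-- The space of the parameter `p` of the base. -/
abbrev Pk (k : ℕ) : Type := Fin (k + 3) → ℝ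

/-- The fibre. -/
abbrev Vk (k : ℕ) : Type := EuclideanSpace ℝ (Fin (k + 4))

/-- The space of the normal form, of real dimension `2 (k + 4)`. -/
abbrev Ek (k : ℕ) : Type := (ℝ × Pk k) × Vk k

/-- The standard frame. -/
noncomputable def frk (k : ℕ) : Fr (Vk k) where
  e := EuclideanSpace.single 0 1
  h := EuclideanSpace.single (Fin.last _) 1
  he := by simp
  hh := by simp
  heh := by
    rw [EuclideanSpace.inner_single_left]
    simp

/-- A braid with admissible parameters. -/
structure NBr (k r : ℕ) where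
  /-- the relative spheroid of framed configurations -/
  p : (frk k).BrL (Fin (k + 2)) r
  /-- position of the constant sheet -/
  ρ : ℝ
  /-- radius of the sheets -/
  ε : ℝ
  /-- radius of the slab -/
  R : ℝ
  /-- slope of the domain functions -/
  M : ℝ
  hρ : ∀ (i : Fin r) (q : (Fin (k + 2) → I) × I), ‖((p q.1).1 q.2).1.1 i‖ < ρ
  adm : Adm ε R M (shB (frk k) p ρ)

/-- The normal form. -/
noncomputable def Nfb (k r : ℕ) (b : NBr k r) : Ek k → ℂ :=
  NN (frk k).h b.ε b.R b.M (shB (frk k) b.p b.ρ) (nuB (frk k) b.p)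


/-- The type of a braid with parameters, relative to classes `g k`. -/
def typb (g : ∀ k, (frk k).PiG (Fin (k + 2))) (k r : ℕ) (b : NBr k r)
    (W : Matrix (Fin r) (Fin r) ℤ) : Prop :=
  (frk k).HasType (g k) W (hcl b.p)

/-! ### The statements of the blocks -/

/-- **Block B5c** (homotopy of data). -/
def BlockHom : Prop :=
  ∀ (k : ℕ) (A : Type) [Fintype A] [Nonempty A] (b ν : ℝ → A → Pk k → Vk k)
    (ε R M ε' R' M' : ℝ), BFam (Icc (0 : ℝ) 1) (frk k).h b ν → Adm ε R M (b 0) →
    Adm ε' R' M' (b 1) →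
    VEq (NN (frk k).h ε R M (b 0) (ν 0) : Ek k → ℂ) (NN (frk k).h ε' R' M' (b 1) (ν 1))

/-- **Block B5a'** (existence of admissible parameters). -/
def BlockAdm : Prop :=
  ∀ (k : ℕ) (A : Type) [Fintype A] (b ν : A → Pk k → Vk k), BData (frk k).h b ν →
    ∃ ε R M, Adm ε R M b

/-- **Block B7, injectivity**: pair classes and twists determine the class of a braid. -/
def BlockInj : Prop :=
  ∀ (k r : ℕ) (x y : (frk k).Br (Fin (k + 2)) r),
    (∀ i j : Fin r, ∀ hij : i < j, (frk k).clsH _ hij x = (frk k).clsH _ hij y) →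
    (∀ i, (frk k).twH _ i x = (frk k).twH _ i y) → x = y

/-- **Block B7, letters**: all types occur. -/
def BlockLetters (g : ∀ k, (frk k).PiG (Fin (k + 2))) : Prop :=
  ∀ (k r : ℕ) (W : Matrix (Fin r) (Fin r) ℤ), ∃ p : (frk k).BrL (Fin (k + 2)) r,
    (frk k).HasType (g k) W (hcl p)

/-- **Block B6** (slides), for adjacent strands. -/
def BlockSlide (g : ∀ k, (frk k).PiG (Fin (k + 2))) : Prop :=
  ∀ (k r : ℕ) (W : Matrix (Fin r) (Fin r) ℤ) (i j : Fin r),
    ((i : ℕ) + 1 = j ∨ (j : ℕ) + 1 = i) → ∃ b b' : NBr k r, typb g k r b W ∧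
      typb g k r b' ((Matrix.transvection i j 1)ᵀ * W * Matrix.transvection i j 1) ∧
      VEq (Nfb k r b) (Nfb k r b')

/-! ### First consequences -/

theorem bData_of_braid {k r : ℕ} (p : (frk k).BrL (Fin (k + 2)) r) {ρ : ℝ}
    (hρ : ∀ (i : Fin r) (q : (Fin (k + 2) → I) × I), ‖((p q.1).1 q.2).1.1 i‖ < ρ) :
    BFam (Icc (0 : ℝ) 1) (frk k).h (fun _ => shB (frk k) p ρ) (fun _ => nuB (frk k) p) :=
  bFam_of_rel (frk k) (H := fun _ q => (p q.1).1 q.2) (ρ := fun _ => ρ)
    ((continuous_ofBr (frk k) p).comp continuous_snd) (fun _ _ => PP.rel_ofGL p)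
    continuous_const (fun _ _ => hρ)

theorem exists_NBr (hadm : BlockAdm) {k r : ℕ} (p : (frk k).BrL (Fin (k + 2)) r) (L : ℝ) :
    ∃ b : NBr k r, b.p = p ∧ L ≤ b.ρ := by
  obtain ⟨ρ, hρ⟩ := exists_bound_rel (continuous_ofBr (frk k) p)
  have hρ' : ∀ (i : Fin r) (q : (Fin (k + 2) → I) × I), ‖((p q.1).1 q.2).1.1 i‖ < max ρ L :=
    fun i q => (hρ i q).trans_le (le_max_left _ _)
  have h1 := bData_of_braid p hρ'
  have h2 : BData (frk k).h (shB (frk k) p (max ρ L)) (nuB (frk k) p) := by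
    refine ⟨fun a => ?_, fun a => ?_, fun t _ => h1.nn 0 ⟨le_rfl, zero_le_one⟩,
      fun t _ => h1.inj 0 ⟨le_rfl, zero_le_one⟩, fun t _ => h1.bh 0 ⟨le_rfl, zero_le_one⟩,
      fun t _ => h1.nh 0 ⟨le_rfl, zero_le_one⟩⟩
    · exact (h1.cb a).comp (f := fun q : Unit × Pk k => ((0 : ℝ), q.2)) (by fun_prop)
        (fun q hq => ⟨⟨le_rfl, zero_le_one⟩, hq.2⟩)
    · exact (h1.cn a).comp (f := fun q : Unit × Pk k => ((0 : ℝ), q.2)) (by fun_prop)
        (fun q hq => ⟨⟨le_rfl, zero_le_one⟩, hq.2⟩)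
  obtain ⟨ε, R, M, h3⟩ := hadm k _ _ _ h2
  exact ⟨⟨p, max ρ L, ε, R, M, hρ', h3⟩, rfl, le_max_right _ _⟩

/-- Same spheroid, different parameters. -/
theorem veq_of_eq (hhom : BlockHom) {k r : ℕ} {b b' : NBr k r} (h : b.p = b'.p) :
    VEq (Nfb k r b) (Nfb k r b') := by
  obtain ⟨p, ρ, ε, R, M, hρ, adm⟩ := b
  obtain ⟨p', ρ', ε', R', M', hρ', adm'⟩ := b'
  obtain rfl : p = p' := h
  have h1 : BFam (Icc (0 : ℝ) 1) (frk k).h
      (fun t => shF (frk k) (fun q => (p q.1).1 q.2) ((1 - t) * ρ + t * ρ'))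
      (fun t => nuF (frk k) (fun q => (p q.1).1 q.2)) :=
    bFam_of_rel (frk k) (H := fun _ q => (p q.1).1 q.2) (ρ := fun t => (1 - t) * ρ + t * ρ')
      ((continuous_ofBr (frk k) p).comp continuous_snd) (fun _ _ => PP.rel_ofGL p)
      (by fun_prop) (fun t ht i q => by
        have h2 := hρ i q
        have h3 := hρ' i q
        obtain ⟨h4, h5⟩ := ht
        rcases eq_or_lt_of_le h4 with rfl | h4
        · simpa using h2
        · nlinarith [mul_lt_mul_of_pos_left h3 h4, mul_le_mul_of_nonneg_left h2.le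
            (sub_nonneg.mpr h5)])
  have e0 : shF (frk k) (fun q => (p q.1).1 q.2) ((1 - 0) * ρ + 0 * ρ') = shB (frk k) p ρ := by
    rw [sub_zero, one_mul, zero_mul, add_zero]; rfl
  have e1 : shF (frk k) (fun q => (p q.1).1 q.2) ((1 - 1) * ρ + 1 * ρ') = shB (frk k) p ρ' := by
    rw [sub_self, zero_mul, one_mul, zero_add]; rfl
  have h2 := hhom k _ _ _ ε R M ε' R' M' h1 (by
    show Adm ε R M (shF (frk k) (fun q => (p q.1).1 q.2) ((1 - 0) * ρ + 0 * ρ'))
    rw [e0]; exact adm) (by
    show Adm ε' R' M' (shF (frk k) (fun q => (p q.1).1 q.2) ((1 - 1) * ρ + 1 * ρ'))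
    rw [e1]; exact adm')
  beta_reduce at h2
  rw [e0, e1] at h2
  exact h2

/-- Homotopic spheroids have equivalent normal forms. -/
theorem veq_of_homotopic (hhom : BlockHom) (hadm : BlockAdm) {k r : ℕ} {b b' : NBr k r}
    (h : hcl b.p = hcl b'.p) : VEq (Nfb k r b) (Nfb k r b') := by
  rw [hcl_eq_iff, PP.homotopic_iff] at h
  obtain ⟨H, H0, H1, hH⟩ := h
  -- a bound for the homotopy
  have hHc : Continuous fun z : ℝ × ((Fin (k + 2) → I) × I) =>
      H (projIcc 0 1 zero_le_one z.1, z.2) :=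
    H.continuous.comp ((continuous_projIcc.comp continuous_fst).prodMk continuous_snd)
  obtain ⟨L, hL⟩ : ∃ L : ℝ, ∀ i z, ‖(H z).1.1 i‖ < L := by
    have h1 : ∀ i, ∃ ρ : ℝ, ∀ z, ‖(H z).1.1 i‖ ≤ ρ := by
      intro i
      have h2 : Continuous fun z => ‖(H z).1.1 i‖ := ((continuous_cen i).comp H.continuous).norm
      obtain ⟨ρ, hρ⟩ := (isCompact_univ (X := I × ((Fin (k + 2) → I) × I))).exists_bound_of_continuousOn
        h2.continuousOn
      exact ⟨ρ, fun q => by simpa using hρ q (mem_univ _)⟩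
    choose ρ hρ using h1
    refine ⟨∑ i, |ρ i| + 1, fun i q => ?_⟩
    have h2 : |ρ i| ≤ ∑ i, |ρ i| :=
      Finset.single_le_sum (f := fun i => |ρ i|) (fun _ _ => abs_nonneg _) (Finset.mem_univ i)
    linarith [hρ i q, le_abs_self (ρ i)]
  obtain ⟨c, hc, hcL⟩ := exists_NBr hadm b.p L
  obtain ⟨c', hc', hcL'⟩ := exists_NBr hadm b'.p L
  refine (veq_of_eq hhom hc.symm).trans (VEq.trans ?_ (veq_of_eq hhom hc'))
  have h1 : BFam (Icc (0 : ℝ) 1) (frk k).h
      (fun t => shF (frk k) (fun q => H (projIcc 0 1 zero_le_one t, q)) ((1 - t) * c.ρ + t * c'.ρ))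
      (fun t => nuF (frk k) (fun q => H (projIcc 0 1 zero_le_one t, q))) :=
    bFam_of_rel (frk k) (H := fun t q => H (projIcc 0 1 zero_le_one t, q))
      (ρ := fun t => (1 - t) * c.ρ + t * c'.ρ) hHc (fun t _ => hH _) (by fun_prop)
      (fun t ht i q => by
        refine (hL i _).trans_le ?_
        obtain ⟨h4, h5⟩ := ht
        nlinarith [mul_le_mul_of_nonneg_left hcL' h4, mul_le_mul_of_nonneg_left hcL
            (sub_nonneg.mpr h5)])
  have p0 : projIcc (0 : ℝ) 1 zero_le_one 0 = 0 := projIcc_left _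
  have p1 : projIcc (0 : ℝ) 1 zero_le_one 1 = 1 := projIcc_right _
  have f0 : (fun q => H (projIcc (0 : ℝ) 1 zero_le_one 0, q)) = fun q => (c.p q.1).1 q.2 := by
    funext q
    rw [p0, H0, hc]; rfl
  have f1 : (fun q => H (projIcc (0 : ℝ) 1 zero_le_one 1, q)) = fun q => (c'.p q.1).1 q.2 := by
    funext q
    rw [p1, H1, hc']; rfl
  have e0 : (1 - (0 : ℝ)) * c.ρ + 0 * c'.ρ = c.ρ := by ring
  have e1 : (1 - (1 : ℝ)) * c.ρ + 1 * c'.ρ = c'.ρ := by ring
  have h2 := hhom k _ _ _ c.ε c.R c.M c'.ε c'.R c'.M h1 (by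
    show Adm c.ε c.R c.M (shF (frk k) (fun q => H (projIcc 0 1 zero_le_one 0, q)) _)
    rw [f0, e0]; exact c.adm) (by
    show Adm c'.ε c'.R c'.M (shF (frk k) (fun q => H (projIcc 0 1 zero_le_one 1, q)) _)
    rw [f1, e1]; exact c'.adm)
  beta_reduce at h2
  rw [f0, f1, e0, e1] at h2
  exact h2

theorem typb_pair (hhom : BlockHom) (hadm : BlockAdm) (hinj : BlockInj)
    (g : ∀ k, (frk k).PiG (Fin (k + 2))) (k r : ℕ) (W : Matrix (Fin r) (Fin r) ℤ)
    (b b' : NBr k r) (hb : typb g k r b W) (hb' : typb g k r b' W) :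
    VEq (Nfb k r b) (Nfb k r b') :=
  veq_of_homotopic hhom hadm (hinj k r _ _
    (fun i j hij => (hb.pair i j hij).trans (hb'.pair i j hij).symm)
    (fun i => (hb.twist i).trans (hb'.twist i).symm))

theorem typb_ex (hadm : BlockAdm) {g : ∀ k, (frk k).PiG (Fin (k + 2))} (hl : BlockLetters g)
    (k r : ℕ) (W : Matrix (Fin r) (Fin r) ℤ) : ∃ b : NBr k r, typb g k r b W := by
  obtain ⟨p, hp⟩ := hl k r W
  obtain ⟨b, rfl, -⟩ := exists_NBr hadm p 0
  exact ⟨b, hp⟩

end Vale.Agent.P268.T
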