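import Vale.Agent.P268.T.Reg

/-!
# P268, topological half: monotone regularity, maxima and minima
-/

set_option linter.unusedSectionVars false

namespace Vale.Agent.P268.T

open Set Filter Topology

variable {E : Type*} [NormedAddCommGroup E] [NormedSpace ℝ E]
  {T : Type*} [TopologicalSpace T]

section General

variable {Z : Type*} [NormedAddCommGroup Z] [InnerProductSpace ℝ Z]

/-- Monotone regularity implies metric regularity, after rescaling the direction. -/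
theorem exists_MRegOn_of_monotone {κ Λ : ℝ} (hκ : 0 < κ) (hκΛ : κ ≤ Λ) :
    ∃ k τ : ℝ, 0 ≤ k ∧ k < 1 ∧ 0 < τ ∧ ∀ (F : E → Z) (A : Z →L[ℝ] E) (U : Set E),
      (∀ x ∈ U, ∀ c, x + A c ∈ U → κ * ‖c‖ ^ 2 ≤ inner ℝ (F (x + A c) - F x) c ∧
        ‖F (x + A c) - F x‖ ≤ Λ * ‖c‖) → MRegOn k F (τ • A) U := by
  have hΛ : 0 < Λ := hκ.trans_le hκΛ
  set τ : ℝ := κ / Λ ^ 2 with hτ
  have hτ0 : 0 < τ := by positivity
  have hq : 0 ≤ 1 - κ ^ 2 / Λ ^ 2 := by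
    rw [sub_nonneg, div_le_one (by positivity)]
    exact pow_le_pow_left₀ hκ.le hκΛ 2
  refine ⟨Real.sqrt (1 - κ ^ 2 / Λ ^ 2), τ, Real.sqrt_nonneg _, ?_, hτ0, ?_⟩
  · rw [Real.sqrt_lt' one_pos]
    have : 0 < κ ^ 2 / Λ ^ 2 := by positivity
    linarith
  · intro F A U h x hx c hc
    have hAc : (τ • A) c = A (τ • c) := by
      rw [smul_apply, map_smul]
    rw [hAc] at hc ⊢
    obtain ⟨h1, h2⟩ := h x hx (τ • c) hc
    set D := F (x + A (τ • c)) - F x with hD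
    rw [inner_smul_right, norm_smul, Real.norm_eq_abs, abs_of_pos hτ0] at h1
    rw [norm_smul, Real.norm_eq_abs, abs_of_pos hτ0] at h2
    have h3 : ‖D - c‖ ^ 2 = ‖D‖ ^ 2 - 2 * inner ℝ D c + ‖c‖ ^ 2 := norm_sub_sq_real D c
    have h4 : κ * τ * ‖c‖ ^ 2 ≤ inner ℝ D c := by
      have : τ * (κ * τ * ‖c‖ ^ 2) ≤ τ * inner ℝ D c := by
        calc τ * (κ * τ * ‖c‖ ^ 2) = κ * (τ * ‖c‖) ^ 2 := by ring
          _ ≤ _ := h1
      exact le_of_mul_le_mul_left this hτ0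
    have h5 : ‖D‖ ^ 2 ≤ (Λ * (τ * ‖c‖)) ^ 2 := pow_le_pow_left₀ (norm_nonneg _) h2 2
    have h6 : ‖D - c‖ ^ 2 ≤ (1 - κ ^ 2 / Λ ^ 2) * ‖c‖ ^ 2 := by
      rw [h3]
      have e1 : (Λ * (τ * ‖c‖)) ^ 2 = κ ^ 2 / Λ ^ 2 * ‖c‖ ^ 2 := by
        rw [hτ]; field_simp
      have e2 : κ * τ * ‖c‖ ^ 2 = κ ^ 2 / Λ ^ 2 * ‖c‖ ^ 2 := by
        rw [hτ]; field_simp
      rw [e1] at h5
      rw [e2] at h4
      linarith
    have h7 : ‖D - c‖ ≤ Real.sqrt ((1 - κ ^ 2 / Λ ^ 2) * ‖c‖ ^ 2) :=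
      Real.le_sqrt_of_sq_le h6
    rwa [Real.sqrt_mul hq, Real.sqrt_sq (norm_nonneg _)] at h7

/-- Regularity from monotonicity. -/
theorem RegAt.of_monotone {s : Set T} {F : T → E → Z} {t₀ : T} {x₀ : E} {κ Λ : ℝ} (hκ : 0 < κ)
    (A : Z →L[ℝ] E)
    (h : ∃ U ∈ 𝓝 x₀, ∀ᶠ t in 𝓝[s] t₀, ∀ x ∈ U, ∀ c, x + A c ∈ U →
      κ * ‖c‖ ^ 2 ≤ inner ℝ (F t (x + A c) - F t x) c ∧
        ‖F t (x + A c) - F t x‖ ≤ Λ * ‖c‖) : RegAt s F t₀ x₀ := by
  obtain ⟨U, hU, hev⟩ := h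
  obtain ⟨k, τ, hk0, hk1, -, hk⟩ := exists_MRegOn_of_monotone (E := E) (Z := Z) hκ
    (le_max_left κ Λ)
  refine ⟨k, hk0, hk1, τ • A, U, hU, ?_⟩
  filter_upwards [hev] with t ht
  refine hk (F t) A U fun x hx c hc => ⟨(ht x hx c hc).1, (ht x hx c hc).2.trans ?_⟩
  exact mul_le_mul_of_nonneg_right (le_max_right _ _) (norm_nonneg _)

end General

/-- Increments of a real function along `A : ℂ → E`: Lipschitz with constant `Λ`, and increasing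
in the coordinate `l` with rate `κ`, up to an error `M`. -/
def IncOn (κ Λ M : ℝ) (l : ℂ → ℝ) (g : E → ℝ) (A : ℂ →L[ℝ] E) (U : Set E) : Prop :=
  ∀ x ∈ U, ∀ c, x + A c ∈ U →
    |g (x + A c) - g x| ≤ Λ * ‖c‖ ∧ κ * l c ^ 2 - M * ‖c‖ ^ 2 ≤ (g (x + A c) - g x) * l c

theorem IncOn.mono {κ Λ M : ℝ} {l : ℂ → ℝ} {g : E → ℝ} {A : ℂ →L[ℝ] E} {U V : Set E}
    (h : IncOn κ Λ M l g A U) (hV : V ⊆ U) : IncOn κ Λ M l g A V := fun x hx c hc =>
  h x (hV hx) c (hV hc)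

theorem IncOn.mono_const {κ Λ M κ' Λ' M' : ℝ} {l : ℂ → ℝ} {g : E → ℝ} {A : ℂ →L[ℝ] E}
    {U : Set E} (h : IncOn κ Λ M l g A U) (hκ : κ' ≤ κ) (hΛ : Λ ≤ Λ') (hM : M ≤ M') :
    IncOn κ' Λ' M' l g A U := by
  intro x hx c hc
  obtain ⟨h1, h2⟩ := h x hx c hc
  refine ⟨h1.trans (mul_le_mul_of_nonneg_right hΛ (norm_nonneg _)), le_trans ?_ h2⟩
  have e1 : κ' * l c ^ 2 ≤ κ * l c ^ 2 := mul_le_mul_of_nonneg_right hκ (sq_nonneg _)
  have e2 : M * ‖c‖ ^ 2 ≤ M' * ‖c‖ ^ 2 := mul_le_mul_of_nonneg_right hM (sq_nonneg _)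
  linarith

theorem IncOn.congr {κ Λ M : ℝ} {l : ℂ → ℝ} {g g' : E → ℝ} {A : ℂ →L[ℝ] E} {U : Set E}
    (h : IncOn κ Λ M l g A U) (hg : ∀ x ∈ U, g x = g' x) : IncOn κ Λ M l g' A U := by
  intro x hx c hc
  rw [← hg x hx, ← hg _ hc]
  exact h x hx c hc

theorem max_incr (a b a' b' : ℝ) :
    min (a' - a) (b' - b) ≤ max a' b' - max a b ∧ max a' b' - max a b ≤ max (a' - a) (b' - b) := by
  constructor
  · rcases le_total a b with h | h
    · rw [max_eq_right h]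
      exact (min_le_right _ _).trans (by linarith [le_max_right a' b'])
    · rw [max_eq_left h]
      exact (min_le_left _ _).trans (by linarith [le_max_left a' b'])
  · rcases le_total a' b' with h | h
    · rw [max_eq_right h]
      exact le_trans (by linarith [le_max_right a b]) (le_max_right _ _)
    · rw [max_eq_left h]
      exact le_trans (by linarith [le_max_left a b]) (le_max_left _ _)

theorem min_incr (a b a' b' : ℝ) :
    min (a' - a) (b' - b) ≤ min a' b' - min a b ∧ min a' b' - min a b ≤ max (a' - a) (b' - b) := by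
  have h := max_incr (-a) (-b) (-a') (-b')
  rw [max_neg_neg, max_neg_neg] at h
  have e1 : min (-a' - -a) (-b' - -b) = -max (a' - a) (b' - b) := by
    rw [show -a' - -a = -(a' - a) by ring, show -b' - -b = -(b' - b) by ring, min_neg_neg]
  have e2 : max (-a' - -a) (-b' - -b) = -min (a' - a) (b' - b) := by
    rw [show -a' - -a = -(a' - a) by ring, show -b' - -b = -(b' - b) by ring, max_neg_neg]
  rw [e1, e2] at h
  constructor <;> linarith [h.1, h.2]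

theorem IncOn.of_between {κ Λ M : ℝ} {l : ℂ → ℝ} {f g h : E → ℝ} {A : ℂ →L[ℝ] E}
    {U : Set E} (hf : IncOn κ Λ M l f A U) (hg : IncOn κ Λ M l g A U)
    (hh : ∀ x y, min (f y - f x) (g y - g x) ≤ h y - h x ∧
      h y - h x ≤ max (f y - f x) (g y - g x)) : IncOn κ Λ M l h A U := by
  intro x hx c hc
  obtain ⟨f1, f2⟩ := hf x hx c hc
  obtain ⟨g1, g2⟩ := hg x hx c hc
  obtain ⟨h1, h2⟩ := hh x (x + A c)
  rw [abs_le] at f1 g1 ⊢
  refine ⟨⟨(le_min f1.1 g1.1).trans h1, h2.trans (max_le f1.2 g1.2)⟩, ?_⟩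
  rcases le_total 0 (l c) with hl | hl
  · refine le_trans ?_ (mul_le_mul_of_nonneg_right h1 hl)
    rcases min_choice (f (x + A c) - f x) (g (x + A c) - g x) with e | e <;> rw [e]
    · exact f2
    · exact g2
  · refine le_trans ?_ (mul_le_mul_of_nonpos_right h2 hl)
    rcases max_choice (f (x + A c) - f x) (g (x + A c) - g x) with e | e <;> rw [e]
    · exact f2
    · exact g2

theorem IncOn.max {κ Λ M : ℝ} {l : ℂ → ℝ} {f g : E → ℝ} {A : ℂ →L[ℝ] E}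
    {U : Set E} (hf : IncOn κ Λ M l f A U) (hg : IncOn κ Λ M l g A U) :
    IncOn κ Λ M l (fun x => Max.max (f x) (g x)) A U :=
  hf.of_between hg fun _ _ => max_incr _ _ _ _

theorem IncOn.min {κ Λ M : ℝ} {l : ℂ → ℝ} {f g : E → ℝ} {A : ℂ →L[ℝ] E}
    {U : Set E} (hf : IncOn κ Λ M l f A U) (hg : IncOn κ Λ M l g A U) :
    IncOn κ Λ M l (fun x => Min.min (f x) (g x)) A U :=
  hf.of_between hg fun _ _ => min_incr _ _ _ _

/-- Adding a function with small increments. -/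
theorem IncOn.add_lip {κ Λ M ε : ℝ} {l : ℂ → ℝ} (hl : ∀ c, |l c| ≤ ‖c‖) {f g : E → ℝ}
    {A : ℂ →L[ℝ] E}
    {U : Set E} (hf : IncOn κ Λ M l f A U)
    (hg : ∀ x ∈ U, ∀ c, x + A c ∈ U → |g (x + A c) - g x| ≤ ε * ‖c‖) :
    IncOn κ (Λ + ε) (M + ε) l (fun x => f x + g x) A U := by
  intro x hx c hc
  obtain ⟨f1, f2⟩ := hf x hx c hc
  have g1 := hg x hx c hc
  have e1 : f (x + A c) + g (x + A c) - (f x + g x) =
      (f (x + A c) - f x) + (g (x + A c) - g x) := by ring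
  rw [e1]
  refine ⟨(abs_add_le _ _).trans (by linarith), ?_⟩
  have e2 : -(ε * ‖c‖ ^ 2) ≤ (g (x + A c) - g x) * l c := by
    have : |(g (x + A c) - g x) * l c| ≤ (ε * ‖c‖) * ‖c‖ := by
      rw [abs_mul]
      exact mul_le_mul g1 (hl c) (abs_nonneg _) ((abs_nonneg _).trans g1)
    have h3 := (abs_le.mp this).1
    calc -(ε * ‖c‖ ^ 2) = -(ε * ‖c‖ * ‖c‖) := by ring
      _ ≤ _ := h3
  rw [add_mul]
  linarith

/-- Increments from uniform strict differentiability. -/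
theorem IncOn.of_strict {s : Set T} {g : T → E → ℝ} {t₀ : T} {x₀ : E} {l : ℂ → ℝ}
    (hl : ∀ c, |l c| ≤ ‖c‖)
    (g' : E →L[ℝ] ℝ) (A : ℂ →L[ℝ] E) {κ : ℝ} (hg' : ∀ c, κ * l c ^ 2 ≤ g' (A c) * l c)
    (h : ∀ ε > 0, ∃ U ∈ 𝓝 x₀, ∀ᶠ t in 𝓝[s] t₀, ∀ y ∈ U, ∀ z ∈ U,
      |g t y - g t z - g' (y - z)| ≤ ε * ‖y - z‖) {M : ℝ} (hM : 0 < M) :
    ∃ U ∈ 𝓝 x₀, ∀ᶠ t in 𝓝[s] t₀, IncOn κ (‖g'‖ * ‖A‖ + M) M l (g t) A U := by
  obtain ⟨U, hU, hev⟩ := h (M / (‖A‖ + 1)) (by positivity)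
  refine ⟨U, hU, ?_⟩
  filter_upwards [hev] with t ht x hx c hc
  have h1 := ht _ hc x hx
  rw [add_sub_cancel_left] at h1
  have h2 : M / (‖A‖ + 1) * ‖A c‖ ≤ M * ‖c‖ := by
    have h3 : ‖A c‖ ≤ (‖A‖ + 1) * ‖c‖ :=
      (A.le_opNorm c).trans (mul_le_mul_of_nonneg_right (by linarith) (norm_nonneg _))
    calc M / (‖A‖ + 1) * ‖A c‖ ≤ M / (‖A‖ + 1) * ((‖A‖ + 1) * ‖c‖) :=
          mul_le_mul_of_nonneg_left h3 (by positivity)
      _ = M * ‖c‖ := by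
          have : ‖A‖ + 1 ≠ 0 := by positivity
          field_simp
  have h3 := h1.trans h2
  have h4 : |g' (A c)| ≤ ‖g'‖ * ‖A‖ * ‖c‖ := by
    have e1 := g'.le_opNorm (A c)
    rw [Real.norm_eq_abs] at e1
    refine e1.trans ?_
    rw [mul_assoc]
    exact mul_le_mul_of_nonneg_left (A.le_opNorm c) (norm_nonneg _)
  constructor
  · have : g t (x + A c) - g t x = (g t (x + A c) - g t x - g' (A c)) + g' (A c) := by ring
    rw [this]
    refine (abs_add_le _ _).trans ?_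
    linarith
  · have e1 : (g t (x + A c) - g t x) * l c =
        (g t (x + A c) - g t x - g' (A c)) * l c + g' (A c) * l c := by ring
    rw [e1]
    have e2 : |(g t (x + A c) - g t x - g' (A c)) * l c| ≤ (M * ‖c‖) * ‖c‖ := by
      rw [abs_mul]
      exact mul_le_mul h3 (hl c) (abs_nonneg _) ((abs_nonneg _).trans h3)
    have e3 := (abs_le.mp e2).1
    have e4 := hg' c
    have e5 : M * ‖c‖ ^ 2 = M * ‖c‖ * ‖c‖ := by ring
    linarith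

theorem inner_complex (z c : ℂ) : inner ℝ z c = z.re * c.re + z.im * c.im := by
  rw [Complex.inner]
  simp
  ring

/-- Regularity of `α + i β` from increments of `α` and `β`. -/
theorem RegAt.of_inc {s : Set T} {α β : T → E → ℝ} {t₀ : T} {x₀ : E} {κ Λ M : ℝ}
    (hM : 2 * M < κ) (A : ℂ →L[ℝ] E)
    (hα : ∃ U ∈ 𝓝 x₀, ∀ᶠ t in 𝓝[s] t₀, IncOn κ Λ M Complex.re (α t) A U)
    (hβ : ∃ U ∈ 𝓝 x₀, ∀ᶠ t in 𝓝[s] t₀, IncOn κ Λ M Complex.im (β t) A U) :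
    RegAt s (fun t x => (⟨α t x, β t x⟩ : ℂ)) t₀ x₀ := by
  obtain ⟨U, hU, hα⟩ := hα
  obtain ⟨V, hV, hβ⟩ := hβ
  refine RegAt.of_monotone (κ := κ - 2 * M) (Λ := 2 * Λ) (by linarith) A
    ⟨U ∩ V, inter_mem hU hV, ?_⟩
  filter_upwards [hα, hβ] with t h1 h2 x hx c hc
  obtain ⟨a1, a2⟩ := h1 x hx.1 c hc.1
  obtain ⟨b1, b2⟩ := h2 x hx.2 c hc.2
  have hsub : (⟨α t (x + A c), β t (x + A c)⟩ : ℂ) - ⟨α t x, β t x⟩ =
      ⟨α t (x + A c) - α t x, β t (x + A c) - β t x⟩ := by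
    apply Complex.ext <;> simp
  constructor
  · show _ ≤ inner ℝ ((⟨α t (x + A c), β t (x + A c)⟩ : ℂ) - ⟨α t x, β t x⟩) c
    rw [hsub, inner_complex]
    have e1 : ‖c‖ ^ 2 = c.re ^ 2 + c.im ^ 2 := by
      rw [Complex.sq_norm, Complex.normSq_apply]; ring
    simp only
    have e2 : (κ - 2 * M) * ‖c‖ ^ 2 = κ * c.re ^ 2 - M * ‖c‖ ^ 2 + (κ * c.im ^ 2 - M * ‖c‖ ^ 2) := by
      rw [e1]; ring
    linarith
  · show ‖(⟨α t (x + A c), β t (x + A c)⟩ : ℂ) - ⟨α t x, β t x⟩‖ ≤ _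
    rw [hsub]
    refine (Complex.norm_le_abs_re_add_abs_im _).trans ?_
    simp only
    linarith

end Vale.Agent.P268.T
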