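import Vale.Agent.P268.T.Reg

/-!
# P268, topological half: change of coordinates and polar coordinates for `RegAt`
-/

set_option linter.unusedSectionVars false

namespace Vale.Agent.P268.T

open Set Filter Topology

variable {E : Type*} [NormedAddCommGroup E] [NormedSpace ℝ E]
  {E₁ : Type*} [NormedAddCommGroup E₁] [NormedSpace ℝ E₁]
  {Z : Type*} [NormedAddCommGroup Z] [NormedSpace ℝ Z]
  {T : Type*} [TopologicalSpace T]

/-- The family `G` is Lipschitz near `y₀`, uniformly for `t` near `t₀`. -/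
def LipAt (s : Set T) (G : T → E → Z) (t₀ : T) (y₀ : E) : Prop :=
  ∃ L : ℝ, ∃ U ∈ 𝓝 y₀, ∀ᶠ t in 𝓝[s] t₀, ∀ y ∈ U, ∀ y' ∈ U, ‖G t y - G t y'‖ ≤ L * ‖y - y'‖

/-- Composition of a regular Lipschitz family with a strictly differentiable submersion. -/
theorem RegAt.comp_strict [FiniteDimensional ℝ E₁] {s : Set T} {G : T → E₁ → Z} {t₀ : T}
    {x₀ : E} {ψ : E → E₁} {ψ' : E →L[ℝ] E₁} (hψ : HasStrictFDerivAt ψ ψ' x₀)
    (hsurj : Function.Surjective ψ') (hG : RegAt s G t₀ (ψ x₀)) (hLip : LipAt s G t₀ (ψ x₀)) :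
    RegAt s (fun t x => G t (ψ x)) t₀ x₀ := by
  obtain ⟨k, hk0, hk1, A, U, hU, hev⟩ := hG
  obtain ⟨L, U₂, hU₂, hev₂⟩ := hLip
  obtain ⟨B', hB'⟩ := (ψ' : E →ₗ[ℝ] E₁).exists_rightInverse_of_surjective
    (LinearMap.range_eq_top.mpr hsurj)
  set B : E₁ →L[ℝ] E := LinearMap.toContinuousLinearMap B' with hB
  have hψB : ∀ y, ψ' (B y) = y := fun y => LinearMap.congr_fun hB' y
  set A' : Z →L[ℝ] E := B.comp A with hA'
  -- constants
  set L' : ℝ := |L| + 1 with hL'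
  have hL0 : 0 < L' := by positivity
  set ε : ℝ := (1 - k) / (2 * (L' * (‖A'‖ + 1))) with hε
  have hAp : 0 < ‖A'‖ + 1 := by positivity
  have hε0 : 0 < ε := by
    have : 0 < 1 - k := by linarith
    positivity
  obtain ⟨δ, hδ, hball⟩ := Metric.mem_nhds_iff.mp (inter_mem hU hU₂)
  -- a ball around `x₀` on which everything happens
  have h1 : ∀ᶠ p : E × E in 𝓝 (x₀, x₀), ‖ψ p.1 - ψ p.2 - ψ' (p.1 - p.2)‖ ≤ ε * ‖p.1 - p.2‖ :=
    hψ.isLittleO.def hε0
  have h2 : ∀ᶠ x in 𝓝 x₀, ψ x ∈ Metric.ball (ψ x₀) (δ / 2) :=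
    hψ.continuousAt.eventually (Metric.ball_mem_nhds _ (by positivity))
  rw [nhds_prod_eq, eventually_prod_iff] at h1
  obtain ⟨pa, ha, pb, hb, hab⟩ := h1
  obtain ⟨r, hr, hball'⟩ := Metric.eventually_nhds_iff_ball.mp (ha.and (hb.and h2))
  set r' : ℝ := min r (δ / (4 * (ε + 1))) with hr'
  have hr'0 : 0 < r' := lt_min hr (by positivity)
  refine ⟨(k + 1) / 2, by linarith, by linarith, A', Metric.ball x₀ r',
    Metric.ball_mem_nhds _ hr'0, ?_⟩
  filter_upwards [hev, hev₂] with t ht ht₂ x hx c hc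
  have hxr : x ∈ Metric.ball x₀ r := Metric.ball_subset_ball (min_le_left _ _) hx
  have hcr : x + A' c ∈ Metric.ball x₀ r := Metric.ball_subset_ball (min_le_left _ _) hc
  have e1 := hball' x hxr
  have e2 := hball' _ hcr
  -- the remainder
  set ρ : E₁ := ψ (x + A' c) - ψ x - A c with hρ
  have e3 : ‖ρ‖ ≤ ε * ‖A' c‖ := by
    have := hab e2.1 e1.2.1
    simp only [add_sub_cancel_left] at this
    have e4 : ψ' (A' c) = A c := hψB (A c)
    rw [e4] at this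
    exact this
  have e5 : ‖A' c‖ < 2 * r' := by
    have h3 := Metric.mem_ball.mp hx
    have h4 := Metric.mem_ball.mp hc
    rw [dist_eq_norm] at h3 h4
    calc ‖A' c‖ = ‖(x + A' c - x₀) - (x - x₀)‖ := by congr 1; abel
      _ ≤ ‖x + A' c - x₀‖ + ‖x - x₀‖ := norm_sub_le _ _
      _ < 2 * r' := by linarith
  have e6 : ‖ρ‖ < δ / 2 := by
    have h3 : r' ≤ δ / (4 * (ε + 1)) := min_le_right _ _
    have h4 : ε * ‖A' c‖ ≤ ε * (2 * r') := mul_le_mul_of_nonneg_left e5.le hε0.le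
    have h5 : ε * (2 * r') ≤ ε * (2 * (δ / (4 * (ε + 1)))) := by
      refine mul_le_mul_of_nonneg_left ?_ hε0.le
      linarith
    have h6 : ε * (2 * (δ / (4 * (ε + 1)))) < δ / 2 := by
      have : ε * (2 * (δ / (4 * (ε + 1)))) = (δ / 2) * (ε / (ε + 1)) := by
        field_simp; ring
      rw [this]
      have h7 : ε / (ε + 1) < 1 := (div_lt_one (by linarith)).mpr (by linarith)
      have h8 : 0 < δ / 2 := by positivity
      nlinarith
    linarith
  have hψx : ψ x ∈ U ∩ U₂ := hball (Metric.ball_subset_ball (by linarith) e1.2.2)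
  have hψc : ψ (x + A' c) ∈ U ∩ U₂ := hball (Metric.ball_subset_ball (by linarith) e2.2.2)
  have hmid : ψ x + A c ∈ U ∩ U₂ := by
    apply hball
    have h3 : ψ x + A c = ψ (x + A' c) - ρ := by rw [hρ]; abel
    rw [h3, Metric.mem_ball, dist_eq_norm]
    have h4 := Metric.mem_ball.mp e2.2.2
    rw [dist_eq_norm] at h4
    calc ‖ψ (x + A' c) - ρ - ψ x₀‖ = ‖(ψ (x + A' c) - ψ x₀) - ρ‖ := by congr 1; abel
      _ ≤ ‖ψ (x + A' c) - ψ x₀‖ + ‖ρ‖ := norm_sub_le _ _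
      _ < δ := by linarith
  have h3 := ht _ hψx.1 c hmid.1
  have h4 := ht₂ _ hψc.2 _ hmid.2
  have h5 : ‖G t (ψ (x + A' c)) - G t (ψ x + A c)‖ ≤ (1 - k) / 2 * ‖c‖ := by
    have e7 : ψ (x + A' c) - (ψ x + A c) = ρ := by rw [hρ]; abel
    rw [e7] at h4
    calc _ ≤ L * ‖ρ‖ := h4
      _ ≤ L' * ‖ρ‖ := mul_le_mul_of_nonneg_right
          (by rw [hL']; linarith [le_abs_self L]) (norm_nonneg _)
      _ ≤ L' * (ε * ((‖A'‖ + 1) * ‖c‖)) := by
          refine mul_le_mul_of_nonneg_left (e3.trans ?_) hL0.le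
          refine mul_le_mul_of_nonneg_left ?_ hε0.le
          exact (A'.le_opNorm c).trans (mul_le_mul_of_nonneg_right (by linarith) (norm_nonneg _))
      _ = (1 - k) / 2 * ‖c‖ := by
          rw [hε]
          field_simp
  have e8 : G t (ψ (x + A' c)) - G t (ψ x) - c =
      (G t (ψ x + A c) - G t (ψ x) - c) + (G t (ψ (x + A' c)) - G t (ψ x + A c)) := by abel
  rw [e8]
  refine (norm_add_le _ _).trans ?_
  calc _ ≤ k * ‖c‖ + (1 - k) / 2 * ‖c‖ := add_le_add h3 h5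
    _ = (k + 1) / 2 * ‖c‖ := by ring

/-- In equal dimensions regular families are locally Lipschitz. -/
theorem RegAt.lipAt [FiniteDimensional ℝ E] [FiniteDimensional ℝ Z]
    (hdim : Module.finrank ℝ E ≤ Module.finrank ℝ Z) {s : Set T} {G : T → E → Z} {t₀ : T}
    {x₀ : E} (hs : t₀ ∈ closure s) (hG : RegAt s G t₀ x₀) : LipAt s G t₀ x₀ := by
  obtain ⟨k, hk0, hk1, A, U, hU, hev⟩ := hG
  have : (𝓝[s] t₀).NeBot := mem_closure_iff_nhdsWithin_neBot.mp hs
  -- the direction is injective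
  have hinj : Function.Injective A := by
    obtain ⟨t, ht⟩ := hev.exists
    rw [injective_iff_map_eq_zero]
    intro c hc
    have h1 := ht x₀ (mem_of_mem_nhds hU) c (by rw [hc, add_zero]; exact mem_of_mem_nhds hU)
    rw [hc, add_zero, sub_self, zero_sub, norm_neg] at h1
    have h2 := norm_nonneg c
    have h3 : ‖c‖ = 0 := by nlinarith
    exact norm_eq_zero.mp h3
  have hfin : Module.finrank ℝ Z = Module.finrank ℝ E :=
    le_antisymm (LinearMap.finrank_le_finrank_of_injective (f := (A : Z →ₗ[ℝ] E)) hinj) hdim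
  have hsurj : Function.Surjective (A : Z →ₗ[ℝ] E) :=
    (LinearMap.injective_iff_surjective_of_finrank_eq_finrank hfin).mp hinj
  obtain ⟨B', hB'⟩ := (A : Z →ₗ[ℝ] E).exists_rightInverse_of_surjective
    (LinearMap.range_eq_top.mpr hsurj)
  set B : E →L[ℝ] Z := LinearMap.toContinuousLinearMap B' with hB
  have hAB : ∀ y, A (B y) = y := fun y => LinearMap.congr_fun hB' y
  refine ⟨(1 + k) * ‖B‖, U, hU, ?_⟩
  filter_upwards [hev] with t ht y hy y' hy'
  have h1 := ht y' hy' (B (y - y')) (by rw [hAB, add_sub_cancel]; exact hy)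
  rw [hAB, add_sub_cancel] at h1
  have h2 : ‖G t y - G t y'‖ ≤ ‖G t y - G t y' - B (y - y')‖ + ‖B (y - y')‖ := by
    calc ‖G t y - G t y'‖ = ‖(G t y - G t y' - B (y - y')) + B (y - y')‖ := by congr 1; abel
      _ ≤ _ := norm_add_le _ _
  have h3 : ‖B (y - y')‖ ≤ ‖B‖ * ‖y - y'‖ := B.le_opNorm _
  have h4 : 0 ≤ 1 + k := by linarith
  calc ‖G t y - G t y'‖ ≤ k * ‖B (y - y')‖ + ‖B (y - y')‖ := h2.trans (add_le_add h1 le_rfl)
    _ = (1 + k) * ‖B (y - y')‖ := by ring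
    _ ≤ (1 + k) * (‖B‖ * ‖y - y'‖) := mul_le_mul_of_nonneg_left h3 h4
    _ = (1 + k) * ‖B‖ * ‖y - y'‖ := by ring

/-- **Polar coordinates**, with passengers: regularity of `F t (y, z)` at `(exp ζ₀, z₀)` from the
regularity of `F t (exp ζ, z)` at `(ζ₀, z₀)`. -/
theorem RegAt.of_exp_prod [FiniteDimensional ℝ E] {s : Set T} {F : T → ℂ × E → Z} {t₀ : T}
    {ζ₀ : ℂ} {z₀ : E}
    (h : RegAt s (fun t (p : ℂ × E) => F t (Complex.exp p.1, p.2)) t₀ (ζ₀, z₀))
    (hLip : LipAt s (fun t (p : ℂ × E) => F t (Complex.exp p.1, p.2)) t₀ (ζ₀, z₀)) :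
    RegAt s F t₀ (Complex.exp ζ₀, z₀) := by
  -- a local inverse of the exponential
  have he : Complex.exp ζ₀ ≠ 0 := Complex.exp_ne_zero ζ₀
  set ψ : ℂ × E → ℂ × E := fun p => (ζ₀ + Complex.log (p.1 / Complex.exp ζ₀), p.2) with hψdef
  have hlog : HasStrictDerivAt (fun y : ℂ => ζ₀ + Complex.log (y / Complex.exp ζ₀))
      ((Complex.exp ζ₀)⁻¹) (Complex.exp ζ₀) := by
    have h1 : HasStrictDerivAt (fun y : ℂ => y / Complex.exp ζ₀) ((Complex.exp ζ₀)⁻¹)
        (Complex.exp ζ₀) := by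
      simpa using (hasStrictDerivAt_id (Complex.exp ζ₀)).div_const (Complex.exp ζ₀)
    have h2 : Complex.exp ζ₀ / Complex.exp ζ₀ = 1 := div_self he
    have h3 := (h1.clog (by rw [h2]; exact Complex.one_mem_slitPlane)).const_add ζ₀
    rw [h2, div_one] at h3
    exact h3
  have hlogR : HasStrictFDerivAt (fun y : ℂ => ζ₀ + Complex.log (y / Complex.exp ζ₀))
      (((ContinuousLinearMap.toSpanSingleton ℂ ((Complex.exp ζ₀)⁻¹) : ℂ →L[ℂ] ℂ)).restrictScalars ℝ)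
      (Complex.exp ζ₀) :=
    (hlog.hasStrictFDerivAt).restrictScalars ℝ
  have hψ : HasStrictFDerivAt ψ
      ((((ContinuousLinearMap.toSpanSingleton ℂ ((Complex.exp ζ₀)⁻¹) :
        ℂ →L[ℂ] ℂ)).restrictScalars ℝ).prodMap (ContinuousLinearMap.id ℝ E))
      (Complex.exp ζ₀, z₀) :=
    HasStrictFDerivAt.prodMap (p := (Complex.exp ζ₀, z₀)) hlogR (hasStrictFDerivAt_id z₀)
  have hψ0 : ψ (Complex.exp ζ₀, z₀) = (ζ₀, z₀) := by
    simp [hψdef]
  have hsurj : Function.Surjective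
      ((((ContinuousLinearMap.toSpanSingleton ℂ ((Complex.exp ζ₀)⁻¹) :
        ℂ →L[ℂ] ℂ)).restrictScalars ℝ).prodMap (ContinuousLinearMap.id ℝ E)) := by
    rintro ⟨c, z⟩
    refine ⟨(c * Complex.exp ζ₀, z), ?_⟩
    simp [mul_assoc]
  have h1 := RegAt.comp_strict hψ hsurj (s := s) (t₀ := t₀)
    (G := fun t (p : ℂ × E) => F t (Complex.exp p.1, p.2)) (by rw [hψ0]; exact h)
    (by rw [hψ0]; exact hLip)
  refine h1.congr ⟨{p | p.1 ≠ 0}, ?_, Eventually.of_forall fun t p hp => ?_⟩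
  · exact continuousAt_fst.eventually_ne he
  · have hp : p.1 ≠ 0 := hp
    show F t (Complex.exp (ζ₀ + Complex.log (p.1 / Complex.exp ζ₀)), p.2) = F t p
    rw [Complex.exp_add, Complex.exp_log (div_ne_zero hp he), mul_div_cancel₀ _ he]

/-- **Polar coordinates** in the plane. -/
theorem RegAt.of_exp {s : Set T} {F : T → ℂ → ℂ} {t₀ : T} (ht₀ : t₀ ∈ closure s) {ζ₀ : ℂ}
    (h : RegAt s (fun t ζ => F t (Complex.exp ζ)) t₀ ζ₀) : RegAt s F t₀ (Complex.exp ζ₀) := by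
  have hLip := h.lipAt le_rfl ht₀
  have he : Complex.exp ζ₀ ≠ 0 := Complex.exp_ne_zero ζ₀
  set ψ : ℂ → ℂ := fun y => ζ₀ + Complex.log (y / Complex.exp ζ₀) with hψdef
  have hlog : HasStrictDerivAt ψ ((Complex.exp ζ₀)⁻¹) (Complex.exp ζ₀) := by
    have h1 : HasStrictDerivAt (fun y : ℂ => y / Complex.exp ζ₀) ((Complex.exp ζ₀)⁻¹)
        (Complex.exp ζ₀) := by
      simpa using (hasStrictDerivAt_id (Complex.exp ζ₀)).div_const (Complex.exp ζ₀)
    have h2 : Complex.exp ζ₀ / Complex.exp ζ₀ = 1 := div_self he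
    have h3 := (h1.clog (by rw [h2]; exact Complex.one_mem_slitPlane)).const_add ζ₀
    rw [h2, div_one] at h3
    exact h3
  have hψ : HasStrictFDerivAt ψ
      (((ContinuousLinearMap.toSpanSingleton ℂ ((Complex.exp ζ₀)⁻¹) : ℂ →L[ℂ] ℂ)).restrictScalars ℝ)
      (Complex.exp ζ₀) :=
    (hlog.hasStrictFDerivAt).restrictScalars ℝ
  have hψ0 : ψ (Complex.exp ζ₀) = ζ₀ := by
    simp [hψdef]
  have hsurj : Function.Surjective
      (((ContinuousLinearMap.toSpanSingleton ℂ ((Complex.exp ζ₀)⁻¹) :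
        ℂ →L[ℂ] ℂ)).restrictScalars ℝ) := by
    intro c
    refine ⟨c * Complex.exp ζ₀, ?_⟩
    simp [mul_assoc]
  have h1 := RegAt.comp_strict hψ hsurj (s := s) (t₀ := t₀)
    (G := fun t ζ => F t (Complex.exp ζ)) (by rw [hψ0]; exact h)
    (by rw [hψ0]; exact hLip)
  refine h1.congr ⟨{y | y ≠ 0}, ?_, Eventually.of_forall fun t y hy => ?_⟩
  · exact isOpen_ne.mem_nhds he
  · have hy : y ≠ 0 := hy
    show F t (Complex.exp (ζ₀ + Complex.log (y / Complex.exp ζ₀))) = F t y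
    rw [Complex.exp_add, Complex.exp_log (div_ne_zero hy he), mul_div_cancel₀ _ he]

end Vale.Agent.P268.T
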