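import Vale.Agent.P268.T.Delta

/-!
# P268, topological half: the normal form `N(b)` is in the class `R`; homotopies of data
-/

set_option linter.unusedSectionVars false

namespace Vale.Agent.P268.T

open Set Filter Topology Metric

variable {T P V A : Type*} [TopologicalSpace T] [NormedAddCommGroup P] [NormedSpace ℝ P]
  [NormedAddCommGroup V] [InnerProductSpace ℝ V]

section Fam

variable {s : Set T} {e : V} {ε R M : T → ℝ} {b ν : T → A → P → V} {η : ℝ}

/-! ### Continuity of the data in the chart -/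

theorem maps_kap (s : Set T) (S : Set ((ℝ × P) × V)) :
    MapsTo (fun p : T × ((ℝ × P) × V) => (p.1, kap p.2.1)) (s ×ˢ S)
      (s ×ˢ closedBall (0 : P) 1) :=
  fun _ hp => ⟨hp.1, kap_mem _⟩

theorem cwa_kap (s : Set T) (S : Set ((ℝ × P) × V)) {τ₀ : T} {x₀ : (ℝ × P) × V}
    (hx : x₀.1 ≠ 0) :
    ContinuousWithinAt (fun p : T × ((ℝ × P) × V) => (p.1, kap p.2.1)) (s ×ˢ S) (τ₀, x₀) := by
  have h1 : ContinuousAt (fun p : T × ((ℝ × P) × V) => kap p.2.1) (τ₀, x₀) := by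
    have h2 : ContinuousAt (fun p : T × ((ℝ × P) × V) => p.2.1) (τ₀, x₀) := by fun_prop
    exact ContinuousAt.comp (g := (kap : ℝ × P → P)) (continuousAt_kap hx) h2
  exact (continuousAt_fst.prodMk h1).continuousWithinAt

theorem cwa_data {f : T × P → V} (hf : ContinuousOn f (s ×ˢ closedBall 0 1))
    (S : Set ((ℝ × P) × V)) {τ₀ : T} (hτ₀ : τ₀ ∈ s) {x₀ : (ℝ × P) × V} (hx : x₀.1 ≠ 0) :
    ContinuousWithinAt (fun p : T × ((ℝ × P) × V) => f (p.1, kap p.2.1)) (s ×ˢ S) (τ₀, x₀) :=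
  ContinuousWithinAt.comp (g := f) (t := s ×ˢ closedBall (0 : P) 1)
    (hf (τ₀, kap x₀.1) ⟨hτ₀, kap_mem _⟩) (cwa_kap s S hx) (maps_kap s S)

theorem continuousOn_centre {f : T × P → V} (hf : ContinuousOn f (s ×ˢ closedBall 0 1))
    {B : T → ℝ} (hB : ContinuousOn B s) (hfB : ∀ t ∈ s, ∀ x ∈ closedBall (0 : P) 1,
      ‖f (t, x)‖ ≤ B t) :
    ContinuousOn (fun p : T × ((ℝ × P) × V) => ‖p.2.1‖ • f (p.1, kap p.2.1)) (s ×ˢ univ) := by
  rintro ⟨τ₀, x₀⟩ ⟨hτ₀, -⟩
  have hτ₀ : τ₀ ∈ s := hτ₀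
  by_cases hx : x₀.1 = 0
  · have h0 : ‖x₀.1‖ • f (τ₀, kap x₀.1) = 0 := by rw [hx, norm_zero, zero_smul]
    have hB1 : Tendsto (fun p : T × ((ℝ × P) × V) => B p.1) (𝓝[s ×ˢ univ] (τ₀, x₀))
        (𝓝 (B τ₀)) :=
      ContinuousWithinAt.comp (g := B) (t := s) (hB τ₀ hτ₀) continuousWithinAt_fst
        (fun p hp => hp.1)
    have hn1 : Tendsto (fun p : T × ((ℝ × P) × V) => ‖p.2.1‖) (𝓝[s ×ˢ univ] (τ₀, x₀))
        (𝓝 ‖x₀.1‖) := by
      have : Continuous fun p : T × ((ℝ × P) × V) => ‖p.2.1‖ := by fun_prop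
      exact this.continuousWithinAt
    have hn2 := hn1.mul hB1
    rw [hx, norm_zero, zero_mul] at hn2
    show Tendsto _ _ (𝓝 (‖x₀.1‖ • f (τ₀, kap x₀.1)))
    rw [h0]
    refine squeeze_zero_norm' ?_ hn2
    filter_upwards [self_mem_nhdsWithin] with p hp
    rw [norm_smul, norm_norm]
    exact mul_le_mul_of_nonneg_left (hfB p.1 hp.1 _ (kap_mem _)) (norm_nonneg _)
  · have h1 : ContinuousWithinAt (fun p : T × ((ℝ × P) × V) => ‖p.2.1‖) (s ×ˢ univ)
        (τ₀, x₀) := by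
      have : Continuous fun p : T × ((ℝ × P) × V) => ‖p.2.1‖ := by fun_prop
      exact this.continuousWithinAt
    exact h1.smul (cwa_data hf univ hτ₀ hx)

/-! ### The collar -/

theorem norm_base (s : ℝ × P) : ‖s‖ = max |s.1| ‖s.2‖ := rfl

/-- Where the slab is nearly active, the base point is in the collar. -/
theorem collar {s : ℝ × P} (hs : s ≠ 0) {M η : ℝ} (hM : 0 < M) (hη : 8 * η ≤ M)
    (h : -η * ‖s‖ < M * (‖s.2‖ - |s.1|)) : |s.1| < 2 * ‖s.2‖ ∧ s.2 ≠ 0 := by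
  have hg : 0 < ‖s‖ := norm_pos_iff.mpr hs
  have h1 : M * (|s.1| - ‖s.2‖) < M * (‖s‖ / 8) := by
    have h2 : η * ‖s‖ ≤ M / 8 * ‖s‖ := mul_le_mul_of_nonneg_right (by linarith) hg.le
    have h3 : M * (‖s‖ / 8) = M / 8 * ‖s‖ := by ring
    rw [h3]
    linarith
  have h2 : |s.1| - ‖s.2‖ < ‖s‖ / 8 := lt_of_mul_lt_mul_left h1 hM.le
  rw [norm_base] at h2 hg
  have hp := norm_nonneg s.2
  have ha := abs_nonneg s.1
  have key : |s.1| < 2 * ‖s.2‖ := by
    rcases le_total |s.1| ‖s.2‖ with h3 | h3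
    · rw [max_eq_right h3] at hg
      linarith
    · rw [max_eq_left h3] at h2 hg
      linarith
  refine ⟨key, fun h3 => ?_⟩
  rw [h3, norm_zero] at key
  linarith

variable [Fintype A]

theorem be_some_collar (h : BFam s e b ν) {τ : T} (hτ : τ ∈ s) {x : (ℝ × P) × V}
    (hx : |x.1.1| < 2 * ‖x.1.2‖) (hp : x.1.2 ≠ 0) (a : A) :
    (nplates e ε R M b ν).be τ (some a) x = inner ℝ x.2 e := by
  have h1 : ‖kap x.1‖ = 1 := norm_kap_of_le hx.le hp
  show inner ℝ (x.2 - ‖x.1‖ • b τ a (kap x.1)) (ν τ a (kap x.1)) = _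
  rw [h.nh τ hτ a _ h1, inner_sub_left, real_inner_smul_left, h.bh τ hτ a _ h1, mul_zero, sub_zero]

/-- Two different sheets are never nearly active at the same point. -/
theorem sheet_eq {τ : T} (hA : Adm (ε τ) (R τ) (M τ) (b τ)) {x : (ℝ × P) × V} (hx : x.1 ≠ 0)
    {a a' : A} (h1 : ‖x.2 - ‖x.1‖ • b τ a (kap x.1)‖ < 2 * ε τ * ‖x.1‖)
    (h2 : ‖x.2 - ‖x.1‖ • b τ a' (kap x.1)‖ < 2 * ε τ * ‖x.1‖) : a = a' := by
  by_contra hne
  have hg : 0 < ‖x.1‖ := norm_pos_iff.mpr hx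
  have h3 := hA.hd a a' hne _ (kap_mem x.1)
  have h4 : ‖x.1‖ * ‖b τ a (kap x.1) - b τ a' (kap x.1)‖ =
      ‖(x.2 - ‖x.1‖ • b τ a' (kap x.1)) - (x.2 - ‖x.1‖ • b τ a (kap x.1))‖ := by
    have : (x.2 - ‖x.1‖ • b τ a' (kap x.1)) - (x.2 - ‖x.1‖ • b τ a (kap x.1)) =
        ‖x.1‖ • (b τ a (kap x.1) - b τ a' (kap x.1)) := by
      rw [smul_sub]; abel
    rw [this, norm_smul, norm_norm]
  have h5 := norm_sub_le (x.2 - ‖x.1‖ • b τ a' (kap x.1)) (x.2 - ‖x.1‖ • b τ a (kap x.1))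
  rw [← h4] at h5
  have h6 : ‖x.1‖ * (4 * ε τ) ≤ ‖x.1‖ * ‖b τ a (kap x.1) - b τ a' (kap x.1)‖ :=
    mul_le_mul_of_nonneg_left h3 hg.le
  linarith

/-- **The global conditions.** -/
theorem nplates_base (h : BFam s e b ν) (he : ‖e‖ = 1) (hε : ContinuousOn ε s)
    (hR : ContinuousOn R s) (hM : ContinuousOn M s)
    (hA : ∀ t ∈ s, Adm (ε t) (R t) (M t) (b t)) (hη : 0 < η) (hηε : ∀ t ∈ s, η ≤ ε t) :
    (nplates e ε R M b ν).Base s η (fun x => ‖x.1‖) where
  hη := hη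
  cN := by fun_prop
  nN := fun x => norm_nonneg _
  hN := fun k hk x => by rw [Prod.smul_fst, norm_smul, Real.norm_eq_abs, abs_of_nonneg hk]
  cw := by
    have c2 : ContinuousOn (fun p : T × ((ℝ × P) × V) => p.2.2) (s ×ˢ univ) := by fun_prop
    rintro (_ | a)
    · exact c2
    · exact c2.sub (continuousOn_centre (f := fun q => b q.1 a q.2) (h.cb a) hR
        (fun t ht x hx => by
          have h1 := (hA t ht).hb a x hx
          have h2 := (hA t ht).hε
          show ‖b t a x‖ ≤ R t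
          linarith))
  cr := by
    have c1 : ContinuousOn (fun p : T × ((ℝ × P) × V) => ‖p.2.1‖) (s ×ˢ univ) := by fun_prop
    have c2 : ∀ {f : T → ℝ}, ContinuousOn f s →
        ContinuousOn (fun p : T × ((ℝ × P) × V) => f p.1) (s ×ˢ univ) := fun hf =>
      hf.comp continuousOn_fst (fun p hp => hp.1)
    rintro (_ | a)
    · exact (c2 hR).mul c1
    · exact (c2 hε).mul c1
  cs := by
    have c2 : ∀ {f : T → ℝ}, ContinuousOn f s →
        ContinuousOn (fun p : T × ((ℝ × P) × V) => f p.1) (s ×ˢ univ) := fun hf =>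
      hf.comp continuousOn_fst (fun p hp => hp.1)
    rintro (_ | a)
    · have c1 : ContinuousOn (fun p : T × ((ℝ × P) × V) => ‖p.2.1.2‖ - |p.2.1.1|)
        (s ×ˢ univ) := by fun_prop
      exact (c2 hM).mul c1
    · have c1 : ContinuousOn (fun p : T × ((ℝ × P) × V) => p.2.1.1 - ‖p.2.1.2‖ / 2)
        (s ×ˢ univ) := by fun_prop
      exact (c2 hM).mul c1
  cn := by
    rintro (_ | a)
    · exact continuousOn_const
    · rintro ⟨τ₀, x₀⟩ ⟨hτ₀, hx₀⟩
      exact cwa_data (f := fun q => ν q.1 a q.2) (h.cn a) _ hτ₀ (norm_ne_zero_iff.mp hx₀)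
  hw := by
    rintro τ hτ (_ | a) k hk x
    · rfl
    · show (k • x).2 - ‖(k • x).1‖ • b τ a (kap (k • x).1) =
        k • (x.2 - ‖x.1‖ • b τ a (kap x.1))
      rcases hk.eq_or_lt with rfl | hk'
      · simp
      · rw [Prod.smul_fst, Prod.smul_snd, kap_smul hk', norm_smul, Real.norm_eq_abs,
          abs_of_nonneg hk, smul_sub, smul_smul]
  hr := by
    rintro τ hτ (_ | a) k hk x
    · show R τ * ‖(k • x).1‖ = k * (R τ * ‖x.1‖)
      rw [Prod.smul_fst, norm_smul, Real.norm_eq_abs, abs_of_nonneg hk]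
      ring
    · show ε τ * ‖(k • x).1‖ = k * (ε τ * ‖x.1‖)
      rw [Prod.smul_fst, norm_smul, Real.norm_eq_abs, abs_of_nonneg hk]
      ring
  hs := by
    rintro τ hτ (_ | a) k hk x
    · show M τ * (‖(k • x).1.2‖ - |(k • x).1.1|) = k * (M τ * (‖x.1.2‖ - |x.1.1|))
      rw [Prod.smul_fst, Prod.smul_fst, Prod.smul_snd, norm_smul, Real.norm_eq_abs, smul_eq_mul,
        abs_mul, abs_of_nonneg hk]
      ring
    · show M τ * ((k • x).1.1 - ‖(k • x).1.2‖ / 2) = k * (M τ * (x.1.1 - ‖x.1.2‖ / 2))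
      rw [Prod.smul_fst, Prod.smul_fst, Prod.smul_snd, norm_smul, Real.norm_eq_abs, smul_eq_mul,
        abs_of_nonneg hk]
      ring
  hn := by
    rintro τ hτ (_ | a) k hk x
    · rfl
    · show ν τ a (kap (k • x).1) = ν τ a (kap x.1)
      rw [Prod.smul_fst, kap_smul hk]
  nn := by
    rintro τ hτ (_ | a) x hx
    · exact he
    · exact h.nn τ hτ a _ (kap_mem _)
  neg := by
    intro τ hτ a x hx hN
    have h1 : x.1 = 0 := norm_eq_zero.mp hN
    have h2 : x.2 ≠ 0 := fun h2 => hx (Prod.ext h1 h2)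
    have h3 : 0 < ‖x.2‖ := norm_pos_iff.mpr h2
    refine lt_of_le_of_lt (min_le_left _ _) ?_
    rcases a with _ | a
    · show R τ * ‖x.1‖ - ‖x.2‖ < 0
      rw [h1, norm_zero]
      linarith
    · show ε τ * ‖x.1‖ - ‖x.2 - ‖x.1‖ • b τ a (kap x.1)‖ < 0
      rw [h1, norm_zero, zero_smul, sub_zero]
      linarith
  sep := by
    intro τ hτ x hN a a' h1 h2
    have hs : x.1 ≠ 0 := norm_ne_zero_iff.mp hN
    have hg : 0 < ‖x.1‖ := norm_pos_iff.mpr hs
    have hAt := hA τ hτ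
    have hMp : 0 < M τ := by linarith [hAt.hM, hAt.hε, hAt.hR]
    have hη8 : 8 * η ≤ M τ := by linarith [hAt.hM, hAt.hε, hAt.hR, hηε τ hτ]
    have hcol : ∀ {a : Option A}, a = none →
        -η * ‖x.1‖ < (nplates e ε R M b ν).rho τ a x → |x.1.1| < 2 * ‖x.1.2‖ ∧ x.1.2 ≠ 0 := by
      rintro a rfl h3
      exact collar hs hMp hη8 (lt_of_lt_of_le h3 (min_le_right _ _))
    have hsh : ∀ {a : A}, -η * ‖x.1‖ < (nplates e ε R M b ν).rho τ (some a) x →
        ‖x.2 - ‖x.1‖ • b τ a (kap x.1)‖ < 2 * ε τ * ‖x.1‖ := by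
      intro a h3
      have h4 : -η * ‖x.1‖ < ε τ * ‖x.1‖ - ‖x.2 - ‖x.1‖ • b τ a (kap x.1)‖ :=
        lt_of_lt_of_le h3 (min_le_left _ _)
      have h5 : η * ‖x.1‖ ≤ ε τ * ‖x.1‖ := mul_le_mul_of_nonneg_right (hηε τ hτ) hg.le
      linarith
    rcases a with _ | a <;> rcases a' with _ | a'
    · rfl
    · obtain ⟨h3, h4⟩ := hcol rfl h1
      rw [be_some_collar h hτ h3 h4]
      rfl
    · obtain ⟨h3, h4⟩ := hcol rfl h2
      rw [be_some_collar h hτ h3 h4]
      rfl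
    · rw [sheet_eq hAt hs (hsh h1) (hsh h2)]

/-- **The local conditions at the points of real part zero.** -/
theorem nplates_loc0 (h : BFam s e b ν) (hR : ContinuousOn R s) (hM : ContinuousOn M s)
    (hA : ∀ t ∈ s, Adm (ε t) (R t) (M t) (b t)) {τ₀ : T} (hτ₀ : τ₀ ∈ s) {x₀ : (ℝ × P) × V}
    (hN : ‖x₀.1‖ ≠ 0) (h0 : gre (nplates e ε R M b ν).rho τ₀ x₀ = 0) :
    ∃ (D : V →L[ℝ] (ℝ × P) × V) (u : (ℝ × P) × V) (L : ℝ),
      (nplates e ε R M b ν).Loc0 s τ₀ x₀ D u L := by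
  have hs : x₀.1 ≠ 0 := norm_ne_zero_iff.mp hN
  have hg : 0 < ‖x₀.1‖ := norm_pos_iff.mpr hs
  have hA0 := hA τ₀ hτ₀
  have hR0 : 0 < R τ₀ := by linarith [hA0.hε, hA0.hR]
  have hM0 : 0 < M τ₀ := by linarith [hA0.hM]
  -- an active sheet
  have F1 : ∀ a, (nplates e ε R M b ν).rho τ₀ (some a) x₀ =
      gre (nplates e ε R M b ν).rho τ₀ x₀ → 0 < (nplates e ε R M b ν).σ τ₀ (some a) x₀ ∧
        (nplates e ε R M b ν).tp τ₀ (some a) x₀ = 0 ∧
        0 < (nplates e ε R M b ν).tp τ₀ none x₀ := by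
    intro a ha
    rw [h0] at ha
    have h1 : 0 ≤ ε τ₀ * ‖x₀.1‖ - ‖x₀.2 - ‖x₀.1‖ • b τ₀ a (kap x₀.1)‖ :=
      ha.ge.trans (min_le_left _ _)
    have h2 : 0 ≤ M τ₀ * (x₀.1.1 - ‖x₀.1.2‖ / 2) := ha.ge.trans (min_le_right _ _)
    have h3 : 0 ≤ x₀.1.1 - ‖x₀.1.2‖ / 2 := nonneg_of_mul_nonneg_right h2 hM0
    have h4 : ‖x₀.2‖ < R τ₀ * ‖x₀.1‖ := by
      have h5 : ‖x₀.2‖ ≤ ‖x₀.2 - ‖x₀.1‖ • b τ₀ a (kap x₀.1)‖ + ‖‖x₀.1‖ • b τ₀ a (kap x₀.1)‖ := by
        have := norm_add_le (x₀.2 - ‖x₀.1‖ • b τ₀ a (kap x₀.1)) (‖x₀.1‖ • b τ₀ a (kap x₀.1))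
        rwa [sub_add_cancel] at this
      rw [norm_smul, norm_norm] at h5
      have h6 := hA0.hb a _ (kap_mem x₀.1)
      have h7 : ‖x₀.1‖ * (‖b τ₀ a (kap x₀.1)‖ + 2 * ε τ₀) < ‖x₀.1‖ * R τ₀ :=
        mul_lt_mul_of_pos_left h6 hg
      have h8 : 0 < ‖x₀.1‖ * ε τ₀ := mul_pos hg hA0.hε
      linarith
    have h5 : 0 < R τ₀ * ‖x₀.1‖ - ‖x₀.2‖ := by linarith
    have h6 : (nplates e ε R M b ν).rho τ₀ none x₀ ≤ 0 := by
      have := gre_ge (rho := (nplates e ε R M b ν).rho) τ₀ none x₀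
      rwa [h0] at this
    have h7 : M τ₀ * (‖x₀.1.2‖ - |x₀.1.1|) ≤ 0 := by
      rcases min_le_iff.mp h6 with h8 | h8
      · exact absurd h5 (not_lt.mpr h8)
      · exact h8
    have h8 : ‖x₀.1.2‖ ≤ |x₀.1.1| := by
      by_contra h9
      have := mul_pos hM0 (sub_pos.mpr (not_le.mp h9))
      linarith
    have hu0 : 0 ≤ x₀.1.1 := by linarith [norm_nonneg x₀.1.2]
    rw [abs_of_nonneg hu0] at h8
    have hg2 : ‖x₀.1‖ = x₀.1.1 := by
      rw [norm_base, abs_of_nonneg hu0, max_eq_left h8]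
    have h9 : 0 < M τ₀ * (x₀.1.1 - ‖x₀.1.2‖ / 2) := by
      refine mul_pos hM0 ?_
      rw [hg2] at hg
      linarith
    refine ⟨h9, ?_, h5⟩
    rcases min_choice (ε τ₀ * ‖x₀.1‖ - ‖x₀.2 - ‖x₀.1‖ • b τ₀ a (kap x₀.1)‖)
      (M τ₀ * (x₀.1.1 - ‖x₀.1.2‖ / 2)) with h10 | h10
    · exact h10.symm.trans ha
    · have h11 : M τ₀ * (x₀.1.1 - ‖x₀.1.2‖ / 2) = 0 := h10.symm.trans ha
      linarith
  -- the slab is active
  have F2 : (nplates e ε R M b ν).rho τ₀ none x₀ = gre (nplates e ε R M b ν).rho τ₀ x₀ →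
      |x₀.1.1| < 2 * ‖x₀.1.2‖ ∧ x₀.1.2 ≠ 0 := by
    intro ha
    rw [h0] at ha
    have h2 : 0 ≤ M τ₀ * (‖x₀.1.2‖ - |x₀.1.1|) := ha.ge.trans (min_le_right _ _)
    refine collar hs hM0 (η := ε τ₀) (by linarith [hA0.hM, hA0.hR, hA0.hε]) ?_
    have := mul_pos hA0.hε hg
    linarith
  have F2' : (nplates e ε R M b ν).rho τ₀ none x₀ = gre (nplates e ε R M b ν).rho τ₀ x₀ →
      ∀ a, (nplates e ε R M b ν).ν τ₀ (some a) x₀ = e := by
    intro ha a
    obtain ⟨h1, h2⟩ := F2 ha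
    exact h.nh τ₀ hτ₀ a _ (norm_kap_of_le h1.le h2)
  have F3 : ∀ a a', (nplates e ε R M b ν).rho τ₀ (some a) x₀ =
      gre (nplates e ε R M b ν).rho τ₀ x₀ → (nplates e ε R M b ν).rho τ₀ (some a') x₀ =
      gre (nplates e ε R M b ν).rho τ₀ x₀ → a = a' := by
    intro a a' ha ha'
    have key : ∀ a, (nplates e ε R M b ν).rho τ₀ (some a) x₀ =
        gre (nplates e ε R M b ν).rho τ₀ x₀ →
        ‖x₀.2 - ‖x₀.1‖ • b τ₀ a (kap x₀.1)‖ < 2 * ε τ₀ * ‖x₀.1‖ := by
      intro a ha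
      have h1 : ε τ₀ * ‖x₀.1‖ - ‖x₀.2 - ‖x₀.1‖ • b τ₀ a (kap x₀.1)‖ = 0 := (F1 a ha).2.1
      have := mul_pos hA0.hε hg
      linarith
    exact sheet_eq hA0 hs (key a ha) (key a' ha')
  have hν : ∀ a a', (nplates e ε R M b ν).rho τ₀ a x₀ =
      gre (nplates e ε R M b ν).rho τ₀ x₀ → (nplates e ε R M b ν).rho τ₀ a' x₀ =
      gre (nplates e ε R M b ν).rho τ₀ x₀ →
      (nplates e ε R M b ν).ν τ₀ a x₀ = (nplates e ε R M b ν).ν τ₀ a' x₀ := by
    rintro (_ | a) (_ | a') ha ha'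
    · rfl
    · exact (F2' ha a').symm
    · exact F2' ha' a
    · rw [F3 a a' ha ha']
  have hrim : gre (nplates e ε R M b ν).rho τ₀ x₀ = 0 → ∀ a a',
      (nplates e ε R M b ν).rho τ₀ a x₀ = 0 → (nplates e ε R M b ν).rho τ₀ a' x₀ = 0 →
      (nplates e ε R M b ν).tp τ₀ a x₀ = 0 → (nplates e ε R M b ν).tp τ₀ a' x₀ = 0 →
      ‖(nplates e ε R M b ν).w τ₀ a' x₀‖ • (nplates e ε R M b ν).w τ₀ a x₀ =
        ‖(nplates e ε R M b ν).w τ₀ a x₀‖ • (nplates e ε R M b ν).w τ₀ a' x₀ := by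
    rintro _ (_ | a) (_ | a') ha ha' ht ht'
    · rfl
    · have := (F1 a' (ha'.trans h0.symm)).2.2
      rw [ht] at this
      exact absurd this (lt_irrefl _)
    · have := (F1 a (ha.trans h0.symm)).2.2
      rw [ht'] at this
      exact absurd this (lt_irrefl _)
    · rw [F3 a a' (ha.trans h0.symm) (ha'.trans h0.symm)]
  have hrpos : ∀ a, (nplates e ε R M b ν).rho τ₀ a x₀ =
      gre (nplates e ε R M b ν).rho τ₀ x₀ → 0 < (nplates e ε R M b ν).r τ₀ a x₀ := by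
    rintro (_ | a) _
    · exact mul_pos hR0 hg
    · exact mul_pos hA0.hε hg
  by_cases hfr : |x₀.1.1| = ‖x₀.1.2‖
  · -- the front of the slab
    have hp0 : 0 < ‖x₀.1.2‖ := by
      rw [norm_base, hfr, max_self] at hg
      exact hg
    obtain ⟨sg, hsg, hsg1, hsg2⟩ : ∃ sg : ℝ, sg * sg = 1 ∧ |sg| = 1 ∧ 0 < sg * x₀.1.1 := by
      rcases lt_or_ge 0 x₀.1.1 with h1 | h1
      · exact ⟨1, by norm_num, by norm_num, by simpa using h1⟩
      · refine ⟨-1, by norm_num, by norm_num, ?_⟩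
        have : x₀.1.1 ≠ 0 := by
          intro h2
          rw [h2, abs_zero] at hfr
          linarith
        have := lt_of_le_of_ne h1 this
        linarith
    set lam : ℝ := 1 / (12 * R τ₀) with hlam
    have hlam0 : 0 < lam := by positivity
    have hlamR : lam * (12 * R τ₀) = 1 := by rw [hlam]; field_simp
    refine ⟨ContinuousLinearMap.inr ℝ (ℝ × P) V, ((-(sg * lam), 0), 0), lam * (M τ₀ + 1),
      hν, hrim, hrpos, fun κ hκ => ?_⟩
    let U : Set ((ℝ × P) × V) := {y | |y.1.1| < 2 * ‖y.1.2‖ ∧ 0 < sg * y.1.1}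
    have hU : U ∈ 𝓝 x₀ := by
      refine IsOpen.mem_nhds ?_ ⟨by rw [hfr]; linarith, hsg2⟩
      have c1 : Continuous fun y : (ℝ × P) × V => |y.1.1| := by fun_prop
      have c2 : Continuous fun y : (ℝ × P) × V => 2 * ‖y.1.2‖ := by fun_prop
      have c3 : Continuous fun y : (ℝ × P) × V => sg * y.1.1 := by fun_prop
      exact (isOpen_lt c1 c2).inter (isOpen_lt continuous_const c3)
    have eR : ∀ᶠ τ in 𝓝[s] τ₀, R τ < 3 / 2 * R τ₀ :=
      (hR τ₀ hτ₀).eventually (gt_mem_nhds (by linarith))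
    have eM : ∀ᶠ τ in 𝓝[s] τ₀, 12 * R τ₀ < M τ :=
      (hM τ₀ hτ₀).eventually (lt_mem_nhds (by linarith [hA0.hM]))
    have eM' : ∀ᶠ τ in 𝓝[s] τ₀, M τ < M τ₀ + 1 :=
      (hM τ₀ hτ₀).eventually (gt_mem_nhds (by linarith))
    refine ⟨U, hU, ?_⟩
    filter_upwards [eR, eM, eM', self_mem_nhdsWithin] with τ e1 e2 e3 hτ y hy v l hy' a ha
    have hAτ := hA τ hτ
    have hRτ : 0 < R τ := by linarith [hAτ.hε, hAτ.hR]
    have hMτ : 0 < M τ := by linarith [hAτ.hM]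
    have hy1 : y + (ContinuousLinearMap.inr ℝ (ℝ × P) V v + l • ((-(sg * lam), (0 : P)), (0 : V))) =
        ((y.1.1 - l * (sg * lam), y.1.2), y.2 + v) := by
      refine Prod.ext (Prod.ext ?_ ?_) ?_
      · simp; ring
      · simp
      · simp
    rw [hy1] at hy' ⊢
    have hya : |y.1.1 - l * (sg * lam)| = |y.1.1| - l * lam := by
      have h1 : |y.1.1| = sg * y.1.1 := by
        have h2 := abs_of_pos hy.2
        rw [abs_mul, hsg1, one_mul] at h2
        exact h2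
      have h3 : 0 < sg * (y.1.1 - l * (sg * lam)) := hy'.2
      have h4 := abs_of_pos h3
      rw [abs_mul, hsg1, one_mul] at h4
      rw [h4, h1]
      have : sg * (y.1.1 - l * (sg * lam)) = sg * y.1.1 - (sg * sg) * (l * lam) := by ring
      rw [this, hsg, one_mul]
    have hkap : kap (y.1.1 - l * (sg * lam), y.1.2) = kap y.1 := by
      rw [kap_of_le hy'.1.le, kap_of_le hy.1.le]
    have hng : |‖(y.1.1 - l * (sg * lam), y.1.2)‖ - ‖y.1‖| ≤ lam * |l| := by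
      refine (abs_norm_sub_norm_le _ _).trans ?_
      have : (y.1.1 - l * (sg * lam), y.1.2) - y.1 = (-(l * (sg * lam)), 0) := by
        refine Prod.ext ?_ ?_
        · show y.1.1 - l * (sg * lam) - y.1.1 = _
          ring
        · exact sub_self _
      rw [this, norm_base]
      show max |-(l * (sg * lam))| ‖(0 : P)‖ ≤ _
      rw [norm_zero, abs_neg, abs_mul, abs_mul, hsg1, one_mul, abs_of_pos hlam0]
      refine max_le (le_of_eq (mul_comm _ _)) (by positivity)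
    have hκv : 0 ≤ κ * ‖v‖ := by positivity
    have hl := abs_nonneg l
    have hRl : R τ * (lam * |l|) ≤ |l| / 8 := by
      have h1 : R τ * lam ≤ 1 / 8 := by
        have h2 : R τ * lam ≤ 3 / 2 * R τ₀ * lam := mul_le_mul_of_nonneg_right e1.le hlam0.le
        linarith
      calc R τ * (lam * |l|) = R τ * lam * |l| := by ring
        _ ≤ 1 / 8 * |l| := mul_le_mul_of_nonneg_right h1 hl
        _ = _ := by ring
    have hMl : M τ * lam ≤ lam * (M τ₀ + 1) := by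
      rw [mul_comm]
      exact mul_le_mul_of_nonneg_left e3.le hlam0.le
    have hMl' : 1 ≤ M τ * lam := by
      have h2 : 12 * R τ₀ * lam ≤ M τ * lam := mul_le_mul_of_nonneg_right e2.le hlam0.le
      linarith
    rcases a with _ | a
    · refine ⟨?_, ?_, ?_, ?_, ?_⟩
      · show ‖y.2 + v - y.2 - v‖ ≤ _
        have : y.2 + v - y.2 - v = 0 := by abel
        rw [this, norm_zero]
        positivity
      · show |R τ * ‖(y.1.1 - l * (sg * lam), y.1.2)‖ - R τ * ‖y.1‖| ≤ _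
        rw [← mul_sub, abs_mul, abs_of_pos hRτ]
        have := mul_le_mul_of_nonneg_left hng hRτ.le
        linarith
      · show _ * ‖e - e‖ ≤ _
        rw [sub_self, norm_zero, mul_zero]
        positivity
      · show |M τ * (‖y.1.2‖ - |y.1.1 - l * (sg * lam)|) - M τ * (‖y.1.2‖ - |y.1.1|)| ≤ _
        rw [hya]
        have : M τ * (‖y.1.2‖ - (|y.1.1| - l * lam)) - M τ * (‖y.1.2‖ - |y.1.1|) =
          M τ * lam * l := by ring
        rw [this, abs_mul, abs_of_pos (mul_pos hMτ hlam0)]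
        have := mul_le_mul_of_nonneg_right hMl hl
        linarith
      · intro _
        show l ^ 2 ≤ l * (M τ * (‖y.1.2‖ - |y.1.1 - l * (sg * lam)|) -
          M τ * (‖y.1.2‖ - |y.1.1|)) + _
        rw [hya]
        have : l * (M τ * (‖y.1.2‖ - (|y.1.1| - l * lam)) - M τ * (‖y.1.2‖ - |y.1.1|)) =
          M τ * lam * l ^ 2 := by ring
        rw [this]
        have h3 : 1 * l ^ 2 ≤ M τ * lam * l ^ 2 := mul_le_mul_of_nonneg_right hMl' (sq_nonneg _)
        have h4 : 0 ≤ κ * ‖v‖ * |l| := by positivity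
        linarith
    · refine ⟨?_, ?_, ?_, ?_, ?_⟩
      · show ‖y.2 + v - ‖(y.1.1 - l * (sg * lam), y.1.2)‖ •
          b τ a (kap (y.1.1 - l * (sg * lam), y.1.2)) - (y.2 - ‖y.1‖ • b τ a (kap y.1)) - v‖ ≤ _
        rw [hkap]
        have : y.2 + v - ‖(y.1.1 - l * (sg * lam), y.1.2)‖ • b τ a (kap y.1) -
            (y.2 - ‖y.1‖ • b τ a (kap y.1)) - v =
            -((‖(y.1.1 - l * (sg * lam), y.1.2)‖ - ‖y.1‖) • b τ a (kap y.1)) := by
          rw [sub_smul]; abel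
        rw [this, norm_neg, norm_smul, Real.norm_eq_abs]
        have h1 : ‖b τ a (kap y.1)‖ ≤ R τ := by
          linarith [hAτ.hb a _ (kap_mem y.1), hAτ.hε]
        have h2 := mul_le_mul hng h1 (norm_nonneg _) (by positivity)
        have h3 : lam * |l| * R τ = R τ * (lam * |l|) := by ring
        linarith
      · show |ε τ * ‖(y.1.1 - l * (sg * lam), y.1.2)‖ - ε τ * ‖y.1‖| ≤ _
        rw [← mul_sub, abs_mul, abs_of_pos hAτ.hε]
        have h1 := mul_le_mul_of_nonneg_left hng hAτ.hε.le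
        have h2 : ε τ * (lam * |l|) ≤ R τ * (lam * |l|) :=
          mul_le_mul_of_nonneg_right hAτ.hR (by positivity)
        linarith
      · show _ * ‖ν τ a (kap (y.1.1 - l * (sg * lam), y.1.2)) - ν τ a (kap y.1)‖ ≤ _
        rw [hkap, sub_self, norm_zero, mul_zero]
        positivity
      · show |M τ * (y.1.1 - l * (sg * lam) - ‖y.1.2‖ / 2) - M τ * (y.1.1 - ‖y.1.2‖ / 2)| ≤ _
        have : M τ * (y.1.1 - l * (sg * lam) - ‖y.1.2‖ / 2) - M τ * (y.1.1 - ‖y.1.2‖ / 2) =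
          -(M τ * lam * (l * sg)) := by ring
        rw [this, abs_neg, abs_mul, abs_of_pos (mul_pos hMτ hlam0), abs_mul, hsg1, mul_one]
        have := mul_le_mul_of_nonneg_right hMl hl
        linarith
      · intro h1
        have := (F1 a ha).1
        rw [h1] at this
        exact absurd this (lt_irrefl _)
  · -- away from the front: fibre directions
    refine ⟨ContinuousLinearMap.inr ℝ (ℝ × P) V, 0, 0, hν, hrim, hrpos, fun κ hκ => ?_⟩
    refine ⟨univ, univ_mem, Eventually.of_forall fun τ y _ v l _ a ha => ?_⟩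
    have hy1 : y + (ContinuousLinearMap.inr ℝ (ℝ × P) V v + l • (0 : (ℝ × P) × V)) =
        (y.1, y.2 + v) := by
      refine Prod.ext ?_ ?_
      · simp
      · simp
    rw [hy1]
    have hκv : 0 ≤ κ * ‖v‖ := by positivity
    have hl := abs_nonneg l
    rcases a with _ | a
    · refine ⟨?_, ?_, ?_, ?_, ?_⟩
      · show ‖y.2 + v - y.2 - v‖ ≤ _
        have : y.2 + v - y.2 - v = 0 := by abel
        rw [this, norm_zero]
        positivity
      · show |R τ * ‖y.1‖ - R τ * ‖y.1‖| ≤ _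
        rw [sub_self, abs_zero]
        positivity
      · show _ * ‖e - e‖ ≤ _
        rw [sub_self, norm_zero, mul_zero]
        positivity
      · show |M τ * (‖y.1.2‖ - |y.1.1|) - M τ * (‖y.1.2‖ - |y.1.1|)| ≤ _
        rw [sub_self, abs_zero]
        positivity
      · intro h1
        exfalso
        have h2 : M τ₀ * (‖x₀.1.2‖ - |x₀.1.1|) = 0 := h1
        rcases mul_eq_zero.mp h2 with h3 | h3
        · exact hM0.ne' h3
        · exact hfr (by linarith)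
    · refine ⟨?_, ?_, ?_, ?_, ?_⟩
      · show ‖y.2 + v - ‖y.1‖ • b τ a (kap y.1) - (y.2 - ‖y.1‖ • b τ a (kap y.1)) - v‖ ≤ _
        have : y.2 + v - ‖y.1‖ • b τ a (kap y.1) - (y.2 - ‖y.1‖ • b τ a (kap y.1)) - v = 0 := by
          abel
        rw [this, norm_zero]
        positivity
      · show |ε τ * ‖y.1‖ - ε τ * ‖y.1‖| ≤ _
        rw [sub_self, abs_zero]
        positivity
      · show _ * ‖ν τ a (kap y.1) - ν τ a (kap y.1)‖ ≤ _
        rw [sub_self, norm_zero, mul_zero]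
        positivity
      · show |M τ * (y.1.1 - ‖y.1.2‖ / 2) - M τ * (y.1.1 - ‖y.1.2‖ / 2)| ≤ _
        rw [sub_self, abs_zero]
        positivity
      · intro h1
        have := (F1 a ha).1
        rw [h1] at this
        exact absurd this (lt_irrefl _)

/-- **A continuous family of data, with admissible parameters, gives a family of class `R`.** -/
theorem nplates_rfam (h : BFam s e b ν) (he : ‖e‖ = 1) (hε : ContinuousOn ε s)
    (hR : ContinuousOn R s) (hM : ContinuousOn M s)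
    (hA : ∀ t ∈ s, Adm (ε t) (R t) (M t) (b t)) (hη : 0 < η) (hηε : ∀ t ∈ s, η ≤ ε t) :
    RFam s ((nplates e ε R M b ν).fn η (fun x => ‖x.1‖)) :=
  (nplates_base h he hε hR hM hA hη hηε).rfam fun _ hτ₀ _ _ hN _ h0 =>
    nplates_loc0 h hR hM hA hτ₀ hN h0

end Fam

/-! ### The gluing constant does not matter for the zeros -/

theorem gfn_eq_zero_iff {E : Type*} [NormedAddCommGroup E] [NormedSpace ℝ E] [Fintype A]
    [Nonempty A] {s : Set T} {η : ℝ} {N : E → ℝ} {rho be : T → A → E → ℝ}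
    (h : Glue s η N rho be) {τ : T} (hτ : τ ∈ s) {x : E} (hx : x ≠ 0) :
    gfn η N rho be τ x = 0 ↔ gre rho τ x = 0 ∧ ∃ a, rho τ a x = 0 ∧ be τ a x = 0 := by
  have key : ∀ a, rho τ a x = 0 → gre rho τ x = 0 → gim η N rho be τ x = be τ a x := by
    intro a ha h0
    have hN := h.N_ne hτ hx h0.ge
    have hn : 0 < N x := lt_of_le_of_ne (h.nN x) (Ne.symm hN)
    have hη := h.hη
    have h3 : 0 < η / 2 * N x := by positivity
    exact h.im_eq hτ hN (a := a) (by rw [ha]; linarith)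
  constructor
  · intro h0
    have h1 : gre rho τ x = 0 := congrArg Complex.re h0
    have h2 : gim η N rho be τ x = 0 := congrArg Complex.im h0
    obtain ⟨a, ha⟩ := exists_gre rho τ x
    exact ⟨h1, a, ha.symm.trans h1, (key a (ha.symm.trans h1) h1).symm.trans h2⟩
  · rintro ⟨h1, a, ha, hb⟩
    exact Complex.ext h1 ((key a ha h1).trans hb)

theorem gfn_veq {E : Type*} [NormedAddCommGroup E] [NormedSpace ℝ E] [Fintype A]
    [Nonempty A] {s : Set T} {η : ℝ} {N : E → ℝ} {rho be : T → A → E → ℝ}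
    (h : Glue s η N rho be) {τ : T} (hτ : τ ∈ s)
    {T' : Type*} [TopologicalSpace T'] {s' : Set T'} {η' : ℝ} {rho' be' : T' → A → E → ℝ}
    (h' : Glue s' η' N rho' be') {τ' : T'} (hτ' : τ' ∈ s') (hr : rho τ = rho' τ')
    (hb : be τ = be' τ') : VEq (gfn η N rho be τ) (gfn η' N rho' be' τ') := by
  refine VEq.of_iff fun x => ?_
  by_cases hx : x = 0
  · rw [hx, (h.hom1 hτ).zero, (h'.hom1 hτ').zero]
  · rw [gfn_eq_zero_iff h hτ hx, gfn_eq_zero_iff h' hτ' hx]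
    unfold gre
    rw [hr, hb]

section Veq

variable [Fintype A] {s : Set T} {e : V} {ε R M : T → ℝ} {b ν : T → A → P → V} {η : ℝ}

theorem BFam.mono {s' : Set T} (hs : s' ⊆ s) (h : BFam s e b ν) : BFam s' e b ν where
  cb := fun a => (h.cb a).mono (prod_mono hs Subset.rfl)
  cn := fun a => (h.cn a).mono (prod_mono hs Subset.rfl)
  nn := fun t ht => h.nn t (hs ht)
  inj := fun t ht => h.inj t (hs ht)
  bh := fun t ht => h.bh t (hs ht)
  nh := fun t ht => h.nh t (hs ht)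

theorem BFam.param {T' : Type*} [TopologicalSpace T'] {s' : Set T'} {φ : T' → T}
    (hφ : ContinuousOn φ s') (hs : MapsTo φ s' s) (h : BFam s e b ν) :
    BFam s' e (fun t => b (φ t)) (fun t => ν (φ t)) where
  cb := fun a => by
    have h1 : ContinuousOn (fun q : T' × P => (φ q.1, q.2)) (s' ×ˢ closedBall 0 1) :=
      (hφ.comp continuousOn_fst (fun q hq => hq.1)).prodMk continuousOn_snd
    exact (h.cb a).comp h1 (fun q hq => ⟨hs hq.1, hq.2⟩)
  cn := fun a => by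
    have h1 : ContinuousOn (fun q : T' × P => (φ q.1, q.2)) (s' ×ˢ closedBall 0 1) :=
      (hφ.comp continuousOn_fst (fun q hq => hq.1)).prodMk continuousOn_snd
    exact (h.cn a).comp h1 (fun q hq => ⟨hs hq.1, hq.2⟩)
  nn := fun t ht => h.nn _ (hs ht)
  inj := fun t ht => h.inj _ (hs ht)
  bh := fun t ht => h.bh _ (hs ht)
  nh := fun t ht => h.nh _ (hs ht)

theorem BFam.at (h : BFam s e b ν) {t : T} (ht : t ∈ s) : BData e (b t) (ν t) :=
  BFam.param (φ := fun _ : Unit => t) continuousOn_const (fun _ _ => ht) h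

theorem BData.const {b ν : A → P → V} (h : BData e b ν) (s : Set T) :
    BFam s e (fun _ => b) (fun _ => ν) :=
  BFam.param (φ := fun _ : T => ()) continuousOn_const (fun _ _ => mem_univ _) h

theorem NN_base {b ν : A → P → V} (h : BData e b ν) (he : ‖e‖ = 1) {ε R M : ℝ}
    (hA : Adm ε R M b) :
    (nplates e (fun _ : Unit => ε) (fun _ => R) (fun _ => M) (fun _ => b) (fun _ => ν)).Base univ ε
      (fun x => ‖x.1‖) :=
  nplates_base h he continuousOn_const continuousOn_const continuousOn_const (fun _ _ => hA)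
    hA.hε (fun _ _ => le_rfl)

/-- The normal form is of class `R`. -/
theorem NN_rfam {b ν : A → P → V} (h : BData e b ν) (he : ‖e‖ = 1) {ε R M : ℝ}
    (hA : Adm ε R M b) : RFam (univ : Set Unit) (fun _ => NN e ε R M b ν) :=
  nplates_rfam h he (ε := fun _ => ε) (R := fun _ => R) (M := fun _ => M) continuousOn_const
    continuousOn_const continuousOn_const (fun _ _ => hA) hA.hε (fun _ _ => le_rfl)

/-- A member of a family is a normal form, as far as the zeros are concerned. -/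
theorem NN_veq_fn (h : BFam s e b ν) (he : ‖e‖ = 1) (hε : ContinuousOn ε s)
    (hR : ContinuousOn R s) (hM : ContinuousOn M s)
    (hA : ∀ t ∈ s, Adm (ε t) (R t) (M t) (b t)) (hη : 0 < η) (hηε : ∀ t ∈ s, η ≤ ε t) {t : T}
    (ht : t ∈ s) : VEq (NN e (ε t) (R t) (M t) (b t) (ν t))
      ((nplates e ε R M b ν).fn η (fun x => ‖x.1‖) t) :=
  gfn_veq (NN_base (h.at ht) he (hA t ht)).glue (mem_univ ())
    (nplates_base h he hε hR hM hA hη hηε).glue ht rfl rfl

/-- **Homotopies of data and parameters**. -/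
theorem NN_veq_fam [ProperSpace P] [ProperSpace V] (hs : IsPreconnected s) (h : BFam s e b ν)
    (he : ‖e‖ = 1) (hε : ContinuousOn ε s) (hR : ContinuousOn R s) (hM : ContinuousOn M s)
    (hA : ∀ t ∈ s, Adm (ε t) (R t) (M t) (b t)) (hη : 0 < η) (hηε : ∀ t ∈ s, η ≤ ε t) {t t' : T}
    (ht : t ∈ s) (ht' : t' ∈ s) : VEq (NN e (ε t) (R t) (M t) (b t) (ν t))
      (NN e (ε t') (R t') (M t') (b t') (ν t')) :=
  (NN_veq_fn h he hε hR hM hA hη hηε ht).trans
    (((nplates_rfam h he hε hR hM hA hη hηε).veq hs ht ht').trans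
      (NN_veq_fn h he hε hR hM hA hη hηε ht').symm)

theorem Adm.segment {b : A → P → V} {ε R M ε' R' M' : ℝ} (h : Adm ε R M b)
    (h' : Adm ε' R' M' b) {t : ℝ} (ht : t ∈ Icc (0 : ℝ) 1) :
    Adm ((1 - t) * ε + t * ε') ((1 - t) * R + t * R') ((1 - t) * M + t * M') b := by
  have h0 : 0 ≤ 1 - t := by linarith [ht.2]
  have h1 := ht.1
  have key : ∀ {x y x' y' : ℝ}, x ≤ y → x' ≤ y' →
      (1 - t) * x + t * x' ≤ (1 - t) * y + t * y' := fun hx hx' =>
    add_le_add (mul_le_mul_of_nonneg_left hx h0) (mul_le_mul_of_nonneg_left hx' h1)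
  have key' : ∀ {x y x' y' : ℝ}, x < y → x' < y' →
      (1 - t) * x + t * x' < (1 - t) * y + t * y' := fun {x y x' y'} hx hx' => by
    rcases h1.eq_or_lt with h2 | h2
    · rw [← h2]; linarith
    · have h3 := mul_le_mul_of_nonneg_left hx.le h0
      have h4 := mul_lt_mul_of_pos_left hx' h2
      linarith
  refine ⟨?_, key h.hR h'.hR, ?_, fun a x hx => ?_, fun a a' ha x hx => ?_⟩
  · have := key' h.hε h'.hε
    linarith
  · have := key h.hM h'.hM
    linarith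
  · have := key' (h.hb a x hx) (h'.hb a x hx)
    linarith
  · have := key (h.hd a a' ha x hx) (h'.hd a a' ha x hx)
    linarith

/-- **The normal form does not depend on the admissible parameters.** -/
theorem NN_veq_adm [ProperSpace P] [ProperSpace V] {b ν : A → P → V} (h : BData e b ν)
    (he : ‖e‖ = 1) {ε R M ε' R' M' : ℝ} (hA : Adm ε R M b) (hA' : Adm ε' R' M' b) :
    VEq (NN e ε R M b ν) (NN e ε' R' M' b ν) := by
  have hc : ∀ x y : ℝ, ContinuousOn (fun t : ℝ => (1 - t) * x + t * y) (Icc (0 : ℝ) 1) := by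
    intro x y
    fun_prop
  have h1 := NN_veq_fam (s := Icc (0 : ℝ) 1) (ε := fun t => (1 - t) * ε + t * ε')
    (R := fun t => (1 - t) * R + t * R') (M := fun t => (1 - t) * M + t * M')
    (η := min ε ε') isPreconnected_Icc (h.const (Icc (0 : ℝ) 1)) he (hc _ _) (hc _ _) (hc _ _)
    (fun t ht => hA.segment hA' ht) (lt_min hA.hε hA'.hε) (fun t ht => by
      have h0 : 0 ≤ 1 - t := by linarith [ht.2]
      have h1 := mul_le_mul_of_nonneg_left (min_le_left ε ε') h0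
      have h2 := mul_le_mul_of_nonneg_left (min_le_right ε ε') ht.1
      linarith) (left_mem_Icc.mpr zero_le_one) (right_mem_Icc.mpr zero_le_one)
  simpa using h1

/-- **Uniform admissible parameters** for a family over a compact set. -/
theorem exists_adm [ProperSpace P] (hs : IsCompact s) (h : BFam s e b ν) :
    ∃ ε₀ > 0, ∃ R₀ > 0, ∀ ε ∈ Ioc (0 : ℝ) ε₀, ∀ R ≥ R₀, ∀ M ≥ 16 * R, ∀ t ∈ s,
      Adm ε R M (b t) := by
  have hK : IsCompact (s ×ˢ closedBall (0 : P) 1) := hs.prod (isCompact_closedBall 0 1)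
  have h1 : ∀ a, ∃ C : ℝ, ∀ q ∈ s ×ˢ closedBall (0 : P) 1, ‖b q.1 a q.2‖ ≤ C := fun a =>
    hK.exists_bound_of_continuousOn (h.cb a)
  choose C hC using h1
  have h2 : ∀ i : A × A, ∃ δ : ℝ, 0 < δ ∧ (i.1 ≠ i.2 → ∀ q ∈ s ×ˢ closedBall (0 : P) 1,
      δ ≤ ‖b q.1 i.1 q.2 - b q.1 i.2 q.2‖) := by
    rintro ⟨a, a'⟩
    by_cases ha : a = a'
    · exact ⟨1, one_pos, fun h => absurd ha h⟩
    · obtain ⟨δ, h3, h4⟩ := hK.exists_forall_le' (((h.cb a).sub (h.cb a')).norm) (a := 0)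
        (fun q hq => norm_pos_iff.mpr (sub_ne_zero.mpr fun h5 => ha (h.inj q.1 hq.1 q.2 hq.2 h5)))
      exact ⟨δ, h3, fun _ q hq => h4 q hq⟩
  choose δ hδ0 hδ using h2
  obtain ⟨d, hd0, hd⟩ : ∃ d : ℝ, 0 < d ∧ ∀ i, d ≤ δ i := by
    have : ∀ S : Finset (A × A), ∃ d : ℝ, 0 < d ∧ ∀ i ∈ S, d ≤ δ i := by
      intro S
      classical
      induction S using Finset.induction_on with
      | empty => exact ⟨1, one_pos, by simp⟩
      | insert i S _ ih =>
        obtain ⟨d, h3, h4⟩ := ih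
        refine ⟨min d (δ i), lt_min h3 (hδ0 i), fun j hj => ?_⟩
        rcases Finset.mem_insert.mp hj with rfl | hj
        · exact min_le_right _ _
        · exact (min_le_left _ _).trans (h4 j hj)
    obtain ⟨d, h3, h4⟩ := this Finset.univ
    exact ⟨d, h3, fun i => h4 i (Finset.mem_univ i)⟩
  have hCs : ∀ a, C a ≤ ∑ a, |C a| := fun a => (le_abs_self _).trans
    (Finset.single_le_sum (f := fun a => |C a|) (fun a _ => abs_nonneg _) (Finset.mem_univ a))
  have hC0 : 0 ≤ ∑ a, |C a| := Finset.sum_nonneg fun a _ => abs_nonneg _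
  refine ⟨min 1 (d / 4), lt_min one_pos (by positivity), ∑ a, |C a| + 3, by positivity,
    fun ε hε R hR M hM t ht => ⟨hε.1, ?_, hM, fun a x hx => ?_, fun a a' ha x hx => ?_⟩⟩
  · linarith [hε.2, min_le_left 1 (d / 4)]
  · have h3 := hC a (t, x) ⟨ht, hx⟩
    have h4 := hCs a
    have h5 : ‖b t a x‖ ≤ C a := h3
    linarith [hε.2, min_le_left 1 (d / 4)]
  · have h3 : δ (a, a') ≤ ‖b t a x - b t a' x‖ := hδ (a, a') ha (t, x) ⟨ht, hx⟩
    have h4 := hd (a, a')
    linarith [hε.2, min_le_right 1 (d / 4)]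

end Veq

/-- **B5c: homotopies of data give equivalent normal forms.** -/
theorem NN_veq_of_homotopy [ProperSpace P] [ProperSpace V] [Fintype A] {e : V} (he : ‖e‖ = 1)
    {b ν : ℝ → A → P → V} (h : BFam (Icc (0 : ℝ) 1) e b ν) {ε R M ε' R' M' : ℝ}
    (h0 : Adm ε R M (b 0)) (h1 : Adm ε' R' M' (b 1)) :
    VEq (NN e ε R M (b 0) (ν 0)) (NN e ε' R' M' (b 1) (ν 1)) := by
  obtain ⟨ε₀, hε₀, R₀, hR₀, hA⟩ := exists_adm isCompact_Icc h
  have hA' : ∀ t ∈ Icc (0 : ℝ) 1, Adm ε₀ R₀ (16 * R₀) (b t) :=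
    hA ε₀ ⟨hε₀, le_rfl⟩ R₀ le_rfl _ le_rfl
  have l := left_mem_Icc.mpr (zero_le_one (α := ℝ))
  have r := right_mem_Icc.mpr (zero_le_one (α := ℝ))
  exact (NN_veq_adm (h.at l) he h0 (hA' 0 l)).trans
    ((NN_veq_fam (ε := fun _ => ε₀) (R := fun _ => R₀) (M := fun _ => 16 * R₀) isPreconnected_Icc h
      he continuousOn_const continuousOn_const continuousOn_const hA' hε₀ (fun _ _ => le_rfl) l
      r).trans (NN_veq_adm (h.at r) he (hA' 1 r) h1))

end Vale.Agent.P268.T
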