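import Vale.Agent.P268.T.PlatesD

/-!
# P268, topological half: the normal form `N(b)` (Delta form, flat annulus chart)

`E = (ℝ × P) × V`, base point `s = (u₀, p)`, gauge `‖s‖ = max |u₀| ‖p‖`.  The slab `none` is the
annulus `|u₀| < ‖p‖`, with page `⟪v, e⟫ = 0` and radius `R ‖s‖`; the sheet `some a` lives over
`u₀ > ‖p‖ / 2`, has centre `‖s‖ • b a (kap s)`, normal `ν a (kap s)` and radius `ε ‖s‖`.  Over
`|u₀| ≤ 2 ‖p‖` the point `kap s` is `p / ‖p‖`, in the unit sphere of `P`, where `b a` is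
perpendicular to `e` and `ν a = e`: the sheets are hidden in the slab for `u₀ ≤ ‖p‖`.

Data: `b a`, `ν a : P → V` on the closed unit ball `Q` of `P` (a cube, for `P = Fin n → ℝ`).
-/

set_option linter.unusedSectionVars false

namespace Vale.Agent.P268.T

open Set Filter Topology Metric

variable {T P V A : Type*} [TopologicalSpace T] [NormedAddCommGroup P] [NormedSpace ℝ P]
  [NormedAddCommGroup V] [InnerProductSpace ℝ V]

/-- The point of the unit ball of `P` belonging to a base point `s = (u₀, p)`. -/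
noncomputable def kap (s : ℝ × P) : P := (2 / max |s.1| (2 * ‖s.2‖)) • s.2

/-- The plates of the normal form, with parameters depending on `τ`. -/
noncomputable def nplates (e : V) (ε R M : T → ℝ) (b ν : T → A → P → V) :
    SheetData T ((ℝ × P) × V) V (Option A) where
  w τ a x := a.elim x.2 fun a => x.2 - ‖x.1‖ • b τ a (kap x.1)
  ν τ a x := a.elim e fun a => ν τ a (kap x.1)
  r τ a x := a.elim (R τ * ‖x.1‖) fun _ => ε τ * ‖x.1‖
  σ τ a x := a.elim (M τ * (‖x.1.2‖ - |x.1.1|)) fun _ => M τ * (x.1.1 - ‖x.1.2‖ / 2)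

/-- **The normal form `N(b)`**. -/
noncomputable def NN [Fintype A] (e : V) (ε R M : ℝ) (b ν : A → P → V) : (ℝ × P) × V → ℂ :=
  (nplates e (fun _ : Unit => ε) (fun _ => R) (fun _ => M) (fun _ => b) (fun _ => ν)).fn ε
    (fun x => ‖x.1‖) ()

/-- A continuous family (over `s`) of data of the normal form. -/
structure BFam (s : Set T) (e : V) (b ν : T → A → P → V) : Prop where
  cb : ∀ a, ContinuousOn (fun q : T × P => b q.1 a q.2) (s ×ˢ closedBall 0 1)
  cn : ∀ a, ContinuousOn (fun q : T × P => ν q.1 a q.2) (s ×ˢ closedBall 0 1)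
  nn : ∀ t ∈ s, ∀ a, ∀ x ∈ closedBall (0 : P) 1, ‖ν t a x‖ = 1
  inj : ∀ t ∈ s, ∀ x ∈ closedBall (0 : P) 1, Function.Injective fun a => b t a x
  bh : ∀ t ∈ s, ∀ a, ∀ x : P, ‖x‖ = 1 → inner ℝ (b t a x) e = 0
  nh : ∀ t ∈ s, ∀ a, ∀ x : P, ‖x‖ = 1 → ν t a x = e

/-- Data of one normal form. -/
def BData (e : V) (b ν : A → P → V) : Prop :=
  BFam (univ : Set Unit) e (fun _ => b) (fun _ => ν)

/-- Admissible parameters: `ε` small, `R`, `M` large. -/
structure Adm (ε R M : ℝ) (b : A → P → V) : Prop where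
  hε : 0 < ε
  hR : ε ≤ R
  hM : 16 * R ≤ M
  hb : ∀ a, ∀ x ∈ closedBall (0 : P) 1, ‖b a x‖ + 2 * ε < R
  hd : ∀ a a', a ≠ a' → ∀ x ∈ closedBall (0 : P) 1, 4 * ε ≤ ‖b a x - b a' x‖

/-! ### The chart map `kap` -/

theorem kap_den_pos {s : ℝ × P} (hs : s ≠ 0) : 0 < max |s.1| (2 * ‖s.2‖) := by
  by_contra h
  have h1 : |s.1| ≤ 0 := (le_max_left _ _).trans (not_lt.mp h)
  have h2 : 2 * ‖s.2‖ ≤ 0 := (le_max_right _ _).trans (not_lt.mp h)
  apply hs
  have h3 : s.1 = 0 := abs_nonpos_iff.mp h1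
  have h4 : s.2 = 0 := norm_le_zero_iff.mp (by linarith)
  exact Prod.ext h3 h4

theorem kap_mem (s : ℝ × P) : kap s ∈ closedBall (0 : P) 1 := by
  rw [mem_closedBall_zero_iff, kap, norm_smul, Real.norm_eq_abs]
  by_cases hs : s = 0
  · simp [hs]
  · have h := kap_den_pos hs
    rw [abs_of_pos (by positivity), div_mul_eq_mul_div, div_le_one h]
    exact le_max_right _ _

theorem norm_kap_le (s : ℝ × P) : ‖kap s‖ ≤ 1 := by
  have := kap_mem s
  rwa [mem_closedBall_zero_iff] at this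

theorem kap_of_le {s : ℝ × P} (h : |s.1| ≤ 2 * ‖s.2‖) : kap s = ‖s.2‖⁻¹ • s.2 := by
  rw [kap, max_eq_right h]
  congr 1
  rw [div_mul_eq_div_div, div_self two_ne_zero, one_div]

theorem norm_kap_of_le {s : ℝ × P} (h : |s.1| ≤ 2 * ‖s.2‖) (hp : s.2 ≠ 0) : ‖kap s‖ = 1 := by
  rw [kap_of_le h, norm_smul, norm_inv, norm_norm, inv_mul_cancel₀ (norm_ne_zero_iff.mpr hp)]

theorem kap_smul {k : ℝ} (hk : 0 < k) (s : ℝ × P) : kap (k • s) = kap s := by
  unfold kap
  rw [Prod.smul_fst, Prod.smul_snd, smul_smul, norm_smul, Real.norm_eq_abs, smul_eq_mul, abs_mul,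
    abs_of_pos hk]
  congr 1
  have e : max (k * |s.1|) (2 * (k * ‖s.2‖)) = k * max |s.1| (2 * ‖s.2‖) := by
    rw [mul_max_of_nonneg _ _ hk.le]
    congr 1
    ring
  rw [e, div_mul_eq_mul_div, mul_comm 2 k, mul_div_mul_left _ _ hk.ne']

theorem continuousAt_kap {s : ℝ × P} (hs : s ≠ 0) : ContinuousAt (kap : ℝ × P → P) s := by
  have h1 : Continuous fun s : ℝ × P => max |s.1| (2 * ‖s.2‖) := by fun_prop
  have h2 : ContinuousAt (fun s : ℝ × P => 2 / max |s.1| (2 * ‖s.2‖)) s :=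
    continuousAt_const.div h1.continuousAt (kap_den_pos hs).ne'
  exact h2.smul continuousAt_snd

end Vale.Agent.P268.T
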