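import Vale.Agent.P268.T.Blocks1
import Vale.Agent.P268.T.NBr
import Vale.Agent.P268.T.H863.KA
import Vale.Agent.P268.T.B4.Sec921
import Vale.Agent.P268.T.K372.SheetsV2

/-!
# P268, topological half: statements of the pieces of `BlockNF`

Everything is over `Fin (k+4)`; the flatness parameter `dl k` and the chart parameter `dd k` of the
type theorem depend only on `k`; the remaining parameters are eventually small or large (nested
filters), in the order `ρ` (radius of the slab), `d` (front), `d'`, `θ` (sheets), `ε` (radius of the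
sheets), `M`, and last the parameter of `FS`.

`kform`: the K-form.  `kbc`, `knc`: its data over the cube, for the chart parameter `dc`; `kbk`,
`knk`: for `dc = dd k`.  `Lk k`: the isometry from the frame with normal `eDiag` to the frame
`frk k`, with normal `(frk k).h`.

* `KFormB3`: `FS ε' K ~ kform`  (B3: 719, 373, 708, 372, 291)
* `KFormKA`: `kform ~ KA`, chart `3/2 * d`  (903, 921, 874)
* `KSwing` : `KA ~ NN`         (863, 655)
* `KType g`: the type of the data (288, 73, 981, 196, 109)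
-/

namespace Vale.Agent.P268.T

open Set Filter Topology Metric Matrix Vale.Agent.P268.T.B4 Vale.Agent.P268.T.A109
  Vale.Agent.P268.T.K372
open Vale.Agent.P268.H288 (mx hcl)
open scoped Topology.Homotopy RealInnerProductSpace

/-- The flatness parameter. -/
noncomputable def dl (k : ℕ) : ℝ := 1 / (4 * (k + 4))

/-- The parameter of the chart. -/
noncomputable def dd (k : ℕ) : ℝ := 1 / (8 * (k + 4))

/-- Good weights of the sheets (`exists_G_family`). -/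
def GoodG {σ ι : Type} (K : σ → ι → ℕ) (G : (ι → ℕ) → ℝ) : Prop :=
  StrictMono G ∧ (∀ a b, a ≠ b → G (K a) ≠ G (K b)) ∧ (∀ L, 0 ≤ G L) ∧
    (∀ a b, a ≠ b → 1 ≤ |G (K a) - G (K b)|)

/-- **The K-form**: slab `‖v‖ ≤ ρ ‖u‖` over `max u ≤ d * osc u`, sheets `cV δ d' θ G (K a)`. -/
noncomputable def kform {σ ι : Type} [Fintype σ] [Nonempty σ] [Fintype ι] [Nonempty ι]
    (δ d d' θ ε ρ M : ℝ) (G : (ι → ℕ) → ℝ) (K : σ → ι → ℕ)
    (x : EuclideanSpace ℝ ι × EuclideanSpace ℝ ι) : ℂ :=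
  ⟨max (min (ρ * ‖x.1‖ - ‖x.2‖) (M * (d * osc x.1.ofLp - mx x.1.ofLp)))
    (Finset.univ.sup' Finset.univ_nonempty fun a => ε * ‖x.1‖ - ‖x.2 - cV δ d' θ G (K a) x.1‖),
    ∑ j, max (|x.1 j| - δ * ‖x.1‖) 0 / ‖x.1‖ * turn ⟨x.1 j, x.2 j⟩⟩

/-- The centres of the data of the K-form, over the cube, chart parameter `dc`. -/
noncomputable def kbc (k : ℕ) {σ : Type} (dc d' θ : ℝ) (G : (Fin (k + 4) → ℕ) → ℝ)
    (K : σ → Fin (k + 4) → ℕ) (a : σ) (x : Pk k) : Vk k :=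
  rc (nuV (dl k)) (cV (dl k) d' θ G (K a)) (usec (k + 3) dc x)

/-- The normals of the data of the K-form, over the cube, chart parameter `dc`. -/
noncomputable def knc (k : ℕ) {σ : Type} (dc : ℝ) (_ : σ) (x : Pk k) : Vk k :=
  rn (nuV (dl k)) (usec (k + 3) dc x)

/-- The centres of the data of the K-form, over the cube, chart parameter `dd k`. -/
noncomputable def kbk (k : ℕ) {σ : Type} (d' θ : ℝ) (G : (Fin (k + 4) → ℕ) → ℝ)
    (K : σ → Fin (k + 4) → ℕ) (a : σ) (x : Pk k) : Vk k :=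
  rc (nuV (dl k)) (cV (dl k) d' θ G (K a)) (usec (k + 3) (dd k) x)

/-- The normals of the data of the K-form, over the cube, chart parameter `dd k`. -/
noncomputable def knk (k : ℕ) {σ : Type} (_ : σ) (x : Pk k) : Vk k :=
  rn (nuV (dl k)) (usec (k + 3) (dd k) x)

/-- The isometry from 903's frame to the standard frame: a reflection. -/
noncomputable def Lk (k : ℕ) : Vk k ≃ₗᵢ[ℝ] Vk k :=
  (ℝ ∙ (eDiag (Fin (k + 4)) - (frk k).h))ᗮ.reflection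

/-- **B3**. -/
def KFormB3 : Prop :=
  ∀ (k : ℕ) (σ : Type) [Fintype σ] [Nonempty σ] (K : σ → Fin (k + 4) → ℕ),
    Function.Injective K → ∀ G, GoodG K G →
    ∀ᶠ ρ in 𝓝[>] (0 : ℝ), ∀ᶠ d in 𝓝[>] (0 : ℝ), ∀ᶠ d' in 𝓝[>] (0 : ℝ), ∀ᶠ θ in 𝓝[>] (0 : ℝ),
    ∀ᶠ ε in 𝓝[>] (0 : ℝ), ∀ᶠ M in atTop, ∀ᶠ ε' in 𝓝[>] (0 : ℝ),
      VEq (FS ε' K) (kform (dl k) d d' θ ε ρ M G K)

/-- **Transport and shape**. -/
def KFormKA : Prop :=
  ∀ (k : ℕ) (σ : Type) [Fintype σ] [Nonempty σ] (K : σ → Fin (k + 4) → ℕ),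
    Function.Injective K → ∀ G, GoodG K G →
    ∀ᶠ ρ in 𝓝[>] (0 : ℝ), ∀ᶠ d in 𝓝[>] (0 : ℝ), ∀ᶠ d' in 𝓝[>] (0 : ℝ), ∀ᶠ θ in 𝓝[>] (0 : ℝ),
    ∀ᶠ ε in 𝓝[>] (0 : ℝ), ∀ᶠ M in atTop,
    ∀ ε₂ R₂ M₂, Adm ε₂ R₂ M₂ (kbc k (3 / 2 * d) d' θ G K) →
      VEq (kform (dl k) d d' θ ε ρ M G K)
        (KA (eDiag (Fin (k + 4))) ε₂ R₂ M₂ (kbc k (3 / 2 * d) d' θ G K)
          (knc k (3 / 2 * d) (σ := σ)) : Ek k → ℂ)

/-- **Swing**. -/
def KSwing : Prop :=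
  ∀ (k : ℕ) (A : Type) [Fintype A] (e : Vk k) (b ν : A → Pk k → Vk k), ‖e‖ = 1 → BData e b ν →
    ∀ (b₀ : Vk k) (r₀ ε R M : ℝ), ⟪b₀, e⟫ = 0 → 2 ≤ r₀ →
    (∀ a, ∀ x ∈ closedBall (0 : Pk k) 1, 2 * (‖b a x‖ + ε) ≤ r₀) → 6 * r₀ ≤ ‖b₀‖ → ε ≤ 1 / 4 →
    Adm ε R M (farB b₀ b) →
    VEq (KA e ε R M b ν : Ek k → ℂ) (NN e ε R M (farB b₀ b) (farN e ν))

/-- **The type of the data of the K-form**: after the isometry `Lk k` the data are homotopic to a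
relative spheroid of framed configurations of type `zetaK K e`. -/
def KType (g : ∀ k, (frk k).PiG (Fin (k + 2))) : Prop :=
  ∀ (k r : ℕ) (σ : Type) [Fintype σ] [Nonempty σ] (K : σ → Fin (k + 4) → ℕ),
    Function.Injective K → ∀ e : σ ≃ Fin r, LinExt K e → ∀ G, GoodG K G →
    ∀ᶠ d' in 𝓝[>] (0 : ℝ), ∀ᶠ θ in 𝓝[>] (0 : ℝ),
    ∃ p : (frk k).BrL (Fin (k + 2)) r, (frk k).HasType (g k) (zetaK K e) (hcl p) ∧
    ∃ b ν : ℝ → Fin r → Pk k → Vk k, BFam (Icc (0 : ℝ) 1) (frk k).h b ν ∧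
      (∀ i x, b 0 i x = Lk k (kbk k d' θ G K (e.symm i) x)) ∧
      (∀ i x, ν 0 i x = Lk k (knk k i x)) ∧
      (∀ i x, b 1 i x = ((p (cubeM x).1).1 (cubeM x).2).1.1 i) ∧
      (∀ i x, ν 1 i x = ((p (cubeM x).1).1 (cubeM x).2).2 i)

end Vale.Agent.P268.T
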