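import Vale.Agent.P268.T.PlugChain
import Vale.Agent.P268.T.H128.MoveDone

/-!
# P268, topological half: block B1
-/

namespace Vale.Agent.P268.T

/-- **Block B1.** -/
theorem blockChain : BlockChain := N625.blockChain_of_move RV.gateMove

/-- **Blocks B1 and B2.** -/
theorem blockSum : BlockSum := blockSum_of_chain blockChain

end Vale.Agent.P268.T
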