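import Vale.Agent.P268.T.H277.StepDone
import Vale.Agent.P268.T.H903.ZipProp
import Vale.Agent.P268.T.H654.LeftProp

/-!
# P268, topological half: the geometric slide
-/

namespace Vale.Agent.P268.T

/-- **Block B6**: the geometric slide. -/
theorem blockStep : BlockStep := blockStep_of_left Z903.zipProp H654.leftProp

end Vale.Agent.P268.T
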