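import Vale.Agent.P268.T.Blocks1
import Vale.Agent.P268.T.NBr
import Vale.Agent.P268.T.DeltaR
import Vale.Agent.P268.T.W196.BrInj
import Vale.Agent.P268.T.H839.Adapt
import Vale.Agent.P268.T.H990.Sum

/-!
# P268, topological half: the final theorem from the remaining blocks

Statements of the blocks:
`BlockChain`, `BlockSum` (B1, B2), `BlockNF` (B3, B4): `T/Blocks1`.
`BlockHom`, `BlockAdm` (B5), `BlockInj`, `BlockLetters g` (B7), `BlockSlide g` (B6): `T/NBr`.

Proved here from the landed files: `blockHom`, `blockAdm` (`DeltaR`), `blockInj` (`W196/BrInj`),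
`lettersk`, `blockLetters` (`H839/Adapt`), `blockSlide_of` (from the geometric slide `BlockStep`).
`zariski_of_rest`: the final theorem from what remains (`BlockChain`, `BlockStep`, `BlockNF`).
-/

namespace Vale.Agent.P268.T

open Matrix Set Vale.Agent.P268.Z Vale.Agent.P268.H288 Vale.Agent.P268.T.A109
open scoped unitInterval Topology Topology.Homotopy

/-- **The final theorem from the statements of the blocks.** -/
theorem zariski_of_all_blocks (hsum : BlockSum) (hhom : BlockHom) (hadm : BlockAdm)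
    (hinj : BlockInj) (g : ∀ k, (frk k).PiG (Fin (k + 2))) (hlet : BlockLetters g)
    (hslide : BlockSlide g) (hNF : BlockNF Nfb (typb g)) :
    ∃ (N : ℕ) (f g : (Fin N → ℂ) → ℂ), Red f ∧ Red g ∧ AmbHomeo f g ∧ mult f ≠ mult g :=
  zariski_of_blocks1 Nfb (typb g) hsum hNF (typb_ex hadm hlet) (typb_pair hhom hadm hinj g) hslide

/-! ### Blocks which are proved -/

/-- B5c. -/
theorem blockHom : BlockHom := fun _ _ _ _ _ _ _ _ _ _ _ _ h h0 h1 =>
  NN_veq_of_homotopy (frk _).hh h h0 h1

/-- Existence of admissible parameters. -/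
theorem blockAdm : BlockAdm := by
  intro k A _ b ν h
  obtain ⟨ε₀, hε₀, R₀, hR₀, hA⟩ := exists_adm (isCompact_univ (X := Unit)) h
  exact ⟨ε₀, R₀, 16 * R₀, hA ε₀ ⟨hε₀, le_rfl⟩ R₀ le_rfl _ le_rfl () (mem_univ _)⟩

/-- B7, injectivity. -/
theorem blockInj : BlockInj := fun k _ x y hp ht =>
  W196.br_injective (frk k) (m := k + 2) (by omega) (by simp) (by simp) x y hp ht

/-- Homotopic spheroids have equivalent normal forms, for all admissible parameters. -/
theorem Nfb_veq {k r : ℕ} {b b' : NBr k r} (h : hcl b.p = hcl b'.p) :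
    VEq (Nfb k r b) (Nfb k r b') := veq_of_homotopic blockHom blockAdm h

/-- The relation of spheroids: equivalence of the normal forms. -/
def NRel {k r : ℕ} (p q : (frk k).BrL (Fin (k + 2)) r) : Prop :=
  ∃ b b' : NBr k r, b.p = p ∧ b'.p = q ∧ VEq (Nfb k r b) (Nfb k r b')

/-- Letters exist. -/
theorem lettersk (k r : ℕ) : (frk k).Letters (Fin (k + 2)) r := fun j κ τ =>
  H839.letters (frk k) j κ τ

/-- B7, letters. -/
theorem blockLetters (g : ∀ k, (frk k).PiG (Fin (k + 2))) : BlockLetters g :=
  fun k r W => (frk k).exists_type (lettersk k r) (g k) W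

/-- **The geometric slide**, for adjacent strands. -/
def BlockStep : Prop :=
  ∀ (k r : ℕ) (i j : Fin r), ((i : ℕ) + 1 = j ∨ (j : ℕ) + 1 = i) →
    (frk k).SlideStep (M := Fin (k + 2)) NRel 0 i j

theorem blockSlide_of (hS : BlockStep)
    (g : ∀ k, (frk k).PiG (Fin (k + 2))) : BlockSlide g := by
  intro k r W i j hij
  obtain ⟨p, p', hp, hp', b, b', rfl, rfl, hbb⟩ :=
    (frk k).exists_slide (lettersk k r) hij (hS k r i j hij) (g k) W
  exact ⟨b, b', hp, hp', hbb⟩

/-- **The final theorem from the remaining blocks**: B1 (chains), the geometric slide and the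
normal forms of ray functions. -/
theorem zariski_of_rest (hchain : BlockChain) (hS : BlockStep)
    (g : ∀ k, (frk k).PiG (Fin (k + 2))) (hNF : BlockNF Nfb (typb g)) :
    ∃ (N : ℕ) (f g : (Fin N → ℂ) → ℂ), Red f ∧ Red g ∧ AmbHomeo f g ∧ mult f ≠ mult g :=
  zariski_of_all_blocks (blockSum_of_chain hchain) blockHom blockAdm blockInj g
    (blockLetters g) (blockSlide_of hS g) hNF

end Vale.Agent.P268.T
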