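import Vale.Agent.P268.T.Reduce
import Vale.Agent.P268.T.K373.Def

/-!
# P268, topological half: the statements of the blocks, part 1 (chains and ray functions)

`BlockChain`, `BlockSum` (blocks B1, B2) end at the ray functions `FS ε K`, in the relation `HEqv`.
After that no summand is added any more: the normal forms are compared in the relation `VEq`
(equivalence of zero sets), so regularity is only needed at zeros and data may be merely
continuous.  `BlockNF` (blocks B3, B4): normal forms of ray functions, only for enumerations which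
are linear extensions of the product order.
-/

namespace Vale.Agent.P268.T

open Matrix Set Vale.Agent.P268.Z

theorem stairP_zero {c : List ℕ} (hc : ∀ a ∈ c, 2 ≤ a) : StairP c fun _ => 0 := by
  intro j
  have := hc _ (List.get_mem c j)
  refine Or.inl ?_
  show 0 + 1 < c.get j
  omega

theorem nonempty_stair {c : List ℕ} (hc : ∀ a ∈ c, 2 ≤ a) : Nonempty (Stair c) :=
  ⟨⟨fun _ => 0, stairP_zero hc⟩⟩

theorem nonempty_stairF {ι : Type} {F : ι → List ℕ} (hF : ∀ i, ∀ a ∈ F i, 2 ≤ a) :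
    Nonempty (StairF F) :=
  ⟨⟨fun _ => 0, fun i => stairP_zero (hF i)⟩⟩

/-- **Block B1** (chains): a Euclid chain polynomial is equivalent to the ray function of its
staircase. -/
def BlockChain : Prop :=
  ∀ c : List ℕ, c ≠ [] → (∀ a ∈ c, 2 ≤ a) → c.IsChain (· < ·) → ∀ [Nonempty (Stair c)],
    ∃ ε₁ > 0, ∀ ε ∈ Ioc (0 : ℝ) ε₁, HEqv (P c) (FS ε fun p : Stair c => p.1)

/-- **Block B2** (sums): a sum of Euclid chain polynomials is equivalent to the ray function of the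
product of the staircases. -/
def BlockSum : Prop :=
  ∀ (m : ℕ) (F : Fin m → List ℕ), (∀ i, F i ≠ []) → (∀ i, ∀ a ∈ F i, 2 ≤ a) →
    (∀ i, (F i).IsChain (· < ·)) → ∀ [Nonempty (StairF F)],
    ∃ ε₁ > 0, ∀ ε ∈ Ioc (0 : ℝ) ε₁, HEqv (sumP F) (FS ε fun p : StairF F => p.1)

/-- **Blocks B3 + B4** (normal form of a ray function in `k + 4` complex variables), for given
normal forms `Nf` and types `typ`. -/
def BlockNF {Br : ℕ → ℕ → Type} {S : ℕ → Type}
    [∀ k, NormedAddCommGroup (S k)] [∀ k, NormedSpace ℝ (S k)]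
    (Nf : ∀ k r : ℕ, Br k r → S k → ℂ)
    (typ : ∀ k r : ℕ, Br k r → Matrix (Fin r) (Fin r) ℤ → Prop) : Prop :=
  ∀ (k r : ℕ) (σ ι : Type) [Fintype σ] [Nonempty σ] [Fintype ι] (K : σ → ι → ℕ),
    Fintype.card ι = k + 4 → Function.Injective K → ∀ e : σ ≃ Fin r, LinExt K e →
    ∃ ε₁ > 0, ∀ ε ∈ Ioc (0 : ℝ) ε₁, ∃ b : Br k r,
      typ k r b (zetaK K e) ∧ VEq (FS ε K) (Nf k r b)

/-- The final theorem, from the blocks. -/
theorem zariski_of_blocks1 {Br : ℕ → ℕ → Type} {S : ℕ → Type}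
    [∀ k, NormedAddCommGroup (S k)] [∀ k, NormedSpace ℝ (S k)]
    (Nf : ∀ k r : ℕ, Br k r → S k → ℂ)
    (typ : ∀ k r : ℕ, Br k r → Matrix (Fin r) (Fin r) ℤ → Prop)
    (hsum : BlockSum) (hNF : BlockNF Nf typ)
    (hex : ∀ k r, ∀ V : Matrix (Fin r) (Fin r) ℤ, ∃ b : Br k r, typ k r b V)
    (hpair : ∀ k r, ∀ (V : Matrix (Fin r) (Fin r) ℤ) (b b' : Br k r),
      typ k r b V → typ k r b' V → VEq (Nf k r b) (Nf k r b'))
    (hslide : ∀ k r, ∀ (V : Matrix (Fin r) (Fin r) ℤ) (i j : Fin r),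
      ((i : ℕ) + 1 = j ∨ (j : ℕ) + 1 = i) → ∃ b b' : Br k r, typ k r b V ∧
        typ k r b' ((transvection i j 1)ᵀ * V * transvection i j 1) ∧
        VEq (Nf k r b) (Nf k r b')) :
    ∃ (N : ℕ) (f g : (Fin N → ℂ) → ℂ), Red f ∧ Red g ∧ AmbHomeo f g ∧ mult f ≠ mult g := by
  refine zariski_of_blocks Nf typ hex hpair hslide ?_
  intro k m r F hFn hF0 hF hFc e he
  have := nonempty_stairF hF
  obtain ⟨ε₁, h1, h1'⟩ := hsum m F hF0 hF hFc
  obtain ⟨ε₂, h2, h2'⟩ := hNF k r (StairF F) (Vars F) (fun p => p.1) (by simpa [Vars] using hFn)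
    Subtype.val_injective e he
  obtain ⟨b, hb, hb'⟩ := h2' (min ε₁ ε₂) ⟨lt_min h1 h2, min_le_right _ _⟩
  exact ⟨b, hb, (h1' _ ⟨lt_min h1 h2, min_le_left _ _⟩).toVEq.trans hb'⟩

end Vale.Agent.P268.T
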