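import Vale.Agent.P268.T.WLoop
import Vale.Agent.P268.T.Final

/-!
# P268, topological half: critical points of `c(z) + σ z₀`, and loops of unfoldings of chains

For a chain `c` with head variable `z₀` the critical points of `c(z) + σ z₀` have critical value
`v = (1 - w₀) σ z₀` with `v ^ mu c = Cc c * σ ^ c.prod`.
-/

set_option linter.unusedSectionVars false

namespace Vale.Agent.P268.T

open Set Filter Topology Vale.Agent.P268.Z

/-- The head variable (`1` for the empty chain). -/
noncomputable def hd (c : List ℕ) (z : Fin c.length → ℂ) : ℂ :=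
  if h : 0 < c.length then z ⟨0, h⟩ else 1

theorem hd_cons (a : ℕ) (c : List ℕ) (z : Fin (a :: c).length → ℂ) :
    hd (a :: c) z = z ⟨0, Nat.succ_pos _⟩ := dif_pos (Nat.succ_pos _)

theorem hd_nil (z : Fin ([] : List ℕ).length → ℂ) : hd [] z = 1 := rfl

/-- The tail variables. -/
def tl (a : ℕ) (c : List ℕ) (z : Fin (a :: c).length → ℂ) : Fin c.length → ℂ :=
  fun i => z (Fin.succ i)

/-- Adding a head variable. -/
def cns (a : ℕ) (c : List ℕ) (y : ℂ) (z : Fin c.length → ℂ) : Fin (a :: c).length → ℂ :=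
  Fin.cons (α := fun _ => ℂ) y z

theorem hd_cns (a : ℕ) (c : List ℕ) (y : ℂ) (z : Fin c.length → ℂ) :
    hd (a :: c) (cns a c y z) = y := hd_cons a c _

theorem tl_cns (a : ℕ) (c : List ℕ) (y : ℂ) (z : Fin c.length → ℂ) :
    tl a c (cns a c y z) = z := rfl

theorem cns_hd_tl (a : ℕ) (c : List ℕ) (z : Fin (a :: c).length → ℂ) :
    cns a c (hd (a :: c) z) (tl a c z) = z := by
  rw [hd_cons]
  exact Fin.cons_self_tail (α := fun _ => ℂ) (z : Fin (c.length + 1) → ℂ)

theorem chainFun_cns (a : ℕ) (c : List ℕ) (y : ℂ) (z : Fin c.length → ℂ) :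
    chainFun (a :: c) (cns a c y z) = y ^ a * hd c z + chainFun c z := by
  have h1 : chainFun (a :: c) (cns a c y z) = ∑ j : Fin (c.length + 1),
      (cns a c y z) j ^ ((a :: c).get j) *
        (if h : (j : ℕ) + 1 < c.length + 1 then (cns a c y z) ⟨j + 1, h⟩ else 1) := rfl
  rw [h1, Fin.sum_univ_succ]
  congr 1
  · have e0 : (cns a c y z) (0 : Fin (c.length + 1)) = y := rfl
    rw [e0]
    congr 1
    by_cases h : 0 < c.length
    · rw [hd, dif_pos h]
      rw [dif_pos (show ((0 : Fin (c.length + 1)) : ℕ) + 1 < c.length + 1 by simpa using h)]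
      rfl
    · rw [hd, dif_neg h]
      rw [dif_neg (show ¬ ((0 : Fin (c.length + 1)) : ℕ) + 1 < c.length + 1 by simpa using h)]
  · rw [chainFun]
    refine Finset.sum_congr rfl fun j _ => ?_
    congr 1
    by_cases h : (j : ℕ) + 1 < c.length
    · rw [dif_pos h, dif_pos (show ((j.succ : Fin (c.length + 1)) : ℕ) + 1 < c.length + 1 by
        simpa using h)]
      rfl
    · rw [dif_neg h, dif_neg (show ¬ ((j.succ : Fin (c.length + 1)) : ℕ) + 1 < c.length + 1 by
        simpa using h)]

/-- The unfolding `c(z) + σ z₀ + τ`. -/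
noncomputable def Munf (c : List ℕ) (q : ℂ × ℂ) (z : Fin c.length → ℂ) : ℂ :=
  chainFun c z + q.1 * hd c z + q.2

theorem Munf_cns (a : ℕ) (c : List ℕ) (σ τ y : ℂ) (z : Fin c.length → ℂ) :
    Munf (a :: c) (σ, τ) (cns a c y z) = Munf c (y ^ a, σ * y + τ) z := by
  rw [Munf, Munf, chainFun_cns, hd_cns]
  ring

theorem contDiff_hd (c : List ℕ) : ContDiff ℂ 1 (hd c) := by
  unfold hd
  split_ifs with h
  · exact contDiff_apply ℂ ℂ _
  · exact contDiff_const

theorem contDiff_Munf (c : List ℕ) (q : ℂ × ℂ) : ContDiff ℂ 1 (Munf c q) :=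
  ((contDiff_chainFun c).add (contDiff_const.mul (contDiff_hd c))).add contDiff_const

/-- The derivative of the head variable. -/
noncomputable def dhd (c : List ℕ) (z : Fin c.length → ℂ) : (Fin c.length → ℂ) →L[ℂ] ℂ :=
  fderiv ℂ (hd c) z

theorem fderiv_Munf (c : List ℕ) (q : ℂ × ℂ) (z : Fin c.length → ℂ) :
    fderiv ℂ (Munf c q) z = fderiv ℂ (chainFun c) z + q.1 • fderiv ℂ (hd c) z := by
  have h1 : HasFDerivAt (chainFun c) (fderiv ℂ (chainFun c) z) z :=
    ((contDiff_chainFun c).differentiable one_ne_zero z).hasFDerivAt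
  have h2 : HasFDerivAt (hd c) (fderiv ℂ (hd c) z) z :=
    ((contDiff_hd c).differentiable one_ne_zero z).hasFDerivAt
  exact ((h1.add (h2.const_mul q.1)).add_const q.2).fderiv

/-- The constant of the discriminant. -/
noncomputable def Cc : List ℕ → ℂ
  | [] => 1
  | a :: c => (1 - (headWt (a :: c) : ℂ)) ^ (a * c.prod) *
      (-((headWt (a :: c) : ℂ)) / (1 - (headWt (a :: c) : ℂ))) ^ (mu c) / Cc c

theorem one_sub_headWt_ne {c : List ℕ} (hc : ∀ a ∈ c, 2 ≤ a) : (1 - (headWt c : ℂ)) ≠ 0 := by
  have h := (headWt_bounds hc).2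
  intro h0
  have h1 : (headWt c : ℂ) = 1 := by linear_combination -h0
  have h2 : headWt c = 1 := by exact_mod_cast h1
  linarith

theorem headWt_ne {c : List ℕ} (hc : ∀ a ∈ c, 2 ≤ a) (h0 : c ≠ []) : (headWt c : ℂ) ≠ 0 := by
  have := (headWt_pos hc h0).ne'
  exact_mod_cast this

theorem Cc_ne {c : List ℕ} (hc : ∀ a ∈ c, 2 ≤ a) : Cc c ≠ 0 := by
  induction c with
  | nil => exact one_ne_zero
  | cons a c ih =>
    have h1 := one_sub_headWt_ne hc
    have h2 := headWt_ne hc (List.cons_ne_nil a c)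
    exact div_ne_zero (mul_ne_zero (pow_ne_zero _ h1)
      (pow_ne_zero _ (div_ne_zero (neg_ne_zero.mpr h2) h1)))
      (ih fun b hb => hc b (List.mem_cons_of_mem _ hb))

theorem prod_pos' {c : List ℕ} (hc : ∀ a ∈ c, 2 ≤ a) : 0 < c.prod :=
  List.prod_pos fun a ha => (by have := hc a ha; omega)

theorem mu_bounds {c : List ℕ} (hc : ∀ a ∈ c, 2 ≤ a) : 0 < mu c ∧ mu c ≤ c.prod := by
  induction c with
  | nil => simp [mu]
  | cons a c ih =>
    have hc' : ∀ b ∈ c, 2 ≤ b := fun b hb => hc b (List.mem_cons_of_mem _ hb)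
    obtain ⟨h1, h2⟩ := ih hc'
    have ha := hc a List.mem_cons_self
    have hp := prod_pos' hc'
    have h3 : 2 * c.prod ≤ a * c.prod := Nat.mul_le_mul_right _ ha
    rw [mu, List.prod_cons]
    omega

/-- Critical points of `y ↦ c(z) + σ z₀` in the coordinates `(y, z')`. -/
theorem crit_cns {a : ℕ} {c : List ℕ} {σ τ y : ℂ} {z : Fin c.length → ℂ}
    (h : fderiv ℂ (Munf (a :: c) (σ, τ)) (cns a c y z) = 0) :
    (a : ℂ) * y ^ (a - 1) * hd c z + σ = 0 ∧ fderiv ℂ (Munf c (y ^ a, σ * y + τ)) z = 0 := by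
  have h0 : HasFDerivAt (Munf (a :: c) (σ, τ))
      (0 : (Fin (a :: c).length → ℂ) →L[ℂ] ℂ) (cns a c y z) := by
    rw [← h]
    exact ((contDiff_Munf (a :: c) (σ, τ)).differentiable one_ne_zero _).hasFDerivAt
  constructor
  · -- derivative in `y`
    have h1 : HasDerivAt (fun t : ℂ => cns a c t z) (cns a c 1 0) y := by
      rw [hasDerivAt_pi]
      intro j
      refine Fin.cases ?_ (fun i => ?_) (j : Fin (c.length + 1))
      · exact hasDerivAt_id y
      · exact hasDerivAt_const y (z i)
    have h2 := h0.comp_hasDerivAt (f := fun t : ℂ => cns a c t z) y h1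
    have e : (Munf (a :: c) (σ, τ) ∘ fun t : ℂ => cns a c t z) =
        fun t : ℂ => chainFun c z + t ^ a * hd c z + (σ * t + τ) := by
      funext t
      show Munf (a :: c) (σ, τ) (cns a c t z) = _
      rw [Munf_cns, Munf]
    rw [e] at h2
    have h3 : HasDerivAt (fun t : ℂ => chainFun c z + t ^ a * hd c z + (σ * t + τ))
        ((a : ℂ) * y ^ (a - 1) * hd c z + σ) y := by
      have h4 : HasDerivAt (fun t : ℂ => t ^ a * hd c z) ((a : ℂ) * y ^ (a - 1) * hd c z) y :=
        (hasDerivAt_pow a y).mul_const _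
      have h5 : HasDerivAt (fun t : ℂ => σ * t + τ) σ y := by
        simpa using ((hasDerivAt_id y).const_mul σ).add_const τ
      exact (h4.const_add (chainFun c z)).add h5
    have h6 := h3.unique h2
    simpa using h6
  · -- derivative in `z`
    have h1 : HasFDerivAt (fun z : Fin c.length → ℂ => cns a c y z)
        (ContinuousLinearMap.pi fun j : Fin (c.length + 1) =>
          Fin.cases (motive := fun _ => (Fin c.length → ℂ) →L[ℂ] ℂ) 0
            (fun i => ContinuousLinearMap.proj (R := ℂ) (φ := fun _ : Fin c.length => ℂ) i) j) z := by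
      rw [hasFDerivAt_pi]
      intro j
      refine Fin.cases ?_ (fun i => ?_) (j : Fin (c.length + 1))
      · exact hasFDerivAt_const y z
      · exact hasFDerivAt_apply i z
    have h2 := h0.comp (f := fun z : Fin c.length → ℂ => cns a c y z) z h1
    have e : (Munf (a :: c) (σ, τ) ∘ fun z : Fin c.length → ℂ => cns a c y z) =
        Munf c (y ^ a, σ * y + τ) := by
      funext t
      exact Munf_cns a c σ τ y t
    rw [e] at h2
    rw [h2.fderiv]
    exact ContinuousLinearMap.zero_comp _

/-- **Critical points of `c(z) + σ z₀ + τ`**. -/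
theorem crit_rel {c : List ℕ} (hc : ∀ a ∈ c, 2 ≤ a) : ∀ (σ τ : ℂ) (z : Fin c.length → ℂ),
    fderiv ℂ (Munf c (σ, τ)) z = 0 →
      Munf c (σ, τ) z = (1 - (headWt c : ℂ)) * (σ * hd c z) + τ ∧
      ((1 - (headWt c : ℂ)) * (σ * hd c z)) ^ mu c = Cc c * σ ^ c.prod ∧
      (σ ≠ 0 → hd c z ≠ 0) ∧ (c ≠ [] → σ = 0 → z = 0) := by
  induction c with
  | nil =>
    intro σ τ z _
    refine ⟨?_, ?_, fun _ => ?_, fun h => absurd rfl h⟩
    · rw [Munf, hd_nil]
      simp [headWt, chainFun]
    · rw [hd_nil]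
      simp [headWt, mu, Cc]
    · rw [hd_nil]
      exact one_ne_zero
  | cons a c ih =>
    intro σ τ z hz
    have hc' : ∀ b ∈ c, 2 ≤ b := fun b hb => hc b (List.mem_cons_of_mem _ hb)
    have ha : 2 ≤ a := hc a List.mem_cons_self
    obtain ⟨y, z', rfl⟩ : ∃ y z', z = cns a c y z' :=
      ⟨hd (a :: c) z, tl a c z, (cns_hd_tl a c z).symm⟩
    obtain ⟨h1, h2⟩ := crit_cns hz
    obtain ⟨i1, i2, i3, i4⟩ := ih hc' _ _ _ h2
    have haC : (a : ℂ) ≠ 0 := by exact_mod_cast (by omega : a ≠ 0)
    have hw : (headWt (a :: c) : ℂ) * a = 1 - (headWt c : ℂ) := by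
      have : headWt (a :: c) = (1 - headWt c) / a := rfl
      rw [this]
      push_cast
      field_simp
    have hW : (headWt (a :: c) : ℂ) ≠ 0 := headWt_ne hc (List.cons_ne_nil a c)
    have hW1 := one_sub_headWt_ne hc
    have hya : y ^ a = y * y ^ (a - 1) := by
      conv_lhs => rw [show a = (a - 1) + 1 by omega, pow_succ]
      ring
    -- `σ y = - a v' / (1 - w')`
    have hσy : σ * y = -((a : ℂ) * (y ^ a * hd c z')) := by
      rw [hya]
      linear_combination y * h1
    set v' : ℂ := (1 - (headWt c : ℂ)) * (y ^ a * hd c z') with hv'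
    have hv : (headWt (a :: c) : ℂ) * (σ * y) = -v' := by
      rw [hσy, hv', ← hw]; ring
    have hσ0 : σ = 0 → y = 0 := by
      intro h0
      rw [h0, add_zero] at h1
      by_contra hy
      have h3 : hd c z' ≠ 0 := i3 (pow_ne_zero a hy)
      exact mul_ne_zero (mul_ne_zero haC (pow_ne_zero _ hy)) h3 h1
    refine ⟨?_, ?_, ?_, ?_⟩
    · rw [Munf_cns, i1, hd_cns]
      linear_combination hv
    · rw [hd_cns]
      obtain ⟨hm1, hm2⟩ := mu_bounds hc'
      have hp := prod_pos' hc'
      have hb : mu c < a * c.prod := by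
        have : 2 * c.prod ≤ a * c.prod := Nat.mul_le_mul_right _ ha
        omega
      have hmu : mu (a :: c) = a * c.prod - mu c := rfl
      have hprod : (a :: c).prod = a * c.prod := List.prod_cons
      rw [hmu, hprod]
      by_cases hσ : σ = 0
      · rw [hσ, zero_mul, mul_zero, zero_pow (by omega), zero_pow (by positivity), mul_zero]
      · have hy : y ≠ 0 := by
          rintro rfl
          apply hσ
          rw [zero_pow (by omega), mul_zero, zero_mul, zero_add] at h1
          exact h1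
        have hv0 : (1 - (headWt (a :: c) : ℂ)) * (σ * y) ≠ 0 :=
          mul_ne_zero hW1 (mul_ne_zero hσ hy)
        set v : ℂ := (1 - (headWt (a :: c) : ℂ)) * (σ * y) with hvdef
        have hCc : Cc (a :: c) = (1 - (headWt (a :: c) : ℂ)) ^ (a * c.prod) *
            (-((headWt (a :: c) : ℂ)) / (1 - (headWt (a :: c) : ℂ))) ^ (mu c) / Cc c := rfl
        have hv1 : v' = (-((headWt (a :: c) : ℂ)) / (1 - (headWt (a :: c) : ℂ))) * v := by
          have e1 : (-((headWt (a :: c) : ℂ)) / (1 - (headWt (a :: c) : ℂ))) * v =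
              -((headWt (a :: c) : ℂ) * (σ * y)) := by
            rw [hvdef]; field_simp
          rw [e1, hv, neg_neg]
        rw [hv1, mul_pow, ← pow_mul] at i2
        have hyv : (1 - (headWt (a :: c) : ℂ)) ^ (a * c.prod) * (σ ^ (a * c.prod) *
            y ^ (a * c.prod)) = v ^ (a * c.prod) := by
          rw [hvdef, mul_pow, mul_pow]
        have hC0 := Cc_ne hc'
        have key : v ^ (a * c.prod - mu c) * v ^ mu c = v ^ (a * c.prod) := by
          rw [← pow_add]; congr 1; omega
        have hvm : v ^ mu c ≠ 0 := pow_ne_zero _ hv0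
        apply mul_right_cancel₀ hvm
        rw [key, ← hyv, hCc]
        have hy2 : y ^ (a * c.prod) =
            (-((headWt (a :: c) : ℂ)) / (1 - (headWt (a :: c) : ℂ))) ^ mu c * v ^ mu c / Cc c := by
          rw [i2]; field_simp
        rw [hy2]
        ring
    · intro hσ
      rw [hd_cns]
      rintro rfl
      apply hσ
      rw [zero_pow (by omega), mul_zero, zero_mul, zero_add] at h1
      exact h1
    · intro _ h0
      have hy := hσ0 h0
      subst hy
      by_cases hcn : c = []
      · subst hcn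
        funext j
        exact Fin.cases (motive := fun j => cns a [] 0 z' j = 0) rfl (fun i => i.elim0)
          (j : Fin (0 + 1))
      · have hz' : z' = 0 := i4 hcn (zero_pow (by omega))
        subst hz'
        funext j
        exact Fin.cases (motive := fun j => cns a c 0 0 j = 0) rfl (fun i => rfl)
          (j : Fin (c.length + 1))

end Vale.Agent.P268.T
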