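import Vale.Agent.P268.T.ChainLoop
import Vale.Agent.P268.T.Polar

/-!
# P268, topological half: true coordinates, and the first unfolding of a chain polynomial
-/

set_option linter.unusedSectionVars false

namespace Vale.Agent.P268.T

open Set Filter Topology Vale.Agent.P268.Z

section Homeo

variable {n : Type*} [Fintype n] {W : Type*} [NormedAddCommGroup W] [NormedSpace ℝ W]

/-- The inverse of `x ↦ Z2 w x s`. -/
noncomputable def Y2 {w : n → ℝ} (hw : ∀ i, 0 < w i) (z : n → ℂ) (s : ℝ) :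
    EuclideanSpace ℂ n :=
  WithLp.toLp 2 (fun i => (WcHomeo (optW_pos hw)).symm (fun o : Option n => o.elim (s : ℂ) z)
    (some i))

theorem continuous_Y2 {w : n → ℝ} (hw : ∀ i, 0 < w i) :
    Continuous fun p : (n → ℂ) × ℝ => Y2 hw p.1 p.2 := by
  refine (PiLp.continuous_toLp 2 _).comp (continuous_pi fun i => ?_)
  have h1 : Continuous fun p : (n → ℂ) × ℝ => (fun o : Option n => o.elim (p.2 : ℂ) p.1) := by
    refine continuous_pi fun o => ?_
    cases o with
    | none => exact Complex.continuous_ofReal.comp continuous_snd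
    | some i => exact (continuous_apply i).comp continuous_fst
  have h2 := (WcHomeo (optW_pos hw)).symm.continuous.comp h1
  exact (PiLp.continuous_apply (p := 2) (β := fun _ : Option n => ℂ) (some i)).comp h2

theorem J_Y2 {w : n → ℝ} (hw : ∀ i, 0 < w i) (z : n → ℂ) (s : ℝ) :
    J n (Y2 hw z s, s) = (WcHomeo (optW_pos hw)).symm (fun o : Option n => o.elim (s : ℂ) z) := by
  set Y := (WcHomeo (optW_pos hw)).symm (fun o : Option n => o.elim (s : ℂ) z) with hY
  have h1 : Wc (optW w) Y = fun o : Option n => o.elim (s : ℂ) z := by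
    rw [← WcHomeo_apply (optW_pos hw), hY, Homeomorph.apply_symm_apply]
  have h2 : Y none = (s : ℂ) := by
    have h3 := congrFun h1 none
    rw [Wc_apply] at h3
    simpa [optW] using h3
  ext o
  cases o with
  | none => rw [J_none, h2]
  | some i => rw [J_some]; rfl

theorem Z2_Y2 {w : n → ℝ} (hw : ∀ i, 0 < w i) (z : n → ℂ) (s : ℝ) : Z2 w (Y2 hw z s) s = z := by
  funext i
  rw [Z2_eq, J_Y2 hw, ← WcHomeo_apply (optW_pos hw), Homeomorph.apply_symm_apply]
  rfl

theorem Y2_Z2 {w : n → ℝ} (hw : ∀ i, 0 < w i) (x : EuclideanSpace ℂ n) (s : ℝ) :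
    Y2 hw (Z2 w x s) s = x := by
  have h1 : WcHomeo (optW_pos hw) (J n (x, s)) =
      fun o : Option n => o.elim (s : ℂ) (Z2 w x s) := by
    funext o
    rw [WcHomeo_apply]
    cases o with
    | none =>
      rw [Wc_apply, J_none]
      simp [optW]
    | some i => exact (Z2_eq w x s i).symm
  ext i
  show (WcHomeo (optW_pos hw)).symm (fun o : Option n => o.elim (s : ℂ) (Z2 w x s)) (some i) = x i
  rw [← h1, Homeomorph.symm_apply_apply, J_some]

/-- **True coordinates**: `(x, b) ↦ (Z2 w x ‖b‖, b)` is a homeomorphism. -/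
noncomputable def trueHomeo {w : n → ℝ} (hw : ∀ i, 0 < w i) (W : Type*) [NormedAddCommGroup W]
    [NormedSpace ℝ W] : EuclideanSpace ℂ n × W ≃ₜ (n → ℂ) × W where
  toFun p := (Z2 w p.1 ‖p.2‖, p.2)
  invFun p := (Y2 hw p.1 ‖p.2‖, p.2)
  left_inv p := by
    show (Y2 hw (Z2 w p.1 ‖p.2‖) ‖p.2‖, p.2) = p
    rw [Y2_Z2]
  right_inv p := by
    show (Z2 w (Y2 hw p.1 ‖p.2‖) ‖p.2‖, p.2) = p
    rw [Z2_Y2]
  continuous_toFun := ((continuous_Z2 hw).comp
    (continuous_fst.prodMk continuous_snd.norm)).prodMk continuous_snd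
  continuous_invFun := ((continuous_Y2 hw).comp
    (continuous_fst.prodMk continuous_snd.norm)).prodMk continuous_snd

theorem trueHomeo_apply {w : n → ℝ} (hw : ∀ i, 0 < w i) (x : EuclideanSpace ℂ n) (b : W) :
    trueHomeo hw W (x, b) = (Z2 w x ‖b‖, b) := rfl

/-- The power map `y ↦ ‖y‖ ^ (e - 1) y`. -/
noncomputable def pwr (e : ℝ) (y : W) : W := (‖y‖ ^ (e - 1) : ℝ) • y

theorem pwr_zero (e : ℝ) : pwr e (0 : W) = 0 := smul_zero _

theorem norm_pwr {e : ℝ} (he : 0 < e) (y : W) : ‖pwr e y‖ = ‖y‖ ^ e := by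
  rcases eq_or_ne y 0 with rfl | hy
  · rw [pwr_zero, norm_zero, Real.zero_rpow he.ne']
  · rw [pwr, norm_smul, Real.norm_eq_abs, abs_of_nonneg (Real.rpow_nonneg (norm_nonneg y) _),
      ← Real.rpow_add_one (norm_ne_zero_iff.mpr hy), sub_add_cancel]

theorem pwr_pwr {e f : ℝ} (he : 0 < e) (hef : e * f = 1) (y : W) : pwr f (pwr e y) = y := by
  rcases eq_or_ne y 0 with rfl | hy
  · rw [pwr_zero, pwr_zero]
  · have hn : 0 < ‖y‖ := norm_pos_iff.mpr hy
    rw [pwr, norm_pwr he, pwr, smul_smul, ← Real.rpow_mul hn.le, ← Real.rpow_add hn]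
    have : e * (f - 1) + (e - 1) = 0 := by linear_combination hef
    rw [this, Real.rpow_zero, one_smul]

theorem continuous_pwr {e : ℝ} (he : 0 < e) : Continuous (pwr e : W → W) := by
  rw [continuous_iff_continuousAt]
  intro y
  rcases eq_or_ne y 0 with rfl | hy
  · rw [ContinuousAt, pwr_zero, tendsto_zero_iff_norm_tendsto_zero]
    have h1 : Tendsto (fun y : W => ‖y‖ ^ e) (𝓝 0) (𝓝 (‖(0 : W)‖ ^ e)) :=
      (continuous_norm.rpow_const fun _ => Or.inr he.le).tendsto 0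
    rw [norm_zero, Real.zero_rpow he.ne'] at h1
    exact h1.congr fun y => (norm_pwr he y).symm
  · exact (continuousAt_id.norm.rpow_const (Or.inl (norm_ne_zero_iff.mpr hy))).smul
      continuousAt_id

/-- The power map as a homeomorphism. -/
noncomputable def pwrHomeo {e : ℝ} (he : 0 < e) (W : Type*) [NormedAddCommGroup W]
    [NormedSpace ℝ W] : W ≃ₜ W where
  toFun := pwr e
  invFun := pwr e⁻¹
  left_inv y := pwr_pwr he (mul_inv_cancel₀ he.ne') y
  right_inv y := pwr_pwr (inv_pos.mpr he) (inv_mul_cancel₀ he.ne') y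
  continuous_toFun := continuous_pwr he
  continuous_invFun := continuous_pwr (inv_pos.mpr he)

theorem pwrHomeo_apply {e : ℝ} (he : 0 < e) (y : W) : pwrHomeo he W y = pwr e y := rfl

theorem pwr_smul {e : ℝ} (he : 0 < e) {r : ℝ} (hr : 0 ≤ r) (y : W) :
    pwr e (r • y) = (r ^ e : ℝ) • pwr e y := by
  rcases hr.eq_or_lt with rfl | hr
  · rw [zero_smul, pwr_zero, Real.zero_rpow he.ne', zero_smul]
  · rw [pwr, pwr, norm_smul, Real.norm_eq_abs, abs_of_pos hr, Real.mul_rpow hr.le (norm_nonneg y),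
      smul_smul, smul_smul]
    congr 1
    rw [mul_assoc, mul_comm (‖y‖ ^ (e - 1)) r, ← mul_assoc, ← Real.rpow_add_one hr.ne',
      sub_add_cancel]

end Homeo

/-- Splitting off the head coordinate. -/
noncomputable def cnsHomeo (a : ℕ) (c : List ℕ) : (Fin c.length → ℂ) × ℂ ≃ₜ (Fin (a :: c).length → ℂ) where
  toFun p := cns a c p.2 p.1
  invFun z := (tl a c z, hd (a :: c) z)
  left_inv p := by
    show (tl a c (cns a c p.2 p.1), hd (a :: c) (cns a c p.2 p.1)) = p
    rw [tl_cns, hd_cns]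
  right_inv z := cns_hd_tl a c z
  continuous_toFun := by
    refine continuous_pi fun j => ?_
    refine Fin.cases (motive := fun j : Fin (c.length + 1) =>
      Continuous fun p : (Fin c.length → ℂ) × ℂ => cns a c p.2 p.1 j) ?_ (fun i => ?_)
      (j : Fin (c.length + 1))
    · exact continuous_snd
    · exact (continuous_apply i).comp continuous_fst
  continuous_invFun := by
    refine (continuous_pi fun i => ?_).prodMk ?_
    · exact continuous_apply (A := fun _ : Fin (c.length + 1) => ℂ) (Fin.succ i)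
    · exact (contDiff_hd (a :: c)).continuous

variable {W : Type} [NormedAddCommGroup W] [NormedSpace ℝ W]

/-- The homeomorphism between `CE (a :: c) × W` and `CE c × (ℂ × W)` which is the identity in
true coordinates. -/
noncomputable def splitHomeo {a : ℕ} {c : List ℕ} (hc : ∀ b ∈ a :: c, 2 ≤ b)
    (W : Type) [NormedAddCommGroup W] [NormedSpace ℝ W] :
    CE (a :: c) × W ≃ₜ CE c × (ℂ × W) :=
  (trueHomeo (chainWt_pos hc) W).trans
    ((((cnsHomeo a c).symm.prodCongr (Homeomorph.refl W)).trans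
      (Homeomorph.prodAssoc (Fin c.length → ℂ) ℂ W)).trans
    (((Homeomorph.refl (Fin c.length → ℂ)).prodCongr
      ((pwrHomeo (headWt_pos hc (List.cons_ne_nil a c)) ℂ).symm.prodCongr (Homeomorph.refl W))).trans
      (trueHomeo (chainWt_pos fun b hb => hc b (List.mem_cons_of_mem a hb)) (ℂ × W)).symm))

/-- **Resplitting**: a function which is `Φ` of the true coordinates `(z, b)` becomes the same
function of the true coordinates `(z', (y, b))`, `z = (y', z')`, `y' = pwr y`. -/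
theorem splitHomeo_spec {a : ℕ} {c : List ℕ} (hc : ∀ b ∈ a :: c, 2 ≤ b)
    (Φ : (Fin (a :: c).length → ℂ) → W → ℂ) (p : CE (a :: c) × W) :
    Φ (Z2 (chainWt (a :: c)) p.1 ‖p.2‖) p.2 =
      Φ (cns a c (pwr (headWt (a :: c)) (splitHomeo hc W p).2.1)
        (Z2 (chainWt c) (splitHomeo hc W p).1 ‖(splitHomeo hc W p).2‖)) (splitHomeo hc W p).2.2 := by
  have hc' : ∀ b ∈ c, 2 ≤ b := fun b hb => hc b (List.mem_cons_of_mem a hb)
  set z := Z2 (chainWt (a :: c)) p.1 ‖p.2‖ with hz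
  have h1 : trueHomeo (chainWt_pos hc') (ℂ × W) (splitHomeo hc W p) =
      (tl a c z, ((pwrHomeo (headWt_pos hc (List.cons_ne_nil a c)) ℂ).symm (hd (a :: c) z), p.2)) := by
    rw [splitHomeo]
    simp only [Homeomorph.trans_apply, Homeomorph.apply_symm_apply]
    rfl
  rw [show splitHomeo hc W p = ((splitHomeo hc W p).1, (splitHomeo hc W p).2) from rfl,
    trueHomeo_apply] at h1
  obtain ⟨e1, e2⟩ := Prod.mk.inj h1
  have e3 : (splitHomeo hc W p).2.1 =
      (pwrHomeo (headWt_pos hc (List.cons_ne_nil a c)) ℂ).symm (hd (a :: c) z) :=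
    congrArg Prod.fst e2
  have e4 : (splitHomeo hc W p).2.2 = p.2 := congrArg Prod.snd e2
  rw [e1, e4, e3, ← pwrHomeo_apply (headWt_pos hc (List.cons_ne_nil a c)),
    Homeomorph.apply_symm_apply, cns_hd_tl]

theorem splitHomeo_zero {a : ℕ} {c : List ℕ} (hc : ∀ b ∈ a :: c, 2 ≤ b) :
    splitHomeo hc W 0 = 0 := by
  have hc' : ∀ b ∈ c, 2 ≤ b := fun b hb => hc b (List.mem_cons_of_mem a hb)
  have h0 : trueHomeo (chainWt_pos hc') (ℂ × W) 0 = 0 := by
    show (Z2 (chainWt c) 0 ‖(0 : ℂ × W)‖, (0 : ℂ × W)) = 0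
    rw [Z2_zero_left]
    rfl
  have h1 : trueHomeo (chainWt_pos hc') (ℂ × W) (splitHomeo hc W 0) = 0 := by
    rw [splitHomeo]
    simp only [Homeomorph.trans_apply, Homeomorph.apply_symm_apply]
    have e1 : trueHomeo (chainWt_pos hc) W 0 = 0 := by
      show (Z2 (chainWt (a :: c)) 0 ‖(0 : W)‖, (0 : W)) = 0
      rw [Z2_zero_left]
      rfl
    rw [e1]
    have e2 : (pwrHomeo (headWt_pos hc (List.cons_ne_nil a c)) ℂ).symm 0 = 0 := by
      rw [Homeomorph.symm_apply_eq, pwrHomeo_apply, pwr_zero]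
    show ((tl a c 0, ((pwrHomeo (headWt_pos hc (List.cons_ne_nil a c)) ℂ).symm (hd (a :: c) 0),
      (0 : W))) : (Fin c.length → ℂ) × (ℂ × W)) = 0
    have e3 : hd (a :: c) 0 = 0 := by rw [hd_cons]; rfl
    rw [e3, e2]
    rfl
  rw [← h0] at h1
  exact (trueHomeo (chainWt_pos hc') (ℂ × W)).injective h1

/-! ### The first unfolding -/

/-- The homeomorphism between `CE (a :: c)` and `CE c × ℂ` which is the identity in true
coordinates. -/
noncomputable def splitHomeo0 {a : ℕ} {c : List ℕ} (hc : ∀ b ∈ a :: c, 2 ≤ b) :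
    CE (a :: c) ≃ₜ CE c × ℂ :=
  (WcHomeo (chainWt_pos hc)).trans ((cnsHomeo a c).symm.trans
    (((Homeomorph.refl (Fin c.length → ℂ)).prodCongr
      (pwrHomeo (headWt_pos hc (List.cons_ne_nil a c)) ℂ).symm).trans
      (trueHomeo (chainWt_pos fun b hb => hc b (List.mem_cons_of_mem a hb)) ℂ).symm))

theorem splitHomeo0_spec {a : ℕ} {c : List ℕ} (hc : ∀ b ∈ a :: c, 2 ≤ b) (x : CE (a :: c)) :
    Wc (chainWt (a :: c)) x =
      cns a c (pwr (headWt (a :: c)) (splitHomeo0 hc x).2)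
        (Z2 (chainWt c) (splitHomeo0 hc x).1 ‖(splitHomeo0 hc x).2‖) := by
  have hc' : ∀ b ∈ c, 2 ≤ b := fun b hb => hc b (List.mem_cons_of_mem a hb)
  set z := Wc (chainWt (a :: c)) x with hz
  have h1 : trueHomeo (chainWt_pos hc') ℂ (splitHomeo0 hc x) =
      (tl a c z, (pwrHomeo (headWt_pos hc (List.cons_ne_nil a c)) ℂ).symm (hd (a :: c) z)) := by
    rw [splitHomeo0]
    simp only [Homeomorph.trans_apply, Homeomorph.apply_symm_apply]
    rfl
  rw [show splitHomeo0 hc x = ((splitHomeo0 hc x).1, (splitHomeo0 hc x).2) from rfl,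
    trueHomeo_apply] at h1
  obtain ⟨e1, e2⟩ := Prod.mk.inj h1
  have e3 : (splitHomeo0 hc x).2 =
      (pwrHomeo (headWt_pos hc (List.cons_ne_nil a c)) ℂ).symm (hd (a :: c) z) := e2
  rw [e1, e3, ← pwrHomeo_apply (headWt_pos hc (List.cons_ne_nil a c)),
    Homeomorph.apply_symm_apply, cns_hd_tl]

theorem splitHomeo0_zero {a : ℕ} {c : List ℕ} (hc : ∀ b ∈ a :: c, 2 ≤ b) :
    splitHomeo0 hc 0 = 0 := by
  have hc' : ∀ b ∈ c, 2 ≤ b := fun b hb => hc b (List.mem_cons_of_mem a hb)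
  have h0 : trueHomeo (chainWt_pos hc') ℂ 0 = 0 := by
    show (Z2 (chainWt c) 0 ‖(0 : ℂ)‖, (0 : ℂ)) = 0
    rw [Z2_zero_left]
    rfl
  have h1 : trueHomeo (chainWt_pos hc') ℂ (splitHomeo0 hc 0) = 0 := by
    rw [splitHomeo0]
    simp only [Homeomorph.trans_apply, Homeomorph.apply_symm_apply]
    have e1 : WcHomeo (chainWt_pos hc) 0 = 0 := by
      rw [WcHomeo_apply, Wc_zero]
    rw [e1]
    have e2 : (pwrHomeo (headWt_pos hc (List.cons_ne_nil a c)) ℂ).symm 0 = 0 := by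
      rw [Homeomorph.symm_apply_eq, pwrHomeo_apply, pwr_zero]
    show ((tl a c 0, (pwrHomeo (headWt_pos hc (List.cons_ne_nil a c)) ℂ).symm (hd (a :: c) 0)) :
      (Fin c.length → ℂ) × ℂ) = 0
    have e3 : hd (a :: c) 0 = 0 := by rw [hd_cons]; rfl
    rw [e3, e2]
    rfl
  rw [← h0] at h1
  exact (trueHomeo (chainWt_pos hc') ℂ).injective h1

theorem headWt_cons_mul {a : ℕ} {c : List ℕ} (ha : a ≠ 0) :
    headWt (a :: c) * a = 1 - headWt c := by
  have haC : (a : ℝ) ≠ 0 := by exact_mod_cast ha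
  rw [headWt]
  field_simp

/-- The coupling `y ^ a` in normalised coordinates. -/
noncomputable def sigA (a : ℕ) (c : List ℕ) (y : ℂ) : ℂ := (pwr (headWt (a :: c)) y) ^ a

theorem P_cons {a : ℕ} {c : List ℕ} (hc : ∀ b ∈ a :: c, 2 ≤ b) (x : CE (a :: c)) :
    P (a :: c) x = cfun c (sigA a c) (fun _ => 0) (splitHomeo0 hc x) := by
  rw [P, splitHomeo0_spec hc, chainFun_cns]
  show _ = Munf c (sigA a c (splitHomeo0 hc x).2, 0)
    (Z2 (chainWt c) (splitHomeo0 hc x).1 ‖(splitHomeo0 hc x).2‖)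
  rw [Munf, sigA]
  ring

theorem cLoop_sigA {Θ : Type*} [TopologicalSpace Θ] {a : ℕ} {c : List ℕ}
    (hc : ∀ b ∈ a :: c, 2 ≤ b) (s : Set Θ) :
    CLoop c s (fun _ => sigA a c) (fun _ _ => 0) where
  contσ := by
    have h1 : Continuous (sigA a c) :=
      (continuous_pwr (headWt_pos hc (List.cons_ne_nil a c))).pow a
    exact (h1.comp continuous_snd).continuousOn
  contτ := continuousOn_const
  homσ := fun t _ r hr y => by
    have ha : a ≠ 0 := by
      have := hc a List.mem_cons_self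
      omega
    rw [sigA, pwr_smul (headWt_pos hc (List.cons_ne_nil a c)) hr, smul_pow,
      ← Real.rpow_mul_natCast hr, headWt_cons_mul ha]
    rfl
  homτ := fun t _ r _ y => by simp

/-- The real linear map `ζ ↦ e Re ζ + i f Im ζ`. -/
noncomputable def linP (e f : ℝ) : ℂ →L[ℝ] ℂ :=
  e • (Complex.ofRealCLM.comp Complex.reCLM) +
    f • ((Complex.I • Complex.ofRealCLM).comp Complex.imCLM)

theorem linP_apply (e f : ℝ) (ζ : ℂ) : linP e f ζ = (e * ζ.re : ℝ) + (f * ζ.im : ℝ) * Complex.I := by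
  simp [linP]
  ring

theorem surjective_linP {e f : ℝ} (he : e ≠ 0) (hf : f ≠ 0) : Function.Surjective (linP e f) := by
  intro c
  refine ⟨⟨c.re / e, c.im / f⟩, ?_⟩
  rw [linP_apply, mul_div_cancel₀ _ he, mul_div_cancel₀ _ hf, Complex.re_add_im]

theorem sigA_exp {a : ℕ} {c : List ℕ} (ha : a ≠ 0) (ζ : ℂ) :
    sigA a c (Complex.exp ζ) = Complex.exp (linP (1 - headWt c) a ζ) := by
  rw [sigA, pwr, Complex.norm_exp, Complex.real_smul, mul_pow, ← Complex.exp_nat_mul,
    ← Complex.ofReal_pow, ← Real.rpow_mul_natCast (Real.exp_pos _).le, ← Real.exp_mul,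
    Complex.ofReal_exp, ← Complex.exp_add, linP_apply]
  congr 1
  have h1 : (headWt (a :: c) : ℂ) * a = 1 - headWt c := by
    exact_mod_cast headWt_cons_mul (c := c) ha
  have h2 : ζ = ζ.re + ζ.im * Complex.I := (Complex.re_add_im ζ).symm
  push_cast
  linear_combination (ζ.re : ℂ) * h1 + (a : ℂ) * h2

theorem sigA_ne_zero {a : ℕ} {c : List ℕ} (ha : a ≠ 0) {y : ℂ} (hy : y ≠ 0) :
    sigA a c y ≠ 0 := by
  rw [← Complex.exp_log hy, sigA_exp ha]
  exact Complex.exp_ne_zero _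

/-- The coupling `y ^ a` is regular, for parameters `ξ ≠ 0`. -/
theorem regAt_sigA {Θ : Type*} [TopologicalSpace Θ] {s : Set Θ} {a : ℕ} {c : List ℕ}
    (hc : ∀ b ∈ a :: c, 2 ≤ b) {t : Θ} (ht : t ∈ s) {ξ : ℂ} (hξ : ξ ≠ 0) {y : ℂ} (hy : y ≠ 0) :
    RegAt (s ×ˢ (univ : Set ℂ)) (fun (p : Θ × ℂ) b => (0 : ℂ) + sigA a c b * p.2) (t, ξ) y := by
  have ha : a ≠ 0 := by
    have := hc a List.mem_cons_self
    omega
  rw [← Complex.exp_log hy]
  refine RegAt.of_exp (subset_closure (show (t, ξ) ∈ s ×ˢ (univ : Set ℂ) from ⟨ht, mem_univ _⟩)) ?_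
  have e : (fun (p : Θ × ℂ) (ζ : ℂ) => (0 : ℂ) + sigA a c (Complex.exp ζ) * p.2) =
      fun p ζ => Complex.exp (linP (1 - headWt c) a ζ) * p.2 := by
    funext p ζ
    rw [sigA_exp ha, zero_add]
  rw [e]
  have hw := (headWt_bounds fun b hb => hc b (List.mem_cons_of_mem a hb)).2
  set Λ := linP (1 - headWt c) (a : ℝ) with hΛ
  have hD : ∀ (ζ ξ : ℂ), HasFDerivAt (fun ζ => Complex.exp (Λ ζ) * ξ)
      ((ξ * Complex.exp (Λ ζ)) • Λ) ζ := by
    intro ζ ξ
    have h2 := (Complex.hasDerivAt_exp (Λ ζ)).hasFDerivAt.restrictScalars ℝ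
    have h3 := (h2.comp ζ Λ.hasFDerivAt).mul_const ξ
    refine h3.congr_fderiv ?_
    ext v
    simp
    ring
  refine RegAt.of_fderiv (D := fun p ζ => (p.2 * Complex.exp (Λ ζ)) • Λ)
    (F' := (ξ * Complex.exp (Λ (Complex.log y))) • Λ)
    (Eventually.of_forall fun q => hD q.2 q.1.2) ?_ ?_
  · have h1 : Continuous fun q : (Θ × ℂ) × ℂ => (q.1.2 * Complex.exp (Λ q.2)) • Λ :=
      ((continuous_snd.comp continuous_fst).mul
        (Complex.continuous_exp.comp (Λ.continuous.comp continuous_snd))).smul continuous_const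
    have h2 := h1.tendsto ((t, ξ), Complex.log y)
    rw [nhds_prod_eq] at h2
    exact h2.mono_left (Filter.prod_mono nhdsWithin_le_nhds le_rfl)
  · intro c'
    obtain ⟨v, hv⟩ := surjective_linP (e := 1 - headWt c) (f := (a : ℝ)) (by linarith)
      (by exact_mod_cast ha) (c' / (ξ * Complex.exp (Λ (Complex.log y))))
    refine ⟨v, ?_⟩
    have hne : ξ * Complex.exp (Λ (Complex.log y)) ≠ 0 := mul_ne_zero hξ (Complex.exp_ne_zero _)
    rw [_root_.smul_apply, hΛ, hv, smul_eq_mul, mul_div_cancel₀ _ hne]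

theorem hFun_cfun_sigA {a : ℕ} {c : List ℕ} (hc : ∀ b ∈ a :: c, 2 ≤ b) :
    HFun (cfun c (sigA a c) (fun _ => 0)) := by
  have hc' : ∀ b ∈ c, 2 ≤ b := fun b hb => hc b (List.mem_cons_of_mem a hb)
  have ha : a ≠ 0 := by
    have := hc a List.mem_cons_self
    omega
  refine hfam_cfun hc' (s := (univ : Set Unit)) (cLoop_sigA hc univ) ?_ ?_
  · intro t _ b hb h0 _
    exact absurd h0 (sigA_ne_zero ha hb)
  · intro t _ b hb hσ v hv _
    have hv0 : v ≠ 0 := by
      rintro rfl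
      have h1 := (mu_bounds hc').1
      rw [zero_pow h1.ne'] at hv
      exact mul_ne_zero (Cc_ne hc') (pow_ne_zero _ hσ) hv.symm
    exact regAt_sigA hc (mem_univ t)
      (div_ne_zero hv0 (mul_ne_zero (one_sub_headWt_ne hc') hσ)) hb

/-- **The first unfolding**: `P (a :: c)` is the loop `σ = y ^ a`, `τ = 0` of the unfolding
of `c`. -/
theorem hEqv_P_cons {a : ℕ} {c : List ℕ} (hc : ∀ b ∈ a :: c, 2 ≤ b) :
    HEqv (P (a :: c)) (cfun c (sigA a c) (fun _ => 0)) :=
  HEqv.of_homeo (hFun_P hc) (hFun_cfun_sigA hc) (splitHomeo0 hc) (splitHomeo0_zero hc)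
    (P_cons hc)

end Vale.Agent.P268.T
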