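import Vale.Agent.P268.T.H
import Vale.Agent.P268.T.Final

/-!
# P268, topological half: stable equivalence of functions of class `H`

`HEqv F G`: both functions are of class `H` and `ts F K`, `ts G K` have equivalent zero sets for
every function `K` of class `H` (on a finite dimensional space).  This is an equivalence relation,
a congruence for Thom–Sebastiani sums, it contains paths of class `H` and precomposition with
arbitrary homeomorphisms.
-/

set_option linter.unusedSectionVars false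

namespace Vale.Agent.P268.T

open Set Filter Topology

section

variable {E : Type} [NormedAddCommGroup E] [NormedSpace ℝ E]
  {E' : Type} [NormedAddCommGroup E'] [NormedSpace ℝ E']
  {E'' : Type} [NormedAddCommGroup E''] [NormedSpace ℝ E'']
  {E₁ : Type} [NormedAddCommGroup E₁] [NormedSpace ℝ E₁]
  {E₂ : Type} [NormedAddCommGroup E₂] [NormedSpace ℝ E₂]
  {T : Type} [TopologicalSpace T]

/-- Thom–Sebastiani sum. -/
def ts (F : E → ℂ) (G : E' → ℂ) : E × E' → ℂ := fun p => F p.1 + G p.2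


theorem ts_apply (F : E → ℂ) (G : E' → ℂ) (p : E × E') : ts F G p = F p.1 + G p.2 := rfl

/-- Functions of class `H`. -/
def HFun (F : E → ℂ) : Prop := HFam (univ : Set Unit) (fun _ => F)

theorem HFun.const {F : E → ℂ} (h : HFun F) (s : Set T) : HFam s (fun _ : T => F) :=
  HFam.param (s' := s) h (φ := fun _ => ()) continuousOn_const (fun _ _ => mem_univ _)

theorem HFam.at {s : Set T} {F : T → E → ℂ} (h : HFam s F) {t : T} (ht : t ∈ s) : HFun (F t) :=
  HFam.param (s' := univ) h (φ := fun _ : Unit => t) continuousOn_const (fun _ _ => ht)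

theorem HFun.mk' {F : E → ℂ} (hc : Continuous F) (hh : Hom1 F)
    (hr : ∀ x ≠ 0, 0 ≤ (F x).re → RegAt (univ : Set Unit) (fun _ => F) () x) : HFun F where
  cont := (hc.comp continuous_snd).continuousOn
  hom := fun _ _ => hh
  reg := fun _ _ x hx h0 => hr x hx h0

theorem HFun.hom1 {F : E → ℂ} (h : HFun F) : Hom1 F := h.hom () (mem_univ _)

theorem HFun.continuous {F : E → ℂ} (h : HFun F) : Continuous F := by
  have h1 := h.cont
  rw [univ_prod_univ, continuousOn_univ] at h1
  exact h1.comp (Continuous.prodMk_right ())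

theorem HFun.add {F : E → ℂ} {G : E' → ℂ} (hF : HFun F) (hG : HFun G) : HFun (ts F G) :=
  HFam.add hF hG

theorem HFun.comp_linear {F : E' → ℂ} (e : E ≃L[ℝ] E') (h : HFun F) : HFun (fun x => F (e x)) :=
  HFam.comp_linear e h

/-- The zero function on the zero space (unit for sums). -/
theorem HFun.zero : HFun (fun _ : Fin 0 → ℝ => (0 : ℂ)) := by
  refine HFun.mk' continuous_const (fun r _ x => by simp) (fun x hx => ?_)
  exact absurd (Subsingleton.elim x 0) hx

/-- Stable equivalence of functions of class `H`. -/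
structure HEqv (F : E → ℂ) (G : E' → ℂ) : Prop where
  left : HFun F
  right : HFun G
  veq : ∀ (K : Type) [NormedAddCommGroup K] [NormedSpace ℝ K] [FiniteDimensional ℝ K] (k : K → ℂ),
    HFun k → VEq (ts F k) (ts G k)

theorem HEqv.refl {F : E → ℂ} (h : HFun F) : HEqv F F :=
  ⟨h, h, fun _ _ _ _ _ _ => VEq.refl _⟩

theorem HEqv.symm {F : E → ℂ} {G : E' → ℂ} (h : HEqv F G) : HEqv G F :=
  ⟨h.right, h.left, fun K _ _ _ k hk => (h.veq K k hk).symm⟩

theorem HEqv.trans {F : E → ℂ} {G : E' → ℂ} {L : E'' → ℂ} (h : HEqv F G) (g : HEqv G L) :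
    HEqv F L :=
  ⟨h.left, g.right, fun K _ _ _ k hk => (h.veq K k hk).trans (g.veq K k hk)⟩

/-- Precomposition with a homeomorphism (no regularity of the homeomorphism is needed). -/
theorem HEqv.of_homeo {F : E → ℂ} {G : E' → ℂ} (hF : HFun F) (hG : HFun G) (φ : E ≃ₜ E')
    (h0 : φ 0 = 0) (h : ∀ x, F x = G (φ x)) : HEqv F G := by
  refine ⟨hF, hG, fun K _ _ _ k hk => ?_⟩
  refine VEq.of_homeo (φ.prodCongr (Homeomorph.refl K)) ?_ (fun p => ?_)
  · show (φ 0, (0 : K)) = 0
    rw [h0]; rfl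
  · show F p.1 + k p.2 = 0 ↔ G (φ p.1) + k p.2 = 0
    rw [h]

theorem HEqv.of_linear (e : E ≃L[ℝ] E') {G : E' → ℂ} (hG : HFun G) :
    HEqv (fun x => G (e x)) G :=
  HEqv.of_homeo (hG.comp_linear e) hG e.toHomeomorph e.map_zero (fun _ => rfl)

theorem HEqv.of_eq {F G : E → ℂ} (hF : HFun F) (h : F = G) : HEqv F G := h ▸ HEqv.refl hF

/-- Members of an `H`-family over a preconnected set. -/
theorem HEqv.of_fam [FiniteDimensional ℝ E] {s : Set T} (hs : IsPreconnected s) {F : T → E → ℂ}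
    (hF : HFam s F) {a b : T} (ha : a ∈ s) (hb : b ∈ s) : HEqv (F a) (F b) := by
  refine ⟨hF.at ha, hF.at hb, fun K _ _ _ k hk => ?_⟩
  have : ProperSpace (E × K) := FiniteDimensional.proper ℝ (E × K)
  exact (HFam.add hF (hk.const s)).veq hs ha hb

/-- Paths of class `H`. -/
theorem HEqv.of_path [FiniteDimensional ℝ E] {F : ℝ → E → ℂ} (hF : HFam (Icc (0 : ℝ) 1) F) :
    HEqv (F 0) (F 1) :=
  HEqv.of_fam isPreconnected_Icc hF (left_mem_Icc.mpr zero_le_one) (right_mem_Icc.mpr zero_le_one)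

/-! ### Sums -/

theorem veq_assoc (F : E → ℂ) (G : E' → ℂ) (L : E'' → ℂ) : VEq (ts (ts F G) L) (ts F (ts G L)) :=
  VEq.of_homeo (Homeomorph.prodAssoc E E' E'') rfl
    (fun p => by
      show F p.1.1 + G p.1.2 + L p.2 = 0 ↔ F p.1.1 + (G p.1.2 + L p.2) = 0
      rw [add_assoc])

theorem veq_comm (F : E → ℂ) (G : E' → ℂ) : VEq (ts F G) (ts G F) :=
  VEq.of_homeo (Homeomorph.prodComm E E') rfl
    (fun p => by
      show F p.1 + G p.2 = 0 ↔ G p.2 + F p.1 = 0
      rw [add_comm])

theorem HEqv.comm {F : E → ℂ} {G : E' → ℂ} (hF : HFun F) (hG : HFun G) :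
    HEqv (ts F G) (ts G F) :=
  HEqv.of_homeo (hF.add hG) (hG.add hF) (Homeomorph.prodComm E E') rfl
    (fun p => by
      show F p.1 + G p.2 = G p.2 + F p.1
      rw [add_comm])

theorem HEqv.assoc {F : E → ℂ} {G : E' → ℂ} {L : E'' → ℂ} (hF : HFun F) (hG : HFun G)
    (hL : HFun L) : HEqv (ts (ts F G) L) (ts F (ts G L)) :=
  HEqv.of_homeo ((hF.add hG).add hL) (hF.add (hG.add hL)) (Homeomorph.prodAssoc E E' E'') rfl
    (fun p => by
      show F p.1.1 + G p.1.2 + L p.2 = F p.1.1 + (G p.1.2 + L p.2)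
      rw [add_assoc])

theorem HEqv.add_right [FiniteDimensional ℝ E''] {F : E → ℂ} {G : E' → ℂ} (h : HEqv F G)
    {L : E'' → ℂ} (hL : HFun L) : HEqv (ts F L) (ts G L) := by
  refine ⟨h.left.add hL, h.right.add hL, fun K _ _ _ k hk => ?_⟩
  exact (veq_assoc F L k).trans ((h.veq (E'' × K) (ts L k) (hL.add hk)).trans
    (veq_assoc G L k).symm)

theorem HEqv.add_left [FiniteDimensional ℝ E''] {F : E → ℂ} {G : E' → ℂ} (h : HEqv F G)
    {L : E'' → ℂ} (hL : HFun L) : HEqv (ts L F) (ts L G) :=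
  (HEqv.comm hL h.left).trans ((h.add_right hL).trans (HEqv.comm h.right hL))

/-- `HEqv` is a congruence for sums. -/
theorem HEqv.add [FiniteDimensional ℝ E'] [FiniteDimensional ℝ E₁] {F : E → ℂ} {G : E' → ℂ}
    {F₁ : E₁ → ℂ} {G₁ : E₂ → ℂ} (h : HEqv F G) (h₁ : HEqv F₁ G₁) :
    HEqv (ts F F₁) (ts G G₁) :=
  (h.add_right h₁.left).trans (h₁.add_left h.right)

/-- The zero sets are equivalent. -/
theorem HEqv.toVEq {F : E → ℂ} {G : E' → ℂ} (h : HEqv F G) : VEq F G := by
  have h1 := h.veq (Fin 0 → ℝ) _ HFun.zero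
  have e1 : VEq F (ts F fun _ : Fin 0 → ℝ => (0 : ℂ)) := by
    refine VEq.of_homeo (Homeomorph.prodUnique E (Fin 0 → ℝ)).symm
      (Prod.ext rfl (Subsingleton.elim _ _)) (fun x => ?_)
    show F x = 0 ↔ F x + 0 = 0
    rw [add_zero]
  have e2 : VEq G (ts G fun _ : Fin 0 → ℝ => (0 : ℂ)) := by
    refine VEq.of_homeo (Homeomorph.prodUnique E' (Fin 0 → ℝ)).symm
      (Prod.ext rfl (Subsingleton.elim _ _)) (fun x => ?_)
    show G x = 0 ↔ G x + 0 = 0
    rw [add_zero]
  exact e1.trans (h1.trans e2.symm)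

/-- Unit law. -/
theorem HEqv.add_zero {F : E → ℂ} (hF : HFun F) :
    HEqv (ts F fun _ : Fin 0 → ℝ => (0 : ℂ)) F :=
  HEqv.of_homeo (hF.add HFun.zero) hF (Homeomorph.prodUnique E (Fin 0 → ℝ)) rfl
    (fun p => by
      show F p.1 + 0 = F p.1
      rw [_root_.add_zero])

end

/-! ### Finite sums -/

section Sum

variable {ι : Type} [Fintype ι] {E : ι → Type} [∀ i, NormedAddCommGroup (E i)]
  [∀ i, NormedSpace ℝ (E i)] {T : Type} [TopologicalSpace T]

/-- Sums of families of class `H` over a finite index type. -/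
theorem HFam.sum {s : Set T} {F : ∀ i, T → E i → ℂ} (hF : ∀ i, HFam s (F i)) :
    HFam s (fun t (x : ∀ i, E i) => ∑ i, F i t (x i)) where
  cont := cont_sum fun i => (hF i).cont
  hom := fun t ht r hr x => by
    rw [Finset.smul_sum]
    exact Finset.sum_congr rfl fun i _ => (hF i).hom t ht r hr (x i)
  reg := fun t ht x hx h0 => by
    classical
    obtain ⟨i, hi, hi0⟩ : ∃ i, x i ≠ 0 ∧ 0 ≤ (F i t (x i)).re := by
      by_contra hcon
      push Not at hcon
      obtain ⟨j, hj⟩ : ∃ i, x i ≠ 0 := by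
        by_contra hcon'
        push Not at hcon'
        exact hx (funext hcon')
      have h1 : ∑ i, (F i t (x i)).re < ∑ _i : ι, (0 : ℝ) := by
        refine Finset.sum_lt_sum (fun i _ => ?_) ⟨j, Finset.mem_univ _, hcon j hj⟩
        rcases eq_or_ne (x i) 0 with h | h
        · rw [h, ((hF i).hom t ht).zero]; simp
        · exact (hcon i h).le
      rw [Finset.sum_const_zero] at h1
      rw [Complex.re_sum] at h0
      linarith
    exact RegAt.sum i ((hF i).reg t ht (x i) hi hi0)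

theorem HFun.sum {F : ∀ i, E i → ℂ} (hF : ∀ i, HFun (F i)) :
    HFun (fun x : ∀ i, E i => ∑ i, F i (x i)) :=
  HFam.sum hF

end Sum

/-- `HEqv` is a congruence for sums over `Fin n`. -/
theorem HEqv.sum_fin : ∀ {n : ℕ} {E E' : Fin n → Type} [∀ i, NormedAddCommGroup (E i)]
    [∀ i, NormedSpace ℝ (E i)] [∀ i, NormedAddCommGroup (E' i)] [∀ i, NormedSpace ℝ (E' i)]
    [∀ i, FiniteDimensional ℝ (E i)] [∀ i, FiniteDimensional ℝ (E' i)]
    {F : ∀ i, E i → ℂ} {G : ∀ i, E' i → ℂ}, (∀ i, HEqv (F i) (G i)) →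
    HEqv (fun x : ∀ i, E i => ∑ i, F i (x i)) (fun x : ∀ i, E' i => ∑ i, G i (x i)) := by
  intro n
  induction n with
  | zero =>
    intro E E' _ _ _ _ _ _ F G h
    refine HEqv.of_homeo (HFun.sum fun i => (h i).left) (HFun.sum fun i => (h i).right)
      ⟨⟨fun _ i => i.elim0, fun _ i => i.elim0, fun _ => funext fun i => i.elim0,
        fun _ => funext fun i => i.elim0⟩, continuous_pi fun i => i.elim0,
        continuous_pi fun i => i.elim0⟩ (funext fun i => i.elim0) (fun x => ?_)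
    simp
  | succ n ih =>
    intro E E' _ _ _ _ _ _ F G h
    have e1 : HEqv (ts (F 0) fun x : ∀ i : Fin n, E i.succ => ∑ i, F i.succ (x i))
        (fun x : ∀ i, E i => ∑ i, F i (x i)) := by
      refine HEqv.of_homeo ((h 0).left.add (HFun.sum fun i => (h i.succ).left))
        (HFun.sum fun i => (h i).left) (Fin.consEquivL ℝ E).toHomeomorph
        (Fin.consEquivL ℝ E).map_zero (fun x => ?_)
      rw [Fin.sum_univ_succ]
      rfl
    have e2 : HEqv (ts (G 0) fun x : ∀ i : Fin n, E' i.succ => ∑ i, G i.succ (x i))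
        (fun x : ∀ i, E' i => ∑ i, G i (x i)) := by
      refine HEqv.of_homeo ((h 0).right.add (HFun.sum fun i => (h i.succ).right))
        (HFun.sum fun i => (h i).right) (Fin.consEquivL ℝ E').toHomeomorph
        (Fin.consEquivL ℝ E').map_zero (fun x => ?_)
      rw [Fin.sum_univ_succ]
      rfl
    exact e1.symm.trans (((h 0).add (ih fun i => h i.succ)).trans e2)

/-- `HEqv` is a congruence for sums over a finite type. -/
theorem HEqv.sum {ι : Type} [Fintype ι] {E E' : ι → Type} [∀ i, NormedAddCommGroup (E i)]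
    [∀ i, NormedSpace ℝ (E i)] [∀ i, NormedAddCommGroup (E' i)] [∀ i, NormedSpace ℝ (E' i)]
    [∀ i, FiniteDimensional ℝ (E i)] [∀ i, FiniteDimensional ℝ (E' i)]
    {F : ∀ i, E i → ℂ} {G : ∀ i, E' i → ℂ} (h : ∀ i, HEqv (F i) (G i)) :
    HEqv (fun x : ∀ i, E i => ∑ i, F i (x i)) (fun x : ∀ i, E' i => ∑ i, G i (x i)) := by
  let e : Fin (Fintype.card ι) ≃ ι := (Fintype.equivFin ι).symm
  have e1 : HEqv (fun x : ∀ i, E (e i) => ∑ i, F (e i) (x i))
      (fun x : ∀ i, E i => ∑ i, F i (x i)) := by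
    refine HEqv.of_homeo (HFun.sum fun i => (h (e i)).left) (HFun.sum fun i => (h i).left)
      (Homeomorph.piCongrLeft e) ?_ (fun x => ?_)
    · funext i
      obtain ⟨j, rfl⟩ := e.surjective i
      exact Equiv.piCongrLeft_apply_apply (P := E) e 0 j
    · rw [← e.sum_comp]
      refine Finset.sum_congr rfl fun j _ => ?_
      congr 1
      exact (Equiv.piCongrLeft_apply_apply (P := E) e x j).symm
  have e2 : HEqv (fun x : ∀ i, E' (e i) => ∑ i, G (e i) (x i))
      (fun x : ∀ i, E' i => ∑ i, G i (x i)) := by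
    refine HEqv.of_homeo (HFun.sum fun i => (h (e i)).right) (HFun.sum fun i => (h i).right)
      (Homeomorph.piCongrLeft e) ?_ (fun x => ?_)
    · funext i
      obtain ⟨j, rfl⟩ := e.surjective i
      exact Equiv.piCongrLeft_apply_apply (P := E') e 0 j
    · rw [← e.sum_comp]
      refine Finset.sum_congr rfl fun j _ => ?_
      congr 1
      exact (Equiv.piCongrLeft_apply_apply (P := E') e x j).symm
  exact e1.symm.trans ((HEqv.sum_fin fun i => h (e i)).trans e2)

/-! ### Chain polynomials -/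

open Vale.Agent.P268.Z in
theorem hFun_P {c : List ℕ} (hc : ∀ a ∈ c, 2 ≤ a) : HFun (P c) := (oFam_P hc _).toHFam

open Vale.Agent.P268.Z in
theorem hFun_sumP {ι : Type} [Fintype ι] {F : ι → List ℕ} (hF : ∀ i, ∀ a ∈ F i, 2 ≤ a) :
    HFun (sumP F) := HFun.sum fun i => hFun_P (hF i)

end Vale.Agent.P268.T
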