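import Vale.Agent.P268.T.ChainCrit
import Vale.Agent.P268.T.HEq

/-!
# P268, topological half: loops of unfoldings `c(z) + σ z₀ + τ` of chain polynomials
-/

set_option linter.unusedSectionVars false

namespace Vale.Agent.P268.T

open Set Filter Topology Vale.Agent.P268.Z

/-- Scaling of the parameters `(σ, τ)`. -/
noncomputable def chDl (c : List ℕ) (r : ℝ) (q : ℂ × ℂ) : ℂ × ℂ :=
  ((r ^ (1 - headWt c) : ℝ) • q.1, r • q.2)

theorem hd_weight {c : List ℕ} (hc : ∀ a ∈ c, 2 ≤ a) {r : ℝ} (z : Fin c.length → ℂ) :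
    hd c (fun i => (r ^ (chainWt c i) : ℝ) • z i) = (r ^ (headWt c) : ℝ) • hd c z := by
  cases c with
  | nil => simp [hd_nil, headWt]
  | cons a c =>
    rw [hd_cons, hd_cons]
    rfl

theorem wUnf_chain {c : List ℕ} (hc : ∀ a ∈ c, 2 ≤ a) :
    WUnf (chainWt c) (chDl c) (Munf c) where
  cont := by
    have h1 : Continuous (chainFun c) := (contDiff_chainFun c).continuous
    have h2 : Continuous (hd c) := (contDiff_hd c).continuous
    exact ((h1.comp continuous_snd).add ((continuous_fst.comp continuous_fst).mul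
      (h2.comp continuous_snd))).add (continuous_snd.comp continuous_fst)
  diff := fun q => (contDiff_Munf c q).differentiable one_ne_zero
  cont' := by
    have h1 : Continuous (fderiv ℂ (chainFun c)) :=
      (contDiff_chainFun c).continuous_fderiv one_ne_zero
    have h2 : Continuous (fderiv ℂ (hd c)) := (contDiff_hd c).continuous_fderiv one_ne_zero
    have h3 : (fun p : (ℂ × ℂ) × (Fin c.length → ℂ) => fderiv ℂ (Munf c p.1) p.2) =
        fun p => fderiv ℂ (chainFun c) p.2 + p.1.1 • fderiv ℂ (hd c) p.2 :=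
      funext fun p => fderiv_Munf c p.1 p.2
    rw [h3]
    exact (h1.comp continuous_snd).add ((continuous_fst.comp continuous_fst).smul
      (h2.comp continuous_snd))
  hom := by
    intro r hr q z
    have hw := headWt_bounds hc
    rw [Munf, Munf, chainFun_hom hc r hr, hd_weight hc, chDl]
    rcases hr.eq_or_lt with rfl | hr
    · have h1 : (1 : ℝ) - headWt c ≠ 0 := by linarith [hw.2]
      simp [Real.zero_rpow h1]
    · have h2 : ((r ^ (1 - headWt c) : ℝ) : ℂ) * ((r ^ (headWt c) : ℝ) : ℂ) = (r : ℂ) := by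
        rw [← Complex.ofReal_mul, ← Real.rpow_add hr]
        simp
      simp only [Complex.real_smul]
      linear_combination (q.1 * hd c z) * h2
  crit := by
    intro q z hz
    have hw := headWt_bounds hc
    have h1 : (1 : ℝ) - headWt c ≠ 0 := by linarith [hw.2]
    have h2 : chDl c 0 q = (0, 0) := by
      rw [chDl, Real.zero_rpow h1, zero_smul, zero_smul]
    rw [h2] at hz
    cases c with
    | nil => exact funext fun i => i.elim0
    | cons a c => exact (crit_rel hc 0 0 z hz).2.2.2 (List.cons_ne_nil a c) rfl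

variable {Θ : Type*} [TopologicalSpace Θ] {W : Type*} [NormedAddCommGroup W] [NormedSpace ℝ W]

/-- Families of homogeneous maps `(σ, τ)`. -/
structure CLoop (c : List ℕ) (s : Set Θ) (σ τ : Θ → W → ℂ) : Prop where
  contσ : ContinuousOn (fun p : Θ × W => σ p.1 p.2) (s ×ˢ univ)
  contτ : ContinuousOn (fun p : Θ × W => τ p.1 p.2) (s ×ˢ univ)
  homσ : ∀ t ∈ s, ∀ r : ℝ, 0 ≤ r → ∀ y, σ t (r • y) = (r ^ (1 - headWt c) : ℝ) • σ t y
  homτ : ∀ t ∈ s, ∀ r : ℝ, 0 ≤ r → ∀ y, τ t (r • y) = r • τ t y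

/-- The function `c(z) + σ z₀ + τ` on `CE c × W`. -/
noncomputable def cfun (c : List ℕ) (σ τ : W → ℂ) : CE c × W → ℂ :=
  wfun (chainWt c) (Munf c) (fun y => (σ y, τ y))

theorem cfun_apply (c : List ℕ) (σ τ : W → ℂ) (x : CE c) (y : W) :
    cfun c σ τ (x, y) = chainFun c (Z2 (chainWt c) x ‖y‖) +
      σ y * hd c (Z2 (chainWt c) x ‖y‖) + τ y := rfl

theorem CLoop.wLoop {c : List ℕ} {s : Set Θ} {σ τ : Θ → W → ℂ} (h : CLoop c s σ τ) :
    WLoop (chDl c) s (fun t y => (σ t y, τ t y)) where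
  cont := h.contσ.prodMk h.contτ
  hom := fun t ht r hr y => by
    show (σ t (r • y), τ t (r • y)) = chDl c r (σ t y, τ t y)
    rw [h.homσ t ht r hr, h.homτ t ht r hr, chDl]

/-- **Criterion (A)**: the function `c(z) + σ(b) z₀ + τ(b)` is regular away from the values in
`S` as soon as, for the critical points of `z ↦ c(z) + σ(b) z₀`, with value `v` and head
coordinate `ξ = v / ((1 - w₀) σ(b))`, the functions `b ↦ τ(b) + σ(b) ξ'`, `ξ'` near `ξ`, are
uniformly regular where `τ(b) + v ∉ S`. -/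
theorem nfam_cfun {S : Set ℂ} {c : List ℕ} (hc : ∀ a ∈ c, 2 ≤ a) {s : Set Θ}
    {σ τ : Θ → W → ℂ} (hL : CLoop c s σ τ)
    (h0 : ∀ t ∈ s, ∀ b : W, b ≠ 0 → σ t b = 0 → τ t b ∉ S →
      RegAt (s ×ˢ univ) (fun (p : Θ × ℂ) b => τ p.1 b + σ p.1 b * p.2) (t, hd c 0) b)
    (h1 : ∀ t ∈ s, ∀ b : W, b ≠ 0 → σ t b ≠ 0 → ∀ v : ℂ, v ^ mu c = Cc c * (σ t b) ^ c.prod →
      τ t b + v ∉ S →
      RegAt (s ×ˢ univ) (fun (p : Θ × ℂ) b => τ p.1 b + σ p.1 b * p.2)
        (t, v / ((1 - (headWt c : ℂ)) * σ t b)) b) :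
    NFam S s (fun t => cfun c (σ t) (τ t)) := by
  refine nfam_wfun (chainWt_pos hc) (wUnf_chain hc) hL.wLoop ?_
  intro t ht b hb z hz hval
  obtain ⟨e1, e2, e3, e4⟩ := crit_rel hc _ _ _ hz
  have hhd : Continuous (hd c) := (contDiff_hd c).continuous
  -- it is enough to be regular for the parameter `hd c z`
  have key : RegAt (s ×ˢ univ) (fun (p : Θ × ℂ) b => τ p.1 b + σ p.1 b * p.2) (t, hd c z) b := by
    by_cases hσ : σ t b = 0
    · have hz0 : hd c z = hd c 0 := by
        cases c with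
        | nil => rfl
        | cons a c => rw [e4 (List.cons_ne_nil a c) hσ]
      rw [hz0]
      refine h0 t ht b hb hσ ?_
      intro h
      apply hval
      rw [e1, hσ, zero_mul, mul_zero, zero_add]
      exact h
    · have hξ : hd c z = ((1 - (headWt c : ℂ)) * (σ t b * hd c z)) /
          ((1 - (headWt c : ℂ)) * σ t b) := by
        have := one_sub_headWt_ne hc
        field_simp
      have h2 := h1 t ht b hb hσ _ e2 (by
        intro h
        apply hval
        rw [e1, add_comm]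
        exact h)
      rw [← hξ] at h2
      exact h2
  have h3 : RegAt (s ×ˢ (univ : Set (Fin c.length → ℂ)))
      (fun (tz : Θ × (Fin c.length → ℂ)) (b' : W) =>
      τ tz.1 b' + σ tz.1 b' * hd c tz.2) (t, z) b := by
    have hφ : ContinuousWithinAt (fun tz : Θ × (Fin c.length → ℂ) => (tz.1, hd c tz.2))
        (s ×ˢ (univ : Set (Fin c.length → ℂ))) (t, z) :=
      (continuous_fst.prodMk (hhd.comp continuous_snd)).continuousWithinAt
    exact RegAt.param (s := s ×ˢ (univ : Set ℂ))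
      (F := fun (p : Θ × ℂ) (b : W) => τ p.1 b + σ p.1 b * p.2)
      (t := ((t, z) : Θ × (Fin c.length → ℂ))) hφ
      (fun p hp => mk_mem_prod hp.1 (mem_univ _)) key
  have h4 := h3.add_const (fun tz : Θ × (Fin c.length → ℂ) => chainFun c tz.2)
  have e : (fun (tz : Θ × (Fin c.length → ℂ)) (b' : W) => Munf c (σ tz.1 b', τ tz.1 b') tz.2) =
      fun tz b' => chainFun c tz.2 + (τ tz.1 b' + σ tz.1 b' * hd c tz.2) := by
    funext tz b'
    rw [Munf]
    ring
  have h5 : RegAt (s ×ˢ univ) (fun (tz : Θ × (Fin c.length → ℂ)) (b' : W) =>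
      Munf c (σ tz.1 b', τ tz.1 b') tz.2) (t, z) b := by
    rw [e]
    exact h4
  exact h5

/-- Criterion (A) for the class `H`. -/
theorem hfam_cfun {c : List ℕ} (hc : ∀ a ∈ c, 2 ≤ a) {s : Set Θ}
    {σ τ : Θ → W → ℂ} (hL : CLoop c s σ τ)
    (h0 : ∀ t ∈ s, ∀ b : W, b ≠ 0 → σ t b = 0 → 0 ≤ (τ t b).re →
      RegAt (s ×ˢ univ) (fun (p : Θ × ℂ) b => τ p.1 b + σ p.1 b * p.2) (t, hd c 0) b)
    (h1 : ∀ t ∈ s, ∀ b : W, b ≠ 0 → σ t b ≠ 0 → ∀ v : ℂ, v ^ mu c = Cc c * (σ t b) ^ c.prod →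
      0 ≤ (τ t b + v).re →
      RegAt (s ×ˢ univ) (fun (p : Θ × ℂ) b => τ p.1 b + σ p.1 b * p.2)
        (t, v / ((1 - (headWt c : ℂ)) * σ t b)) b) :
    HFam s (fun t => cfun c (σ t) (τ t)) := by
  have h := nfam_cfun (S := {z : ℂ | z.re < 0}) hc hL
    (fun t ht b hb hσ hv => h0 t ht b hb hσ (by simpa using hv))
    (fun t ht b hb hσ v hv hv' => h1 t ht b hb hσ v hv (by simpa using hv'))
  exact ⟨h.cont, h.hom, fun t ht x hx h0 => h.reg t ht x hx (by simpa using h0)⟩

end Vale.Agent.P268.T
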