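import Mathlib

/-!
# P268 / topology: time-`T` maps of globally Lipschitz time-dependent vector fields
-/

namespace Vale.Agent.P268.T

open Set Metric
open scoped NNReal Topology

section Flow

variable {E : Type*} [NormedAddCommGroup E] [NormedSpace ℝ E]

/-- `γ` solves `γ' = v t γ` on `[a, b]`. -/
def Sol (v : ℝ → E → E) (a b : ℝ) (γ : ℝ → E) : Prop :=
  ∀ t ∈ Icc a b, HasDerivWithinAt γ (v t (γ t)) (Icc a b) t

theorem Sol.continuousOn {v : ℝ → E → E} {a b : ℝ} {γ : ℝ → E} (h : Sol v a b γ) :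
    ContinuousOn γ (Icc a b) := fun t ht => (h t ht).continuousWithinAt

theorem Sol.right {v : ℝ → E → E} {a b : ℝ} {γ : ℝ → E} (h : Sol v a b γ) :
    ∀ t ∈ Ico a b, HasDerivWithinAt γ (v t (γ t)) (Ici t) t := fun t ht =>
  (h t (Ico_subset_Icc_self ht)).mono_of_mem_nhdsWithin (Icc_mem_nhdsGE_of_mem ht)

theorem Sol.rev {v : ℝ → E → E} {a b : ℝ} {γ : ℝ → E} (h : Sol v a b γ) :
    Sol (fun t x => -v (a + b - t) x) a b (fun t => γ (a + b - t)) := by
  intro t ht
  have h1 : a + b - t ∈ Icc a b := ⟨by linarith [ht.2], by linarith [ht.1]⟩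
  have h2 : HasDerivWithinAt (fun t : ℝ => a + b - t) (-1) (Icc a b) t := by
    simpa using (hasDerivWithinAt_id t (Icc a b)).const_sub (a + b)
  have h3 := HasDerivWithinAt.scomp (h := fun t : ℝ => a + b - t) (g₁ := γ)
    (g₁' := v (a + b - t) (γ (a + b - t))) (t' := Icc a b) t (h _ h1) h2
    (fun s hs => ⟨by linarith [hs.2], by linarith [hs.1]⟩)
  rw [neg_one_smul] at h3
  exact h3

theorem Sol.unique {v : ℝ → E → E} {K : ℝ≥0} (hv : ∀ t, LipschitzWith K (v t)) {a b : ℝ}
    {γ δ : ℝ → E} (h : Sol v a b γ) (h' : Sol v a b δ) (h0 : γ a = δ a) :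
    ∀ t ∈ Icc a b, γ t = δ t :=
  ODE_solution_unique_of_mem_Icc_right (s := fun _ => univ)
    (fun t _ => (hv t).lipschitzOnWith) h.continuousOn h.right (fun _ _ => trivial)
    h'.continuousOn h'.right (fun _ _ => trivial) h0

theorem Sol.dist_le {v : ℝ → E → E} {K : ℝ≥0} (hv : ∀ t, LipschitzWith K (v t)) {a b : ℝ}
    {γ δ : ℝ → E} (h : Sol v a b γ) (h' : Sol v a b δ) :
    ∀ t ∈ Icc a b, dist (γ t) (δ t) ≤ dist (γ a) (δ a) * Real.exp (K * (t - a)) :=
  dist_le_of_trajectories_ODE hv h.continuousOn h.right h'.continuousOn h'.right le_rfl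

/-- Existence on short intervals. -/
theorem exists_sol [CompleteSpace E] {v : ℝ → E → E} {K : ℝ≥0}
    (hv : ∀ t, LipschitzWith K (v t)) (hc : ∀ x, Continuous fun t => v t x)
    (h0 : ∀ t, v t 0 = 0) {a b : ℝ} (hab : a ≤ b) (hK : K * (b - a) ≤ 1 / 2) (x : E) :
    ∃ γ : ℝ → E, γ a = x ∧ Sol v a b γ := by
  have hpl : IsPicardLindelof v (tmin := a) (tmax := b) ⟨a, left_mem_Icc.mpr hab⟩ x ‖x‖₊ 0
      (K * (2 * ‖x‖₊)) K := by
    refine ⟨fun t _ => (hv t).lipschitzOnWith, fun y _ => (hc y).continuousOn, ?_, ?_⟩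
    · intro t _ y hy
      have h1 : ‖v t y‖ ≤ K * ‖y‖ := by
        have := (hv t).norm_sub_le y 0
        rwa [h0, sub_zero, sub_zero] at this
      have h2 : ‖y‖ ≤ 2 * ‖x‖ := by
        rw [mem_closedBall, dist_eq_norm] at hy
        have h3 : ‖y‖ ≤ ‖y - x‖ + ‖x‖ := by
          have := norm_add_le (y - x) x
          rwa [sub_add_cancel] at this
        have h4 : ‖y - x‖ ≤ ‖x‖ := hy
        linarith
      calc ‖v t y‖ ≤ K * ‖y‖ := h1
        _ ≤ K * (2 * ‖x‖) := mul_le_mul_of_nonneg_left h2 K.2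
        _ = ((K * (2 * ‖x‖₊) : ℝ≥0) : ℝ) := by push_cast; rfl
    · have h1 : max (b - a) (a - a) = b - a := by
        rw [sub_self]; exact max_eq_left (by linarith)
      change ((K * (2 * ‖x‖₊) : ℝ≥0) : ℝ) * max (b - a) (a - a) ≤ (‖x‖₊ : ℝ) - ((0 : ℝ≥0) : ℝ)
      rw [h1]
      push_cast
      have h2 : 0 ≤ ‖x‖ := norm_nonneg x
      nlinarith
  obtain ⟨γ, h1, h2⟩ := hpl.exists_eq_forall_mem_Icc_hasDerivWithinAt₀
  exact ⟨γ, h1, h2⟩

/-- The time-`(b - a)` map of a globally Lipschitz field, for short intervals. -/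
theorem exists_flow [CompleteSpace E] {v : ℝ → E → E} {K : ℝ≥0}
    (hv : ∀ t, LipschitzWith K (v t)) (hc : ∀ x, Continuous fun t => v t x)
    (h0 : ∀ t, v t 0 = 0) {a b : ℝ} (hab : a ≤ b) (hK : K * (b - a) ≤ 1 / 2) :
    ∃ Φ : E ≃ₜ E, ∀ x, ∃ γ : ℝ → E, γ a = x ∧ γ b = Φ x ∧ Sol v a b γ := by
  have hba : a ≤ b := hab
  choose γ hγ0 hγ using fun x => exists_sol hv hc h0 hab hK x
  let w : ℝ → E → E := fun t x => -v (a + b - t) x
  have hw : ∀ t, LipschitzWith K (w t) := fun t => (hv (a + b - t)).neg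
  have hwc : ∀ x, Continuous fun t => w t x := fun x =>
    ((hc x).comp (continuous_const.sub continuous_id)).neg
  have hw0 : ∀ t, w t 0 = 0 := fun t => by simp [w, h0]
  choose δ hδ0 hδ using fun x => exists_sol hw hwc hw0 hab hK x
  have hww : (fun t x => -w (a + b - t) x) = v := by
    funext t x
    simp [w]
  -- the reversed solutions
  have hrev1 : ∀ x t, t ∈ Icc a b → δ (γ x b) t = γ x (a + b - t) := by
    intro x t ht
    refine Sol.unique hw (hδ (γ x b)) (hγ x).rev ?_ t ht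
    simp [hδ0]
  have hrev2 : ∀ x t, t ∈ Icc a b → γ (δ x b) t = δ x (a + b - t) := by
    intro x t ht
    have h1 : Sol v a b (fun t => δ x (a + b - t)) := by
      have := (hδ x).rev
      rwa [hww] at this
    refine Sol.unique hv (hγ (δ x b)) h1 ?_ t ht
    simp [hγ0]
  have hcont : ∀ (u : ℝ → E → E) (_ : ∀ t, LipschitzWith K (u t)) (η : E → ℝ → E)
      (_ : ∀ x, η x a = x) (_ : ∀ x, Sol u a b (η x)), Continuous fun x => η x b := by
    intro u hu η hη0 hη
    have h1 : LipschitzWith (Real.toNNReal (Real.exp (K * (b - a)))) fun x => η x b := by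
      refine LipschitzWith.of_dist_le_mul fun x y => ?_
      have := Sol.dist_le hu (hη x) (hη y) b (right_mem_Icc.mpr hab)
      rw [hη0, hη0] at this
      rw [Real.coe_toNNReal _ (Real.exp_pos _).le, mul_comm]
      exact this
    exact h1.continuous
  refine ⟨{ toFun := fun x => γ x b
            invFun := fun x => δ x b
            left_inv := fun x => ?_
            right_inv := fun x => ?_
            continuous_toFun := hcont v hv γ hγ0 hγ
            continuous_invFun := hcont w hw δ hδ0 hδ }, fun x => ⟨γ x, hγ0 x, rfl, hγ x⟩⟩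
  · have := hrev1 x b (right_mem_Icc.mpr hab)
    simpa [hγ0] using this
  · have := hrev2 x b (right_mem_Icc.mpr hab)
    simpa [hδ0] using this

end Flow

end Vale.Agent.P268.T
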