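import Vale.Agent.P268.T.HEq

/-!
# P268, topological half: the free modification lemma

If `G` is of class `H` then in `F x + K * G y`, `K` large, the function `F x` may be replaced by
any function `Φ (x, y)` which equals `F x` for `‖y‖ ≤ δ ‖x‖` and is Lipschitz in `y`.
-/

set_option linter.unusedSectionVars false

namespace Vale.Agent.P268.T

open Set Filter Topology

variable {E : Type} [NormedAddCommGroup E] [NormedSpace ℝ E]
  {E' : Type} [NormedAddCommGroup E'] [NormedSpace ℝ E']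
  {T : Type} [TopologicalSpace T]

/-- Scaling of metric regularity. -/
theorem MRegOn.smul {Z : Type*} [NormedAddCommGroup Z] [NormedSpace ℝ Z] {k : ℝ} {G : E → Z}
    (hG : Hom1 G) {A : Z →L[ℝ] E} {U : Set E} (h : MRegOn k G A U) {r : ℝ} (hr : 0 < r) :
    MRegOn k G A ((fun y => r⁻¹ • y) ⁻¹' U) := by
  intro y hy c hc
  have hr0 : r ≠ 0 := hr.ne'
  have e1 : r⁻¹ • (y + A c) = r⁻¹ • y + A (r⁻¹ • c) := by rw [smul_add, map_smul]
  rw [mem_preimage, e1] at hc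
  have h1 := h (r⁻¹ • y) hy (r⁻¹ • c) hc
  have e2 : ∀ z : E, G z = r • G (r⁻¹ • z) := fun z => by
    rw [← hG r hr.le, smul_smul, mul_inv_cancel₀ hr0, one_smul]
  have e3 : G (y + A c) - G y - c = r • (G (r⁻¹ • y + A (r⁻¹ • c)) - G (r⁻¹ • y) - r⁻¹ • c) := by
    rw [e2 (y + A c), e2 y, e1, smul_sub, smul_sub, smul_smul, mul_inv_cancel₀ hr0, one_smul]
  rw [e3, norm_smul, Real.norm_eq_abs, abs_of_pos hr]
  calc r * ‖G (r⁻¹ • y + A (r⁻¹ • c)) - G (r⁻¹ • y) - r⁻¹ • c‖ ≤ r * (k * ‖r⁻¹ • c‖) :=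
        mul_le_mul_of_nonneg_left h1 hr.le
    _ = k * ‖c‖ := by
        rw [norm_smul, norm_inv, Real.norm_eq_abs, abs_of_pos hr]
        field_simp

/-- **Uniform regularity** of a function of class `H`. -/
theorem HFun.uniform [FiniteDimensional ℝ E'] {G : E' → ℂ} (hG : HFun G) :
    ∃ η > 0, ∃ k : ℝ, 0 ≤ k ∧ k < 1 ∧ ∃ a : ℝ, 0 ≤ a ∧ ∀ y : E', y ≠ 0 → -(η * ‖y‖) ≤ (G y).re →
      ∃ A : ℂ →L[ℝ] E', ‖A‖ ≤ a ∧ ∃ U ∈ 𝓝 y, MRegOn k G A U := by
  have : ProperSpace E' := FiniteDimensional.proper ℝ E'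
  set S : Set E' := Metric.sphere 0 1 with hS
  have hSc : IsCompact S := isCompact_sphere 0 1
  have hcont : Continuous fun y => (G y).re := Complex.continuous_re.comp hG.continuous
  set S₀ : Set E' := S ∩ {y | 0 ≤ (G y).re} with hS₀
  have hS₀c : IsCompact S₀ := hSc.inter_right (isClosed_le continuous_const hcont)
  -- local data
  have hloc : ∀ y ∈ S₀, ∃ k : ℝ, 0 ≤ k ∧ k < 1 ∧ ∃ A : ℂ →L[ℝ] E', ∃ U ∈ 𝓝 y, MRegOn k G A U := by
    intro y hy
    have hy0 : y ≠ 0 := by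
      rintro rfl
      have : ‖(0 : E')‖ = 1 := by simpa [hS] using hy.1
      simp at this
    obtain ⟨k, h0, h1, A, U, hU, hev⟩ := hG.reg () (mem_univ _) y hy0 hy.2
    exact ⟨k, h0, h1, A, U, hU, hev.self_of_nhdsWithin (mem_univ _)⟩
  choose! k hk0 hk1 A U hU hM using hloc
  obtain ⟨t, ht, hcov⟩ := hS₀c.elim_nhds_subcover (fun y => interior (U y))
    (fun y hy => interior_mem_nhds.mpr (hU y hy))
  set W : Set E' := ⋃ y ∈ t, interior (U y) with hW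
  have hWo : IsOpen W := isOpen_biUnion fun y _ => isOpen_interior
  -- a margin
  obtain ⟨η, hη, hη'⟩ : ∃ η > 0, ∀ y ∈ S, -η ≤ (G y).re → y ∈ W := by
    by_cases hne : (S \ W).Nonempty
    · obtain ⟨y₀, hy₀, hmax⟩ := (hSc.diff hWo).exists_isMaxOn hne hcont.continuousOn
      have hneg : (G y₀).re < 0 := by
        by_contra hcon
        exact hy₀.2 (hcov ⟨hy₀.1, not_lt.mp hcon⟩)
      refine ⟨-(G y₀).re / 2, by linarith, fun y hy hre => ?_⟩
      by_contra hyW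
      have h1 : (G y).re ≤ (G y₀).re := hmax ⟨hy, hyW⟩
      linarith
    · refine ⟨1, one_pos, fun y hy _ => ?_⟩
      by_contra hyW
      exact hne ⟨y, hy, hyW⟩
  -- bounds
  obtain ⟨κ, hκ0, hκ1, hκ⟩ : ∃ κ : ℝ, 0 ≤ κ ∧ κ < 1 ∧ ∀ y ∈ t, k y ≤ κ := by
    by_cases hne : t.Nonempty
    · obtain ⟨y, hy, hmax⟩ := t.exists_max_image k hne
      exact ⟨k y, hk0 y (ht y hy), hk1 y (ht y hy), hmax⟩
    · exact ⟨0, le_rfl, one_pos, fun y hy => absurd ⟨y, hy⟩ hne⟩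
  obtain ⟨a, ha0, ha⟩ : ∃ a : ℝ, 0 ≤ a ∧ ∀ y ∈ t, ‖A y‖ ≤ a := by
    refine ⟨∑ y ∈ t, ‖A y‖, Finset.sum_nonneg fun _ _ => norm_nonneg _, fun y hy => ?_⟩
    exact Finset.single_le_sum (f := fun y => ‖A y‖) (fun _ _ => norm_nonneg _) hy
  refine ⟨η, hη, κ, hκ0, hκ1, a, ha0, fun y hy hre => ?_⟩
  have hn : 0 < ‖y‖ := norm_pos_iff.mpr hy
  have h1 : ‖y‖⁻¹ • y ∈ S := by
    rw [hS, mem_sphere_zero_iff_norm, norm_smul, norm_inv, norm_norm, inv_mul_cancel₀ hn.ne']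
  have h2 : -η ≤ (G (‖y‖⁻¹ • y)).re := by
    rw [hG.hom1 _ (inv_nonneg.mpr hn.le), Complex.smul_re, smul_eq_mul]
    have : ‖y‖⁻¹ * -(η * ‖y‖) ≤ ‖y‖⁻¹ * (G y).re :=
      mul_le_mul_of_nonneg_left hre (inv_nonneg.mpr hn.le)
    have e : ‖y‖⁻¹ * -(η * ‖y‖) = -η := by field_simp
    linarith
  obtain ⟨z, hz, hyz⟩ := mem_iUnion₂.mp (hη' _ h1 h2)
  refine ⟨A z, ha z hz, (fun w => ‖y‖⁻¹ • w) ⁻¹' (U z), ?_, ?_⟩
  · have h3 : ContinuousAt (fun w : E' => ‖y‖⁻¹ • w) y := (continuous_const_smul _).continuousAt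
    exact h3.preimage_mem_nhds (mem_interior_iff_mem_nhds.mp hyz)
  · exact ((hM z (ht z hz)).mono_const (hκ z hz)).smul hG.hom1 hn

/-- **Free modification lemma**, family version. -/
theorem HFam.free [FiniteDimensional ℝ E'] {s : Set T} {F : T → E → ℂ} (hF : HFam s F)
    {G : E' → ℂ} (hG : HFun G) {Φ : T → E × E' → ℂ}
    (hc : ContinuousOn (fun p : T × (E × E') => Φ p.1 p.2) (s ×ˢ univ))
    (hh : ∀ t ∈ s, Hom1 (Φ t)) {δ : ℝ} (hδ : 0 < δ)
    (hΦ : ∀ t ∈ s, ∀ x y, ‖y‖ ≤ δ * ‖x‖ → Φ t (x, y) = F t x) {L : ℝ}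
    (hL : ∀ t ∈ s, ∀ x y y', ‖Φ t (x, y) - Φ t (x, y')‖ ≤ L * ‖y - y'‖) {C : ℝ}
    (hC : ∀ t ∈ s, ∀ x y, ‖Φ t (x, y)‖ ≤ C * (‖x‖ + ‖y‖)) :
    ∃ K₀ > 0, ∀ K : ℝ, K₀ ≤ K → HFam s (fun t (p : E × E') => Φ t p + K * G p.2) := by
  obtain ⟨η, hη, k, hk0, hk1, a, ha, hreg⟩ := hG.uniform
  set C' : ℝ := max C 0 with hC'
  set L' : ℝ := max L 0 with hL'
  have hC0 : 0 ≤ C' := le_max_right _ _
  have hL0 : 0 ≤ L' := le_max_right _ _
  set K₁ : ℝ := C' * (δ⁻¹ + 1) / η with hK₁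
  set K₂ : ℝ := 2 * L' * a / (1 - k) with hK₂
  have h1k : 0 < 1 - k := by linarith
  have hK₁0 : 0 ≤ K₁ := by positivity
  have hK₂0 : 0 ≤ K₂ := by positivity
  refine ⟨K₁ + K₂ + 1, by positivity, fun K hK => ⟨?_, ?_, ?_⟩⟩
  · have h1 : ContinuousOn (fun p : T × (E × E') => (K : ℂ) * G p.2.2) (s ×ˢ univ) :=
      (continuous_const.mul (hG.continuous.comp
        (continuous_snd.comp continuous_snd))).continuousOn
    exact hc.add h1
  · intro t ht r hr p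
    show Φ t (r • p) + K * G (r • p).2 = r • (Φ t p + K * G p.2)
    rw [hh t ht r hr, Prod.smul_snd, hG.hom1 r hr, smul_add, mul_smul_comm]
  · rintro t ht ⟨x, y⟩ hxy hre
    have hK0 : 0 < K := by linarith
    have hre' : 0 ≤ (Φ t (x, y)).re + K * (G y).re := by
      have : ((Φ t (x, y) + K * G y : ℂ)).re = (Φ t (x, y)).re + K * (G y).re := by simp
      have h2 : 0 ≤ (Φ t (x, y) + K * G y : ℂ).re := hre
      linarith
    by_cases hcase : ‖y‖ < δ * ‖x‖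
    · -- the unmodified region
      have hKG : HFun (fun y => (K : ℂ) * G y) := by
        have h3 : HFun (fun y : E' => G (K • y)) :=
          hG.comp_linear (ContinuousLinearEquiv.smulLeft (Units.mk0 K hK0.ne'))
        have h4 : (fun y : E' => G (K • y)) = fun y => (K : ℂ) * G y := by
          funext z
          rw [hG.hom1 K hK0.le, Complex.real_smul]
        rwa [h4] at h3
      have h5 : HFam s (fun t (p : E × E') => F t p.1 + (K : ℂ) * G p.2) :=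
        HFam.add hF (hKG.const s)
      have hx : ‖y‖ ≤ δ * ‖x‖ := hcase.le
      have h6 : 0 ≤ ((F t x + (K : ℂ) * G y)).re := by
        rw [← hΦ t ht x y hx]
        exact hre
      refine (h5.reg t ht (x, y) hxy h6).congr ?_
      refine ⟨{p : E × E' | ‖p.2‖ < δ * ‖p.1‖}, ?_, ?_⟩
      · exact (isOpen_lt (continuous_norm.comp continuous_snd)
          (continuous_const.mul (continuous_norm.comp continuous_fst))).mem_nhds hcase
      · filter_upwards [self_mem_nhdsWithin] with t' ht' p hp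
        have h7 : Φ t' p = F t' p.1 := hΦ t' ht' p.1 p.2 (le_of_lt hp)
        rw [h7]
    · -- the modified region
      have hy0 : y ≠ 0 := by
        rintro rfl
        rw [norm_zero, not_lt] at hcase
        have : ‖x‖ ≤ 0 := by
          by_contra hcon
          have : 0 < δ * ‖x‖ := mul_pos hδ (not_le.mp hcon)
          linarith
        exact hxy (by rw [norm_le_zero_iff.mp this]; rfl)
      have hn : 0 < ‖y‖ := norm_pos_iff.mpr hy0
      have hx : ‖x‖ ≤ δ⁻¹ * ‖y‖ := by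
        rw [not_lt] at hcase
        calc ‖x‖ = δ⁻¹ * (δ * ‖x‖) := by field_simp
          _ ≤ δ⁻¹ * ‖y‖ := mul_le_mul_of_nonneg_left hcase (inv_nonneg.mpr hδ.le)
      have h8 : ‖Φ t (x, y)‖ ≤ C' * ((δ⁻¹ + 1) * ‖y‖) := by
        refine (hC t ht x y).trans ?_
        have h9 : ‖x‖ + ‖y‖ ≤ (δ⁻¹ + 1) * ‖y‖ := by linarith
        calc C * (‖x‖ + ‖y‖) ≤ C' * (‖x‖ + ‖y‖) :=
              mul_le_mul_of_nonneg_right (le_max_left _ _) (by positivity)
          _ ≤ C' * ((δ⁻¹ + 1) * ‖y‖) := mul_le_mul_of_nonneg_left h9 hC0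
      have h10 : C' * ((δ⁻¹ + 1) * ‖y‖) = K₁ * η * ‖y‖ := by
        rw [hK₁]; field_simp
      have h11 : (Φ t (x, y)).re ≤ K₁ * η * ‖y‖ := by
        rw [← h10]
        exact (Complex.re_le_norm _).trans h8
      have h12 : -(η * ‖y‖) ≤ (G y).re := by
        by_contra hcon
        rw [not_le] at hcon
        have h13 : K * (G y).re < K * (-(η * ‖y‖)) := mul_lt_mul_of_pos_left hcon hK0
        have h14 : K₁ * (η * ‖y‖) ≤ K * (η * ‖y‖) :=
          mul_le_mul_of_nonneg_right (by linarith) (by positivity)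
        nlinarith
      obtain ⟨A, hA, U, hU, hM⟩ := hreg y hy0 h12
      have hLa : L' * a / K ≤ (1 - k) / 2 := by
        rw [div_le_iff₀ hK0]
        have h15 : K₂ ≤ K := by linarith
        have h16 : 2 * L' * a ≤ K * (1 - k) := by
          rw [hK₂, div_le_iff₀ h1k] at h15
          exact h15
        linarith
      refine ⟨k + L' * a / K, by positivity, by linarith,
        (ContinuousLinearMap.inr ℝ E E').comp (K⁻¹ • A), (Prod.snd ⁻¹' U : Set (E × E')), ?_, ?_⟩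
      · exact continuousAt_snd.preimage_mem_nhds hU
      · filter_upwards [self_mem_nhdsWithin] with t' ht' p hp c hc'
        obtain ⟨x', y'⟩ := p
        have e0 : (K⁻¹ • A) c = A (K⁻¹ • c) := by
          rw [smul_apply, map_smul]
        have e1 : ((x', y') : E × E') + ((ContinuousLinearMap.inr ℝ E E').comp (K⁻¹ • A)) c =
            (x', y' + A (K⁻¹ • c)) := by
          rw [ContinuousLinearMap.comp_apply, e0, ContinuousLinearMap.inr_apply, Prod.mk_add_mk,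
            add_zero]
        rw [e1] at hc' ⊢
        have h17 : y' ∈ U := hp
        have h18 : y' + A (K⁻¹ • c) ∈ U := hc'
        have h19 := hM y' h17 (K⁻¹ • c) h18
        have h20 := hL t' ht' x' (y' + A (K⁻¹ • c)) y'
        rw [add_sub_cancel_left] at h20
        have h21 : ‖A (K⁻¹ • c)‖ ≤ a * (K⁻¹ * ‖c‖) := by
          refine (A.le_opNorm _).trans ?_
          rw [norm_smul, norm_inv, Real.norm_eq_abs, abs_of_pos hK0]
          exact mul_le_mul_of_nonneg_right hA (by positivity)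
        have h22 : Φ t' (x', y' + A (K⁻¹ • c)) + K * G (y' + A (K⁻¹ • c)) -
            (Φ t' (x', y') + K * G y') - c =
            (Φ t' (x', y' + A (K⁻¹ • c)) - Φ t' (x', y')) +
              (K : ℂ) * (G (y' + A (K⁻¹ • c)) - G y' - K⁻¹ • c) := by
          have : (K : ℂ) * (K⁻¹ • c) = c := by
            rw [Complex.real_smul, Complex.ofReal_inv, ← mul_assoc,
              mul_inv_cancel₀ (by exact_mod_cast hK0.ne'), one_mul]
          rw [mul_sub, mul_sub, this]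
          ring
        show ‖Φ t' (x', y' + A (K⁻¹ • c)) + K * G (y' + A (K⁻¹ • c)) -
            (Φ t' (x', y') + K * G y') - c‖ ≤ (k + L' * a / K) * ‖c‖
        rw [h22]
        refine (norm_add_le _ _).trans ?_
        have h23 : ‖(K : ℂ) * (G (y' + A (K⁻¹ • c)) - G y' - K⁻¹ • c)‖ ≤ k * ‖c‖ := by
          rw [norm_mul, Complex.norm_of_nonneg hK0.le]
          calc K * ‖G (y' + A (K⁻¹ • c)) - G y' - K⁻¹ • c‖ ≤ K * (k * ‖K⁻¹ • c‖) :=
                mul_le_mul_of_nonneg_left h19 hK0.le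
            _ = k * ‖c‖ := by
                rw [norm_smul, norm_inv, Real.norm_eq_abs, abs_of_pos hK0]
                field_simp
        have h24 : ‖Φ t' (x', y' + A (K⁻¹ • c)) - Φ t' (x', y')‖ ≤ L' * a / K * ‖c‖ := by
          refine h20.trans ?_
          calc L * ‖A (K⁻¹ • c)‖ ≤ L' * ‖A (K⁻¹ • c)‖ :=
                mul_le_mul_of_nonneg_right (le_max_left _ _) (norm_nonneg _)
            _ ≤ L' * (a * (K⁻¹ * ‖c‖)) := mul_le_mul_of_nonneg_left h21 hL0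
            _ = L' * a / K * ‖c‖ := by field_simp
        linarith

/-- Multiplying a function of class `H` by a positive constant. -/
theorem HEqv.scale {G : E' → ℂ} (hG : HFun G) {K : ℝ} (hK : 0 < K) :
    HEqv (fun y => (K : ℂ) * G y) G := by
  have h4 : (fun y : E' => G (K • y)) = fun y => (K : ℂ) * G y := by
    funext z
    rw [hG.hom1 K hK.le, Complex.real_smul]
  have h5 := HEqv.of_linear (ContinuousLinearEquiv.smulLeft (R₁ := ℝ) (M₁ := E')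
    (Units.mk0 K hK.ne')) hG
  have h6 : (fun y : E' => G ((ContinuousLinearEquiv.smulLeft (R₁ := ℝ) (M₁ := E')
    (Units.mk0 K hK.ne')) y)) = fun y => (K : ℂ) * G y := h4
  rwa [h6] at h5

/-- **Free modification lemma** for stable equivalence. -/
theorem HEqv.free [FiniteDimensional ℝ E] [FiniteDimensional ℝ E'] {F : E → ℂ} (hF : HFun F)
    {G : E' → ℂ} (hG : HFun G) {Φ : E × E' → ℂ} (hc : Continuous Φ) (hh : Hom1 Φ) {δ : ℝ}
    (hδ : 0 < δ) (hΦ : ∀ x y, ‖y‖ ≤ δ * ‖x‖ → Φ (x, y) = F x) {L : ℝ}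
    (hL : ∀ x y y', ‖Φ (x, y) - Φ (x, y')‖ ≤ L * ‖y - y'‖) {C : ℝ}
    (hC : ∀ x y, ‖Φ (x, y)‖ ≤ C * (‖x‖ + ‖y‖)) :
    ∃ K₀ > 0, ∀ K : ℝ, K₀ ≤ K → HEqv (ts F G) (fun p => Φ p + K * G p.2) := by
  have hFC : ∀ (x : E) (y : E'), ‖F x‖ ≤ max C 0 * (‖x‖ + ‖y‖) := fun x y => by
    have h1 := hC x 0
    rw [hΦ x 0 (by rw [norm_zero]; positivity), norm_zero, _root_.add_zero] at h1
    calc ‖F x‖ ≤ C * ‖x‖ := h1
      _ ≤ max C 0 * ‖x‖ := mul_le_mul_of_nonneg_right (le_max_left _ _) (norm_nonneg _)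
      _ ≤ max C 0 * (‖x‖ + ‖y‖) :=
        mul_le_mul_of_nonneg_left (by linarith [norm_nonneg y]) (le_max_right _ _)
  have c1 : ContinuousOn (fun p : ℝ × (E × E') =>
      ((1 - p.1 : ℝ) : ℂ) * F p.2.1 + (p.1 : ℂ) * Φ p.2) (Icc (0 : ℝ) 1 ×ˢ univ) := by
    have h0 := hF.continuous
    have h1 : Continuous fun p : ℝ × (E × E') =>
        ((1 - p.1 : ℝ) : ℂ) * F p.2.1 + (p.1 : ℂ) * Φ p.2 := by fun_prop
    exact h1.continuousOn
  have c2 : ∀ θ ∈ Icc (0 : ℝ) 1,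
      Hom1 (fun p : E × E' => ((1 - θ : ℝ) : ℂ) * F p.1 + (θ : ℂ) * Φ p) := by
    intro θ _ r hr p
    show ((1 - θ : ℝ) : ℂ) * F (r • p).1 + (θ : ℂ) * Φ (r • p) =
      r • (((1 - θ : ℝ) : ℂ) * F p.1 + (θ : ℂ) * Φ p)
    rw [Prod.smul_fst, hF.hom1 r hr, hh r hr, smul_add, mul_smul_comm, mul_smul_comm]
  have c3 : ∀ θ ∈ Icc (0 : ℝ) 1, ∀ (x : E) (y : E'), ‖y‖ ≤ δ * ‖x‖ →
      ((1 - θ : ℝ) : ℂ) * F x + (θ : ℂ) * Φ (x, y) = F x := by
    intro θ _ x y hxy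
    rw [hΦ x y hxy, ← add_mul]
    have : ((1 - θ : ℝ) : ℂ) + (θ : ℂ) = 1 := by push_cast; ring
    rw [this, one_mul]
  have c4 : ∀ θ ∈ Icc (0 : ℝ) 1, ∀ (x : E) (y y' : E'),
      ‖((1 - θ : ℝ) : ℂ) * F x + (θ : ℂ) * Φ (x, y) -
        (((1 - θ : ℝ) : ℂ) * F x + (θ : ℂ) * Φ (x, y'))‖ ≤ max L 0 * ‖y - y'‖ := by
    intro θ hθ x y y'
    have e : ((1 - θ : ℝ) : ℂ) * F x + (θ : ℂ) * Φ (x, y) -
        (((1 - θ : ℝ) : ℂ) * F x + (θ : ℂ) * Φ (x, y')) = (θ : ℂ) * (Φ (x, y) - Φ (x, y')) := by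
      ring
    rw [e, norm_mul, Complex.norm_of_nonneg hθ.1]
    calc θ * ‖Φ (x, y) - Φ (x, y')‖ ≤ 1 * ‖Φ (x, y) - Φ (x, y')‖ :=
          mul_le_mul_of_nonneg_right hθ.2 (norm_nonneg _)
      _ ≤ L * ‖y - y'‖ := by rw [one_mul]; exact hL x y y'
      _ ≤ _ := mul_le_mul_of_nonneg_right (le_max_left _ _) (norm_nonneg _)
  have c5 : ∀ θ ∈ Icc (0 : ℝ) 1, ∀ (x : E) (y : E'),
      ‖((1 - θ : ℝ) : ℂ) * F x + (θ : ℂ) * Φ (x, y)‖ ≤ max C 0 * (‖x‖ + ‖y‖) := by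
    intro θ hθ x y
    have h1 : ‖Φ (x, y)‖ ≤ max C 0 * (‖x‖ + ‖y‖) :=
      (hC x y).trans (mul_le_mul_of_nonneg_right (le_max_left _ _) (by positivity))
    refine (norm_add_le _ _).trans ?_
    rw [norm_mul, norm_mul, Complex.norm_of_nonneg (by linarith [hθ.2] : (0 : ℝ) ≤ 1 - θ),
      Complex.norm_of_nonneg hθ.1]
    have h2 := mul_le_mul_of_nonneg_left (hFC x y) (by linarith [hθ.2] : (0 : ℝ) ≤ 1 - θ)
    have h3 := mul_le_mul_of_nonneg_left h1 hθ.1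
    nlinarith
  obtain ⟨K₀, hK₀, h⟩ := HFam.free (hF.const (Icc (0 : ℝ) 1)) hG
    (Φ := fun (θ : ℝ) p => ((1 - θ : ℝ) : ℂ) * F p.1 + (θ : ℂ) * Φ p) c1 c2 hδ c3 c4 c5
  refine ⟨K₀, hK₀, fun K hK => ?_⟩
  have hK0 : 0 < K := lt_of_lt_of_le hK₀ hK
  have h1 := HEqv.of_path (h K hK)
  have e1 : HEqv (ts F G) (ts F fun y => (K : ℂ) * G y) :=
    (HEqv.scale hG hK0).symm.add_left hF
  refine e1.trans ?_
  have e2 : (ts F fun y => (K : ℂ) * G y) =
      fun p : E × E' => ((1 - (0 : ℝ) : ℝ) : ℂ) * F p.1 + ((0 : ℝ) : ℂ) * Φ p + K * G p.2 := by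
    funext p
    simp [ts]
  have e3 : (fun p : E × E' => Φ p + (K : ℂ) * G p.2) =
      fun p : E × E' => ((1 - (1 : ℝ) : ℝ) : ℂ) * F p.1 + ((1 : ℝ) : ℂ) * Φ p + K * G p.2 := by
    funext p
    simp
  rw [e2, e3]
  exact h1

end Vale.Agent.P268.T
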