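import Mathlib

/-!
# P268, topological half: `GL_r(ℤ)` is generated by slides and sign changes

`congr_induction`: a reflexive transitive relation on integral square matrices which relates `L`
and `Tᵀ L T` for all elementary slides `T = 1 + E_ij` and all sign changes relates `L` and
`Pᵀ L P` for all unimodular `P`.
-/

namespace Vale.Agent.P268.T

open Matrix

section Gen

variable {n : Type*} [Fintype n] [DecidableEq n]

/-- The sign change of coordinate `i`. -/
def signM (i : n) : Matrix n n ℤ := Matrix.diagonal (Function.update (fun _ => (1 : ℤ)) i (-1))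

/-- Products of slides `1 + E_ij` (`i ≠ j`) and sign changes. -/
inductive IsGen : Matrix n n ℤ → Prop
  | one : IsGen 1
  | slide {P : Matrix n n ℤ} (i j : n) (h : i ≠ j) : IsGen P → IsGen (P * transvection i j 1)
  | neg {P : Matrix n n ℤ} (i : n) : IsGen P → IsGen (P * signM i)

theorem signM_mul_self (i : n) : signM i * signM i = 1 := by
  rw [signM, Matrix.diagonal_mul_diagonal, ← Matrix.diagonal_one]
  congr 1
  funext a
  by_cases h : a = i
  · subst h; simp
  · simp [h]

theorem mul_signM_apply (P : Matrix n n ℤ) (i a b : n) :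
    (P * signM i) a b = if b = i then - P a b else P a b := by
  rw [signM, Matrix.mul_diagonal]
  by_cases h : b = i
  · subst h; simp
  · simp [h]

theorem signM_mul_apply (P : Matrix n n ℤ) (i a b : n) :
    (signM i * P) a b = if a = i then - P a b else P a b := by
  rw [signM, Matrix.diagonal_mul]
  by_cases h : a = i
  · subst h; simp
  · simp [h]

theorem IsGen.mul {P Q : Matrix n n ℤ} (hP : IsGen P) (hQ : IsGen Q) : IsGen (P * Q) := by
  induction hQ with
  | one => rwa [Matrix.mul_one]
  | slide i j h _ ih => rw [← Matrix.mul_assoc]; exact ih.slide i j h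
  | neg i _ ih => rw [← Matrix.mul_assoc]; exact ih.neg i

theorem isGen_slide (i j : n) (h : i ≠ j) : IsGen (transvection i j (1 : ℤ)) := by
  have := IsGen.one.slide (n := n) i j h
  rwa [Matrix.one_mul] at this

theorem isGen_neg (i : n) : IsGen (signM i) := by
  have := IsGen.one.neg (n := n) i
  rwa [Matrix.one_mul] at this

theorem slide_neg_eq (i j : n) (h : i ≠ j) :
    transvection i j (-1 : ℤ) = signM i * transvection i j 1 * signM i := by
  ext a b
  rw [mul_signM_apply, signM_mul_apply]
  simp only [transvection, Matrix.add_apply, Matrix.one_apply, Matrix.single_apply]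
  by_cases hb : b = i <;> by_cases ha : a = i <;> by_cases hj : j = b <;>
    simp_all [eq_comm]

theorem isGen_slide_neg (i j : n) (h : i ≠ j) : IsGen (transvection i j (-1 : ℤ)) := by
  rw [slide_neg_eq i j h]
  exact ((isGen_neg i).mul (isGen_slide i j h)).mul (isGen_neg i)

theorem isGen_transvection (i j : n) (h : i ≠ j) (c : ℤ) : IsGen (transvection i j c) := by
  induction c using Int.induction_on with
  | zero => rw [transvection_zero]; exact IsGen.one
  | succ c ih =>
    rw [← transvection_mul_transvection_same i j h]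
    exact ih.mul (isGen_slide i j h)
  | pred c ih =>
    rw [sub_eq_add_neg, ← transvection_mul_transvection_same i j h]
    exact ih.mul (isGen_slide_neg i j h)

/-- Generated matrices are invertible with generated inverse. -/
theorem IsGen.exists_inv {P : Matrix n n ℤ} (hP : IsGen P) :
    ∃ Q, IsGen Q ∧ P * Q = 1 ∧ Q * P = 1 := by
  induction hP with
  | one => exact ⟨1, IsGen.one, Matrix.one_mul 1, Matrix.one_mul 1⟩
  | @slide P i j h _ ih =>
    obtain ⟨Q, hQ, h1, h2⟩ := ih
    refine ⟨transvection i j (-1) * Q, (isGen_slide_neg i j h).mul hQ, ?_, ?_⟩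
    · calc P * transvection i j 1 * (transvection i j (-1) * Q)
          = P * (transvection i j 1 * transvection i j (-1)) * Q := by
            simp only [Matrix.mul_assoc]
        _ = 1 := by
            rw [transvection_mul_transvection_same i j h]; simp [h1]
    · calc transvection i j (-1) * Q * (P * transvection i j 1)
          = transvection i j (-1) * (Q * P) * transvection i j 1 := by
            simp only [Matrix.mul_assoc]
        _ = 1 := by
            rw [h2, Matrix.mul_one, transvection_mul_transvection_same i j h]; simp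
  | @neg P i _ ih =>
    obtain ⟨Q, hQ, h1, h2⟩ := ih
    refine ⟨signM i * Q, (isGen_neg i).mul hQ, ?_, ?_⟩
    · calc P * signM i * (signM i * Q) = P * (signM i * signM i) * Q := by
            simp only [Matrix.mul_assoc]
        _ = 1 := by rw [signM_mul_self, Matrix.mul_one, h1]
    · calc signM i * Q * (P * signM i) = signM i * (Q * P) * signM i := by
            simp only [Matrix.mul_assoc]
        _ = 1 := by rw [h2, Matrix.mul_one, signM_mul_self]

theorem IsGen.isUnit {P : Matrix n n ℤ} (hP : IsGen P) : IsUnit P := by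
  obtain ⟨Q, -, h1, h2⟩ := hP.exists_inv
  exact ⟨⟨P, Q, h1, h2⟩, rfl⟩

/-- If `P * g` is generated and `g` is generated, so is `P`. -/
theorem IsGen.of_mul_right {P g : Matrix n n ℤ} (hg : IsGen g) (h : IsGen (P * g)) : IsGen P := by
  obtain ⟨Q, hQ, h1, -⟩ := hg.exists_inv
  have := h.mul hQ
  rwa [Matrix.mul_assoc, h1, Matrix.mul_one] at this

/-- Rows in `s` are standard. -/
def Std (s : Finset n) (P : Matrix n n ℤ) : Prop := ∀ k ∈ s, ∀ j, P k j = if k = j then 1 else 0

theorem Std.mul_transvection {s : Finset n} {P : Matrix n n ℤ} (h : Std s P) {a b : n}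
    (ha : a ∉ s) (hab : a ≠ b) (c : ℤ) : Std s (P * transvection a b c) := by
  intro k hk j
  by_cases hj : j = b
  · subst hj
    rw [mul_transvection_apply_same, h k hk, h k hk a]
    have : k ≠ a := fun e => ha (e ▸ hk)
    simp [this]
  · rw [mul_transvection_apply_of_ne _ _ _ _ hj, h k hk]

theorem Std.mul_signM {s : Finset n} {P : Matrix n n ℤ} (h : Std s P) {a : n}
    (ha : a ∉ s) : Std s (P * signM a) := by
  intro k hk j
  rw [mul_signM_apply, h k hk]
  by_cases hj : j = a
  · subst hj
    have : k ≠ j := fun e => ha (e ▸ hk)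
    simp [this]
  · simp [hj]

/-- The Euclidean step: reduce to one nonzero entry in row `i` among the columns outside `s`. -/
theorem exists_reduce (s : Finset n) (i : n) : ∀ (N : ℕ) (P : Matrix n n ℤ), Std s P →
    ∑ j ∈ sᶜ, (P i j).natAbs ≤ N → ∃ g, IsGen g ∧ Std s (P * g) ∧
      ∀ j ∈ sᶜ, ∀ j' ∈ sᶜ, j ≠ j' → (P * g) i j = 0 ∨ (P * g) i j' = 0 := by
  intro N
  induction N with
  | zero =>
    intro P hP hN
    refine ⟨1, IsGen.one, by rwa [Matrix.mul_one], fun j hj j' _ _ => Or.inl ?_⟩
    rw [Matrix.mul_one]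
    have h1 := Finset.sum_eq_zero_iff.mp (Nat.le_zero.mp hN) j hj
    exact Int.natAbs_eq_zero.mp h1
  | succ N ih =>
    intro P hP hN
    by_cases hdone : ∀ j ∈ sᶜ, ∀ j' ∈ sᶜ, j ≠ j' → P i j = 0 ∨ P i j' = 0
    · exact ⟨1, IsGen.one, by rwa [Matrix.mul_one], by rwa [Matrix.mul_one]⟩
    push Not at hdone
    obtain ⟨j, hj, j', hj', hne, h0, h0'⟩ := hdone
    -- wlog |P i j'| ≤ |P i j|
    obtain ⟨a, b, ha, hb, hab, ha0, hb0, hle⟩ : ∃ a b, a ∈ sᶜ ∧ b ∈ sᶜ ∧ a ≠ b ∧ P i a ≠ 0 ∧
        P i b ≠ 0 ∧ (P i a).natAbs ≤ (P i b).natAbs := by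
      rcases le_total (P i j).natAbs (P i j').natAbs with h | h
      · exact ⟨j, j', hj, hj', hne, h0, h0', h⟩
      · exact ⟨j', j, hj', hj, hne.symm, h0', h0, h⟩
    obtain ⟨c, hc⟩ : ∃ c : ℤ, (P i b + c * P i a).natAbs < (P i b).natAbs := by
      rcases lt_or_gt_of_ne ha0 with h1 | h1 <;> rcases lt_or_gt_of_ne hb0 with h2 | h2
      · exact ⟨-1, by omega⟩
      · exact ⟨1, by omega⟩
      · exact ⟨1, by omega⟩
      · exact ⟨-1, by omega⟩
    have ha' : a ∉ s := by simpa using ha
    have hsum : ∑ j ∈ sᶜ, ((P * transvection a b c) i j).natAbs ≤ N := by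
      have hlt : ∑ j ∈ sᶜ, ((P * transvection a b c) i j).natAbs < ∑ j ∈ sᶜ, (P i j).natAbs := by
        refine Finset.sum_lt_sum (fun x _ => ?_) ⟨b, hb, ?_⟩
        · by_cases hx : x = b
          · subst hx
            rw [mul_transvection_apply_same]
            exact hc.le
          · rw [mul_transvection_apply_of_ne _ _ _ _ hx]
        · rw [mul_transvection_apply_same]
          exact hc
      omega
    obtain ⟨g, hg, h1, h2⟩ := ih (P * transvection a b c) (hP.mul_transvection ha' hab c) hsum
    refine ⟨transvection a b c * g, (isGen_transvection a b hab c).mul hg, ?_, ?_⟩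
    · rwa [← Matrix.mul_assoc]
    · rwa [← Matrix.mul_assoc]

/-- One row. -/
theorem exists_row {s : Finset n} {i : n} (hi : i ∉ s) {P : Matrix n n ℤ} (hP : Std s P)
    (hu : IsUnit P) : ∃ g, IsGen g ∧ Std (insert i s) (P * g) := by
  obtain ⟨g, hg, h1, h2⟩ := exists_reduce s i _ P hP le_rfl
  set P₁ := P * g with hP₁
  have hu₁ : IsUnit P₁ := hu.mul hg.isUnit
  obtain ⟨⟨P', Q, hPQ, hQP⟩, hP'⟩ := hu₁
  simp only at hP'
  subst hP'
  -- the entries of row `i` outside `s` generate the unit ideal
  have hQ : ∀ k ∈ s, Q k i = 0 := by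
    intro k hk
    have h3 := congrFun (congrFun hPQ k) i
    rw [Matrix.mul_apply] at h3
    have hki : k ≠ i := fun e => hi (e ▸ hk)
    rw [Matrix.one_apply_ne hki] at h3
    rw [← h3]
    rw [Finset.sum_eq_single k]
    · rw [h1 k hk]; simp
    · intro b _ hb
      rw [h1 k hk]; simp [hb.symm]
    · simp
  have hsum : ∑ j ∈ sᶜ, P₁ i j * Q j i = 1 := by
    have h3 := congrFun (congrFun hPQ i) i
    rw [Matrix.mul_apply, Matrix.one_apply_eq] at h3
    rw [← h3, ← Finset.sum_add_sum_compl s]
    rw [Finset.sum_eq_zero (s := s) (fun k hk => by rw [hQ k hk, mul_zero]), zero_add]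
  obtain ⟨j, hj, hj1⟩ : ∃ j ∈ sᶜ, P₁ i j ≠ 0 := by
    by_contra hcon
    push Not at hcon
    rw [Finset.sum_eq_zero (fun k hk => by rw [hcon k hk, zero_mul])] at hsum
    exact zero_ne_one hsum
  have hother : ∀ k ∈ sᶜ, k ≠ j → P₁ i k = 0 := fun k hk hkj =>
    (h2 k hk j hj hkj).resolve_right hj1
  have hunit : P₁ i j * Q j i = 1 := by
    rw [← hsum, Finset.sum_eq_single j]
    · intro b hb hbj
      rw [hother b hb hbj, zero_mul]
    · intro h; exact absurd hj h
  have hj' : j ∉ s := by simpa using hj
  -- move the entry to place `i`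
  obtain ⟨g₂, hg₂, hS₂, hoth₂, hun₂⟩ : ∃ g₂, IsGen g₂ ∧ Std s (P₁ * g₂) ∧
      (∀ k ∈ sᶜ, k ≠ i → (P₁ * g₂) i k = 0) ∧ IsUnit ((P₁ * g₂) i i) := by
    by_cases hij : j = i
    · subst hij
      refine ⟨1, IsGen.one, by rwa [Matrix.mul_one], by rwa [Matrix.mul_one], ?_⟩
      rw [Matrix.mul_one]
      exact IsUnit.of_mul_eq_one _ hunit
    · have hPi : P₁ i i = 0 := hother i (by simpa using hi) (Ne.symm hij)
      refine ⟨transvection j i 1 * transvection i j (-1),
        (isGen_slide j i hij).mul (isGen_slide_neg i j (Ne.symm hij)), ?_, ?_, ?_⟩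
      · rw [← Matrix.mul_assoc]
        exact (h1.mul_transvection hj' hij 1).mul_transvection hi (Ne.symm hij) (-1)
      · intro k hk hki
        rw [← Matrix.mul_assoc]
        by_cases hkj : k = j
        · subst hkj
          rw [mul_transvection_apply_same, mul_transvection_apply_of_ne _ _ _ _ hki,
            mul_transvection_apply_same, hPi]
          ring
        · rw [mul_transvection_apply_of_ne _ _ _ _ hkj, mul_transvection_apply_of_ne _ _ _ _ hki]
          exact hother k hk hkj
      · rw [← Matrix.mul_assoc, mul_transvection_apply_of_ne _ _ _ _ (Ne.symm hij),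
          mul_transvection_apply_same, hPi, zero_add, one_mul]
        exact IsUnit.of_mul_eq_one _ hunit
  -- sign
  obtain ⟨g₃, hg₃, hS₃, hoth₃, hun₃⟩ : ∃ g₃, IsGen g₃ ∧ Std s (P₁ * g₃) ∧
      (∀ k ∈ sᶜ, k ≠ i → (P₁ * g₃) i k = 0) ∧ (P₁ * g₃) i i = 1 := by
    rcases Int.isUnit_iff.mp hun₂ with h | h
    · exact ⟨g₂, hg₂, hS₂, hoth₂, h⟩
    · refine ⟨g₂ * signM i, hg₂.mul (isGen_neg i), ?_, ?_, ?_⟩
      · rw [← Matrix.mul_assoc]; exact hS₂.mul_signM hi
      · intro k hk hki
        rw [← Matrix.mul_assoc, mul_signM_apply, if_neg hki]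
        exact hoth₂ k hk hki
      · rw [← Matrix.mul_assoc, mul_signM_apply, if_pos rfl, h]
        norm_num
  -- clear the columns in `s`
  have hclear : ∀ t ⊆ s, ∃ g₄, IsGen g₄ ∧ Std s (P₁ * g₄) ∧
      (∀ k ∈ sᶜ, k ≠ i → (P₁ * g₄) i k = 0) ∧ (P₁ * g₄) i i = 1 ∧
      ∀ k ∈ t, (P₁ * g₄) i k = 0 := by
    intro t
    induction t using Finset.induction_on with
    | empty => exact fun _ => ⟨g₃, hg₃, hS₃, hoth₃, hun₃, by simp⟩
    | @insert x t hx ih =>
      intro ht
      obtain ⟨g₄, hg₄, e1, e2, e3, e4⟩ := ih (fun y hy => ht (Finset.mem_insert_of_mem hy))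
      have hxs : x ∈ s := ht (Finset.mem_insert_self x t)
      have hix : i ≠ x := fun e => hi (e ▸ hxs)
      refine ⟨g₄ * transvection i x (-(P₁ * g₄) i x),
        hg₄.mul (isGen_transvection i x hix _), ?_, ?_, ?_, ?_⟩
      · rw [← Matrix.mul_assoc]; exact e1.mul_transvection hi hix _
      · intro k hk hki
        have hkx : k ≠ x := by rintro rfl; simp at hk; exact hk hxs
        rw [← Matrix.mul_assoc, mul_transvection_apply_of_ne _ _ _ _ hkx]
        exact e2 k hk hki
      · rw [← Matrix.mul_assoc, mul_transvection_apply_of_ne _ _ _ _ hix]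
        exact e3
      · intro k hk
        rw [← Matrix.mul_assoc]
        by_cases hkx : k = x
        · subst hkx
          rw [mul_transvection_apply_same, e3]
          ring
        · rw [mul_transvection_apply_of_ne _ _ _ _ hkx]
          exact e4 k (Finset.mem_of_mem_insert_of_ne hk hkx)
  obtain ⟨g₄, hg₄, e1, e2, e3, e4⟩ := hclear s Finset.Subset.rfl
  refine ⟨g * g₄, hg.mul hg₄, ?_⟩
  rw [← Matrix.mul_assoc, ← hP₁]
  intro k hk j
  rcases Finset.mem_insert.mp hk with rfl | hk
  · by_cases hkj : k = j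
    · subst hkj; rw [e3]; simp
    · rw [if_neg hkj]
      by_cases hjs : j ∈ s
      · exact e4 j hjs
      · exact e2 j (by simpa using hjs) (Ne.symm hkj)
  · exact e1 k hk j

/-- **`GL_r(ℤ)` is generated by slides and sign changes.** -/
theorem isGen_of_isUnit {P : Matrix n n ℤ} (hP : IsUnit P) : IsGen P := by
  have key : ∀ s : Finset n, ∃ g, IsGen g ∧ Std s (P * g) := by
    intro s
    induction s using Finset.induction_on with
    | empty => exact ⟨1, IsGen.one, fun k hk => by simp at hk⟩
    | @insert i s hi ih =>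
      obtain ⟨g, hg, h1⟩ := ih
      obtain ⟨g', hg', h2⟩ := exists_row hi h1 (hP.mul hg.isUnit)
      exact ⟨g * g', hg.mul hg', by rwa [← Matrix.mul_assoc]⟩
  obtain ⟨g, hg, h⟩ := key Finset.univ
  have h1 : P * g = 1 := by
    ext k j
    rw [h k (Finset.mem_univ k) j, Matrix.one_apply]
  exact IsGen.of_mul_right hg (h1 ▸ IsGen.one)

/-- Congruence induction principle. -/
theorem congr_induction {Rel : Matrix n n ℤ → Matrix n n ℤ → Prop} (hrefl : ∀ L, Rel L L)
    (htrans : ∀ L M N, Rel L M → Rel M N → Rel L N)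
    (hslide : ∀ L i j, i ≠ j → Rel L ((transvection i j (1 : ℤ))ᵀ * L * transvection i j 1))
    (hneg : ∀ L i, Rel L (signM i * L * signM i))
    (L : Matrix n n ℤ) {P : Matrix n n ℤ} (hP : IsUnit P) : Rel L (Pᵀ * L * P) := by
  have hP' := isGen_of_isUnit hP
  clear hP
  induction hP' with
  | one => rw [Matrix.transpose_one, Matrix.one_mul, Matrix.mul_one]; exact hrefl L
  | @slide P i j h _ ih =>
    refine htrans _ _ _ ih ?_
    have := hslide (Pᵀ * L * P) i j h
    rwa [show (transvection i j (1 : ℤ))ᵀ * (Pᵀ * L * P) * transvection i j 1 =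
      (P * transvection i j 1)ᵀ * L * (P * transvection i j 1) by
        rw [Matrix.transpose_mul]; simp only [Matrix.mul_assoc]] at this
  | @neg P i _ ih =>
    refine htrans _ _ _ ih ?_
    have := hneg (Pᵀ * L * P) i
    rwa [show signM i * (Pᵀ * L * P) * signM i = (P * signM i)ᵀ * L * (P * signM i) by
        rw [Matrix.transpose_mul, show (signM i)ᵀ = signM i by
          rw [signM, Matrix.diagonal_transpose]]
        simp only [Matrix.mul_assoc]] at this

/-- The slide, entry by entry: `e_j ↦ e_j + e_i`. -/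
theorem slide_apply (L : Matrix n n ℤ) (i j a b : n) :
    ((transvection i j (1 : ℤ))ᵀ * L * transvection i j 1 : Matrix n n ℤ) a b =
      L a b + (if b = j then L a i else 0) + (if a = j then L i b else 0) +
        (if a = j ∧ b = j then L i i else 0) := by
  have h1 : ∀ (M : Matrix n n ℤ) a b, (M * transvection i j (1 : ℤ)) a b =
      M a b + if b = j then M a i else 0 := by
    intro M a b
    by_cases h : b = j
    · subst h; simp
    · simp [h, mul_transvection_apply_of_ne]
  have h2 : ∀ (M : Matrix n n ℤ) a b, ((transvection i j (1 : ℤ))ᵀ * M) a b =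
      M a b + if a = j then M i b else 0 := by
    intro M a b
    rw [← Matrix.transpose_apply ((transvection i j (1 : ℤ))ᵀ * M), Matrix.transpose_mul,
      Matrix.transpose_transpose, h1]
    simp
  rw [h1, h2, h2]
  by_cases ha : a = j <;> by_cases hb : b = j <;> simp [ha, hb] <;> ring

theorem neg_apply (L : Matrix n n ℤ) (i a b : n) :
    (signM i * L * signM i : Matrix n n ℤ) a b =
      (if a = i then -1 else 1) * (if b = i then -1 else 1) * L a b := by
  rw [mul_signM_apply, signM_mul_apply]
  by_cases ha : a = i <;> by_cases hb : b = i <;> simp [ha, hb]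

end Gen

end Vale.Agent.P268.T
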