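import Vale.Agent.P268.T.LocalConj

/-!
# P268, topological half: the small global step
-/

set_option linter.unusedSectionVars false

namespace Vale.Agent.P268.T

open Set Filter Topology

variable {E : Type*} [NormedAddCommGroup E] [NormedSpace ℝ E]
  {Z : Type*} [NormedAddCommGroup Z] [NormedSpace ℝ Z]

/-- Degree zero Lipschitz functions. -/
def DL (L : ℝ) (Ψ : E → ℝ) : Prop := ∀ y y', |Ψ y - Ψ y'| * ‖y'‖ ≤ L * ‖y - y'‖

theorem DL.sup {L : ℝ} {Ψ Φ : E → ℝ} (h : DL L Ψ) (h' : DL L Φ) :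
    DL L (fun x => max (Ψ x) (Φ x)) := by
  intro y y'
  have h1 := abs_max_sub_max_le_max (Ψ y) (Φ y) (Ψ y') (Φ y')
  have h2 : |max (Ψ y) (Φ y) - max (Ψ y') (Φ y')| * ‖y'‖ ≤
      max |Ψ y - Ψ y'| |Φ y - Φ y'| * ‖y'‖ := mul_le_mul_of_nonneg_right h1 (norm_nonneg _)
  refine h2.trans ?_
  rcases max_choice |Ψ y - Ψ y'| |Φ y - Φ y'| with h3 | h3 <;> rw [h3]
  · exact h y y'
  · exact h' y y'

theorem DL.zero {L : ℝ} (hL : 0 ≤ L) : DL L (fun _ : E => (0 : ℝ)) := by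
  intro y y'
  simp only [sub_self, abs_zero, zero_mul]
  positivity

theorem DL.mono {L L' : ℝ} (hL : L ≤ L') {Ψ : E → ℝ} (h : DL L Ψ) : DL L' Ψ := fun y y' =>
  (h y y').trans (mul_le_mul_of_nonneg_right hL (norm_nonneg _))

/-- Multiplying by a degree zero Lipschitz function preserves continuity. -/
theorem DL.continuous_smul {L : ℝ} {Ψ : E → ℝ} (h : DL L Ψ) (h0 : ∀ x, 0 ≤ Ψ x)
    (h1 : ∀ x, Ψ x ≤ 1) {D : E → Z} (hD : Continuous D) (hD0 : D 0 = 0) :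
    Continuous fun x => Ψ x • D x := by
  rw [continuous_iff_continuousAt]
  intro x
  rcases eq_or_ne x 0 with rfl | hx
  · rw [ContinuousAt, hD0, smul_zero]
    refine squeeze_zero_norm (a := fun y => ‖D y‖) ?_ ?_
    · intro y
      rw [norm_smul, Real.norm_eq_abs, abs_of_nonneg (h0 y)]
      exact mul_le_of_le_one_left (norm_nonneg _) (h1 y)
    · have := (hD.norm).tendsto 0
      simpa [hD0] using this
  · have hxp : 0 < ‖x‖ := norm_pos_iff.mpr hx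
    have hΨ : ContinuousAt Ψ x := by
      rw [ContinuousAt, tendsto_iff_norm_sub_tendsto_zero]
      have hlim : Tendsto (fun y : E => (L * ‖y - x‖) / ‖x‖) (𝓝 x) (𝓝 0) := by
        have h2 : Continuous (fun y : E => (L * ‖y - x‖) / ‖x‖) := by fun_prop
        simpa using h2.tendsto x
      refine squeeze_zero (fun _ => norm_nonneg _) (fun y => ?_) hlim
      rw [le_div_iff₀ hxp, Real.norm_eq_abs]
      exact h y x
    exact hΨ.smul hD.continuousAt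

/-- The interpolated function has metric regularity. -/
theorem MR.interp {k ρ η L : ℝ} (hk : k ≤ 1) {F₀ F₁ : E → Z} {Ψ : E → ℝ} (hΨ : DL L Ψ)
    (h0 : ∀ x, 0 ≤ Ψ x) (h1 : ∀ x, Ψ x ≤ 1) (hη : ∀ x, ‖F₁ x - F₀ x‖ ≤ η * ‖x‖)
    (hη0 : 0 ≤ η) {A : Z →L[ℝ] E} (hLA : η * L * ‖A‖ ≤ (1 - k) / 2) {x : E}
    (hF₀ : MR k ρ F₀ A x) (hF₁ : MR k ρ F₁ A x) :
    MR ((1 + k) / 2) ρ (fun x => F₀ x + Ψ x • (F₁ x - F₀ x)) A x := by
  intro c c' hc hc'
  set y := x + A c with hy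
  set y' := x + A c' with hy'
  have e1 := hF₀ c c' hc hc'
  have e2 := hF₁ c c' hc hc'
  have hid : F₀ y + Ψ y • (F₁ y - F₀ y) - (F₀ y' + Ψ y' • (F₁ y' - F₀ y')) - (c - c') =
      (1 - Ψ y) • (F₀ y - F₀ y' - (c - c')) + Ψ y • (F₁ y - F₁ y' - (c - c')) +
        (Ψ y - Ψ y') • (F₁ y' - F₀ y') := by
    module
  have hyy : ‖y - y'‖ ≤ ‖A‖ * ‖c - c'‖ := by
    have : y - y' = A (c - c') := by rw [hy, hy', map_sub]; abel
    rw [this]
    exact A.le_opNorm _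
  have n1 : ‖(1 - Ψ y) • (F₀ y - F₀ y' - (c - c'))‖ ≤ (1 - Ψ y) * (k * ‖c - c'‖) := by
    rw [norm_smul, Real.norm_eq_abs, abs_of_nonneg (by linarith [h1 y])]
    exact mul_le_mul_of_nonneg_left e1 (by linarith [h1 y])
  have n2 : ‖Ψ y • (F₁ y - F₁ y' - (c - c'))‖ ≤ Ψ y * (k * ‖c - c'‖) := by
    rw [norm_smul, Real.norm_eq_abs, abs_of_nonneg (h0 y)]
    exact mul_le_mul_of_nonneg_left e2 (h0 y)
  have n3 : ‖(Ψ y - Ψ y') • (F₁ y' - F₀ y')‖ ≤ (1 - k) / 2 * ‖c - c'‖ := by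
    rw [norm_smul, Real.norm_eq_abs]
    rcases le_or_gt 0 L with hL | hL
    · calc |Ψ y - Ψ y'| * ‖F₁ y' - F₀ y'‖ ≤ |Ψ y - Ψ y'| * (η * ‖y'‖) :=
            mul_le_mul_of_nonneg_left (hη y') (abs_nonneg _)
        _ = η * (|Ψ y - Ψ y'| * ‖y'‖) := by ring
        _ ≤ η * (L * ‖y - y'‖) := mul_le_mul_of_nonneg_left (hΨ y y') hη0
        _ ≤ η * (L * (‖A‖ * ‖c - c'‖)) :=
            mul_le_mul_of_nonneg_left (mul_le_mul_of_nonneg_left hyy hL) hη0
        _ = (η * L * ‖A‖) * ‖c - c'‖ := by ring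
        _ ≤ (1 - k) / 2 * ‖c - c'‖ := mul_le_mul_of_nonneg_right hLA (norm_nonneg _)
    · calc |Ψ y - Ψ y'| * ‖F₁ y' - F₀ y'‖ ≤ |Ψ y - Ψ y'| * (η * ‖y'‖) :=
            mul_le_mul_of_nonneg_left (hη y') (abs_nonneg _)
        _ = η * (|Ψ y - Ψ y'| * ‖y'‖) := by ring
        _ ≤ η * (L * ‖y - y'‖) := mul_le_mul_of_nonneg_left (hΨ y y') hη0
        _ ≤ 0 := by
            have : L * ‖y - y'‖ ≤ 0 := mul_nonpos_of_nonpos_of_nonneg hL.le (norm_nonneg _)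
            exact mul_nonpos_of_nonneg_of_nonpos hη0 this
        _ ≤ (1 - k) / 2 * ‖c - c'‖ := mul_nonneg (by linarith) (norm_nonneg _)
  show ‖F₀ y + Ψ y • (F₁ y - F₀ y) - (F₀ y' + Ψ y' • (F₁ y' - F₀ y')) - (c - c')‖ ≤ _
  rw [hid]
  have t1 := norm_add_le ((1 - Ψ y) • (F₀ y - F₀ y' - (c - c')) +
    Ψ y • (F₁ y - F₁ y' - (c - c'))) ((Ψ y - Ψ y') • (F₁ y' - F₀ y'))
  have t2 := norm_add_le ((1 - Ψ y) • (F₀ y - F₀ y' - (c - c')))
    (Ψ y • (F₁ y - F₁ y' - (c - c')))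
  linarith

/-- Fold of cut-off functions. -/
noncomputable def cut {ι : Type*} (u : ι → E → ℝ) (l : List ι) (x : E) : ℝ :=
  l.foldr (fun i a => max (u i x) a) 0

theorem cut_nil {ι : Type*} (u : ι → E → ℝ) (x : E) : cut u [] x = 0 := rfl

theorem cut_cons {ι : Type*} (u : ι → E → ℝ) (i : ι) (l : List ι) (x : E) :
    cut u (i :: l) x = max (u i x) (cut u l x) := rfl

theorem cut_nonneg {ι : Type*} (u : ι → E → ℝ) (l : List ι) (x : E) : 0 ≤ cut u l x := by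
  induction l with
  | nil => exact le_rfl
  | cons i l ih => rw [cut_cons]; exact ih.trans (le_max_right _ _)

theorem cut_le_one {ι : Type*} {u : ι → E → ℝ} (hu : ∀ i x, u i x ≤ 1) (l : List ι) (x : E) :
    cut u l x ≤ 1 := by
  induction l with
  | nil => exact zero_le_one
  | cons i l ih => rw [cut_cons]; exact max_le (hu i x) ih

theorem le_cut {ι : Type*} (u : ι → E → ℝ) {l : List ι} {i : ι} (hi : i ∈ l) (x : E) :
    u i x ≤ cut u l x := by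
  induction l with
  | nil => simp at hi
  | cons j l ih =>
    rw [cut_cons]
    rcases List.mem_cons.mp hi with rfl | h
    · exact le_max_left _ _
    · exact (ih h).trans (le_max_right _ _)

theorem cut_DL {ι : Type*} {u : ι → E → ℝ} {L : ℝ} (hL : 0 ≤ L) {l : List ι}
    (hu : ∀ i ∈ l, DL L (u i)) : DL L (cut u l) := by
  induction l with
  | nil => exact DL.zero hL
  | cons i l ih =>
    exact (hu i (by simp)).sup (ih fun j hj => hu j (by simp [hj]))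

/-- **Small global step.** -/
theorem glob [CompleteSpace Z] {k : ℝ} (hk0 : 0 ≤ k) (hk : k < 1) {ι : Type*} (l : List ι) (u : ι → E → ℝ) (C : ι → Set E)
    (A : ι → Z →L[ℝ] E) (ρ : ι → ℝ) {η L : ℝ} (hη0 : 0 ≤ η) (hL : 0 ≤ L)
    (hC : ∀ i, IsClosed (C i))
    (hu1 : ∀ i x, u i x ≤ 1) (huC : ∀ i, ∀ x ∉ C i, u i x = 0) (huL : ∀ i ∈ l, DL L (u i))
    {F₀ F₁ : E → Z} (hF₀ : Continuous F₀) (hF₁ : Continuous F₁)
    (hη : ∀ x, ‖F₁ x - F₀ x‖ ≤ η * ‖x‖)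
    (hM₀ : ∀ i ∈ l, ∀ x ∈ C i, MR k (ρ i) F₀ (A i) x)
    (hM₁ : ∀ i ∈ l, ∀ x ∈ C i, MR k (ρ i) F₁ (A i) x)
    (hρ0 : ∀ i ∈ l, 0 ≤ ρ i)
    (hρ : ∀ i ∈ l, ‖A i‖ * ρ i ≤ 1) (hρη : ∀ i ∈ l, 8 * η ≤ (1 - k) * ρ i)
    (hLA : ∀ i ∈ l, η * L * ‖A i‖ ≤ (1 - k) / 2) :
    ∃ h : E ≃ₜ E, h 0 = 0 ∧
      ∀ x, F₀ (h x) + cut u l (h x) • (F₁ (h x) - F₀ (h x)) = F₀ x := by
  have hD0 : F₁ 0 - F₀ 0 = 0 := by
    have := hη 0
    rw [norm_zero, mul_zero] at this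
    exact norm_le_zero_iff.mp this
  have hDc : Continuous fun x => F₁ x - F₀ x := hF₁.sub hF₀
  induction l with
  | nil =>
    refine ⟨Homeomorph.refl E, rfl, fun x => ?_⟩
    simp [cut_nil]
  | cons i l ih =>
    obtain ⟨h, h0, hh⟩ := ih (fun j hj => huL j (by simp [hj])) (fun j hj => hM₀ j (by simp [hj]))
      (fun j hj => hM₁ j (by simp [hj])) (fun j hj => hρ0 j (by simp [hj]))
      (fun j hj => hρ j (by simp [hj])) (fun j hj => hρη j (by simp [hj]))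
      (fun j hj => hLA j (by simp [hj]))
    have hDLl : DL L (cut u l) := cut_DL hL fun j hj => huL j (by simp [hj])
    have hDLi : DL L (cut u (i :: l)) := cut_DL hL huL
    have hi : i ∈ i :: l := by simp
    have hcl : Continuous fun x => F₀ x + cut u l x • (F₁ x - F₀ x) :=
      hF₀.add (hDLl.continuous_smul (cut_nonneg u l) (cut_le_one hu1 l) hDc hD0)
    have hci : Continuous fun x => F₀ x + cut u (i :: l) x • (F₁ x - F₀ x) :=
      hF₀.add (hDLi.continuous_smul (cut_nonneg u _) (cut_le_one hu1 _) hDc hD0)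
    obtain ⟨g, g0, hg⟩ := local_conj (k := (1 + k) / 2) (ρ := ρ i) (σ := ρ i / 4) (ε := η)
      (by linarith) (by linarith) (by linarith [hρ0 i hi]) (by linarith)
      (by linarith [hρη i hi]) hcl hci (hC i) (hρ i hi)
      (fun x hx => MR.interp hk.le hDLl (cut_nonneg u l) (cut_le_one hu1 l) hη hη0 (hLA i hi)
        (hM₀ i hi x hx) (hM₁ i hi x hx))
      (fun x hx => MR.interp hk.le hDLi (cut_nonneg u _) (cut_le_one hu1 _) hη hη0 (hLA i hi)
        (hM₀ i hi x hx) (hM₁ i hi x hx))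
      (fun x hx => by
        rw [cut_cons, huC i x hx, max_eq_right (cut_nonneg u l x)])
      (fun x _ => by
        have h1 : F₀ x + cut u l x • (F₁ x - F₀ x) - (F₀ x + cut u (i :: l) x • (F₁ x - F₀ x)) =
            (cut u l x - cut u (i :: l) x) • (F₁ x - F₀ x) := by module
        rw [h1, norm_smul, Real.norm_eq_abs]
        have h2 : |cut u l x - cut u (i :: l) x| ≤ 1 := by
          rw [abs_le]
          constructor <;>
          linarith [cut_nonneg u l x, cut_le_one hu1 l x, cut_nonneg u (i :: l) x,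
            cut_le_one hu1 (i :: l) x]
        calc |cut u l x - cut u (i :: l) x| * ‖F₁ x - F₀ x‖ ≤ 1 * ‖F₁ x - F₀ x‖ :=
              mul_le_mul_of_nonneg_right h2 (norm_nonneg _)
          _ ≤ η * ‖x‖ := by rw [one_mul]; exact hη x)
    refine ⟨h.trans g, ?_, fun x => ?_⟩
    · show g (h 0) = 0
      rw [h0, g0]
    · show F₀ (g (h x)) + cut u (i :: l) (g (h x)) • (F₁ (g (h x)) - F₀ (g (h x))) = F₀ x
      rw [hg (h x), hh x]

end Vale.Agent.P268.T
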