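import Vale.Agent.P268.T.Reg

/-!
# P268, topological half: the class `H` (functions of pages), closed under sums
-/

set_option linter.unusedSectionVars false

namespace Vale.Agent.P268.T

open Set Filter Topology

variable {E : Type*} [NormedAddCommGroup E] [NormedSpace ℝ E]
  {E' : Type*} [NormedAddCommGroup E'] [NormedSpace ℝ E']
  {T : Type*} [TopologicalSpace T]

/-- Families of class `H`: regular at all points off the origin where the real part is
nonnegative. -/
structure HFam (s : Set T) (F : T → E → ℂ) : Prop where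
  cont : ContinuousOn (fun p : T × E => F p.1 p.2) (s ×ˢ univ)
  hom : ∀ t ∈ s, Hom1 (F t)
  reg : ∀ t ∈ s, ∀ x ≠ 0, 0 ≤ (F t x).re → RegAt s F t x

theorem OFam.toHFam {s : Set T} {F : T → E → ℂ} (h : OFam s F) : HFam s F :=
  ⟨h.cont, h.hom, fun t ht x hx _ => h.reg t ht x hx⟩

theorem HFam.toRFam {s : Set T} {F : T → E → ℂ} (h : HFam s F) : RFam s F :=
  ⟨h.cont, h.hom, fun t ht x hx h0 => h.reg t ht x hx (by rw [h0]; exact le_rfl)⟩

theorem HFam.mono {s s' : Set T} (hs : s' ⊆ s) {F : T → E → ℂ} (h : HFam s F) : HFam s' F :=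
  ⟨h.cont.mono (prod_mono hs Subset.rfl), fun t ht => h.hom t (hs ht),
    fun t ht x hx h0 => (h.reg t (hs ht) x hx h0).mono hs⟩

theorem HFam.param {T' : Type*} [TopologicalSpace T'] {s : Set T} {s' : Set T'} {F : T → E → ℂ}
    (h : HFam s F) {φ : T' → T} (hφ : ContinuousOn φ s') (hs : MapsTo φ s' s) :
    HFam s' (fun t => F (φ t)) := by
  refine ⟨?_, fun t ht => h.hom _ (hs ht), fun t ht x hx h0 =>
    (h.reg _ (hs ht) x hx h0).param (hφ t ht) hs⟩
  have h1 : ContinuousOn (fun p : T' × E => (φ p.1, p.2)) (s' ×ˢ univ) :=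
    (hφ.comp continuousOn_fst (fun p hp => hp.1)).prodMk continuousOn_snd
  exact h.cont.comp h1 (fun p hp => ⟨hs hp.1, mem_univ _⟩)

theorem HFam.comp_linear {s : Set T} {F : T → E' → ℂ} (e : E ≃L[ℝ] E') (h : HFam s F) :
    HFam s (fun t x => F t (e x)) where
  cont := by
    have h1 : ContinuousOn (fun p : T × E => (p.1, e p.2)) (s ×ˢ univ) :=
      (continuous_fst.prodMk (e.continuous.comp continuous_snd)).continuousOn
    exact h.cont.comp h1 (fun p hp => ⟨hp.1, mem_univ _⟩)
  hom := fun t ht r hr x => by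
    show F t (e (r • x)) = r • F t (e x)
    rw [map_smul]; exact h.hom t ht r hr _
  reg := fun t ht x hx h0 => RegAt.comp_linear e (h.reg t ht (e x) (by simpa using hx) h0)

/-- Two members of a family of class `H` over a connected set have equivalent zero sets. -/
theorem HFam.veq [ProperSpace E] {s : Set T} (hs : IsPreconnected s)
    {F : T → E → ℂ} (hF : HFam s F) {a b : T} (ha : a ∈ s) (hb : b ∈ s) : VEq (F a) (F b) :=
  hF.toRFam.veq hs ha hb

/-- **`H + H ⊆ H`**: the class `H` is closed under Thom–Sebastiani sums. -/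
theorem HFam.add {s : Set T} {F : T → E → ℂ} {G : T → E' → ℂ} (hF : HFam s F) (hG : HFam s G) :
    HFam s (fun t (p : E × E') => F t p.1 + G t p.2) where
  cont := cont_add hF.cont hG.cont
  hom := fun t ht r hr p => by
    simp only [Prod.smul_fst, Prod.smul_snd, smul_add]
    rw [hF.hom t ht r hr, hG.hom t ht r hr]
  reg := by
    rintro t ht ⟨x, y⟩ hxy h0
    have h1 : 0 ≤ (F t x).re + (G t y).re := by simpa using h0
    by_cases hx : x ≠ 0 ∧ 0 ≤ (F t x).re
    · exact RegAt.add_fst (hF.reg t ht x hx.1 hx.2)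
    · by_cases hx0 : x = 0
      · subst hx0
        have hy : y ≠ 0 := by rintro rfl; exact hxy rfl
        rw [(hF.hom t ht).zero] at h1
        refine RegAt.add_snd (hG.reg t ht y hy ?_)
        simpa using h1
      · have hneg : (F t x).re < 0 := by
          by_contra hcon
          exact hx ⟨hx0, not_lt.mp hcon⟩
        have hpos : 0 < (G t y).re := by linarith
        have hy : y ≠ 0 := by
          rintro rfl
          rw [(hG.hom t ht).zero] at hpos
          simp at hpos
        exact RegAt.add_snd (hG.reg t ht y hy hpos.le)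

end Vale.Agent.P268.T
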