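import Vale.Agent.P268.T.HEq
import Vale.Agent.P268.T.Mono

/-!
# P268, topological half: monotone functions along a direction, straight paths

`MonOn κ K F A U`: strong monotonicity of `F` along the plane direction `A` on `U`.  For fixed
`A` this is convex in `F` and closed under `max`, `min` in the real part.  `HEqv.straight`: two
functions which are monotone along a common direction at every point where one of them has
nonnegative real part are equivalent.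
-/

namespace Vale.Agent.P268.T

open Set Filter Topology

variable {E : Type*} [NormedAddCommGroup E] [NormedSpace ℝ E]
  {T : Type*} [TopologicalSpace T]

/-- `F` is strongly monotone (constant `κ`) and Lipschitz (constant `K`) along the two-plane
direction `A` on `U`. -/
def MonOn (κ K : ℝ) (F : E → ℂ) (A : ℂ →L[ℝ] E) (U : Set E) : Prop :=
  ∀ x ∈ U, ∀ c : ℂ, x + A c ∈ U →
    κ * ‖c‖ ^ 2 ≤ (F (x + A c) - F x).re * c.re + (F (x + A c) - F x).im * c.im ∧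
      ‖F (x + A c) - F x‖ ≤ K * ‖c‖

theorem sq_norm_eq (z : ℂ) : ‖z‖ ^ 2 = z.re ^ 2 + z.im ^ 2 := by
  rw [Complex.sq_norm, Complex.normSq_apply]; ring

/-- Strongly monotone functions are metrically regular. -/
theorem MonOn.mregOn {κ K : ℝ} {F : E → ℂ} {A : ℂ →L[ℝ] E} {U : Set E} (h : MonOn κ K F A U)
    (hκ : 0 < κ) (hK : κ ≤ K) :
    MRegOn (Real.sqrt (1 - κ ^ 2 / K ^ 2)) F ((κ / K ^ 2) • A) U := by
  have hK0 : 0 < K := hκ.trans_le hK
  intro x hx c hc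
  set t : ℝ := κ / K ^ 2 with ht
  have ht0 : 0 < t := by positivity
  have e1 : ((t • A) c : E) = A (t • c) := by
    rw [smul_apply, map_smul]
  rw [e1] at hc ⊢
  obtain ⟨h1, h2⟩ := h x hx (t • c) hc
  set D : ℂ := F (x + A (t • c)) - F x with hD
  have hsm : ‖t • c‖ = t * ‖c‖ := by rw [norm_smul, Real.norm_eq_abs, abs_of_pos ht0]
  rw [hsm] at h1 h2
  have h3 : (t • c).re = t * c.re := by simp
  have h4 : (t • c).im = t * c.im := by simp
  rw [h3, h4] at h1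
  -- `κ t ‖c‖² ≤ D·c`
  have h5 : κ * t * ‖c‖ ^ 2 ≤ D.re * c.re + D.im * c.im := by
    have : t * (κ * t * ‖c‖ ^ 2) ≤ t * (D.re * c.re + D.im * c.im) := by
      calc t * (κ * t * ‖c‖ ^ 2) = κ * (t * ‖c‖) ^ 2 := by ring
        _ ≤ D.re * (t * c.re) + D.im * (t * c.im) := h1
        _ = _ := by ring
    exact le_of_mul_le_mul_left this ht0
  have h6 : ‖D‖ ^ 2 ≤ (K * (t * ‖c‖)) ^ 2 := by
    exact pow_le_pow_left₀ (norm_nonneg _) h2 2
  have h7 : ‖D - c‖ ^ 2 = ‖D‖ ^ 2 - 2 * (D.re * c.re + D.im * c.im) + ‖c‖ ^ 2 := by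
    rw [sq_norm_eq, sq_norm_eq, sq_norm_eq]; simp; ring
  have h8 : ‖D - c‖ ^ 2 ≤ (1 - κ ^ 2 / K ^ 2) * ‖c‖ ^ 2 := by
    rw [h7]
    have h9 : (K * (t * ‖c‖)) ^ 2 = κ ^ 2 / K ^ 2 * ‖c‖ ^ 2 := by
      rw [ht]; field_simp
    have h10 : κ * t = κ ^ 2 / K ^ 2 := by rw [ht]; ring
    rw [h10] at h5
    rw [h9] at h6
    nlinarith [sq_nonneg ‖c‖]
  have h11 : 0 ≤ 1 - κ ^ 2 / K ^ 2 := by
    have : κ ^ 2 / K ^ 2 ≤ 1 := by
      rw [div_le_one (by positivity)]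
      exact pow_le_pow_left₀ hκ.le hK 2
    linarith
  calc ‖F (x + A (t • c)) - F x - c‖ = Real.sqrt (‖D - c‖ ^ 2) := by
        rw [Real.sqrt_sq (norm_nonneg _)]
    _ ≤ Real.sqrt ((1 - κ ^ 2 / K ^ 2) * ‖c‖ ^ 2) := Real.sqrt_le_sqrt h8
    _ = Real.sqrt (1 - κ ^ 2 / K ^ 2) * ‖c‖ := by
        rw [Real.sqrt_mul h11, Real.sqrt_sq (norm_nonneg _)]

/-- Families which are uniformly strongly monotone near a point are regular there. -/
theorem RegAt.of_monOn {s : Set T} {F : T → E → ℂ} {t₀ : T} {x₀ : E} {κ K : ℝ} (hκ : 0 < κ)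
    {A : ℂ →L[ℝ] E} {U : Set E} (hU : U ∈ 𝓝 x₀)
    (h : ∀ᶠ t in 𝓝[s] t₀, MonOn κ K (F t) A U) : RegAt s F t₀ x₀ := by
  have hK : κ ≤ max κ K := le_max_left _ _
  have hK0 : 0 < max κ K := hκ.trans_le hK
  refine ⟨Real.sqrt (1 - κ ^ 2 / (max κ K) ^ 2), Real.sqrt_nonneg _, ?_,
    (κ / (max κ K) ^ 2) • A, U, hU, ?_⟩
  · rw [Real.sqrt_lt' one_pos]
    have : 0 < κ ^ 2 / (max κ K) ^ 2 := by positivity
    linarith
  · filter_upwards [h] with t ht
    refine MonOn.mregOn (fun x hx c hc => ?_) hκ hK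
    obtain ⟨h1, h2⟩ := ht x hx c hc
    exact ⟨h1, h2.trans (mul_le_mul_of_nonneg_right (le_max_right _ _) (norm_nonneg _))⟩

theorem MonOn.mono_const {κ κ' K K' : ℝ} {F : E → ℂ} {A : ℂ →L[ℝ] E} {U : Set E}
    (h : MonOn κ K F A U) (hκ : κ' ≤ κ) (hK : K ≤ K') : MonOn κ' K' F A U := by
  intro x hx c hc
  obtain ⟨h1, h2⟩ := h x hx c hc
  exact ⟨(mul_le_mul_of_nonneg_right hκ (by positivity)).trans h1,
    h2.trans (mul_le_mul_of_nonneg_right hK (norm_nonneg _))⟩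

theorem MonOn.mono_set {κ K : ℝ} {F : E → ℂ} {A : ℂ →L[ℝ] E} {U V : Set E}
    (h : MonOn κ K F A U) (hV : V ⊆ U) : MonOn κ K F A V :=
  fun x hx c hc => h x (hV hx) c (hV hc)

theorem MonOn.congr {κ K : ℝ} {F G : E → ℂ} {A : ℂ →L[ℝ] E} {U : Set E}
    (h : MonOn κ K F A U) (hFG : ∀ x ∈ U, F x = G x) : MonOn κ K G A U := by
  intro x hx c hc
  rw [← hFG x hx, ← hFG _ hc]
  exact h x hx c hc

/-- Convex combinations. -/
theorem MonOn.convex {κ K : ℝ} {F G : E → ℂ} {A : ℂ →L[ℝ] E} {U : Set E}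
    (hF : MonOn κ K F A U) (hG : MonOn κ K G A U) {a b : ℝ} (ha : 0 ≤ a) (hb : 0 ≤ b)
    (hab : a + b = 1) : MonOn κ K (fun x => (a : ℂ) * F x + (b : ℂ) * G x) A U := by
  intro x hx c hc
  obtain ⟨h1, h2⟩ := hF x hx c hc
  obtain ⟨h3, h4⟩ := hG x hx c hc
  have e1 : (a : ℂ) * F (x + A c) + b * G (x + A c) - (a * F x + b * G x) =
      (a : ℂ) * (F (x + A c) - F x) + (b : ℂ) * (G (x + A c) - G x) := by ring
  show κ * ‖c‖ ^ 2 ≤ ((a : ℂ) * F (x + A c) + b * G (x + A c) - (a * F x + b * G x)).re * c.re +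
    ((a : ℂ) * F (x + A c) + b * G (x + A c) - (a * F x + b * G x)).im * c.im ∧
    ‖(a : ℂ) * F (x + A c) + b * G (x + A c) - (a * F x + b * G x)‖ ≤ K * ‖c‖
  rw [e1]
  set P := F (x + A c) - F x
  set Q := G (x + A c) - G x
  constructor
  · have e2 : ((a : ℂ) * P + b * Q).re = a * P.re + b * Q.re := by simp
    have e3 : ((a : ℂ) * P + b * Q).im = a * P.im + b * Q.im := by simp
    rw [e2, e3]
    calc κ * ‖c‖ ^ 2 = a * (κ * ‖c‖ ^ 2) + b * (κ * ‖c‖ ^ 2) := by rw [← add_mul, hab, one_mul]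
      _ ≤ a * (P.re * c.re + P.im * c.im) + b * (Q.re * c.re + Q.im * c.im) :=
        add_le_add (mul_le_mul_of_nonneg_left h1 ha) (mul_le_mul_of_nonneg_left h3 hb)
      _ = _ := by ring
  · calc ‖(a : ℂ) * P + b * Q‖ ≤ ‖(a : ℂ) * P‖ + ‖(b : ℂ) * Q‖ := norm_add_le _ _
      _ = a * ‖P‖ + b * ‖Q‖ := by
        rw [norm_mul, norm_mul, Complex.norm_of_nonneg ha, Complex.norm_of_nonneg hb]
      _ ≤ a * (K * ‖c‖) + b * (K * ‖c‖) :=
        add_le_add (mul_le_mul_of_nonneg_left h2 ha) (mul_le_mul_of_nonneg_left h4 hb)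
      _ = K * ‖c‖ := by rw [← add_mul, hab, one_mul]

/-- If the increment of `(m, b)` has `m`-part between those of `(a₁, b)` and `(a₂, b)` then the
monotonicity passes. -/
theorem mon_between {κ K : ℝ} {P Q M : ℂ} {c : ℂ} (hPQ : P.im = Q.im) (hPM : P.im = M.im)
    (h1 : min P.re Q.re ≤ M.re) (h2 : M.re ≤ max P.re Q.re)
    (hP : κ * ‖c‖ ^ 2 ≤ P.re * c.re + P.im * c.im ∧ ‖P‖ ≤ K * ‖c‖)
    (hQ : κ * ‖c‖ ^ 2 ≤ Q.re * c.re + Q.im * c.im ∧ ‖Q‖ ≤ K * ‖c‖) :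
    κ * ‖c‖ ^ 2 ≤ M.re * c.re + M.im * c.im ∧ ‖M‖ ≤ K * ‖c‖ := by
  constructor
  · rw [← hPM]
    have hQ1 := hQ.1
    rw [← hPQ] at hQ1
    rcases le_total 0 c.re with hc | hc
    · rcases min_le_iff.mp h1 with h | h
      · nlinarith [hP.1]
      · nlinarith
    · rcases le_max_iff.mp h2 with h | h
      · nlinarith [hP.1]
      · nlinarith
  · have hK : 0 ≤ K * ‖c‖ := (norm_nonneg _).trans hP.2
    have h3 : ‖P‖ ^ 2 ≤ (K * ‖c‖) ^ 2 := pow_le_pow_left₀ (norm_nonneg _) hP.2 2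
    have h4 : ‖Q‖ ^ 2 ≤ (K * ‖c‖) ^ 2 := pow_le_pow_left₀ (norm_nonneg _) hQ.2 2
    rw [sq_norm_eq] at h3 h4
    have h5 : ‖M‖ ^ 2 ≤ (K * ‖c‖) ^ 2 := by
      rw [sq_norm_eq, ← hPM]
      rw [← hPQ] at h4
      have h6 : M.re ^ 2 ≤ max (P.re ^ 2) (Q.re ^ 2) := by
        rcases le_total 0 M.re with hM | hM
        · rcases le_max_iff.mp h2 with h | h
          · exact le_trans (pow_le_pow_left₀ hM h 2) (le_max_left _ _)
          · exact le_trans (pow_le_pow_left₀ hM h 2) (le_max_right _ _)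
        · rcases min_le_iff.mp h1 with h | h
          · exact le_trans (by nlinarith) (le_max_left _ _)
          · exact le_trans (by nlinarith) (le_max_right _ _)
      rcases le_max_iff.mp h6 with h | h
      · linarith
      · linarith
    exact abs_le_of_sq_le_sq' h5 hK |>.2

/-- `max` in the real part. -/
theorem MonOn.max_re {κ K : ℝ} {a₁ a₂ b : E → ℝ} {A : ℂ →L[ℝ] E} {U : Set E}
    (h₁ : MonOn κ K (fun x => ⟨a₁ x, b x⟩) A U) (h₂ : MonOn κ K (fun x => ⟨a₂ x, b x⟩) A U) :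
    MonOn κ K (fun x => ⟨max (a₁ x) (a₂ x), b x⟩) A U := by
  intro x hx c hc
  refine mon_between (P := ⟨a₁ (x + A c), b (x + A c)⟩ - ⟨a₁ x, b x⟩)
    (Q := ⟨a₂ (x + A c), b (x + A c)⟩ - ⟨a₂ x, b x⟩) ?_ ?_ ?_ ?_ (h₁ x hx c hc) (h₂ x hx c hc)
  · simp
  · simp
  · simpa using (max_incr (a₁ x) (a₂ x) (a₁ (x + A c)) (a₂ (x + A c))).1
  · simpa using (max_incr (a₁ x) (a₂ x) (a₁ (x + A c)) (a₂ (x + A c))).2

/-- `min` in the real part. -/
theorem MonOn.min_re {κ K : ℝ} {a₁ a₂ b : E → ℝ} {A : ℂ →L[ℝ] E} {U : Set E}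
    (h₁ : MonOn κ K (fun x => ⟨a₁ x, b x⟩) A U) (h₂ : MonOn κ K (fun x => ⟨a₂ x, b x⟩) A U) :
    MonOn κ K (fun x => ⟨min (a₁ x) (a₂ x), b x⟩) A U := by
  intro x hx c hc
  refine mon_between (P := ⟨a₁ (x + A c), b (x + A c)⟩ - ⟨a₁ x, b x⟩)
    (Q := ⟨a₂ (x + A c), b (x + A c)⟩ - ⟨a₂ x, b x⟩) ?_ ?_ ?_ ?_ (h₁ x hx c hc) (h₂ x hx c hc)
  · simp
  · simp
  · simpa using (min_incr (a₁ x) (a₂ x) (a₁ (x + A c)) (a₂ (x + A c))).1
  · simpa using (min_incr (a₁ x) (a₂ x) (a₁ (x + A c)) (a₂ (x + A c))).2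

/-- `F` and `G` are strongly monotone along a common direction near `x`. -/
def MonAt₂ (F G : E → ℂ) (x : E) : Prop :=
  ∃ κ K : ℝ, 0 < κ ∧ ∃ A : ℂ →L[ℝ] E, ∃ U ∈ 𝓝 x, MonOn κ K F A U ∧ MonOn κ K G A U

/-- The straight path between two functions which are monotone along a common direction at every
point where one of them has nonnegative real part. -/
theorem HFam.straight {F G : E → ℂ} (hFc : Continuous F) (hF : Hom1 F) (hGc : Continuous G)
    (hG : Hom1 G) (h : ∀ x ≠ 0, 0 ≤ (F x).re ∨ 0 ≤ (G x).re → MonAt₂ F G x) :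
    HFam (Icc (0 : ℝ) 1) (fun s x => ((1 - s : ℝ) : ℂ) * F x + (s : ℂ) * G x) where
  cont := by
    refine Continuous.continuousOn ?_
    have h1 : Continuous fun p : ℝ × E => ((1 - p.1 : ℝ) : ℂ) :=
      Complex.continuous_ofReal.comp (continuous_const.sub continuous_fst)
    have h2 : Continuous fun p : ℝ × E => ((p.1 : ℝ) : ℂ) :=
      Complex.continuous_ofReal.comp continuous_fst
    exact (h1.mul (hFc.comp continuous_snd)).add (h2.mul (hGc.comp continuous_snd))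
  hom := fun s _ r hr x => by
    show ((1 - s : ℝ) : ℂ) * F (r • x) + (s : ℂ) * G (r • x) = _
    rw [hF r hr, hG r hr]
    simp only [Complex.real_smul]
    ring
  reg := fun s hs x hx h0 => by
    have h1 : 0 ≤ (F x).re ∨ 0 ≤ (G x).re := by
      by_contra hcon
      push Not at hcon
      have e1 : (((1 - s : ℝ) : ℂ) * F x + (s : ℂ) * G x).re =
          (1 - s) * (F x).re + s * (G x).re := by
        rw [Complex.add_re, Complex.re_ofReal_mul, Complex.re_ofReal_mul]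
      rw [e1] at h0
      rcases eq_or_lt_of_le hs.2 with e | e
      · subst e
        simp only [sub_self, zero_mul, one_mul, zero_add] at h0
        linarith [hcon.2]
      · nlinarith [hcon.1, hcon.2, hs.1]
    obtain ⟨κ, K, hκ, A, U, hU, hFU, hGU⟩ := h x hx h1
    refine RegAt.of_monOn (κ := κ) (K := K) hκ (A := A) hU ?_
    filter_upwards [self_mem_nhdsWithin] with t ht
    exact MonOn.convex hFU hGU (by linarith [ht.2]) ht.1 (by ring)

end Vale.Agent.P268.T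

namespace Vale.Agent.P268.T

open Set Filter Topology

/-- **Straight path lemma.** -/
theorem HEqv.straight {E : Type} [NormedAddCommGroup E] [NormedSpace ℝ E] [FiniteDimensional ℝ E]
    {F G : E → ℂ} (hFc : Continuous F) (hF : Hom1 F) (hGc : Continuous G)
    (hG : Hom1 G) (h : ∀ x ≠ 0, 0 ≤ (F x).re ∨ 0 ≤ (G x).re → MonAt₂ F G x) : HEqv F G := by
  have h1 := HEqv.of_path (HFam.straight hFc hF hGc hG h)
  have e0 : (fun x => ((1 - (0 : ℝ) : ℝ) : ℂ) * F x + ((0 : ℝ) : ℂ) * G x) = F := by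
    funext x; simp
  have e1 : (fun x => ((1 - (1 : ℝ) : ℝ) : ℂ) * F x + ((1 : ℝ) : ℂ) * G x) = G := by
    funext x; simp
  rw [e0, e1] at h1
  exact h1

/-- A function which is strongly monotone at all points with nonnegative real part is of class
`H`. -/
theorem HFun.of_mon {E : Type} [NormedAddCommGroup E] [NormedSpace ℝ E]
    {F : E → ℂ} (hFc : Continuous F) (hF : Hom1 F)
    (h : ∀ x ≠ 0, 0 ≤ (F x).re → MonAt₂ F F x) : HFun F := by
  refine HFun.mk' hFc hF fun x hx h0 => ?_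
  obtain ⟨κ, K, hκ, A, U, hU, hFU, -⟩ := h x hx h0
  exact RegAt.of_monOn hκ hU (Filter.Eventually.of_forall fun _ => hFU)

end Vale.Agent.P268.T
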