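import Mathlib

/-!
# P268, topological half: isotopy extension for configurations

A homotopy of configurations of `r` points in a Banach space, depending on a parameter in a compact
space, is realised by homeomorphisms of the space, continuous in all parameters and with compact
support.
-/

set_option linter.all false

namespace Vale.Agent.P268.T

open Set Filter Topology
open scoped NNReal

namespace Push

variable {V : Type*} [NormedAddCommGroup V] [NormedSpace ℝ V] {ι : Type*} [Fintype ι]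

/-- cut-off: `1` at `0`, `0` from `1/4` on -/
noncomputable def psi (u : ℝ) : ℝ := max 0 (1 - 4 * u)

theorem psi_zero : psi 0 = 1 := by simp [psi]

theorem psi_nonneg (u : ℝ) : 0 ≤ psi u := le_max_left _ _

theorem psi_of_le {u : ℝ} (h : 1 / 4 ≤ u) : psi u = 0 := by
  unfold psi
  exact max_eq_left (by linarith)

theorem continuous_psi : Continuous psi := by
  unfold psi
  fun_prop

theorem abs_psi_sub (u v : ℝ) : |psi u - psi v| ≤ 4 * |u - v| := by
  unfold psi
  have h := abs_max_sub_max_le_abs (1 - 4 * u) (1 - 4 * v) 0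
  rw [max_comm 0 (1 - 4 * u), max_comm 0 (1 - 4 * v)]
  refine h.trans ?_
  have : 1 - 4 * u - (1 - 4 * v) = 4 * (v - u) := by ring
  rw [this, abs_mul, abs_sub_comm v u]
  norm_num

/-- the displacement field of one step -/
noncomputable def fld (g : ℝ) (p d : ι → V) (x : V) : V := ∑ i, psi (‖x - p i‖ / g) • d i

theorem fld_lip {g : ℝ} (hg : 0 < g) (p d : ι → V)
    (hd : ∀ i, ‖d i‖ ≤ g / (8 * (Fintype.card ι + 1))) (x y : V) :
    ‖fld g p d x - fld g p d y‖ ≤ 1 / 2 * ‖x - y‖ := by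
  unfold fld
  rw [← Finset.sum_sub_distrib]
  refine (norm_sum_le _ _).trans ?_
  have h : ∀ i ∈ (Finset.univ : Finset ι),
      ‖psi (‖x - p i‖ / g) • d i - psi (‖y - p i‖ / g) • d i‖ ≤
        1 / (2 * (Fintype.card ι + 1)) * ‖x - y‖ := by
    intro i _
    rw [← sub_smul, norm_smul, Real.norm_eq_abs]
    have h1 := abs_psi_sub (‖x - p i‖ / g) (‖y - p i‖ / g)
    have h2 : |‖x - p i‖ / g - ‖y - p i‖ / g| ≤ ‖x - y‖ / g := by
      rw [← sub_div, abs_div, abs_of_pos hg]
      gcongr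
      have := abs_norm_sub_norm_le (x - p i) (y - p i)
      rwa [sub_sub_sub_cancel_right] at this
    have h3 : |psi (‖x - p i‖ / g) - psi (‖y - p i‖ / g)| ≤ 4 * (‖x - y‖ / g) :=
      h1.trans (by linarith)
    refine (mul_le_mul h3 (hd i) (norm_nonneg _) (by positivity)).trans (le_of_eq ?_)
    field_simp
    ring
  refine (Finset.sum_le_sum h).trans ?_
  rw [Finset.sum_const, Finset.card_univ, nsmul_eq_mul, ← mul_assoc]
  gcongr
  have hc : (0 : ℝ) ≤ Fintype.card ι := Nat.cast_nonneg _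
  rw [mul_one_div, div_le_div_iff₀ (by positivity) (by norm_num)]
  nlinarith

theorem fld_pt {g : ℝ} (hg : 0 < g) (p d : ι → V) (hp : ∀ i j, i ≠ j → g ≤ ‖p i - p j‖) (j : ι) :
    fld g p d (p j) = d j := by
  classical
  unfold fld
  rw [Finset.sum_eq_single j]
  · rw [sub_self, norm_zero, zero_div, psi_zero, one_smul]
  · intro i _ hij
    rw [psi_of_le, zero_smul]
    rw [le_div_iff₀ hg]
    have := hp j i (Ne.symm hij)
    linarith
  · intro h
    exact absurd (Finset.mem_univ j) h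

theorem fld_zero (g : ℝ) (p : ι → V) (x : V) : fld g p 0 x = 0 := by
  simp [fld]

theorem fld_far {g M : ℝ} (hg : 0 < g) (p d : ι → V) (hp : ∀ i, ‖p i‖ ≤ M) {x : V}
    (hx : M + g ≤ ‖x‖) : fld g p d x = 0 := by
  unfold fld
  refine Finset.sum_eq_zero fun i _ => ?_
  rw [psi_of_le, zero_smul]
  rw [le_div_iff₀ hg]
  have h1 := norm_sub_norm_le x (p i)
  have h2 := hp i
  linarith

/-- `id` plus a `1/2`-Lipschitz map is a homeomorphism of a Banach space. -/
theorem exists_homeo [CompleteSpace V] (φ : V → V) (h : ∀ x y, ‖φ x - φ y‖ ≤ 1 / 2 * ‖x - y‖) :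
    ∃ Φ : V ≃ₜ V, ∀ x, Φ x = x + φ x := by
  have happ : ApproximatesLinearOn (fun x => x + φ x)
      ((ContinuousLinearEquiv.refl ℝ V : V ≃L[ℝ] V) : V →L[ℝ] V) univ (1 / 2 : ℝ≥0) := by
    intro x _ y _
    have h1 : (fun x => x + φ x) x - (fun x => x + φ x) y -
        ((ContinuousLinearEquiv.refl ℝ V : V ≃L[ℝ] V) : V →L[ℝ] V) (x - y) = φ x - φ y := by
      simp only [ContinuousLinearEquiv.coe_refl, ContinuousLinearMap.coe_id', id_eq]
      abel
    rw [h1]
    simpa using h x y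
  have hc' : Subsingleton V ∨
      (1 / 2 : ℝ≥0) < ‖((ContinuousLinearEquiv.refl ℝ V).symm : V →L[ℝ] V)‖₊⁻¹ := by
    rcases subsingleton_or_nontrivial V with h | h
    · exact Or.inl h
    · right
      have : ‖((ContinuousLinearEquiv.refl ℝ V).symm : V →L[ℝ] V)‖₊ = 1 := by
        rw [ContinuousLinearEquiv.refl_symm, ContinuousLinearEquiv.coe_refl]
        exact ContinuousLinearMap.nnnorm_id
      rw [this, inv_one]
      rw [div_lt_one (by norm_num)]
      norm_num
  exact ⟨happ.toHomeomorph _ hc', fun x => rfl⟩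

theorem lower {φ : V → V} (h : ∀ x y, ‖φ x - φ y‖ ≤ 1 / 2 * ‖x - y‖) (x y : V) :
    ‖x - y‖ ≤ 2 * ‖(x + φ x) - (y + φ y)‖ := by
  have h1 := h x y
  have h2 : x - y = ((x + φ x) - (y + φ y)) - (φ x - φ y) := by abel
  have h3 : ‖x - y‖ ≤ ‖(x + φ x) - (y + φ y)‖ + ‖φ x - φ y‖ := by
    conv_lhs => rw [h2]
    exact norm_sub_le _ _
  linarith

/-- A family of homeomorphisms `id + φ_q`, `φ_q` uniformly `1/2`-Lipschitz and jointly continuous:
the inverses are jointly continuous. -/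
theorem continuous_symm {Q : Type*} [TopologicalSpace Q] (φ : Q → V → V)
    (hφ : Continuous fun p : Q × V => φ p.1 p.2)
    (h : ∀ q x y, ‖φ q x - φ q y‖ ≤ 1 / 2 * ‖x - y‖) (Φ : Q → V ≃ₜ V)
    (hΦ : ∀ q x, Φ q x = x + φ q x) : Continuous fun p : Q × V => (Φ p.1).symm p.2 := by
  rw [continuous_iff_continuousAt]
  rintro ⟨q₀, y₀⟩
  set x₀ := (Φ q₀).symm y₀ with hx₀
  have hy₀ : x₀ + φ q₀ x₀ = y₀ := by rw [← hΦ, hx₀, Homeomorph.apply_symm_apply]
  have key : ∀ p : Q × V, ‖(Φ p.1).symm p.2 - x₀‖ ≤ 2 * ‖p.2 - (x₀ + φ p.1 x₀)‖ := by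
    rintro ⟨q, y⟩
    have h1 := lower (h q) ((Φ q).symm y) x₀
    rwa [← hΦ q ((Φ q).symm y), Homeomorph.apply_symm_apply] at h1
  have hlim : Tendsto (fun p : Q × V => 2 * ‖p.2 - (x₀ + φ p.1 x₀)‖) (𝓝 (q₀, y₀)) (𝓝 0) := by
    have hc : Continuous fun p : Q × V => 2 * ‖p.2 - (x₀ + φ p.1 x₀)‖ := by
      have : Continuous fun p : Q × V => φ p.1 x₀ :=
        hφ.comp (continuous_fst.prodMk continuous_const)
      fun_prop
    have := hc.tendsto (q₀, y₀)
    simpa [hy₀] using this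
  show Tendsto (fun p : Q × V => (Φ p.1).symm p.2) (𝓝 (q₀, y₀)) (𝓝 x₀)
  rw [tendsto_iff_norm_sub_tendsto_zero]
  exact squeeze_zero (fun _ => norm_nonneg _) key hlim

/-- uniform gap -/
theorem exists_gap {K : Type*} [TopologicalSpace K] [CompactSpace K] (h : K → ℝ → ι → V)
    (hc : Continuous fun p : K × ℝ => h p.1 p.2)
    (hinj : ∀ b, ∀ τ ∈ Icc (0 : ℝ) 1, Function.Injective (h b τ)) :
    ∃ g : ℝ, 0 < g ∧ ∀ b, ∀ τ ∈ Icc (0 : ℝ) 1, ∀ i j, i ≠ j → g ≤ ‖h b τ i - h b τ j‖ := by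
  classical
  have h1 : ∀ q : ι × ι, ∃ g : ℝ, 0 < g ∧ (q.1 ≠ q.2 → ∀ b, ∀ τ ∈ Icc (0 : ℝ) 1,
      g ≤ ‖h b τ q.1 - h b τ q.2‖) := by
    rintro ⟨i, j⟩
    by_cases hij : i = j
    · exact ⟨1, one_pos, fun h => absurd hij h⟩
    have hs : IsCompact ((univ : Set K) ×ˢ Icc (0 : ℝ) 1) := isCompact_univ.prod isCompact_Icc
    have hf : ContinuousOn (fun p : K × ℝ => ‖h p.1 p.2 i - h p.1 p.2 j‖)
        ((univ : Set K) ×ˢ Icc (0 : ℝ) 1) := by
      have e1 : Continuous fun p : K × ℝ => h p.1 p.2 i := (continuous_apply i).comp hc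
      have e2 : Continuous fun p : K × ℝ => h p.1 p.2 j := (continuous_apply j).comp hc
      exact (e1.sub e2).norm.continuousOn
    obtain ⟨g, hg, hg'⟩ := hs.exists_forall_le' hf (a := 0) (by
      rintro ⟨b, τ⟩ ⟨-, hτ⟩
      exact norm_pos_iff.2 (sub_ne_zero.2 fun e => hij (hinj b τ hτ e)))
    exact ⟨g, hg, fun _ b τ hτ => hg' (b, τ) ⟨mem_univ _, hτ⟩⟩
  choose g hg hg' using h1
  have hpos : 0 < ∑ q, (g q)⁻¹ + 1 :=
    add_pos_of_nonneg_of_pos (Finset.sum_nonneg fun q _ => (inv_pos.2 (hg q)).le) one_pos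
  refine ⟨(∑ q, (g q)⁻¹ + 1)⁻¹, inv_pos.2 hpos, fun b τ hτ i j hij => ?_⟩
  refine le_trans ?_ (hg' (i, j) hij b τ hτ)
  rw [inv_le_comm₀ hpos (hg _)]
  have := Finset.single_le_sum (f := fun q => (g q)⁻¹) (fun q _ => (inv_pos.2 (hg q)).le)
    (Finset.mem_univ (i, j))
  linarith

/-- uniform continuity in the homotopy parameter -/
theorem exists_step {K : Type*} [TopologicalSpace K] [CompactSpace K] (h : K → ℝ → ι → V)
    (hc : Continuous fun p : K × ℝ => h p.1 p.2) {η : ℝ} (hη : 0 < η) :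
    ∃ δ : ℝ, 0 < δ ∧ ∀ b, ∀ τ ∈ Icc (0 : ℝ) 1, ∀ τ' ∈ Icc (0 : ℝ) 1, |τ - τ'| < δ → ∀ i,
      ‖h b τ i - h b τ' i‖ ≤ η := by
  let H : C(ℝ, C(K, ι → V)) :=
    ContinuousMap.curry ⟨fun p : ℝ × K => h p.2 p.1, hc.comp continuous_swap⟩
  have hu : UniformContinuousOn H (Icc (0 : ℝ) 1) :=
    isCompact_Icc.uniformContinuousOn_of_continuous H.continuous.continuousOn
  rw [Metric.uniformContinuousOn_iff] at hu
  obtain ⟨δ, hδ, hδ'⟩ := hu η hη
  refine ⟨δ, hδ, fun b τ hτ τ' hτ' hd i => ?_⟩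
  have h1 := hδ' τ hτ τ' hτ' (by rwa [Real.dist_eq])
  have h2 : dist (H τ b) (H τ' b) ≤ dist (H τ) (H τ') := ContinuousMap.dist_apply_le_dist b
  have h3 : dist (h b τ i) (h b τ' i) ≤ dist (h b τ) (h b τ') := dist_le_pi_dist _ _ i
  rw [← dist_eq_norm]
  exact h3.trans (h2.trans h1.le)

/-- clamp to the unit interval -/
noncomputable def cl (τ : ℝ) : ℝ := max 0 (min 1 τ)

theorem cl_mem (τ : ℝ) : cl τ ∈ Icc (0 : ℝ) 1 :=
  ⟨le_max_left _ _, max_le zero_le_one (min_le_left _ _)⟩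

theorem cl_of {τ : ℝ} (h : τ ∈ Icc (0 : ℝ) 1) : cl τ = τ := by
  unfold cl
  rw [min_eq_right h.2, max_eq_right h.1]

theorem continuous_cl : Continuous cl := by
  unfold cl
  fun_prop

/-- the times of the steps -/
noncomputable def tm (N k : ℕ) (τ : ℝ) : ℝ := min (cl τ) ((k : ℝ) / N)

theorem tm_mem (N k : ℕ) (τ : ℝ) : tm N k τ ∈ Icc (0 : ℝ) 1 :=
  ⟨le_min (cl_mem τ).1 (by positivity), (min_le_left _ _).trans (cl_mem τ).2⟩

theorem continuous_tm (N k : ℕ) : Continuous (tm N k) := by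
  unfold tm
  exact continuous_cl.min continuous_const

theorem tm_step {N : ℕ} (hN : 0 < N) (k : ℕ) (τ : ℝ) : |tm N (k + 1) τ - tm N k τ| ≤ 1 / N := by
  unfold tm
  have h1 := abs_min_sub_min_le_max (cl τ) (((k + 1 : ℕ) : ℝ) / N) (cl τ) ((k : ℝ) / N)
  refine h1.trans ?_
  rw [sub_self, abs_zero, ← sub_div]
  push_cast
  rw [add_sub_cancel_left, abs_of_pos (by positivity)]
  exact max_le (by positivity) le_rfl

theorem tm_zero (N : ℕ) (τ : ℝ) : tm N 0 τ = 0 := by
  unfold tm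
  rw [Nat.cast_zero, zero_div]
  exact min_eq_right (cl_mem τ).1

theorem tm_last {N : ℕ} (hN : 0 < N) (τ : ℝ) : tm N N τ = cl τ := by
  unfold tm
  rw [div_self (by positivity)]
  exact min_eq_left (cl_mem τ).2

theorem tm_le (N k : ℕ) (τ : ℝ) : tm N k τ ≤ cl τ := min_le_left _ _

end Push

open Push

/-- **Isotopy extension for configurations.** -/
theorem exists_push {V : Type*} [NormedAddCommGroup V] [NormedSpace ℝ V] [CompleteSpace V]
    {ι : Type*} [Fintype ι] {K : Type*} [TopologicalSpace K] [CompactSpace K] (h : K → ℝ → ι → V)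
    (hc : Continuous fun p : K × ℝ => h p.1 p.2)
    (hinj : ∀ b, ∀ τ ∈ Icc (0 : ℝ) 1, Function.Injective (h b τ)) :
    ∃ (Φ : K → ℝ → V ≃ₜ V) (R : ℝ),
      (Continuous fun p : K × ℝ × V => Φ p.1 p.2.1 p.2.2) ∧
      (Continuous fun p : K × ℝ × V => (Φ p.1 p.2.1).symm p.2.2) ∧
      (∀ b, Φ b 0 = Homeomorph.refl V) ∧
      (∀ b, ∀ τ ∈ Icc (0 : ℝ) 1, ∀ i, Φ b τ (h b 0 i) = h b τ i) ∧
      (∀ b τ x, R ≤ ‖x‖ → Φ b τ x = x) ∧
      (∀ b, ∀ τ ∈ Icc (0 : ℝ) 1, (∀ τ' ∈ Icc 0 τ, h b τ' = h b 0) →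
        Φ b τ = Homeomorph.refl V) := by
  obtain ⟨g, hg, hgap⟩ := exists_gap h hc hinj
  set η : ℝ := g / (8 * (Fintype.card ι + 1)) with hη
  have hη0 : 0 < η := by positivity
  obtain ⟨δ, hδ, hstep⟩ := exists_step h hc hη0
  obtain ⟨N, hN⟩ := exists_nat_gt (1 / δ)
  have hN0 : 0 < N := by
    have : (0 : ℝ) < N := lt_trans (by positivity) hN
    exact_mod_cast this
  have hNδ : 1 / (N : ℝ) < δ := by
    rw [div_lt_iff₀ (by positivity)] at hN ⊢
    linarith
  -- bound
  obtain ⟨M, hM⟩ : ∃ M : ℝ, ∀ b, ∀ τ ∈ Icc (0 : ℝ) 1, ∀ i, ‖h b τ i‖ ≤ M := by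
    have hs : IsCompact ((univ : Set K) ×ˢ Icc (0 : ℝ) 1) := isCompact_univ.prod isCompact_Icc
    obtain ⟨M, hM⟩ := hs.exists_bound_of_continuousOn hc.continuousOn
    exact ⟨M, fun b τ hτ i => (norm_le_pi_norm _ i).trans (hM (b, τ) ⟨mem_univ _, hτ⟩)⟩
  -- data of the steps
  set pt : ℕ → K × ℝ → ι → V := fun k q => h q.1 (tm N k q.2) with hpt
  set ds : ℕ → K × ℝ → ι → V := fun k q => pt (k + 1) q - pt k q with hds
  have hptc : ∀ k, Continuous (pt k) := fun k =>
    hc.comp (continuous_fst.prodMk ((continuous_tm N k).comp continuous_snd))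
  have hdsc : ∀ k, Continuous (ds k) := fun k => (hptc (k + 1)).sub (hptc k)
  have hdsn : ∀ k q i, ‖ds k q i‖ ≤ η := by
    intro k q i
    exact hstep q.1 _ (tm_mem N (k + 1) q.2) _ (tm_mem N k q.2)
      ((tm_step hN0 k q.2).trans_lt hNδ) i
  have hlip : ∀ k q x y, ‖fld g (pt k q) (ds k q) x - fld g (pt k q) (ds k q) y‖ ≤
      1 / 2 * ‖x - y‖ := fun k q => fld_lip hg _ _ (hdsn k q)
  have hfc : ∀ k, Continuous fun p : (K × ℝ) × V => fld g (pt k p.1) (ds k p.1) p.2 := by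
    intro k
    unfold fld
    refine continuous_finset_sum _ fun i _ => ?_
    have e1 : Continuous fun p : (K × ℝ) × V => pt k p.1 i :=
      (continuous_apply i).comp ((hptc k).comp continuous_fst)
    have e2 : Continuous fun p : (K × ℝ) × V => ds k p.1 i :=
      (continuous_apply i).comp ((hdsc k).comp continuous_fst)
    exact (continuous_psi.comp ((continuous_snd.sub e1).norm.div_const g)).smul e2
  have hex : ∀ k q, ∃ Φ : V ≃ₜ V, ∀ x, Φ x = x + fld g (pt k q) (ds k q) x :=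
    fun k q => exists_homeo _ (hlip k q)
  choose A hA using hex
  have hAc : ∀ k, Continuous fun p : (K × ℝ) × V => A k p.1 p.2 := by
    intro k
    have : (fun p : (K × ℝ) × V => A k p.1 p.2) =
        fun p : (K × ℝ) × V => p.2 + fld g (pt k p.1) (ds k p.1) p.2 := by
      ext p
      exact hA k p.1 p.2
    rw [this]
    exact continuous_snd.add (hfc k)
  have hAs : ∀ k, Continuous fun p : (K × ℝ) × V => (A k p.1).symm p.2 := fun k =>
    continuous_symm (fun q x => fld g (pt k q) (ds k q) x) (hfc k) (hlip k) (A k) (hA k)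
  have hAid : ∀ k q, ds k q = 0 → A k q = Homeomorph.refl V := by
    intro k q h0
    ext x
    rw [hA, h0, fld_zero, add_zero]
    rfl
  -- composition
  let F : ℕ → K × ℝ → V ≃ₜ V := fun k q => Nat.rec (Homeomorph.refl V) (fun j G => G.trans (A j q)) k
  have hF0 : ∀ q, F 0 q = Homeomorph.refl V := fun q => rfl
  have hFs : ∀ k q, F (k + 1) q = (F k q).trans (A k q) := fun k q => rfl
  have hFc : ∀ k, Continuous fun p : (K × ℝ) × V => F k p.1 p.2 := by
    intro k
    induction k with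
    | zero => exact continuous_snd
    | succ k ih =>
      have : (fun p : (K × ℝ) × V => F (k + 1) p.1 p.2) =
          fun p : (K × ℝ) × V => A k p.1 (F k p.1 p.2) := rfl
      rw [this]
      exact (hAc k).comp (continuous_fst.prodMk ih)
  have hFsy : ∀ k, Continuous fun p : (K × ℝ) × V => (F k p.1).symm p.2 := by
    intro k
    induction k with
    | zero => exact continuous_snd
    | succ k ih =>
      have : (fun p : (K × ℝ) × V => (F (k + 1) p.1).symm p.2) =
          fun p : (K × ℝ) × V => (F k p.1).symm ((A k p.1).symm p.2) := rfl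
      rw [this]
      exact ih.comp (continuous_fst.prodMk (hAs k))
  have hFp : ∀ k q i, F k q (h q.1 0 i) = pt k q i := by
    intro k
    induction k with
    | zero =>
      intro q i
      show h q.1 0 i = h q.1 (tm N 0 q.2) i
      rw [tm_zero]
    | succ k ih =>
      intro q i
      show A k q (F k q (h q.1 0 i)) = _
      rw [ih, hA, fld_pt hg _ _ (fun i j hij => hgap q.1 _ (tm_mem N k q.2) i j hij)]
      simp only [hds, Pi.sub_apply]
      abel
  have hFfar : ∀ k q x, M + g ≤ ‖x‖ → F k q x = x := by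
    intro k
    induction k with
    | zero => intro q x _; rfl
    | succ k ih =>
      intro q x hx
      show A k q (F k q x) = x
      rw [ih q x hx, hA, fld_far hg _ _ (fun i => hM q.1 _ (tm_mem N k q.2) i) hx, add_zero]
  have hFid : ∀ k q, (∀ j < k, ds j q = 0) → F k q = Homeomorph.refl V := by
    intro k
    induction k with
    | zero => intro q _; rfl
    | succ k ih =>
      intro q hq
      rw [hFs, ih q (fun j hj => hq j (by omega)), hAid k q (hq k (by omega))]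
      rfl
  refine ⟨fun b τ => F N (b, τ), M + g, ?_, ?_, ?_, ?_, fun b τ x hx => hFfar N _ x hx, ?_⟩
  · exact (hFc N).comp ((continuous_fst.prodMk (continuous_fst.comp continuous_snd)).prodMk
      (continuous_snd.comp continuous_snd))
  · exact (hFsy N).comp ((continuous_fst.prodMk (continuous_fst.comp continuous_snd)).prodMk
      (continuous_snd.comp continuous_snd))
  · intro b
    refine hFid N _ fun j _ => ?_
    simp only [hds, hpt]
    have h0 : ∀ k, tm N k 0 = 0 := by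
      intro k
      have h1 := (tm_mem N k 0).1
      have h2 := tm_le N k 0
      rw [cl_of ⟨le_rfl, zero_le_one⟩] at h2
      exact le_antisymm h2 h1
    rw [h0, h0, sub_self]
  · intro b τ hτ i
    rw [hFp]
    simp only [hpt]
    rw [tm_last hN0, cl_of hτ]
  · intro b τ hτ hconst
    refine hFid N _ fun j _ => ?_
    simp only [hds, hpt]
    have h0 : ∀ k, h b (tm N k τ) = h b 0 := fun k =>
      hconst _ ⟨(tm_mem N k τ).1, (tm_le N k τ).trans (cl_of hτ).le⟩
    rw [h0, h0, sub_self]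

end Vale.Agent.P268.T
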