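import Vale.Agent.P268.T.RS
import Vale.Agent.P268.T.H

/-!
# P268, topological half: suspension of families (the loop lemma)

For a family `F t : E → Z` of homogeneous functions and functions `G t u : E → Z`, indexed by the
unit vectors `u` of a second space `W` and asymptotic to `F t` at infinity, the function
`susp F G t (x, w) = ‖w‖ • G t (w / ‖w‖) (x / ‖w‖)`, extended by `F t x` at `w = 0`, is homogeneous
and continuous.  It is regular as soon as `F t` is regular and `(x, u) ↦ G t u x` is regular.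
Consequently every homotopy of loops `G` (indexed by the unit sphere of `W`) of regular functions
is a path of regular functions.
-/

set_option linter.unusedSectionVars false

namespace Vale.Agent.P268.T

open Set Filter Topology

variable {E : Type*} [NormedAddCommGroup E] [NormedSpace ℝ E]
  {W : Type*} [NormedAddCommGroup W] [NormedSpace ℝ W]
  {Z : Type*} [NormedAddCommGroup Z] [NormedSpace ℝ Z]
  {T : Type*} [TopologicalSpace T]

/-- Regularity is invariant under scaling for homogeneous families. -/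
theorem RegAt.smul {s : Set T} {F : T → E → Z} (hF : ∀ t ∈ s, Hom1 (F t)) {t₀ : T} {x₀ : E}
    {r : ℝ} (hr : 0 < r) (h : RegAt s F t₀ x₀) : RegAt s F t₀ (r • x₀) := by
  obtain ⟨k, hk0, hk1, A, U, hU, hev⟩ := h
  refine ⟨k, hk0, hk1, A, {y | r⁻¹ • y ∈ U}, ?_, ?_⟩
  · have h1 : Tendsto (fun y : E => r⁻¹ • y) (𝓝 (r • x₀)) (𝓝 (r⁻¹ • r • x₀)) :=
      (continuous_const_smul r⁻¹).tendsto _
    rw [smul_smul, inv_mul_cancel₀ hr.ne', one_smul] at h1
    exact h1 hU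
  · filter_upwards [hev, eventually_mem_nhdsWithin] with t ht hts y hy c hc
    have e1 : r⁻¹ • (y + A c) = r⁻¹ • y + A (r⁻¹ • c) := by
      rw [smul_add, map_smul]
    rw [mem_ofPred_eq, e1] at hc
    have h1 := ht _ hy _ hc
    have e2 : ∀ z : E, F t z = r • F t (r⁻¹ • z) := fun z => by
      rw [← hF t hts r hr.le, smul_smul, mul_inv_cancel₀ hr.ne', one_smul]
    rw [e2 (y + A c), e2 y, e1]
    have e3 : r • F t (r⁻¹ • y + A (r⁻¹ • c)) - r • F t (r⁻¹ • y) - c =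
        r • (F t (r⁻¹ • y + A (r⁻¹ • c)) - F t (r⁻¹ • y) - r⁻¹ • c) := by
      rw [smul_sub, smul_sub, smul_smul, mul_inv_cancel₀ hr.ne', one_smul]
    rw [e3, norm_smul, Real.norm_eq_abs, abs_of_pos hr]
    calc r * _ ≤ r * (k * ‖r⁻¹ • c‖) := mul_le_mul_of_nonneg_left h1 hr.le
      _ = k * ‖c‖ := by
          rw [norm_smul, norm_inv, Real.norm_eq_abs, abs_of_pos hr]
          field_simp

open Classical in
/-- The suspension of the loop `G` with asymptotics `F`. -/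
noncomputable def susp (F : T → E → Z) (G : T → W → E → Z) (t : T) (p : E × W) : Z :=
  if p.2 = 0 then F t p.1 else ‖p.2‖ • G t (dir p.2) (‖p.2‖⁻¹ • p.1)

theorem susp_at_zero (F : T → E → Z) (G : T → W → E → Z) (t : T) (x : E) :
    susp F G t (x, 0) = F t x := if_pos rfl

theorem susp_ne (F : T → E → Z) (G : T → W → E → Z) (t : T) (x : E) {w : W} (hw : w ≠ 0) :
    susp F G t (x, w) = ‖w‖ • G t (dir w) (‖w‖⁻¹ • x) := if_neg hw

theorem susp_at_unit (F : T → E → Z) (G : T → W → E → Z) (t : T) (x : E) {u : W} (hu : ‖u‖ = 1) :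
    susp F G t (x, u) = G t u x := by
  have h0 : u ≠ 0 := by
    rintro rfl
    rw [norm_zero] at hu
    exact zero_ne_one hu
  rw [susp_ne F G t x h0, dir, hu]
  simp

theorem dir_smul {r : ℝ} (hr : 0 < r) (w : W) : dir (r • w) = dir w := by
  rw [dir, dir, norm_smul, Real.norm_eq_abs, abs_of_pos hr, smul_smul]
  congr 1
  rw [mul_inv_rev, mul_assoc, inv_mul_cancel₀ hr.ne', mul_one]

theorem hom1_susp {F : T → E → Z} (G : T → W → E → Z) {t : T} (hF : Hom1 (F t)) :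
    Hom1 (susp F G t) := by
  rintro r hr ⟨x, w⟩
  rw [Prod.smul_mk]
  rcases hr.eq_or_lt with rfl | hr
  · rw [zero_smul, zero_smul, zero_smul, susp_at_zero, hF.zero]
  · rcases eq_or_ne w 0 with rfl | hw
    · rw [smul_zero, susp_at_zero, susp_at_zero, hF r hr.le]
    · rw [susp_ne F G t x hw, susp_ne F G t _ (smul_ne_zero hr.ne' hw), dir_smul hr, norm_smul,
        Real.norm_eq_abs, abs_of_pos hr, smul_smul, smul_smul]
      congr 2
      congr 1
      field_simp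

/-- The difference between the suspension and its asymptotic value. -/
theorem norm_susp_sub_le {F : T → E → Z} {G : T → W → E → Z} {t : T} (hF : Hom1 (F t)) {ε C : ℝ}
    (h : ∀ u : W, ‖u‖ = 1 → ∀ y, ‖G t u y - F t y‖ ≤ ε * ‖y‖ + C) (hε : 0 ≤ ε) (hC : 0 ≤ C)
    (p : E × W) : ‖susp F G t p - F t p.1‖ ≤ ε * ‖p.1‖ + C * ‖p.2‖ := by
  obtain ⟨x, w⟩ := p
  rcases eq_or_ne w 0 with rfl | hw
  · rw [susp_at_zero, sub_self, norm_zero]
    positivity
  · have hn : 0 < ‖w‖ := norm_pos_iff.mpr hw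
    have e1 : F t x = ‖w‖ • F t (‖w‖⁻¹ • x) := by
      rw [← hF _ hn.le, smul_smul, mul_inv_cancel₀ hn.ne', one_smul]
    rw [susp_ne F G t x hw, e1, ← smul_sub, norm_smul, norm_norm]
    calc ‖w‖ * _ ≤ ‖w‖ * (ε * ‖‖w‖⁻¹ • x‖ + C) :=
          mul_le_mul_of_nonneg_left (h _ (norm_dir hw) _) hn.le
      _ = ε * ‖x‖ + C * ‖w‖ := by
          rw [norm_smul, norm_inv, norm_norm]
          field_simp

/-- Sublinear asymptotics of the loop `G`. -/
def Asym0 (s : Set T) (F : T → E → Z) (G : T → W → E → Z) : Prop :=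
  ∀ t₀ ∈ s, ∀ ε > 0, ∃ C : ℝ, ∀ᶠ t in 𝓝[s] t₀, ∀ u : W, ‖u‖ = 1 → ∀ y,
    ‖G t u y - F t y‖ ≤ ε * ‖y‖ + C

/-- Small Lipschitz constant of `G - F` at infinity. -/
def Asym1 (s : Set T) (F : T → E → Z) (G : T → W → E → Z) : Prop :=
  ∀ t₀ ∈ s, ∀ ε > 0, ∃ R : ℝ, ∀ᶠ t in 𝓝[s] t₀, ∀ u : W, ‖u‖ = 1 → ∀ y y', R ≤ ‖y‖ → R ≤ ‖y'‖ →
    ‖(G t u y - F t y) - (G t u y' - F t y')‖ ≤ ε * ‖y - y'‖

theorem continuousAt_dir {w : W} (hw : w ≠ 0) : ContinuousAt dir w :=
  (continuousAt_id.norm.inv₀ (norm_ne_zero_iff.mpr hw)).smul continuousAt_id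

/-- Continuity of the suspension. -/
theorem continuousOn_susp {s : Set T} {F : T → E → Z} {G : T → W → E → Z}
    (hF : ContinuousOn (fun p : T × E => F p.1 p.2) (s ×ˢ univ)) (hom : ∀ t ∈ s, Hom1 (F t))
    (hG : ContinuousOn (fun q : T × W × E => G q.1 q.2.1 q.2.2)
      (s ×ˢ (Metric.sphere (0 : W) 1 ×ˢ univ))) (h0 : Asym0 s F G) :
    ContinuousOn (fun q : T × (E × W) => susp F G q.1 q.2) (s ×ˢ univ) := by
  rintro ⟨t₀, x₀, w₀⟩ ⟨ht₀, -⟩
  rcases eq_or_ne w₀ 0 with rfl | hw₀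
  · -- at `w = 0`
    rw [ContinuousWithinAt, nhdsWithin_prod_eq, nhdsWithin_univ]
    have e0 : susp F G t₀ (x₀, (0 : W)) = F t₀ x₀ := susp_at_zero F G t₀ x₀
    show Tendsto (fun q : T × (E × W) => susp F G q.1 q.2) _ (𝓝 (susp F G t₀ (x₀, 0)))
    rw [e0]
    have hF1 : Tendsto (fun q : T × (E × W) => F q.1 q.2.1) (𝓝[s] t₀ ×ˢ 𝓝 (x₀, (0 : W)))
        (𝓝 (F t₀ x₀)) := by
      have h1 := hF (t₀, x₀) ⟨ht₀, mem_univ _⟩
      rw [ContinuousWithinAt, nhdsWithin_prod_eq, nhdsWithin_univ] at h1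
      exact h1.comp (Tendsto.prodMap tendsto_id (continuous_fst.tendsto (x₀, (0 : W))))
    have hd : Tendsto (fun q : T × (E × W) => susp F G q.1 q.2 - F q.1 q.2.1)
        (𝓝[s] t₀ ×ˢ 𝓝 (x₀, (0 : W))) (𝓝 0) := by
      rw [Metric.tendsto_nhds]
      intro δ hδ
      set ε : ℝ := δ / (2 * (‖x₀‖ + 1)) with hε
      have hx1 : 0 < ‖x₀‖ + 1 := by positivity
      have hε0 : 0 < ε := by positivity
      obtain ⟨C, hC⟩ := h0 t₀ ht₀ ε hε0
      have hC' : ∀ᶠ t in 𝓝[s] t₀, t ∈ s ∧ ∀ u : W, ‖u‖ = 1 → ∀ y,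
          ‖G t u y - F t y‖ ≤ ε * ‖y‖ + |C| := by
        filter_upwards [hC, eventually_mem_nhdsWithin] with t ht hts
        exact ⟨hts, fun u hu y => (ht u hu y).trans (by linarith [le_abs_self C])⟩
      have hx2 : ∀ᶠ p : E × W in 𝓝 (x₀, (0 : W)), ‖p.1‖ < ‖x₀‖ + 1 ∧
          |C| * ‖p.2‖ < δ / 2 := by
        have c1 : Tendsto (fun p : E × W => ‖p.1‖) (𝓝 (x₀, (0 : W))) (𝓝 ‖x₀‖) :=
          (continuous_fst.norm).tendsto _
        have c2 : Tendsto (fun p : E × W => |C| * ‖p.2‖) (𝓝 (x₀, (0 : W)))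
            (𝓝 (|C| * ‖(0 : W)‖)) :=
          ((continuous_snd.norm).const_mul |C|).tendsto (x₀, (0 : W))
        rw [norm_zero, mul_zero] at c2
        exact (c1.eventually (gt_mem_nhds (by linarith))).and
          (c2.eventually (gt_mem_nhds (by positivity)))
      filter_upwards [prod_mem_prod hC' hx2] with q hq
      obtain ⟨⟨hts, h1⟩, h2, h3⟩ := hq
      rw [dist_zero_right]
      have h4 := norm_susp_sub_le (hom q.1 hts) h1 hε0.le (abs_nonneg C) q.2
      have h5 : ε * ‖q.2.1‖ ≤ δ / 2 := by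
        calc ε * ‖q.2.1‖ ≤ ε * (‖x₀‖ + 1) := mul_le_mul_of_nonneg_left h2.le hε0.le
          _ = δ / 2 := by rw [hε]; field_simp
      linarith
    have := hd.add hF1
    simpa using this
  · -- at `w ≠ 0`
    have hev : ∀ᶠ q in 𝓝[s ×ˢ univ] (t₀, x₀, w₀), susp F G q.1 q.2 =
        ‖q.2.2‖ • G q.1 (dir q.2.2) (‖q.2.2‖⁻¹ • q.2.1) := by
      have h1 : ∀ᶠ q : T × (E × W) in 𝓝 (t₀, x₀, w₀), q.2.2 ≠ 0 :=
        (continuous_snd.comp continuous_snd).continuousAt.eventually_ne hw₀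
      filter_upwards [nhdsWithin_le_nhds h1] with q hq using if_neg hq
    refine ContinuousWithinAt.congr_of_eventuallyEq ?_ hev
      (if_neg (show ((x₀, w₀) : E × W).2 ≠ 0 from hw₀))
    have hn : ‖w₀‖ ≠ 0 := norm_ne_zero_iff.mpr hw₀
    have c0 : ContinuousWithinAt (fun q : T × (E × W) => ‖q.2.2‖) (s ×ˢ univ) (t₀, x₀, w₀) :=
      (continuous_snd.comp continuous_snd).norm.continuousWithinAt
    refine c0.smul ?_
    have c1 : ContinuousWithinAt (fun q : T × (E × W) =>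
        (q.1, dir q.2.2, ‖q.2.2‖⁻¹ • q.2.1)) ((s ×ˢ univ) ∩ {q | q.2.2 ≠ 0})
        (t₀, x₀, w₀) := by
      refine ContinuousAt.continuousWithinAt ?_
      refine continuousAt_fst.prodMk ((ContinuousAt.comp (g := dir)
        (f := fun q : T × (E × W) => q.2.2) (continuousAt_dir hw₀)
        (continuous_snd.comp continuous_snd).continuousAt).prodMk ?_)
      exact ((continuous_snd.comp continuous_snd).norm.continuousAt.inv₀ hn).smul
        (continuous_fst.comp continuous_snd).continuousAt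
    have c2 : ContinuousWithinAt (fun q : T × (E × W) =>
        G q.1 (dir q.2.2) (‖q.2.2‖⁻¹ • q.2.1)) ((s ×ˢ univ) ∩ {q | q.2.2 ≠ 0})
        (t₀, x₀, w₀) := by
      have h2 := hG (t₀, dir w₀, ‖w₀‖⁻¹ • x₀)
        ⟨ht₀, by simpa using norm_dir hw₀, mem_univ _⟩
      exact ContinuousWithinAt.comp (f := fun q : T × (E × W) =>
        (q.1, dir q.2.2, ‖q.2.2‖⁻¹ • q.2.1)) (t := s ×ˢ (Metric.sphere (0 : W) 1 ×ˢ univ)) h2 c1
        (fun q hq => ⟨hq.1.1, by simpa using norm_dir hq.2, mem_univ _⟩)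
    refine c2.mono_of_mem_nhdsWithin ?_
    refine inter_mem self_mem_nhdsWithin ?_
    exact nhdsWithin_le_nhds ((continuous_snd.comp continuous_snd).continuousAt.eventually_ne hw₀)

/-- Regularity of the suspension at `w = 0`. -/
theorem RegAt.susp_zero {s : Set T} {F : T → E → Z} {G : T → W → E → Z}
    (hom : ∀ t ∈ s, Hom1 (F t)) (h1 : Asym1 s F G) {t₀ : T} (ht₀ : t₀ ∈ s) {x₀ : E}
    (hx₀ : x₀ ≠ 0) (h : RegAt s F t₀ x₀) : RegAt s (susp F G) t₀ (x₀, (0 : W)) := by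
  obtain ⟨k, hk0, hk1, A, U, hU, hev⟩ := h
  set ε : ℝ := (1 - k) / (2 * (‖A‖ + 1)) with hε
  have hε0 : 0 < ε := by
    have : 0 < 1 - k := by linarith
    positivity
  obtain ⟨R, hR⟩ := h1 t₀ ht₀ ε hε0
  have hx1 : 0 < ‖x₀‖ := norm_pos_iff.mpr hx₀
  set δ : ℝ := ‖x₀‖ / (2 * (|R| + 1)) with hδ
  have hR1 : 0 < |R| + 1 := by positivity
  have hδ0 : 0 < δ := by positivity
  refine ⟨(k + 1) / 2, by linarith, by linarith, (ContinuousLinearMap.inl ℝ E W).comp A,
    {p | p.1 ∈ U ∧ ‖x₀‖ / 2 < ‖p.1‖ ∧ ‖p.2‖ < δ}, ?_, ?_⟩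
  · have c1 : ∀ᶠ p : E × W in 𝓝 (x₀, (0 : W)), p.1 ∈ U :=
      (continuous_fst.tendsto (x₀, (0 : W))) hU
    have c2 : ∀ᶠ p : E × W in 𝓝 (x₀, (0 : W)), ‖x₀‖ / 2 < ‖p.1‖ :=
      (continuous_fst.norm.tendsto (x₀, (0 : W))).eventually (lt_mem_nhds (by
        show ‖x₀‖ / 2 < ‖x₀‖
        linarith))
    have c3 : ∀ᶠ p : E × W in 𝓝 (x₀, (0 : W)), ‖p.2‖ < δ :=
      (continuous_snd.norm.tendsto (x₀, (0 : W))).eventually (gt_mem_nhds (by
        show ‖(0 : W)‖ < δ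
        rw [norm_zero]; exact hδ0))
    filter_upwards [c1, c2, c3] with p e1 e2 e3 using ⟨e1, e2, e3⟩
  · filter_upwards [hev, hR, eventually_mem_nhdsWithin] with t ht hRt hts p hp c hc
    obtain ⟨x, w⟩ := p
    have e1 : ((x, w) : E × W) + ((ContinuousLinearMap.inl ℝ E W).comp A) c = (x + A c, w) := by
      simp
    rw [e1] at hc ⊢
    obtain ⟨hxU, hx2, hw⟩ := hp
    obtain ⟨hxU', hx2', -⟩ := hc
    have h2 := ht x hxU c hxU'
    have h3 : ‖(susp F G t (x + A c, w) - F t (x + A c)) - (susp F G t (x, w) - F t x)‖ ≤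
        ε * ‖A c‖ := by
      rcases eq_or_ne w 0 with rfl | hw0
      · rw [susp_at_zero, susp_at_zero]
        simp only [sub_self, norm_zero]
        positivity
      · have hn : 0 < ‖w‖ := norm_pos_iff.mpr hw0
        have e2 : ∀ y : E, susp F G t (y, w) - F t y =
            ‖w‖ • (G t (dir w) (‖w‖⁻¹ • y) - F t (‖w‖⁻¹ • y)) := by
          intro y
          rw [susp_ne F G t y hw0, smul_sub, ← hom t hts _ hn.le, smul_smul,
            mul_inv_cancel₀ hn.ne', one_smul]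
        have hbig : ∀ y : E, ‖x₀‖ / 2 < ‖y‖ → R ≤ ‖‖w‖⁻¹ • y‖ := by
          intro y hy
          rw [norm_smul, norm_inv, norm_norm, inv_mul_eq_div, le_div_iff₀ hn]
          have h4 : R * ‖w‖ ≤ (|R| + 1) * δ :=
            mul_le_mul (by linarith [le_abs_self R]) hw.le hn.le hR1.le
          have h5 : (|R| + 1) * δ = ‖x₀‖ / 2 := by rw [hδ]; field_simp
          linarith
        rw [e2, e2, ← smul_sub, norm_smul, norm_norm]
        calc ‖w‖ * _ ≤ ‖w‖ * (ε * ‖‖w‖⁻¹ • (x + A c) - ‖w‖⁻¹ • x‖) :=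
              mul_le_mul_of_nonneg_left (hRt _ (norm_dir hw0) _ _ (hbig _ hx2') (hbig _ hx2))
                hn.le
          _ = ε * ‖A c‖ := by
              rw [← smul_sub, add_sub_cancel_left, norm_smul, norm_inv, norm_norm]
              field_simp
    have h4 : ε * ‖A c‖ ≤ (1 - k) / 2 * ‖c‖ := by
      calc ε * ‖A c‖ ≤ ε * ((‖A‖ + 1) * ‖c‖) := by
            refine mul_le_mul_of_nonneg_left ((A.le_opNorm c).trans ?_) hε0.le
            exact mul_le_mul_of_nonneg_right (by linarith) (norm_nonneg _)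
        _ = (1 - k) / 2 * ‖c‖ := by
            rw [hε]
            have : ‖A‖ + 1 ≠ 0 := by positivity
            field_simp
    have e3 : susp F G t (x + A c, w) - susp F G t (x, w) - c =
        (F t (x + A c) - F t x - c) +
          ((susp F G t (x + A c, w) - F t (x + A c)) - (susp F G t (x, w) - F t x)) := by abel
    rw [e3]
    refine (norm_add_le _ _).trans ?_
    calc _ ≤ k * ‖c‖ + (1 - k) / 2 * ‖c‖ := add_le_add h2 (h3.trans h4)
      _ = (k + 1) / 2 * ‖c‖ := by ring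

/-- Regularity of the suspension at a unit vector `u`, from regularity in the direction of `E`. -/
theorem RegAt.susp_unit {s : Set T} (F : T → E → Z) {G : T → W → E → Z} {t₀ : T} {u : W}
    (hu : ‖u‖ = 1) {x₀ : E}
    (h : RegAt (s ×ˢ Metric.sphere (0 : W) 1) (fun (q : T × W) y => G q.1 q.2 y) (t₀, u) x₀) :
    RegAt s (susp F G) t₀ (x₀, u) := by
  have hu0 : u ≠ 0 := by
    rintro rfl
    rw [norm_zero] at hu
    exact zero_ne_one hu
  refine RegAt.fst ?_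
  obtain ⟨k, hk0, hk1, A, U, hU, hev⟩ := h
  -- a neighbourhood which is stable under scaling by factors near `1`
  have hscale : Tendsto (fun q : W × E => ‖q.1‖⁻¹ • q.2) (𝓝 u ×ˢ 𝓝 x₀) (𝓝 x₀) := by
    have c1 : ContinuousAt (fun q : W × E => ‖q.1‖⁻¹ • q.2) (u, x₀) :=
      (continuousAt_fst.norm.inv₀ (norm_ne_zero_iff.mpr hu0)).smul continuousAt_snd
    rw [ContinuousAt, nhds_prod_eq] at c1
    simpa [hu] using c1
  obtain ⟨pa, ha, pb, hb, hab⟩ := eventually_prod_iff.mp (hscale.eventually hU)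
  refine ⟨k, hk0, hk1, A, {y | pb y}, hb, ?_⟩
  have hmap : Tendsto (fun q : T × W => (q.1, dir q.2)) (𝓝[s ×ˢ (univ : Set W)] (t₀, u))
      (𝓝[s ×ˢ Metric.sphere (0 : W) 1] (t₀, u)) := by
    have hd : dir u = u := by rw [dir, hu, inv_one, one_smul]
    refine tendsto_nhdsWithin_iff.mpr ⟨?_, ?_⟩
    · have c1 : ContinuousAt (fun q : T × W => (q.1, dir q.2)) (t₀, u) :=
        continuousAt_fst.prodMk (ContinuousAt.comp (g := dir)
          (f := fun q : T × W => q.2) (continuousAt_dir hu0) continuousAt_snd)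
      have c2 := c1.tendsto
      simp only [hd] at c2
      exact c2.mono_left nhdsWithin_le_nhds
    · have c3 : ∀ᶠ q : T × W in 𝓝[s ×ˢ (univ : Set W)] (t₀, u), q.2 ≠ 0 :=
        nhdsWithin_le_nhds (continuousAt_snd.eventually_ne hu0)
      filter_upwards [c3, eventually_mem_nhdsWithin] with q e1 e2
      exact ⟨e2.1, by simpa using norm_dir e1⟩
  have hw : ∀ᶠ q : T × W in 𝓝[s ×ˢ (univ : Set W)] (t₀, u), q.2 ≠ 0 ∧ pa q.2 := by
    refine nhdsWithin_le_nhds ?_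
    exact (continuousAt_snd.eventually_ne hu0).and (continuousAt_snd.eventually ha)
  filter_upwards [hmap.eventually hev, hw] with q e1 e2 y hy c hc
  obtain ⟨t, w⟩ := q
  obtain ⟨hw0, hpa⟩ := e2
  have hn : 0 < ‖w‖ := norm_pos_iff.mpr hw0
  have e3 : ‖w‖⁻¹ • (y + A c) = ‖w‖⁻¹ • y + A (‖w‖⁻¹ • c) := by rw [smul_add, map_smul]
  have h1 : ‖w‖⁻¹ • y ∈ U := hab hpa hy
  have h2 : ‖w‖⁻¹ • (y + A c) ∈ U := hab hpa hc
  rw [e3] at h2
  have h3 := e1 _ h1 _ h2
  show ‖susp F G t (y + A c, w) - susp F G t (y, w) - c‖ ≤ k * ‖c‖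
  rw [susp_ne F G t _ hw0, susp_ne F G t _ hw0, e3]
  have e4 : ‖w‖ • G t (dir w) (‖w‖⁻¹ • y + A (‖w‖⁻¹ • c)) - ‖w‖ • G t (dir w) (‖w‖⁻¹ • y) - c =
      ‖w‖ • (G t (dir w) (‖w‖⁻¹ • y + A (‖w‖⁻¹ • c)) - G t (dir w) (‖w‖⁻¹ • y) -
        ‖w‖⁻¹ • c) := by
    rw [smul_sub, smul_sub, smul_smul, mul_inv_cancel₀ hn.ne', one_smul]
  rw [e4, norm_smul, norm_norm]
  calc ‖w‖ * _ ≤ ‖w‖ * (k * ‖‖w‖⁻¹ • c‖) := mul_le_mul_of_nonneg_left h3 hn.le
    _ = k * ‖c‖ := by
        rw [norm_smul, norm_inv, norm_norm]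
        field_simp

/-- **Loop lemma**, general form: regular values prescribed by a set `S` (stable under scaling). -/
theorem NFam.susp {S : Set Z} (hS : ∀ r : ℝ, 0 < r → ∀ z ∈ S, r • z ∈ S) {s : Set T}
    {F : T → E → Z} {G : T → W → E → Z} (hF : NFam S s F)
    (hG : ContinuousOn (fun q : T × W × E => G q.1 q.2.1 q.2.2)
      (s ×ˢ (Metric.sphere (0 : W) 1 ×ˢ univ)))
    (h0 : Asym0 s F G) (h1 : Asym1 s F G)
    (hreg : ∀ t ∈ s, ∀ u : W, ‖u‖ = 1 → ∀ x, G t u x ∉ S → RegAt s (susp F G) t (x, u)) :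
    NFam S s (susp F G) where
  cont := continuousOn_susp hF.cont hF.hom hG h0
  hom := fun t ht => hom1_susp G (hF.hom t ht)
  reg := by
    rintro t ht ⟨x, w⟩ hp hval
    rcases eq_or_ne w 0 with rfl | hw
    · have hx : x ≠ 0 := by rintro rfl; exact hp rfl
      rw [susp_at_zero] at hval
      exact RegAt.susp_zero hF.hom h1 ht hx (hF.reg t ht x hx hval)
    · have hn : 0 < ‖w‖ := norm_pos_iff.mpr hw
      rw [susp_ne F G t x hw] at hval
      have h2 : G t (dir w) (‖w‖⁻¹ • x) ∉ S := fun h => hval (hS _ hn _ h)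
      have h3 := (hreg t ht (dir w) (norm_dir hw) _ h2).smul (fun t ht => hom1_susp G (hF.hom t ht))
        hn
      rw [Prod.smul_mk, smul_smul, mul_inv_cancel₀ hn.ne', one_smul, norm_smul_dir] at h3
      exact h3

/-- **Loop lemma** for the class `R`. -/
theorem RFam.susp {s : Set T} {F : T → E → Z} {G : T → W → E → Z} (hF : RFam s F)
    (hG : ContinuousOn (fun q : T × W × E => G q.1 q.2.1 q.2.2)
      (s ×ˢ (Metric.sphere (0 : W) 1 ×ˢ univ)))
    (h0 : Asym0 s F G) (h1 : Asym1 s F G)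
    (hreg : ∀ t ∈ s, ∀ u : W, ‖u‖ = 1 → ∀ x, G t u x = 0 → RegAt s (susp F G) t (x, u)) :
    RFam s (susp F G) := by
  rw [← nfam_compl] at hF ⊢
  refine NFam.susp ?_ hF hG h0 h1
    (fun t ht u hu x hx => hreg t ht u hu x (by simpa using hx))
  intro r hr z hz h
  exact hz ((smul_eq_zero.mp h).resolve_left hr.ne')

/-- **Loop lemma** for the class `O`. -/
theorem OFam.susp {s : Set T} {F : T → E → Z} {G : T → W → E → Z} (hF : OFam s F)
    (hG : ContinuousOn (fun q : T × W × E => G q.1 q.2.1 q.2.2)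
      (s ×ˢ (Metric.sphere (0 : W) 1 ×ˢ univ)))
    (h0 : Asym0 s F G) (h1 : Asym1 s F G)
    (hreg : ∀ t ∈ s, ∀ u : W, ‖u‖ = 1 → ∀ x, RegAt s (susp F G) t (x, u)) :
    OFam s (susp F G) := by
  rw [← nfam_empty] at hF ⊢
  exact NFam.susp (fun r hr z hz => hz) hF hG h0 h1
    (fun t ht u hu x _ => hreg t ht u hu x)

theorem nfam_re {s : Set T} {F : T → E → ℂ} : NFam {z : ℂ | z.re < 0} s F ↔ HFam s F :=
  ⟨fun h => ⟨h.cont, h.hom, fun t ht x hx h0 => h.reg t ht x hx (by simpa using h0)⟩,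
    fun h => ⟨h.cont, h.hom, fun t ht x hx h0 => h.reg t ht x hx (by simpa using h0)⟩⟩

/-- **Loop lemma** for the class `H`. -/
theorem HFam.susp {s : Set T} {F : T → E → ℂ} {G : T → W → E → ℂ} (hF : HFam s F)
    (hG : ContinuousOn (fun q : T × W × E => G q.1 q.2.1 q.2.2)
      (s ×ˢ (Metric.sphere (0 : W) 1 ×ˢ univ)))
    (h0 : Asym0 s F G) (h1 : Asym1 s F G)
    (hreg : ∀ t ∈ s, ∀ u : W, ‖u‖ = 1 → ∀ x, 0 ≤ (G t u x).re → RegAt s (susp F G) t (x, u)) :
    HFam s (susp F G) := by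
  rw [← nfam_re] at hF ⊢
  refine NFam.susp ?_ hF hG h0 h1
    (fun t ht u hu x hx => hreg t ht u hu x (by simpa using hx))
  intro r hr z hz
  have hz : z.re < 0 := hz
  have h2 : (r • z).re = r * z.re := by simp
  show (r • z).re < 0
  rw [h2]
  exact mul_neg_of_pos_of_neg hr hz

end Vale.Agent.P268.T
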