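import Vale.Agent.P268.T.HEq
import Vale.Agent.P268.T.Loop
import Vale.Agent.P268.T.Mono

/-!
# P268, topological half: regularity of lattice expressions, and the radial direction

`Inc2 κ K h β A U`: along the plane direction `A`, the pair `(h, β)` is strongly monotone.
`RegAt.of_inc2`: if the real part of `F` has increments bounded by those of finitely many `h i`
(for instance `F.re` is a `max`/`min` expression in the `h i`) and `(h i, F.im)` is strongly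
monotone along one common direction `A`, then `F` is regular.
`inc2_radial`: for a homogeneous Lipschitz pair with `(h, β) (x₀) ≠ 0` it is enough to know one
direction `v` along which the argument turns.
-/

set_option linter.unusedSectionVars false

namespace Vale.Agent.P268.T

open Set Filter Topology

variable {E : Type*} [NormedAddCommGroup E] [NormedSpace ℝ E]
  {T : Type*} [TopologicalSpace T]

/-- From a joint neighbourhood to a product one. -/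
theorem ev_prod {s : Set T} {t₀ : T} {x₀ : E} {Q : T → E → Prop}
    (h : ∀ᶠ p in 𝓝[s ×ˢ univ] (t₀, x₀), Q p.1 p.2) :
    ∃ U ∈ 𝓝 x₀, ∀ᶠ t in 𝓝[s] t₀, ∀ x ∈ U, Q t x := by
  rw [nhdsWithin_prod_eq, nhdsWithin_univ, eventually_prod_iff] at h
  obtain ⟨pa, ha, pb, hb, hab⟩ := h
  exact ⟨{x | pb x}, hb, ha.mono fun t ht x hx => hab ht hx⟩

theorem ev_close {s : Set T} {t₀ : T} {x₀ : E} {h : T → E → ℝ}
    (ch : ContinuousWithinAt (fun p : T × E => h p.1 p.2) (s ×ˢ univ) (t₀, x₀)) {ε : ℝ}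
    (hε : 0 < ε) :
    ∃ U ∈ 𝓝 x₀, ∀ᶠ t in 𝓝[s] t₀, ∀ x ∈ U, |h t x - h t₀ x₀| ≤ ε := by
  refine ev_prod (Q := fun t x => |h t x - h t₀ x₀| ≤ ε) ?_
  have := ch.eventually (Metric.ball_mem_nhds _ hε)
  refine this.mono fun z hz => ?_
  have := Metric.mem_ball.mp hz
  rw [Real.dist_eq] at this
  exact this.le

/-- Strong monotonicity of a pair of real functions along a plane direction. -/
def Inc2 (κ K : ℝ) (h β : E → ℝ) (A : ℂ →L[ℝ] E) (U : Set E) : Prop :=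
  ∀ x ∈ U, ∀ c, x + A c ∈ U →
    κ * ‖c‖ ^ 2 ≤ (h (x + A c) - h x) * c.re + (β (x + A c) - β x) * c.im ∧
      |h (x + A c) - h x| ≤ K * ‖c‖ ∧ |β (x + A c) - β x| ≤ K * ‖c‖

theorem Inc2.mono {κ K : ℝ} {h β : E → ℝ} {A : ℂ →L[ℝ] E} {U V : Set E} (H : Inc2 κ K h β A U)
    (hV : V ⊆ U) : Inc2 κ K h β A V := fun x hx c hc => H x (hV hx) c (hV hc)

/-- Regularity from strong monotonicity of finitely many pairs, for a real part with increments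
bounded by those of the pairs. -/
theorem RegAt.of_inc2 {ι : Type*} {s : Set T} {F : T → E → ℂ} {t₀ : T} {x₀ : E} {κ K : ℝ}
    (hκ : 0 < κ) (A : ℂ →L[ℝ] E) (P : Finset ι) (h β : ι → T → E → ℝ)
    (hre : ∃ U ∈ 𝓝 x₀, ∀ᶠ t in 𝓝[s] t₀, ∀ x ∈ U, ∀ y ∈ U, ∃ i ∈ P,
      (F t y).re - (F t x).re ≤ h i t y - h i t x)
    (hinc : ∀ i ∈ P, ∃ U ∈ 𝓝 x₀, ∀ᶠ t in 𝓝[s] t₀,
      Inc2 κ K (h i t) (β i t) A U ∧ ∀ x ∈ U, (F t x).im = β i t x) : RegAt s F t₀ x₀ := by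
  have key : ∀ Q : Finset ι, (∀ i ∈ Q, i ∈ P) → ∃ U ∈ 𝓝 x₀, ∀ᶠ t in 𝓝[s] t₀, ∀ i ∈ Q,
      Inc2 κ K (h i t) (β i t) A U ∧ ∀ x ∈ U, (F t x).im = β i t x := by
    classical
    intro Q
    induction Q using Finset.induction_on with
    | empty => exact fun _ => ⟨univ, univ_mem, Eventually.of_forall fun t i hi => by simp at hi⟩
    | insert a Q ha IH =>
      intro hQ
      obtain ⟨U, hU, h1⟩ := IH fun i hi => hQ i (Finset.mem_insert_of_mem hi)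
      obtain ⟨V, hV, h2⟩ := hinc a (hQ a (Finset.mem_insert_self _ _))
      refine ⟨U ∩ V, inter_mem hU hV, ?_⟩
      filter_upwards [h1, h2] with t e1 e2 i hi
      rcases Finset.mem_insert.mp hi with rfl | hi
      · exact ⟨e2.1.mono inter_subset_right, fun x hx => e2.2 x hx.2⟩
      · exact ⟨(e1 i hi).1.mono inter_subset_left, fun x hx => (e1 i hi).2 x hx.1⟩
  obtain ⟨V, hV, hP⟩ := key P fun _ h => h
  obtain ⟨U, hU, hre⟩ := hre
  refine RegAt.of_monotone (κ := κ) (Λ := 2 * K) hκ A ⟨U ∩ V, inter_mem hU hV, ?_⟩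
  filter_upwards [hre, hP] with t hr hp x hx c hc
  obtain ⟨i, hi, h1⟩ := hr x hx.1 _ hc.1
  obtain ⟨j, hj, h2⟩ := hr _ hc.1 x hx.1
  obtain ⟨pi, qi⟩ := hp i hi
  obtain ⟨pj, qj⟩ := hp j hj
  obtain ⟨i1, i2, i3⟩ := pi x hx.2 c hc.2
  obtain ⟨j1, j2, j3⟩ := pj x hx.2 c hc.2
  rw [← qi _ hc.2, ← qi _ hx.2] at i1 i3
  rw [← qj _ hc.2, ← qj _ hx.2] at j1 j3
  set R := (F t (x + A c)).re - (F t x).re with hR
  set I := (F t (x + A c)).im - (F t x).im with hI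
  have hsr : (F t (x + A c) - F t x).re = R := by simp [hR]
  have hsi : (F t (x + A c) - F t x).im = I := by simp [hI]
  have hl : h j t (x + A c) - h j t x ≤ R := by rw [hR]; linarith
  constructor
  · rw [inner_complex, hsr, hsi]
    rcases le_total 0 c.re with h0 | h0
    · have := mul_le_mul_of_nonneg_right hl h0
      linarith
    · have := mul_le_mul_of_nonpos_right h1 h0
      linarith
  · refine (Complex.norm_le_abs_re_add_abs_im _).trans ?_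
    rw [hsr, hsi]
    have e1 : |R| ≤ K * ‖c‖ := by
      rw [abs_le] at i2 j2 ⊢
      exact ⟨j2.1.trans hl, h1.trans i2.2⟩
    linarith

/-- The plane direction spanned by `x₀` and `v`, adapted to the value `p + i q`. -/
noncomputable def radA (p q m : ℝ) (x₀ v : E) : ℂ →L[ℝ] E :=
  (m • (p • Complex.reCLM + q • Complex.imCLM)).smulRight x₀ +
    (p • Complex.imCLM - q • Complex.reCLM).smulRight v

theorem radA_apply (p q m : ℝ) (x₀ v : E) (c : ℂ) :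
    radA p q m x₀ v c = (m * (p * c.re + q * c.im)) • x₀ + (p * c.im - q * c.re) • v := by
  simp [radA, mul_add]

/-- Two independent vectors span a plane on which the norm controls the coefficients. -/
theorem exists_coeff_bound {x₀ v : E} (h : ∀ a b : ℝ, a • x₀ + b • v = 0 → a = 0 ∧ b = 0) :
    ∃ C : ℝ, 0 < C ∧ ∀ a b : ℝ, |a| + |b| ≤ C * ‖a • x₀ + b • v‖ := by
  let L : (ℝ × ℝ) →ₗ[ℝ] E :=
    (LinearMap.toSpanSingleton ℝ E x₀).coprod (LinearMap.toSpanSingleton ℝ E v)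
  have hL : ∀ a b, L (a, b) = a • x₀ + b • v := fun a b => by simp [L]
  have hker : LinearMap.ker L = ⊥ := by
    rw [LinearMap.ker_eq_bot']
    rintro ⟨a, b⟩ hab
    rw [hL] at hab
    obtain ⟨rfl, rfl⟩ := h a b hab
    rfl
  obtain ⟨K, hK, hKL⟩ := L.exists_antilipschitzWith hker
  have hK' : (0 : ℝ) < K := hK
  refine ⟨2 * K, by positivity, fun a b => ?_⟩
  have h1 := hKL.le_mul_dist (a, b) 0
  rw [dist_zero_right, map_zero, dist_zero_right, hL] at h1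
  have h2 : |a| ≤ ‖((a, b) : ℝ × ℝ)‖ := norm_fst_le ((a, b) : ℝ × ℝ)
  have h3 : |b| ≤ ‖((a, b) : ℝ × ℝ)‖ := norm_snd_le ((a, b) : ℝ × ℝ)
  have h4 : (2 : ℝ) * K * ‖a • x₀ + b • v‖ = K * ‖a • x₀ + b • v‖ + K * ‖a • x₀ + b • v‖ := by ring
  rw [h4]
  exact add_le_add (h2.trans h1) (h3.trans h1)

/-- Lipschitz near a point, uniformly in the parameter. -/
def LocLip {V : Type*} [NormedAddCommGroup V] (s : Set T) (f : T → E → V) (t₀ : T) (x₀ : E) :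
    Prop :=
  ∃ L : ℝ, ∃ U ∈ 𝓝 x₀, ∀ᶠ t in 𝓝[s] t₀, ∀ x ∈ U, ∀ y ∈ U, ‖f t x - f t y‖ ≤ L * ‖x - y‖

/-- The constants of `inc2_radial`. -/
noncomputable def radM (κ₀ K₀ : ℝ) : ℝ := 2 * K₀ ^ 2 / κ₀ + 1

noncomputable def radκ (p q κ₀ K₀ : ℝ) : ℝ := min ((p ^ 2 + q ^ 2) * radM κ₀ K₀ / 2) (κ₀ / 2) / 2

noncomputable def radK (p q κ₀ K₀ : ℝ) : ℝ :=
  radM κ₀ K₀ * (|p| + |q|) * (|p| + |q| + 1 + radκ p q κ₀ K₀) + K₀ * (|p| + |q|)

theorem radM_pos {κ₀ K₀ : ℝ} (h : 0 < κ₀) : 0 < radM κ₀ K₀ := by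
  unfold radM; positivity

theorem radκ_pos {p q κ₀ K₀ : ℝ} (h : 0 < κ₀) (hpq : 0 < p ^ 2 + q ^ 2) : 0 < radκ p q κ₀ K₀ := by
  have := radM_pos (K₀ := K₀) h
  unfold radκ
  have h1 : 0 < min ((p ^ 2 + q ^ 2) * radM κ₀ K₀ / 2) (κ₀ / 2) := lt_min (by positivity) (by positivity)
  linarith

theorem radial_err {p q κ m a b δ e : ℝ} (hm0 : 0 < m) (hδ0 : 0 ≤ δ)
    (heh : |e| ≤ |m * (p * a + q * b)| * δ) (hδ : m * (|p| + |q|) * δ ≤ κ / 2) :
    |e| ≤ κ / 2 * Real.sqrt (a ^ 2 + b ^ 2) := by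
  have hab : |a| ≤ Real.sqrt (a ^ 2 + b ^ 2) := Real.abs_le_sqrt (by nlinarith [sq_nonneg b])
  have hbb : |b| ≤ Real.sqrt (a ^ 2 + b ^ 2) := Real.abs_le_sqrt (by nlinarith [sq_nonneg a])
  set R := Real.sqrt (a ^ 2 + b ^ 2) with hR
  have hR0 : 0 ≤ R := Real.sqrt_nonneg _
  have hPs : |p * a + q * b| ≤ (|p| + |q|) * R := by
    calc |p * a + q * b| ≤ |p * a| + |q * b| := abs_add_le _ _
      _ = |p| * |a| + |q| * |b| := by rw [abs_mul, abs_mul]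
      _ ≤ |p| * R + |q| * R := by gcongr
      _ = _ := by ring
  calc |e| ≤ |m * (p * a + q * b)| * δ := heh
    _ = m * |p * a + q * b| * δ := by rw [abs_mul, abs_of_pos hm0]
    _ ≤ m * ((|p| + |q|) * R) * δ := by gcongr
    _ = m * (|p| + |q|) * δ * R := by ring
    _ ≤ _ := by gcongr

theorem radial_main {p q κ₀ K₀ m Dh Db a b : ℝ} (hm0 : 0 < m)
    (hmκ : 2 * K₀ ^ 2 ≤ m * κ₀) (hpq : 0 < p ^ 2 + q ^ 2)
    (hD : κ₀ * (p * b - q * a) ^ 2 ≤ (p * b - q * a) * (p * Db - q * Dh))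
    (hDh : |Dh| ≤ K₀ * |p * b - q * a|) (hDb : |Db| ≤ K₀ * |p * b - q * a|) :
    min ((p ^ 2 + q ^ 2) * m / 2) (κ₀ / 2) * (a ^ 2 + b ^ 2) ≤
      m * (p * a + q * b) ^ 2 + (Dh * a + Db * b) := by
  set N := p ^ 2 + q ^ 2 with hN
  set P := p * a + q * b with hP
  set Q := p * b - q * a with hQ
  have hPQ : P ^ 2 + Q ^ 2 = N * (a ^ 2 + b ^ 2) := by rw [hP, hQ, hN]; ring
  set s := |p| + |q| with hs
  have hs0 : 0 ≤ s := by positivity
  have hs2 : s ^ 2 ≤ 2 * N := by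
    rw [hs, hN, ← sq_abs p, ← sq_abs q]
    nlinarith [sq_nonneg (|p| - |q|)]
  have hid : N * (Dh * a + Db * b) = P * (p * Dh + q * Db) + Q * (p * Db - q * Dh) := by
    rw [hN, hP, hQ]; ring
  have h1 : |p * Dh + q * Db| ≤ s * (K₀ * |Q|) := by
    calc |p * Dh + q * Db| ≤ |p * Dh| + |q * Db| := abs_add_le _ _
      _ = |p| * |Dh| + |q| * |Db| := by rw [abs_mul, abs_mul]
      _ ≤ |p| * (K₀ * |Q|) + |q| * (K₀ * |Q|) := by gcongr
      _ = _ := by rw [hs]; ring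
  have h2 : -(|P| * (s * (K₀ * |Q|))) ≤ P * (p * Dh + q * Db) := by
    have : |P * (p * Dh + q * Db)| ≤ |P| * (s * (K₀ * |Q|)) := by
      rw [abs_mul]
      gcongr
    exact (abs_le.mp this).1
  clear_value N P Q s
  have h3 : |P| * (s * (K₀ * |Q|)) ≤ N * m * P ^ 2 / 2 + κ₀ * Q ^ 2 / 2 := by
    have e1 : (s * K₀) ^ 2 ≤ N * m * κ₀ := by
      calc (s * K₀) ^ 2 = s ^ 2 * K₀ ^ 2 := by ring
        _ ≤ (2 * N) * K₀ ^ 2 := by gcongr
        _ = N * (2 * K₀ ^ 2) := by ring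
        _ ≤ N * (m * κ₀) := by gcongr
        _ = _ := by ring
    have e2 : 0 ≤ (N * m * |P| - s * K₀ * |Q|) ^ 2 := sq_nonneg _
    have e3 : P ^ 2 = |P| ^ 2 := (sq_abs P).symm
    have e4 : Q ^ 2 = |Q| ^ 2 := (sq_abs Q).symm
    have hNm : 0 < N * m := by positivity
    have e5 : 0 ≤ N * m * (N * m * |P| ^ 2 + κ₀ * |Q| ^ 2 - 2 * (|P| * (s * (K₀ * |Q|)))) := by
      have : (s * K₀) ^ 2 * |Q| ^ 2 ≤ N * m * κ₀ * |Q| ^ 2 := by gcongr
      nlinarith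
    have e6 := nonneg_of_mul_nonneg_right e5 hNm
    rw [e3, e4]
    linarith
  have h4 : N * m * P ^ 2 / 2 + κ₀ * Q ^ 2 / 2 ≤ N * (m * P ^ 2 + (Dh * a + Db * b)) := by
    have : N * (m * P ^ 2 + (Dh * a + Db * b)) = N * m * P ^ 2 + N * (Dh * a + Db * b) := by ring
    rw [this, hid]
    linarith
  have h5 : min (N * m / 2) (κ₀ / 2) * (P ^ 2 + Q ^ 2) ≤ N * m * P ^ 2 / 2 + κ₀ * Q ^ 2 / 2 := by
    have e2 : min (N * m / 2) (κ₀ / 2) * P ^ 2 ≤ N * m / 2 * P ^ 2 := by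
      gcongr; exact min_le_left _ _
    have e3 : min (N * m / 2) (κ₀ / 2) * Q ^ 2 ≤ κ₀ / 2 * Q ^ 2 := by
      gcongr; exact min_le_right _ _
    linarith
  rw [hPQ] at h5
  have h6 : N * (min (N * m / 2) (κ₀ / 2) * (a ^ 2 + b ^ 2)) ≤
      N * (m * P ^ 2 + (Dh * a + Db * b)) := by
    linarith
  exact le_of_mul_le_mul_left h6 hpq

/-- The algebra behind `inc2_radial`. -/
theorem radial_alg {p q κ₀ K₀ Dh Db eh eb a b δ : ℝ} (hκ₀ : 0 < κ₀)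
    (hpq : 0 < p ^ 2 + q ^ 2)
    (hD : κ₀ * (p * b - q * a) ^ 2 ≤ (p * b - q * a) * (p * Db - q * Dh))
    (hDh : |Dh| ≤ K₀ * |p * b - q * a|) (hDb : |Db| ≤ K₀ * |p * b - q * a|)
    (heh : |eh| ≤ |radM κ₀ K₀ * (p * a + q * b)| * δ)
    (heb : |eb| ≤ |radM κ₀ K₀ * (p * a + q * b)| * δ) (hδ0 : 0 ≤ δ)
    (hδ : radM κ₀ K₀ * (|p| + |q|) * δ ≤ radκ p q κ₀ K₀ / 2) :
    radκ p q κ₀ K₀ * (a ^ 2 + b ^ 2) ≤
      (radM κ₀ K₀ * (p * a + q * b) * p + eh + Dh) * a +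
        (radM κ₀ K₀ * (p * a + q * b) * q + eb + Db) * b := by
  have hm0 : 0 < radM κ₀ K₀ := radM_pos hκ₀
  have hκ : 0 < radκ p q κ₀ K₀ := radκ_pos hκ₀ hpq
  have hmκ : 2 * K₀ ^ 2 ≤ radM κ₀ K₀ * κ₀ := by
    rw [radM]
    have : (2 * K₀ ^ 2 / κ₀ + 1) * κ₀ = 2 * K₀ ^ 2 + κ₀ := by field_simp
    rw [this]; linarith
  have h1 := radial_err hm0 hδ0 heh hδ
  have h2 := radial_err hm0 hδ0 heb hδ
  have h3 := radial_main hm0 hmκ hpq hD hDh hDb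
  have e1 : min ((p ^ 2 + q ^ 2) * radM κ₀ K₀ / 2) (κ₀ / 2) = 2 * radκ p q κ₀ K₀ := by
    rw [radκ]; ring
  rw [e1] at h3
  set m := radM κ₀ K₀
  set κ := radκ p q κ₀ K₀
  clear_value m κ
  have hab : |a| ≤ Real.sqrt (a ^ 2 + b ^ 2) := Real.abs_le_sqrt (by nlinarith [sq_nonneg b])
  have hbb : |b| ≤ Real.sqrt (a ^ 2 + b ^ 2) := Real.abs_le_sqrt (by nlinarith [sq_nonneg a])
  have hR2 : Real.sqrt (a ^ 2 + b ^ 2) ^ 2 = a ^ 2 + b ^ 2 := Real.sq_sqrt (by positivity)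
  set R := Real.sqrt (a ^ 2 + b ^ 2)
  have h4 : |eh * a| ≤ κ / 2 * R * R := by
    rw [abs_mul]
    exact mul_le_mul h1 hab (abs_nonneg _) ((abs_nonneg _).trans h1)
  have h5 : |eb * b| ≤ κ / 2 * R * R := by
    rw [abs_mul]
    exact mul_le_mul h2 hbb (abs_nonneg _) ((abs_nonneg _).trans h2)
  have h6 := (abs_le.mp h4).1
  have h7 := (abs_le.mp h5).1
  have h8 : κ / 2 * R * R = κ * (a ^ 2 + b ^ 2) / 2 := by rw [← hR2]; ring
  rw [h8] at h6 h7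
  have hfin : (m * (p * a + q * b) * p + eh + Dh) * a + (m * (p * a + q * b) * q + eb + Db) * b =
      m * (p * a + q * b) ^ 2 + (Dh * a + Db * b) + (eh * a + eb * b) := by ring
  rw [hfin]
  linarith

theorem radial_last {p q κ₀ K₀ δ g0 Δ e D : ℝ} {c : ℂ} (hκ₀ : 0 < κ₀) (hK₀ : 0 ≤ K₀)
    (hpq : 0 < p ^ 2 + q ^ 2) (hδ2 : δ ≤ radκ p q κ₀ K₀) (e1 : |g0| ≤ |p| + |q|)
    (e2 : Δ = radM κ₀ K₀ * (p * c.re + q * c.im) * g0 + e + D)
    (e3 : |e| ≤ |radM κ₀ K₀ * (p * c.re + q * c.im)| * δ)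
    (e4 : |D| ≤ K₀ * |p * c.im - q * c.re|) : |Δ| ≤ radK p q κ₀ K₀ * ‖c‖ := by
  have hm0 : 0 < radM κ₀ K₀ := radM_pos hκ₀
  have hκ : 0 < radκ p q κ₀ K₀ := radκ_pos hκ₀ hpq
  have hcr : |c.re| ≤ ‖c‖ := Complex.abs_re_le_norm c
  have hci : |c.im| ≤ ‖c‖ := Complex.abs_im_le_norm c
  have hPc : |p * c.re + q * c.im| ≤ (|p| + |q|) * ‖c‖ := by
    calc |p * c.re + q * c.im| ≤ |p * c.re| + |q * c.im| := abs_add_le _ _
      _ = |p| * |c.re| + |q| * |c.im| := by rw [abs_mul, abs_mul]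
      _ ≤ |p| * ‖c‖ + |q| * ‖c‖ := by gcongr
      _ = _ := by ring
  have hQc : |p * c.im - q * c.re| ≤ (|p| + |q|) * ‖c‖ := by
    calc |p * c.im - q * c.re| ≤ |p * c.im| + |q * c.re| := abs_sub _ _
      _ = |p| * |c.im| + |q| * |c.re| := by rw [abs_mul, abs_mul]
      _ ≤ |p| * ‖c‖ + |q| * ‖c‖ := by gcongr
      _ = _ := by ring
  have hαc : |radM κ₀ K₀ * (p * c.re + q * c.im)| ≤ radM κ₀ K₀ * (|p| + |q|) * ‖c‖ := by
    rw [abs_mul, abs_of_pos hm0, mul_assoc]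
    gcongr
  rw [radK, e2]
  set m := radM κ₀ K₀
  set κ := radκ p q κ₀ K₀
  set α := m * (p * c.re + q * c.im)
  set γ := p * c.im - q * c.re
  set S := |p| + |q| with hS
  have hs0 : 0 ≤ S := by positivity
  clear_value m κ α γ S
  have e5 : |α * g0 + e + D| ≤ |α| * |g0| + |α| * δ + K₀ * |γ| := by
    calc |α * g0 + e + D| ≤ |α * g0| + |e| + |D| := abs_add_three _ _ _
      _ ≤ _ := by rw [abs_mul]; gcongr
  refine e5.trans ?_
  have hα0 := abs_nonneg α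
  have hc0 := norm_nonneg c
  calc |α| * |g0| + |α| * δ + K₀ * |γ|
      ≤ |α| * S + |α| * κ + K₀ * (S * ‖c‖) := by gcongr
    _ ≤ |α| * (S + 1 + κ) + K₀ * (S * ‖c‖) := by nlinarith
    _ ≤ (m * S * ‖c‖) * (S + 1 + κ) + K₀ * (S * ‖c‖) := by
        gcongr
    _ = _ := by ring

theorem radial_indep {s : Set T} {h β : T → E → ℝ} {t₀ : T} (ht₀ : t₀ ∈ s) {x₀ v : E}
    (hx₀ : x₀ ≠ 0) (hh : ∀ t ∈ s, ∀ r : ℝ, 0 ≤ r → ∀ x, h t (r • x) = r * h t x)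
    (hβ : ∀ t ∈ s, ∀ r : ℝ, 0 ≤ r → ∀ x, β t (r • x) = r * β t x)
    {p q κ₀ : ℝ} (hp : h t₀ x₀ = p) (hq : β t₀ x₀ = q) (hκ₀ : 0 < κ₀)
    (hv : ∃ U ∈ 𝓝 x₀, ∀ᶠ t in 𝓝[s] t₀, ∀ x ∈ U, ∀ γ : ℝ, x + γ • v ∈ U →
      κ₀ * γ ^ 2 ≤ γ * (p * (β t (x + γ • v) - β t x) - q * (h t (x + γ • v) - h t x)))
    (a b : ℝ) (hab : a • x₀ + b • v = 0) : a = 0 ∧ b = 0 := by
  by_cases hb : b = 0
  · subst hb
    rw [zero_smul, add_zero, smul_eq_zero] at hab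
    exact ⟨hab.resolve_right hx₀, rfl⟩
  · exfalso
    have hv' : v = (-(a / b)) • x₀ := by
      have h1 : b • v = -(a • x₀) := by
        rw [eq_neg_iff_add_eq_zero, add_comm]; exact hab
      have h2 : v = b⁻¹ • (b • v) := by rw [smul_smul, inv_mul_cancel₀ hb, one_smul]
      rw [h2, h1, smul_neg, smul_smul, neg_smul, div_eq_inv_mul]
    obtain ⟨U, hU, hev⟩ := hv
    have h0 := hev.self_of_nhdsWithin ht₀
    have h1 : Tendsto (fun γ : ℝ => x₀ + γ • v) (𝓝[>] 0) (𝓝 x₀) := by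
      have : Tendsto (fun γ : ℝ => x₀ + γ • v) (𝓝 0) (𝓝 (x₀ + (0 : ℝ) • v)) := by
        exact (continuous_const.add (continuous_id.smul continuous_const)).tendsto _
      rw [zero_smul, add_zero] at this
      exact this.mono_left nhdsWithin_le_nhds
    have h2 : Tendsto (fun γ : ℝ => 1 + γ * (-(a / b))) (𝓝[>] 0) (𝓝 1) := by
      have : Tendsto (fun γ : ℝ => 1 + γ * (-(a / b))) (𝓝 0) (𝓝 (1 + 0 * (-(a / b)))) :=
        (continuous_const.add (continuous_id.mul continuous_const)).tendsto _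
      rw [zero_mul, add_zero] at this
      exact this.mono_left nhdsWithin_le_nhds
    obtain ⟨γ, hγU, hγ1, hγ0⟩ := ((h1.eventually hU).and
      ((h2.eventually (lt_mem_nhds (by norm_num : (0 : ℝ) < 1))).and self_mem_nhdsWithin)).exists
    have hγ0 : 0 < γ := hγ0
    have h3 := h0 x₀ (mem_of_mem_nhds hU) γ hγU
    have h4 : x₀ + γ • v = (1 + γ * (-(a / b))) • x₀ := by
      rw [add_smul, one_smul, ← smul_smul, ← hv']
    rw [h4, hh t₀ ht₀ _ hγ1.le, hβ t₀ ht₀ _ hγ1.le, hp, hq] at h3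
    have h5 : 0 < κ₀ * γ ^ 2 := by positivity
    have h6 : γ * (p * ((1 + γ * (-(a / b))) * q - q) - q * ((1 + γ * (-(a / b))) * p - p)) = 0 := by
      ring
    linarith

/-- **Radial lemma**: a homogeneous Lipschitz pair `(h, β)` which does not vanish at `x₀` is
strongly monotone along the plane spanned by `x₀` and `v`, as soon as its argument turns along
`v`. -/
theorem inc2_radial {s : Set T} {h β : T → E → ℝ} {t₀ : T} (ht₀ : t₀ ∈ s) {x₀ v : E}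
    (hx₀ : x₀ ≠ 0) (hh : ∀ t ∈ s, ∀ r : ℝ, 0 ≤ r → ∀ x, h t (r • x) = r * h t x)
    (hβ : ∀ t ∈ s, ∀ r : ℝ, 0 ≤ r → ∀ x, β t (r • x) = r * β t x)
    (ch : ContinuousWithinAt (fun p : T × E => h p.1 p.2) (s ×ˢ univ) (t₀, x₀))
    (cβ : ContinuousWithinAt (fun p : T × E => β p.1 p.2) (s ×ˢ univ) (t₀, x₀))
    (Lh : LocLip s h t₀ x₀) (Lβ : LocLip s β t₀ x₀)
    {p q κ₀ K₀ : ℝ} (hp : h t₀ x₀ = p) (hq : β t₀ x₀ = q) (hκ₀ : 0 < κ₀) (hK₀ : 0 ≤ K₀)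
    (hpq : 0 < p ^ 2 + q ^ 2)
    (hv : ∃ U ∈ 𝓝 x₀, ∀ᶠ t in 𝓝[s] t₀, ∀ x ∈ U, ∀ γ : ℝ, x + γ • v ∈ U →
      κ₀ * γ ^ 2 ≤ γ * (p * (β t (x + γ • v) - β t x) - q * (h t (x + γ • v) - h t x)) ∧
      |h t (x + γ • v) - h t x| ≤ K₀ * |γ| ∧ |β t (x + γ • v) - β t x| ≤ K₀ * |γ|) :
    ∃ U ∈ 𝓝 x₀, ∀ᶠ t in 𝓝[s] t₀, Inc2 (radκ p q κ₀ K₀) (radK p q κ₀ K₀) (h t) (β t)
      (radA p q (radM κ₀ K₀) x₀ v) U := by
  have hind := radial_indep ht₀ hx₀ hh hβ hp hq hκ₀ (v := v) (by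
    obtain ⟨U, hU, hev⟩ := hv
    exact ⟨U, hU, hev.mono fun t ht x hx γ hγ => (ht x hx γ hγ).1⟩)
  obtain ⟨C, hC, hCb⟩ := exists_coeff_bound hind
  have hm0 : 0 < radM κ₀ K₀ := radM_pos hκ₀
  have hκ : 0 < radκ p q κ₀ K₀ := radκ_pos hκ₀ hpq
  obtain ⟨δ, hδ0, hδ1, hδ2⟩ : ∃ δ : ℝ, 0 < δ ∧
      radM κ₀ K₀ * (|p| + |q|) * δ ≤ radκ p q κ₀ K₀ / 2 ∧ δ ≤ radκ p q κ₀ K₀ := by
    have hs : 0 ≤ radM κ₀ K₀ * (|p| + |q|) := by positivity
    refine ⟨radκ p q κ₀ K₀ / 2 / (radM κ₀ K₀ * (|p| + |q|) + 1), by positivity, ?_, ?_⟩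
    · rw [mul_div_assoc', div_le_iff₀ (by linarith)]
      nlinarith
    · rw [div_le_iff₀ (by linarith)]
      nlinarith
  obtain ⟨U0, hU0, hv⟩ := hv
  obtain ⟨L1, U1, hU1, h1⟩ := Lh
  obtain ⟨L2, U2, hU2, h2⟩ := Lβ
  obtain ⟨U3, hU3, h3⟩ := ev_close ch (half_pos hδ0)
  obtain ⟨U4, hU4, h4⟩ := ev_close cβ (half_pos hδ0)
  rw [hp] at h3
  rw [hq] at h4
  obtain ⟨R0, hR0, hball⟩ := Metric.mem_nhds_iff.mp
    (inter_mem hU0 (inter_mem (inter_mem hU1 hU2) (inter_mem hU3 hU4)))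
  set L : ℝ := |L1| + |L2| with hL
  have hL0 : 0 ≤ L := by positivity
  set B : ℝ := 1 + 2 * C * ‖v‖ + 2 * C * (‖x₀‖ + 1) with hB
  have hB1 : 1 + 2 * C * ‖v‖ ≤ B := by
    have : 0 ≤ 2 * C * (‖x₀‖ + 1) := by positivity
    linarith
  have hB0 : 1 ≤ B := by
    have : 0 ≤ 2 * C * ‖v‖ := by positivity
    linarith
  have hB2 : 2 * C ≤ B := by
    have e1 : 0 ≤ 2 * C * ‖v‖ := by positivity
    have e2 : 0 ≤ 2 * C * ‖x₀‖ := by positivity
    rw [hB]; linarith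
  obtain ⟨ρ, hρ0, hρ1, hρ2, hρ3⟩ : ∃ ρ : ℝ, 0 < ρ ∧ ρ * B < R0 ∧ ρ * B ≤ 1 ∧
      ρ * B * L ≤ δ / 2 := by
    refine ⟨min (R0 / (2 * B)) (min (1 / B) (δ / (2 * (B * (L + 1))))), ?_, ?_, ?_, ?_⟩
    · exact lt_min (by positivity) (lt_min (by positivity) (by positivity))
    · have : min (R0 / (2 * B)) (min (1 / B) (δ / (2 * (B * (L + 1))))) * B ≤ R0 / (2 * B) * B :=
        mul_le_mul_of_nonneg_right (min_le_left _ _) (by linarith)
      have e : R0 / (2 * B) * B = R0 / 2 := by field_simp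
      rw [e] at this
      linarith
    · have : min (R0 / (2 * B)) (min (1 / B) (δ / (2 * (B * (L + 1))))) * B ≤ 1 / B * B :=
        mul_le_mul_of_nonneg_right ((min_le_right _ _).trans (min_le_left _ _)) (by linarith)
      have e : 1 / B * B = 1 := by field_simp
      linarith
    · have e0 : min (R0 / (2 * B)) (min (1 / B) (δ / (2 * (B * (L + 1))))) ≤
        δ / (2 * (B * (L + 1))) := (min_le_right _ _).trans (min_le_right _ _)
      have e1 : min (R0 / (2 * B)) (min (1 / B) (δ / (2 * (B * (L + 1))))) * B * L ≤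
          δ / (2 * (B * (L + 1))) * B * (L + 1) := by
        have hpos : 0 ≤ δ / (2 * (B * (L + 1))) := by positivity
        have hBp : 0 ≤ B := by linarith
        calc min (R0 / (2 * B)) (min (1 / B) (δ / (2 * (B * (L + 1))))) * B * L
            ≤ δ / (2 * (B * (L + 1))) * B * L := by gcongr
          _ ≤ δ / (2 * (B * (L + 1))) * B * (L + 1) := by
              gcongr; linarith
      have e2 : δ / (2 * (B * (L + 1))) * B * (L + 1) = δ / 2 := by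
        have : L + 1 ≠ 0 := by positivity
        have : B ≠ 0 := by positivity
        field_simp
      linarith
  refine ⟨Metric.ball x₀ ρ, Metric.ball_mem_nhds _ hρ0, ?_⟩
  filter_upwards [hv, h1, h2, h3, h4, eventually_mem_nhdsWithin] with t hvt h1t h2t h3t h4t hts
  intro x hx c hc
  rw [radA_apply] at hc ⊢
  set α : ℝ := radM κ₀ K₀ * (p * c.re + q * c.im) with hα
  set γ : ℝ := p * c.im - q * c.re with hγ
  rw [Metric.mem_ball, dist_eq_norm] at hx hc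
  -- the point `y = x + γ v`
  have hAc : ‖α • x₀ + γ • v‖ ≤ 2 * ρ := by
    have e : α • x₀ + γ • v = (x + (α • x₀ + γ • v) - x₀) - (x - x₀) := by abel
    rw [e]
    exact (norm_sub_le _ _).trans (by linarith)
  have hco : |α| + |γ| ≤ C * (2 * ρ) := (hCb α γ).trans (mul_le_mul_of_nonneg_left hAc hC.le)
  have hαρ : |α| ≤ 2 * C * ρ := by linarith [abs_nonneg γ]
  have hγρ : |γ| ≤ 2 * C * ρ := by linarith [abs_nonneg α]
  set y := x + γ • v with hy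
  have hyx : ‖y - x₀‖ ≤ ρ * (1 + 2 * C * ‖v‖) := by
    have e : y - x₀ = (x - x₀) + γ • v := by rw [hy]; abel
    rw [e]
    refine (norm_add_le _ _).trans ?_
    rw [norm_smul, Real.norm_eq_abs]
    have : |γ| * ‖v‖ ≤ 2 * C * ρ * ‖v‖ := mul_le_mul_of_nonneg_right hγρ (norm_nonneg _)
    calc ‖x - x₀‖ + |γ| * ‖v‖ ≤ ρ + 2 * C * ρ * ‖v‖ := add_le_add hx.le this
      _ = _ := by ring
  have hyB : ‖y - x₀‖ ≤ ρ * B := hyx.trans (mul_le_mul_of_nonneg_left hB1 hρ0.le)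
  have hyn : ‖y‖ ≤ ‖x₀‖ + 1 := by
    have e : y = x₀ + (y - x₀) := by abel
    calc ‖y‖ = ‖x₀ + (y - x₀)‖ := by rw [← e]
      _ ≤ ‖x₀‖ + ‖y - x₀‖ := norm_add_le _ _
      _ ≤ _ := by linarith
  have hα1 : 0 ≤ 1 + α := by
    have : 2 * C * ρ ≤ 1 := by
      calc 2 * C * ρ = ρ * (2 * C) := by ring
        _ ≤ ρ * B := mul_le_mul_of_nonneg_left hB2 hρ0.le
        _ ≤ 1 := hρ2
    have := (abs_le.mp (hαρ.trans this)).1
    linarith
  have hy1 : ‖(1 + α) • y - x₀‖ ≤ ρ * B := by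
    have e : (1 + α) • y - x₀ = (y - x₀) + α • y := by rw [add_smul, one_smul]; abel
    rw [e]
    refine (norm_add_le _ _).trans ?_
    rw [norm_smul, Real.norm_eq_abs]
    have : |α| * ‖y‖ ≤ 2 * C * ρ * (‖x₀‖ + 1) :=
      mul_le_mul hαρ hyn (norm_nonneg _) (by positivity)
    calc ‖y - x₀‖ + |α| * ‖y‖ ≤ ρ * (1 + 2 * C * ‖v‖) + 2 * C * ρ * (‖x₀‖ + 1) :=
          add_le_add hyx this
      _ = ρ * B := by rw [hB]; ring
  have hxU := hball (by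
    rw [Metric.mem_ball, dist_eq_norm]
    calc ‖x - x₀‖ < ρ := hx
      _ ≤ ρ * B := by nlinarith
      _ < R0 := hρ1 : x ∈ Metric.ball x₀ R0)
  have hyU := hball (by
    rw [Metric.mem_ball, dist_eq_norm]; exact hyB.trans_lt hρ1 : y ∈ Metric.ball x₀ R0)
  have hy1U := hball (by
    rw [Metric.mem_ball, dist_eq_norm]; exact hy1.trans_lt hρ1 : (1 + α) • y ∈ Metric.ball x₀ R0)
  have hzU := hball (by
    rw [Metric.mem_ball, dist_eq_norm]
    calc ‖x + (α • x₀ + γ • v) - x₀‖ < ρ := hc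
      _ ≤ ρ * B := by nlinarith
      _ < R0 := hρ1 : x + (α • x₀ + γ • v) ∈ Metric.ball x₀ R0)
  obtain ⟨hd1, hd2, hd3⟩ := hvt x hxU.1 γ hyU.1
  have hzy : x + (α • x₀ + γ • v) - (1 + α) • y = α • (x₀ - y) := by
    rw [hy]
    simp only [add_smul, one_smul, smul_add, smul_sub]
    abel
  have herr : ∀ (g : T → E → ℝ) (g0 Lg : ℝ), (∀ r : ℝ, 0 ≤ r → ∀ x, g t (r • x) = r * g t x) →
      ‖g t (x + (α • x₀ + γ • v)) - g t ((1 + α) • y)‖ ≤
        Lg * ‖x + (α • x₀ + γ • v) - (1 + α) • y‖ → |Lg| ≤ L → |g t y - g0| ≤ δ / 2 →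
      |g t (x + (α • x₀ + γ • v)) - g t y - α * g0| ≤ |α| * δ := by
    intro g g0 Lg hg e1 e2 e3
    rw [hzy, norm_smul, Real.norm_eq_abs, Real.norm_eq_abs] at e1
    have e4 : g t (x + (α • x₀ + γ • v)) - g t y - α * g0 =
        (g t (x + (α • x₀ + γ • v)) - g t ((1 + α) • y)) + α * (g t y - g0) := by
      rw [hg _ hα1]; ring
    rw [e4]
    refine (abs_add_le _ _).trans ?_
    have e5 : Lg * (|α| * ‖x₀ - y‖) ≤ |α| * (δ / 2) := by
      have e6 : ‖x₀ - y‖ ≤ ρ * B := by rw [norm_sub_rev]; exact hyB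
      calc Lg * (|α| * ‖x₀ - y‖) ≤ L * (|α| * (ρ * B)) := by
            have : Lg ≤ L := (le_abs_self _).trans e2
            gcongr
        _ = |α| * (ρ * B * L) := by ring
        _ ≤ |α| * (δ / 2) := by gcongr
    have e7 : |α * (g t y - g0)| ≤ |α| * (δ / 2) := by
      rw [abs_mul]; gcongr
    linarith
  have heh := herr h p L1 (fun r hr x => hh t hts r hr x) (h1t _ hzU.2.1.1 _ hy1U.2.1.1)
    (by rw [hL]; linarith [abs_nonneg L2]) (h3t y hyU.2.2.1)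
  have heb := herr β q L2 (fun r hr x => hβ t hts r hr x) (h2t _ hzU.2.1.2 _ hy1U.2.1.2)
    (by rw [hL]; linarith [abs_nonneg L1]) (h4t y hyU.2.2.2)
  have hfin := radial_alg (p := p) (q := q) (a := c.re) (b := c.im) (δ := δ)
    (Dh := h t y - h t x) (Db := β t y - β t x)
    (eh := h t (x + (α • x₀ + γ • v)) - h t y - α * p)
    (eb := β t (x + (α • x₀ + γ • v)) - β t y - α * q) hκ₀ hpq hd1 hd2 hd3 heh heb hδ0.le hδ1
  have hn : ‖c‖ ^ 2 = c.re ^ 2 + c.im ^ 2 := by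
    rw [Complex.sq_norm, Complex.normSq_apply]; ring
  refine ⟨?_, ?_, ?_⟩
  · rw [hn]
    calc _ ≤ _ := hfin
      _ = _ := by rw [← hα]; ring
  · exact radial_last (g0 := p) (e := h t (x + (α • x₀ + γ • v)) - h t y - α * p)
      (D := h t y - h t x) hκ₀ hK₀ hpq hδ2 (by linarith [abs_nonneg q])
      (by rw [← hα]; ring) heh hd2
  · exact radial_last (g0 := q) (e := β t (x + (α • x₀ + γ • v)) - β t y - α * q)
      (D := β t y - β t x) hκ₀ hK₀ hpq hδ2 (by linarith [abs_nonneg p])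
      (by rw [← hα]; ring) heb hd3

end Vale.Agent.P268.T
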