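import Vale.Agent.P268.T.PlatesE

/-!
# P268, topological half: sheets, local tools

`comap`: subfamilies.  Near a point only the sheets which realise the maximum matter; dominated
sheets may be dropped.  `fold`: the hairpin sheet.
-/

set_option linter.unusedSectionVars false

namespace Vale.Agent.P268.T

open Set Filter Topology

namespace SheetData

variable {T E V A : Type*} [TopologicalSpace T] [NormedAddCommGroup E] [NormedSpace ℝ E]
  [NormedAddCommGroup V] [InnerProductSpace ℝ V] [Fintype A] [Nonempty A]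
  {B : Type*} [Fintype B] [Nonempty B]
  {P : SheetData T E V A} {s : Set T} {η : ℝ} {N : E → ℝ}

/-- Subfamily (reindexing). -/
def comap (P : SheetData T E V A) (i : B → A) : SheetData T E V B where
  w := fun τ b x => P.w τ (i b) x
  ν := fun τ b x => P.ν τ (i b) x
  r := fun τ b x => P.r τ (i b) x
  σ := fun τ b x => P.σ τ (i b) x

theorem comap_rho (i : B → A) (τ : T) (b : B) (x : E) :
    (P.comap i).rho τ b x = P.rho τ (i b) x := rfl

theorem comap_be (i : B → A) (τ : T) (b : B) (x : E) :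
    (P.comap i).be τ b x = P.be τ (i b) x := rfl

theorem BaseL.comap (h : P.BaseL s η N) (i : B → A) : (P.comap i).BaseL s η N where
  hη := h.hη
  cN := h.cN
  nN := h.nN
  cw := fun b => h.cw (i b)
  cr := fun b => h.cr (i b)
  cs := fun b => h.cs (i b)
  cn := fun b => h.cn (i b)
  nn := fun τ hτ b => h.nn τ hτ (i b)
  sep := fun τ hτ x hx a b => h.sep τ hτ x hx (i a) (i b)

/-- Regularity may be checked on a subfamily which realises the supremum near the point. -/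
theorem BaseL.regAt_comap (h : P.BaseL s η N) {τ₀ : T} (hτ₀ : τ₀ ∈ s) {x₀ : E}
    (hx₀ : N x₀ ≠ 0) (h0 : 0 ≤ gre P.rho τ₀ x₀) (i : B → A)
    (hB : ∃ U ∈ 𝓝 x₀, ∀ᶠ τ in 𝓝[s] τ₀, ∀ x ∈ U, gre P.rho τ x = gre (P.comap i).rho τ x)
    (H : RegAt s ((P.comap i).fn η N) τ₀ x₀) : RegAt s (P.fn η N) τ₀ x₀ := by
  obtain ⟨U, hU, hev⟩ := hB
  have h1 : gre P.rho τ₀ x₀ = gre (P.comap i).rho τ₀ x₀ :=
    hev.self_of_nhdsWithin hτ₀ x₀ (mem_of_mem_nhds hU)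
  obtain ⟨b, hb⟩ := exists_gre (P.comap i).rho τ₀ x₀
  have h2 : 0 ≤ (P.comap i).rho τ₀ b x₀ := by rw [← hb, ← h1]; exact h0
  obtain ⟨U1, hU1, h3⟩ := h.glueL.near hτ₀ hx₀ (a := i b) h2
  obtain ⟨U2, hU2, h4⟩ := (h.comap i).glueL.near hτ₀ hx₀ (a := b) h2
  refine H.congr ⟨U ∩ (U1 ∩ U2), inter_mem hU (inter_mem hU1 hU2), ?_⟩
  filter_upwards [hev, h3, h4] with τ e1 e2 e3 x hx
  apply Complex.ext
  · exact (e1 x hx.1).symm
  · show gim η N (P.comap i).rho (P.comap i).be τ x = gim η N P.rho P.be τ x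
    rw [e2 x hx.2.1, e3 x hx.2.2]
    rfl

/-- A subfamily which dominates every active sheet realises the supremum. -/
theorem BaseL.gre_comap (h : P.BaseL s η N) {τ₀ : T} (hτ₀ : τ₀ ∈ s) {x₀ : E} (i : B → A)
    (hB : ∀ a, P.rho τ₀ a x₀ = gre P.rho τ₀ x₀ → ∃ U ∈ 𝓝 x₀, ∀ᶠ τ in 𝓝[s] τ₀, ∀ x ∈ U,
      ∃ b, P.rho τ a x ≤ P.rho τ (i b) x) :
    ∃ U ∈ 𝓝 x₀, ∀ᶠ τ in 𝓝[s] τ₀, ∀ x ∈ U, gre P.rho τ x = gre (P.comap i).rho τ x := by
  classical
  obtain ⟨U, hU, hev⟩ := ev_prod (Q := fun τ x => ∃ a, P.rho τ₀ a x₀ = gre P.rho τ₀ x₀ ∧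
      gre P.rho τ x = P.rho τ a x) (h.glueL.active hτ₀ x₀)
  have key : ∀ Q : Finset A, ∃ W ∈ 𝓝 x₀, ∀ᶠ τ in 𝓝[s] τ₀, ∀ a ∈ Q,
      P.rho τ₀ a x₀ = gre P.rho τ₀ x₀ → ∀ x ∈ W, ∃ b, P.rho τ a x ≤ P.rho τ (i b) x := by
    intro Q
    induction Q using Finset.induction_on with
    | empty => exact ⟨univ, univ_mem, Eventually.of_forall fun t a ha => by simp at ha⟩
    | insert a Q ha IH =>
      obtain ⟨W, hW, h1⟩ := IH
      by_cases hact : P.rho τ₀ a x₀ = gre P.rho τ₀ x₀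
      · obtain ⟨W', hW', h2⟩ := hB a hact
        refine ⟨W ∩ W', inter_mem hW hW', ?_⟩
        filter_upwards [h1, h2] with τ e1 e2 c hc hcact x hx
        rcases Finset.mem_insert.mp hc with rfl | hc
        · exact e2 x hx.2
        · exact e1 c hc hcact x hx.1
      · refine ⟨W, hW, ?_⟩
        filter_upwards [h1] with τ e1 c hc hcact x hx
        rcases Finset.mem_insert.mp hc with rfl | hc
        · exact absurd hcact hact
        · exact e1 c hc hcact x hx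
  obtain ⟨W, hW, hWev⟩ := key Finset.univ
  refine ⟨U ∩ W, inter_mem hU hW, ?_⟩
  filter_upwards [hev, hWev] with τ e1 e2 x hx
  apply le_antisymm
  · obtain ⟨a, ha1, ha2⟩ := e1 x hx.1
    obtain ⟨b, hb⟩ := e2 a (Finset.mem_univ a) ha1 x hx.2
    rw [ha2]
    exact hb.trans (gre_ge (rho := (P.comap i).rho) τ b x)
  · obtain ⟨b, hb⟩ := exists_gre (P.comap i).rho τ x
    rw [hb]
    exact gre_ge (rho := P.rho) τ (i b) x

/-- The directional condition for one sheet (a single active sheet, not ending at the point). -/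
def Dir1 (P : SheetData T E V A) (s : Set T) (τ₀ : T) (x₀ : E) (a : A) (D : V →L[ℝ] E) : Prop :=
  ∀ κ : ℝ, 0 < κ → ∃ U ∈ 𝓝 x₀, ∀ᶠ τ in 𝓝[s] τ₀, ∀ y ∈ U, ∀ v : V, y + D v ∈ U →
    ‖P.w τ a (y + D v) - P.w τ a y - v‖ ≤ κ * ‖v‖ ∧
    |P.r τ a (y + D v) - P.r τ a y| ≤ κ * ‖v‖ ∧
    ‖P.ν τ a (y + D v) - P.ν τ a y‖ ≤ κ * ‖v‖ ∧
    |P.σ τ a (y + D v) - P.σ τ a y| ≤ κ * ‖v‖

/-- Regularity at a zero where one sheet `a`, not ending there, dominates all others nearby. -/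
theorem BaseL.regAt_single (h : P.BaseL s η N) {τ₀ : T} (hτ₀ : τ₀ ∈ s) {x₀ : E}
    (hx₀ : N x₀ ≠ 0) (h0 : P.fn η N τ₀ x₀ = 0) {a : A}
    (hdom : ∀ b, P.rho τ₀ b x₀ = 0 → ∃ U ∈ 𝓝 x₀, ∀ᶠ τ in 𝓝[s] τ₀, ∀ x ∈ U,
      P.rho τ b x ≤ P.rho τ a x)
    (hr : 0 < P.r τ₀ a x₀) (hσ : P.σ τ₀ a x₀ ≠ 0) {D : V →L[ℝ] E}
    (hD : P.Dir1 s τ₀ x₀ a D) : RegAt s (P.fn η N) τ₀ x₀ := by
  have hg : gre P.rho τ₀ x₀ = 0 := congrArg Complex.re h0
  let i : Unit → A := fun _ => a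
  have hB := h.gre_comap hτ₀ (x₀ := x₀) i (fun b hb => by
    obtain ⟨U, hU, hev⟩ := hdom b (hb.trans hg)
    exact ⟨U, hU, hev.mono fun τ e x hx => ⟨(), e x hx⟩⟩)
  refine h.regAt_comap hτ₀ hx₀ hg.ge i hB ?_
  have hg' : gre P.rho τ₀ x₀ = gre (P.comap i).rho τ₀ x₀ := by
    obtain ⟨U, hU, hev⟩ := hB
    exact hev.self_of_nhdsWithin hτ₀ x₀ (mem_of_mem_nhds hU)
  have hg0 : gre (P.comap i).rho τ₀ x₀ = 0 := hg' ▸ hg
  have hbe : P.rho τ₀ a x₀ = 0 := by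
    obtain ⟨b, hb⟩ := exists_gre (P.comap i).rho τ₀ x₀
    rw [← hg0, hb]; rfl
  have hfn : (P.comap i).fn η N τ₀ x₀ = 0 := by
    apply Complex.ext
    · exact hg0
    · have h2 : gim η N P.rho P.be τ₀ x₀ = 0 := congrArg Complex.im h0
      have hn : 0 < N x₀ := lt_of_le_of_ne (h.nN x₀) (Ne.symm hx₀)
      have hη := h.hη
      have h3 : 0 < η / 2 * N x₀ := by positivity
      show gim η N (P.comap i).rho (P.comap i).be τ₀ x₀ = 0
      rw [(h.comap i).glueL.im_eq hτ₀ hx₀ (a := ()) (by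
          show _ < P.rho τ₀ a x₀
          rw [hbe]; linarith), comap_be, ← h2]
      exact (h.glueL.im_eq hτ₀ hx₀ (a := a) (by rw [hbe]; linarith)).symm
  refine (h.comap i).regAt_zero hτ₀ hx₀ hfn (D := D) (u := 0) (L := 0)
    { hν := fun _ _ _ _ => rfl
      rim := fun _ _ _ _ _ _ _ => rfl
      rpos := fun _ _ => hr
      dir := fun κ hκ => ?_ }
  obtain ⟨U, hU, hev⟩ := hD (κ / (1 + P.r τ₀ a x₀)) (by positivity)
  refine ⟨U, hU, ?_⟩
  filter_upwards [hev] with τ hτ y hy v l hyv b _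
  have e : y + (D v + l • (0 : E)) = y + D v := by rw [smul_zero, add_zero]
  rw [e] at hyv ⊢
  obtain ⟨d1, d2, d3, d4⟩ := hτ y hy v hyv
  have hv := norm_nonneg v
  have hl := abs_nonneg l
  have hle : κ / (1 + P.r τ₀ a x₀) * ‖v‖ ≤ κ * ‖v‖ := by
    refine mul_le_mul_of_nonneg_right (div_le_self hκ.le (by linarith)) hv
  refine ⟨?_, ?_, ?_, ?_, fun hs => absurd hs hσ⟩
  · show ‖P.w τ a (y + D v) - P.w τ a y - v‖ ≤ _
    linarith
  · show |P.r τ a (y + D v) - P.r τ a y| ≤ _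
    linarith
  · show (1 + P.r τ₀ a x₀) * ‖P.ν τ a (y + D v) - P.ν τ a y‖ ≤ _
    have hpos : 0 < 1 + P.r τ₀ a x₀ := by linarith
    have := mul_le_mul_of_nonneg_left d3 hpos.le
    have e2 : (1 + P.r τ₀ a x₀) * (κ / (1 + P.r τ₀ a x₀) * ‖v‖) = κ * ‖v‖ := by
      field_simp
    rw [e2] at this
    linarith
  · show |P.σ τ a (y + D v) - P.σ τ a y| ≤ _
    linarith

end SheetData

end Vale.Agent.P268.T
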