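import Vale.Agent.P268.T.Reg

/-!
# P268, topological half: families with critical values in a prescribed set

`NFam S s F`: the functions `F t` are regular at every `x ≠ 0` whose value is not in `S`.
`S = ∅` is the class `O`, `S = {0}ᶜ` is the class `R`.  For an additive semigroup `S` without `0`
(a convex cone) the class is closed under Thom–Sebastiani sums and contained in `R`.
-/

set_option linter.unusedSectionVars false

namespace Vale.Agent.P268.T

open Set Filter Topology

variable {E : Type*} [NormedAddCommGroup E] [NormedSpace ℝ E]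
  {E' : Type*} [NormedAddCommGroup E'] [NormedSpace ℝ E']
  {Z : Type*} [NormedAddCommGroup Z] [NormedSpace ℝ Z]
  {T : Type*} [TopologicalSpace T]

/-- Families regular at all points off the origin with value not in `S`. -/
structure NFam (S : Set Z) (s : Set T) (F : T → E → Z) : Prop where
  cont : ContinuousOn (fun p : T × E => F p.1 p.2) (s ×ˢ univ)
  hom : ∀ t ∈ s, Hom1 (F t)
  reg : ∀ t ∈ s, ∀ x ≠ 0, F t x ∉ S → RegAt s F t x

theorem nfam_empty {s : Set T} {F : T → E → Z} : NFam (∅ : Set Z) s F ↔ OFam s F :=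
  ⟨fun h => ⟨h.cont, h.hom, fun t ht x hx => h.reg t ht x hx (fun h => h)⟩,
    fun h => ⟨h.cont, h.hom, fun t ht x hx _ => h.reg t ht x hx⟩⟩

theorem nfam_compl {s : Set T} {F : T → E → Z} : NFam ({0}ᶜ : Set Z) s F ↔ RFam s F :=
  ⟨fun h => ⟨h.cont, h.hom, fun t ht x hx h0 => h.reg t ht x hx (by simpa using h0)⟩,
    fun h => ⟨h.cont, h.hom, fun t ht x hx h0 => h.reg t ht x hx (by simpa using h0)⟩⟩

theorem OFam.toNFam {s : Set T} {F : T → E → Z} (h : OFam s F) (S : Set Z) : NFam S s F :=
  ⟨h.cont, h.hom, fun t ht x hx _ => h.reg t ht x hx⟩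

theorem NFam.weaken {S S' : Set Z} (hS : S ⊆ S') {s : Set T} {F : T → E → Z}
    (h : NFam S s F) : NFam S' s F :=
  ⟨h.cont, h.hom, fun t ht x hx h0 => h.reg t ht x hx (fun h1 => h0 (hS h1))⟩

theorem NFam.toRFam {S : Set Z} (hS : (0 : Z) ∉ S) {s : Set T} {F : T → E → Z}
    (h : NFam S s F) : RFam s F :=
  ⟨h.cont, h.hom, fun t ht x hx h0 => h.reg t ht x hx (by rw [h0]; exact hS)⟩

theorem NFam.mono {S : Set Z} {s s' : Set T} (hs : s' ⊆ s) {F : T → E → Z} (h : NFam S s F) :
    NFam S s' F :=
  ⟨h.cont.mono (prod_mono hs Subset.rfl), fun t ht => h.hom t (hs ht),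
    fun t ht x hx h0 => (h.reg t (hs ht) x hx h0).mono hs⟩

theorem NFam.param {T' : Type*} [TopologicalSpace T'] {S : Set Z} {s : Set T} {s' : Set T'}
    {F : T → E → Z} (h : NFam S s F) {φ : T' → T} (hφ : ContinuousOn φ s') (hs : MapsTo φ s' s) :
    NFam S s' (fun t => F (φ t)) := by
  refine ⟨?_, fun t ht => h.hom _ (hs ht), fun t ht x hx h0 =>
    (h.reg _ (hs ht) x hx h0).param (hφ t ht) hs⟩
  have h1 : ContinuousOn (fun p : T' × E => (φ p.1, p.2)) (s' ×ˢ univ) :=
    (hφ.comp continuousOn_fst (fun p hp => hp.1)).prodMk continuousOn_snd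
  exact h.cont.comp h1 (fun p hp => ⟨hs hp.1, mem_univ _⟩)

theorem NFam.comp_linear {S : Set Z} {s : Set T} {F : T → E' → Z} (e : E ≃L[ℝ] E')
    (h : NFam S s F) : NFam S s (fun t x => F t (e x)) where
  cont := by
    have h1 : ContinuousOn (fun p : T × E => (p.1, e p.2)) (s ×ˢ univ) :=
      (continuous_fst.prodMk (e.continuous.comp continuous_snd)).continuousOn
    exact h.cont.comp h1 (fun p hp => ⟨hp.1, mem_univ _⟩)
  hom := fun t ht r hr x => by
    show F t (e (r • x)) = r • F t (e x)
    rw [map_smul]; exact h.hom t ht r hr _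
  reg := fun t ht x hx h0 => RegAt.comp_linear e (h.reg t ht (e x) (by simpa using hx) h0)

/-- **Thom–Sebastiani sums**: critical values add. -/
theorem NFam.add {S S' S'' : Set Z} (h1 : S ⊆ S'') (h2 : S' ⊆ S'')
    (h12 : ∀ a ∈ S, ∀ b ∈ S', a + b ∈ S'') {s : Set T} {F : T → E → Z} {G : T → E' → Z}
    (hF : NFam S s F) (hG : NFam S' s G) :
    NFam S'' s (fun t (p : E × E') => F t p.1 + G t p.2) where
  cont := cont_add hF.cont hG.cont
  hom := fun t ht r hr p => by
    simp only [Prod.smul_fst, Prod.smul_snd, smul_add]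
    rw [hF.hom t ht r hr, hG.hom t ht r hr]
  reg := by
    rintro t ht ⟨x, y⟩ hxy h0
    by_cases hx : x ≠ 0 ∧ F t x ∉ S
    · exact RegAt.add_fst (hF.reg t ht x hx.1 hx.2)
    by_cases hy : y ≠ 0 ∧ G t y ∉ S'
    · exact RegAt.add_snd (hG.reg t ht y hy.1 hy.2)
    exfalso
    apply h0
    by_cases hx0 : x = 0
    · have hy0 : y ≠ 0 := by
        rintro rfl
        exact hxy (by rw [hx0]; rfl)
      have hy1 : G t y ∈ S' := by
        by_contra hc
        exact hy ⟨hy0, hc⟩
      have e : F t x + G t y = G t y := by rw [hx0, (hF.hom t ht).zero, zero_add]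
      show F t x + G t y ∈ S''
      rw [e]
      exact h2 hy1
    · have hx1 : F t x ∈ S := by
        by_contra hc
        exact hx ⟨hx0, hc⟩
      by_cases hy0 : y = 0
      · have e : F t x + G t y = F t x := by rw [hy0, (hG.hom t ht).zero, add_zero]
        show F t x + G t y ∈ S''
        rw [e]
        exact h1 hx1
      · have hy1 : G t y ∈ S' := by
          by_contra hc
          exact hy ⟨hy0, hc⟩
        exact h12 _ hx1 _ hy1

/-- For an additive semigroup `S` the class is closed under sums. -/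
theorem NFam.add_self {S : Set Z} (hS : ∀ a ∈ S, ∀ b ∈ S, a + b ∈ S) {s : Set T}
    {F : T → E → Z} {G : T → E' → Z} (hF : NFam S s F) (hG : NFam S s G) :
    NFam S s (fun t (p : E × E') => F t p.1 + G t p.2) :=
  NFam.add Subset.rfl Subset.rfl hS hF hG

/-- A function with critical values in `S` plus a family whose critical values avoid `-S` is a
family of class `R`. -/
theorem NFam.add_neg {S S' : Set Z} (h0 : (0 : Z) ∉ S) (h0' : (0 : Z) ∉ S')
    (h : ∀ a ∈ S, -a ∉ S') {s : Set T} {F : T → E → Z} {G : T → E' → Z}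
    (hF : NFam S s F) (hG : NFam S' s G) :
    RFam s (fun t (p : E × E') => F t p.1 + G t p.2) := by
  rw [← nfam_compl]
  refine NFam.add ?_ ?_ ?_ hF hG
  · intro a ha h1
    rw [mem_singleton_iff] at h1
    exact h0 (h1 ▸ ha)
  · intro a ha h1
    rw [mem_singleton_iff] at h1
    exact h0' (h1 ▸ ha)
  · intro a ha b hb h1
    rw [mem_singleton_iff] at h1
    have : b = -a := (neg_eq_of_add_eq_zero_right h1).symm
    exact h a ha (this ▸ hb)

/-- Postcomposition with a homeomorphism-like change of values is left to the user; a constant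
family. -/
theorem NFam.const {S : Set Z} {F : E → Z} (h : NFam S (univ : Set Unit) fun _ => F)
    (s : Set T) : NFam S s (fun _ => F) where
  cont := by
    have h1 := h.cont
    have h2 : ContinuousOn (fun p : T × E => ((), p.2)) (s ×ˢ univ) :=
      (continuous_const.prodMk continuous_snd).continuousOn
    exact h1.comp h2 (fun _ _ => ⟨mem_univ _, mem_univ _⟩)
  hom := fun _ _ => h.hom () (mem_univ _)
  reg := fun t _ x hx h0 => (h.reg () (mem_univ _) x hx h0).const s t

end Vale.Agent.P268.T
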