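import Vale.Agent.P268.T.Blocks1
import Vale.Agent.P268.T.H548.ChainLink
import Vale.Agent.P268.T.H128.IndW
import Vale.Agent.P268.T.H830.NestF
import Vale.Agent.P268.T.H990.Sum

/-!
# P268, topological half: the skeleton of block B1 (chains), route V

`blockChain_of`: `BlockChain` from the exact statements of the missing pieces `BlockP0`,
`FirstLevelW`, `TauPhaseW`, `LevTameW`, `LevIHW`, `LevOneW` (128), `GateMove` and `RayFS`.
-/

set_option linter.unusedSectionVars false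

namespace Vale.Agent.P268.T.RV

open Set Filter Topology

/-! ### The ray form -/

/-- The ungated rays `0, …, a - 2` of a variable with exponent `a`. -/
noncomputable def r1 (ε : ℝ) (a : ℕ) (z : ℂ) : ℝ :=
  if h : (Finset.range (a - 1)).Nonempty then (Finset.range (a - 1)).sup' h fun k => ray ε k z
  else 0

/-- The function of the first variable in the ray form. -/
noncomputable def rayFirst (ε : ℝ) (a : ℕ) (z : ℂ) : ℂ := ⟨r1 ε a z, turn z⟩

/-- The gates of the ray form: `d ≥ 0` closes the last ray `a - 1`. -/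
noncomputable def rayGate (ε : ℝ) (a : ℕ) (d : ℝ) (z : ℂ) : ℂ :=
  ⟨max (r1 ε a z) (ray ε (a - 1 : ℕ) z - d), turn z⟩

/-- Gate functions of the ray form: `χ a (b :: c) y` for the gate of a variable with exponent `a`
over a variable `y` with exponent `b > a`: `0` near the rays `0, …, a - 1`, at least `y.re` near the
other rays of `y`: `a, …, b - 2`, and `b - 1` if `y` is not the first variable. -/
structure RayGateFun (d : ℝ) (χ : ℕ → List ℕ → ℂ → ℝ) : Prop where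
  cont : ∀ a b c, a < b → Continuous (χ a (b :: c))
  hom : ∀ a b c, a < b → ∀ r : ℝ, 0 ≤ r → ∀ y : ℂ, χ a (b :: c) (r • y) = r * χ a (b :: c) y
  nonneg : ∀ a b c, a < b → ∀ y, 0 ≤ χ a (b :: c) y
  neg : ∀ a b c, a < b → ∀ y : ℂ, y.re < 0 → |y.im| ≤ d * |y.re| → χ a (b :: c) y = 0
  small : ∀ a b c, a < b → ∀ (k : ℕ) (y : ℂ), k < a → 0 < y.re → |y.im - k * y.re| ≤ d * y.re →
    χ a (b :: c) y = 0
  big : ∀ a b c, a < b → ∀ (k : ℕ) (y : ℂ), a ≤ k → (k + 1 < b ∨ k + 1 = b ∧ c ≠ []) →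
    0 < y.re → |y.im - k * y.re| ≤ d * y.re → y.re ≤ χ a (b :: c) y

/-- The ray form of a chain. -/
noncomputable def rayForm (ε : ℝ) (χ : ℕ → List ℕ → ℂ → ℝ) (l : List ℝ) (c : List ℕ) : Sp c → ℂ :=
  gch (Θ := Unit) (fun a _ => rayFirst ε a) (fun a _ => rayGate ε a) (fun a c _ => χ a c) l c ()

/-- The planar deformations: from the end function of route V to the ray form (69, 830, 500, 5). -/
def GateMove : Prop :=
  ∀ (a : ℕ) (c : List ℕ), (∀ x ∈ a :: c, 2 ≤ x) → (a :: c).IsChain (· < ·) →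
    ∃ d > 0, ∃ ε₁ > 0, ∀ ε ∈ Ioc (0 : ℝ) ε₁, ∃ χ : ℕ → List ℕ → ℂ → ℝ, RayGateFun d χ ∧
      ∀ᶠ l in nestF c.length, HEqv (Ge l (a :: c)) (rayForm ε χ l (a :: c))

/-- From the ray form to the ray function (530, 897). -/
def RayFS : Prop :=
  ∀ (a : ℕ) (c : List ℕ), (∀ x ∈ a :: c, 2 ≤ x) → (a :: c).IsChain (· < ·) →
    ∀ [Nonempty (Vale.Agent.P268.Z.Stair (a :: c))], ∀ d > 0,
    ∃ ε₁ > 0, ∀ χ : ℕ → List ℕ → ℂ → ℝ, RayGateFun d χ → ∀ ε ∈ Ioc (0 : ℝ) ε₁,
      ∀ l : List ℝ, l.length = c.length → (∀ k ∈ l, (1 : ℝ) ≤ k) →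
      HEqv (rayForm ε χ l (a :: c)) (FS ε fun p : Vale.Agent.P268.Z.Stair (a :: c) => p.1)

/-! ### The gate form of route V is a chain of gates -/

/-- The circle data: the gate form of route V as a chain of gates. -/
theorem Ge_eq_gch : ∀ (c : List ℕ) (l : List ℝ), l.length + 1 = c.length → c ≠ [] →
    Ge l c = gch (Θ := Unit) (fun a _ z => ((‖z‖ : ℝ) : ℂ) * eI (Sph a z)) (fun a _ => Gam a)
      (fun a c _ y => cy (trn (c.headD 0) c.tail) a y * ‖y‖) l c ()
  | [], _, _, h => absurd rfl h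
  | [a], _, _, _ => rfl
  | a :: b :: c, [], h, _ => by simp at h
  | a :: b :: c, K :: l, h, _ => by
    have ih := Ge_eq_gch (b :: c) l (by simpa using h) (List.cons_ne_nil _ _)
    funext p
    show Ge l (b :: c) p.1 + Gam a (K * (cy (trn b c) a p.1.2 * ‖p.1.2‖)) p.2 =
      gch (Θ := Unit) (fun a _ z => ((‖z‖ : ℝ) : ℂ) * eI (Sph a z)) (fun a _ => Gam a)
        (fun a c _ y => cy (trn (c.headD 0) c.tail) a y * ‖y‖) l (b :: c) () p.1 + _
    rw [ih]
    rfl

theorem eventually_nestF_one_le (n : ℕ) :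
    ∀ᶠ l in nestF n, l.length = n ∧ ∀ k ∈ l, (1 : ℝ) ≤ k := by
  induction n with
  | zero =>
    rw [eventually_nestF_zero]
    exact ⟨rfl, fun k hk => absurd hk List.not_mem_nil⟩
  | succ n ih =>
    rw [eventually_nestF_succ]
    filter_upwards [ih] with l hl
    filter_upwards [eventually_ge_atTop (1 : ℝ)] with K hK
    refine ⟨by simp [hl.1], fun k hk => ?_⟩
    rcases List.mem_cons.mp hk with rfl | hk
    · exact hK
    · exact hl.2 k hk

/-- **Block B1** from its pieces. -/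
theorem blockChain_of {L₁ L₂ L₃ L₄ : ℕ → ℝ} (hP0 : BlockP0) (hfirst : FirstLevelW L₁)
    (h1 : TauPhaseW L₂) (h2 : LevTameW L₃) (h3 : LevIHW L₄) (h4 : LevOneW) (hmove : GateMove)
    (hFS : RayFS) : BlockChain := by
  intro c
  rcases c with _ | ⟨a, c⟩
  · intro h
    exact absurd rfl h
  · intro _ hc hcc _
    obtain ⟨d, hd, ε₁, e1, hm⟩ := hmove a c hc hcc
    obtain ⟨ε₂, e2, hF⟩ := hFS a c hc hcc d hd
    refine ⟨min ε₁ ε₂, lt_min e1 e2, fun ε hε => ?_⟩
    obtain ⟨χ, hχ, hm⟩ := hm ε ⟨hε.1, hε.2.trans (min_le_left _ _)⟩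
    obtain ⟨l, hl1, hl2, hl3⟩ := ((chain_equiv_gate hP0 (levelStepW h1 h2 h3 h4) hfirst chainLink
      a c hc hcc).and (hm.and (eventually_nestF_one_le c.length))).exists
    exact (hl1.2.trans hl2).trans
      (hF χ hχ ε ⟨hε.1, hε.2.trans (min_le_right _ _)⟩ l hl3.1 hl3.2)

/-- **Blocks B1 and B2** from their pieces. -/
theorem blockSum_of {L₁ L₂ L₃ L₄ : ℕ → ℝ} (hP0 : BlockP0) (hfirst : FirstLevelW L₁)
    (h1 : TauPhaseW L₂) (h2 : LevTameW L₃) (h3 : LevIHW L₄) (h4 : LevOneW) (hmove : GateMove)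
    (hFS : RayFS) : BlockSum :=
  blockSum_of_chain (blockChain_of hP0 hfirst h1 h2 h3 h4 hmove hFS)

end Vale.Agent.P268.T.RV
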