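import Vale.Agent.P268.T.PlatesC

/-!
# P268, topological half: families of sheets are in the class `H`
-/

set_option linter.unusedSectionVars false

namespace Vale.Agent.P268.T

open Set Filter Topology

namespace SheetData

variable {T E V A : Type*} [TopologicalSpace T] [NormedAddCommGroup E] [NormedSpace ℝ E]
  [NormedAddCommGroup V] [InnerProductSpace ℝ V] [Fintype A] [Nonempty A]
  {P : SheetData T E V A} {s : Set T} {η : ℝ} {N : E → ℝ}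

theorem locLip_tp {τ₀ : T} {x₀ : E} {a : A} (hw : LocLip s (fun τ x => P.w τ a x) τ₀ x₀)
    (hr : LocLip s (fun τ x => P.r τ a x) τ₀ x₀) : LocLip s (fun τ x => P.tp τ a x) τ₀ x₀ := by
  obtain ⟨L1, U1, hU1, h1⟩ := hw
  obtain ⟨L2, U2, hU2, h2⟩ := hr
  refine ⟨L2 + L1, U1 ∩ U2, inter_mem hU1 hU2, ?_⟩
  filter_upwards [h1, h2] with τ e1 e2 x hx y hy
  have e3 := e1 x hx.1 y hy.1
  have e4 := e2 x hx.2 y hy.2
  have e5 : P.tp τ a x - P.tp τ a y =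
      (P.r τ a x - P.r τ a y) - (‖P.w τ a x‖ - ‖P.w τ a y‖) := by unfold tp; ring
  show ‖P.tp τ a x - P.tp τ a y‖ ≤ _
  rw [e5]
  refine (norm_sub_le _ _).trans ?_
  have e6 : ‖‖P.w τ a x‖ - ‖P.w τ a y‖‖ ≤ ‖P.w τ a x - P.w τ a y‖ := abs_norm_sub_norm_le _ _
  have e4' : ‖P.r τ a x - P.r τ a y‖ ≤ L2 * ‖x - y‖ := e4
  have e3' : ‖P.w τ a x - P.w τ a y‖ ≤ L1 * ‖x - y‖ := e3
  have : (L2 + L1) * ‖x - y‖ = L2 * ‖x - y‖ + L1 * ‖x - y‖ := by ring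
  rw [this]
  linarith

theorem BaseL.locLip_be (h : P.BaseL s η N) {τ₀ : T} (hτ₀ : τ₀ ∈ s) {x₀ : E} (hx₀ : N x₀ ≠ 0)
    {a : A} (hw : LocLip s (fun τ x => P.w τ a x) τ₀ x₀)
    (hn : LocLip s (fun τ x => P.ν τ a x) τ₀ x₀) : LocLip s (fun τ x => P.be τ a x) τ₀ x₀ := by
  obtain ⟨L1, U1, hU1, h1⟩ := hw
  obtain ⟨L2, U2, hU2, h2⟩ := hn
  have c2 : Tendsto (fun p : T × E => ‖P.w p.1 a p.2‖) (𝓝[s ×ˢ univ] (τ₀, x₀))
      (𝓝 ‖P.w τ₀ a x₀‖) := (h.cw a (τ₀, x₀) ⟨hτ₀, mem_univ _⟩).norm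
  obtain ⟨U3, hU3, h3⟩ := ev_prod (Q := fun τ x => ‖P.w τ a x‖ ≤ ‖P.w τ₀ a x₀‖ + 1 ∧
      ‖P.ν τ a x‖ = 1) (by
    filter_upwards [c2.eventually (gt_mem_nhds (lt_add_one ‖P.w τ₀ a x₀‖)), self_mem_nhdsWithin,
      mem_nhdsWithin_of_mem_nhds (h.glueL.mem_N hx₀ τ₀)] with p hp hp1 hp2
    exact ⟨hp.le, h.nn p.1 hp1.1 a p.2 hp2⟩)
  refine ⟨L1 + (‖P.w τ₀ a x₀‖ + 1) * L2, U1 ∩ (U2 ∩ U3), inter_mem hU1 (inter_mem hU2 hU3), ?_⟩
  filter_upwards [h1, h2, h3] with τ e1 e2 e3 x hx y hy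
  have f1 : ‖P.w τ a x - P.w τ a y‖ ≤ L1 * ‖x - y‖ := e1 x hx.1 y hy.1
  have f2 : ‖P.ν τ a x - P.ν τ a y‖ ≤ L2 * ‖x - y‖ := e2 x hx.2.1 y hy.2.1
  have f3 := (e3 x hx.2.2).2
  have f4 := (e3 y hy.2.2).1
  have e5 : P.be τ a x - P.be τ a y =
      inner ℝ (P.w τ a x - P.w τ a y) (P.ν τ a x) +
        inner ℝ (P.w τ a y) (P.ν τ a x - P.ν τ a y) := by
    unfold be
    rw [inner_sub_left, inner_sub_right]; ring
  show ‖P.be τ a x - P.be τ a y‖ ≤ _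
  rw [e5]
  refine (norm_add_le _ _).trans ?_
  rw [Real.norm_eq_abs, Real.norm_eq_abs]
  have g1 : |inner ℝ (P.w τ a x - P.w τ a y) (P.ν τ a x)| ≤ L1 * ‖x - y‖ :=
    (abs_real_inner_le_norm _ _).trans (by rw [f3, mul_one]; exact f1)
  have g2 : |inner ℝ (P.w τ a y) (P.ν τ a x - P.ν τ a y)| ≤
      (‖P.w τ₀ a x₀‖ + 1) * (L2 * ‖x - y‖) :=
    (abs_real_inner_le_norm _ _).trans
      (mul_le_mul f4 f2 (norm_nonneg _) (by positivity))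
  have : (L1 + (‖P.w τ₀ a x₀‖ + 1) * L2) * ‖x - y‖ =
      L1 * ‖x - y‖ + (‖P.w τ₀ a x₀‖ + 1) * (L2 * ‖x - y‖) := by ring
  rw [this]
  linarith

/-- The imaginary parts of the active sheets agree at the point. -/
theorem BaseL.be_common (h : P.BaseL s η N) {τ₀ : T} (hτ₀ : τ₀ ∈ s) {x₀ : E} (hx₀ : N x₀ ≠ 0)
    (h0 : 0 ≤ gre P.rho τ₀ x₀) {a b : A} (ha : P.rho τ₀ a x₀ = gre P.rho τ₀ x₀)
    (hb : P.rho τ₀ b x₀ = gre P.rho τ₀ x₀) : P.be τ₀ a x₀ = P.be τ₀ b x₀ := by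
  have hn : 0 < N x₀ := lt_of_le_of_ne (h.nN x₀) (Ne.symm hx₀)
  have hη := h.hη
  have h1 : 0 < η * N x₀ := by positivity
  exact h.sep τ₀ hτ₀ x₀ hx₀ a b (by linarith) (by linarith)

theorem Base.regAt_radial (h : P.Base s η N) {τ₀ : T} (hτ₀ : τ₀ ∈ s) {x₀ : E} (hx : x₀ ≠ 0)
    (hx₀ : N x₀ ≠ 0) (h0 : 0 ≤ gre P.rho τ₀ x₀) {D : V →L[ℝ] E} {u : E} {L : ℝ}
    (H : P.Loc s τ₀ x₀ D u L) {κ₀ K₀ q : ℝ} (hκ₀ : 0 < κ₀) (hK₀ : 0 ≤ K₀)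
    (hq : ∀ a, P.rho τ₀ a x₀ = gre P.rho τ₀ x₀ → P.be τ₀ a x₀ = q)
    (hpq : 0 < gre P.rho τ₀ x₀ ^ 2 + q ^ 2) (e : E)
    (hvt : ∀ a, P.rho τ₀ a x₀ = gre P.rho τ₀ x₀ → P.tp τ₀ a x₀ = gre P.rho τ₀ x₀ →
      ∃ U ∈ 𝓝 x₀, ∀ᶠ τ in 𝓝[s] τ₀, ∀ x ∈ U, ∀ γ : ℝ, x + γ • e ∈ U →
        κ₀ * γ ^ 2 ≤ γ * (gre P.rho τ₀ x₀ * (P.be τ a (x + γ • e) - P.be τ a x) -
          q * (P.tp τ a (x + γ • e) - P.tp τ a x)) ∧
        |P.tp τ a (x + γ • e) - P.tp τ a x| ≤ K₀ * |γ| ∧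
        |P.be τ a (x + γ • e) - P.be τ a x| ≤ K₀ * |γ|)
    (hvs : ∀ a, P.rho τ₀ a x₀ = gre P.rho τ₀ x₀ → P.σ τ₀ a x₀ = gre P.rho τ₀ x₀ →
      ∃ U ∈ 𝓝 x₀, ∀ᶠ τ in 𝓝[s] τ₀, ∀ x ∈ U, ∀ γ : ℝ, x + γ • e ∈ U →
        κ₀ * γ ^ 2 ≤ γ * (gre P.rho τ₀ x₀ * (P.be τ a (x + γ • e) - P.be τ a x) -
          q * (P.σ τ a (x + γ • e) - P.σ τ a x)) ∧
        |P.σ τ a (x + γ • e) - P.σ τ a x| ≤ K₀ * |γ| ∧
        |P.be τ a (x + γ • e) - P.be τ a x| ≤ K₀ * |γ|) :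
    RegAt s (P.fn η N) τ₀ x₀ := by
  have ct : ∀ a, ContinuousWithinAt (fun p : T × E => P.tp p.1 a p.2) (s ×ˢ univ) (τ₀, x₀) :=
    fun a => h.continuousOn_tp a (τ₀, x₀) ⟨hτ₀, mem_univ _⟩
  have cs : ∀ a, ContinuousWithinAt (fun p : T × E => P.σ p.1 a p.2) (s ×ˢ univ) (τ₀, x₀) :=
    fun a => h.cs a (τ₀, x₀) ⟨hτ₀, mem_univ _⟩
  refine h.glue.regAt_min (f := P.tp) (g := P.σ) (fun _ _ _ => rfl) hτ₀ hx₀ h0 ct cs
    (K := radK (gre P.rho τ₀ x₀) q κ₀ K₀)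
    (radκ_pos (K₀ := K₀) hκ₀ hpq) (radA (gre P.rho τ₀ x₀) q (radM κ₀ K₀) x₀ e) ?_ ?_
  · intro a ha hta
    exact inc2_radial (h := fun τ x => P.tp τ a x) (β := fun τ x => P.be τ a x) hτ₀ hx
      (fun τ hτ k hk x => h.tp_smul hτ a hk x) (fun τ hτ k hk x => h.be_smul hτ a hk x)
      (ct a) (h.glue.continuousWithinAt_be a hτ₀ hx₀) (locLip_tp (H.lw a ha) (H.lr a ha))
      (h.locLip_be hτ₀ hx₀ (H.lw a ha) (H.ln a ha)) hta (hq a ha) hκ₀ hK₀ hpq (hvt a ha hta)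
  · intro a ha hta
    exact inc2_radial (h := fun τ x => P.σ τ a x) (β := fun τ x => P.be τ a x) hτ₀ hx
      (fun τ hτ k hk x => h.hs τ hτ a k hk x) (fun τ hτ k hk x => h.be_smul hτ a hk x)
      (cs a) (h.glue.continuousWithinAt_be a hτ₀ hx₀) (H.ls a ha)
      (h.locLip_be hτ₀ hx₀ (H.lw a ha) (H.ln a ha)) hta (hq a ha) hκ₀ hK₀ hpq (hvs a ha hta)

/-- Case `0 < v`. -/
theorem Base.regAt_pos (h : P.Base s η N) {τ₀ : T} (hτ₀ : τ₀ ∈ s) {x₀ : E} (hx : x₀ ≠ 0)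
    (hx₀ : N x₀ ≠ 0) (h0 : 0 < gre P.rho τ₀ x₀) {D : V →L[ℝ] E} {u : E} {L : ℝ}
    (H : P.Loc s τ₀ x₀ D u L) : RegAt s (P.fn η N) τ₀ x₀ := by
  obtain ⟨a₀, ha₀⟩ := exists_gre P.rho τ₀ x₀
  set q := P.be τ₀ a₀ x₀ with hqdef
  set ν₀ := P.ν τ₀ a₀ x₀ with hν₀
  set p := gre P.rho τ₀ x₀ with hp
  have hq : ∀ a, P.rho τ₀ a x₀ = p → P.be τ₀ a x₀ = q :=
    fun a ha => h.be_common hτ₀ hx₀ h0.le ha ha₀.symm
  have hν : ∀ a, P.rho τ₀ a x₀ = p → P.ν τ₀ a x₀ = ν₀ := fun a ha => H.hν a a₀ ha ha₀.symm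
  have hν1 : ‖ν₀‖ = 1 := h.nn τ₀ hτ₀ a₀ x₀ hx₀
  obtain ⟨κ, hκ0, hκ1, hκ2⟩ : ∃ κ : ℝ, 0 < κ ∧ κ ≤ 1 ∧ 4 * κ * (p + |q|) ≤ p / 2 := by
    have hpq : 0 < p + |q| := by positivity
    refine ⟨min 1 (p / (8 * (p + |q|))), lt_min one_pos (by positivity), min_le_left _ _, ?_⟩
    calc 4 * min 1 (p / (8 * (p + |q|))) * (p + |q|) ≤
          4 * (p / (8 * (p + |q|))) * (p + |q|) := by gcongr; exact min_le_right _ _
      _ = p / 2 := by field_simp; norm_num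
  obtain ⟨U, hU, hev⟩ := H.toLoc0.est h.toBaseL hτ₀ hx₀ h0.le hκ0 hκ1
  have hrew : ∀ (x : E) (γ : ℝ), x + γ • D ν₀ = x + (D (γ • ν₀) + (0 : ℝ) • u) := fun x γ => by
    rw [zero_smul, add_zero, map_smul]
  have hnorm : ∀ γ : ℝ, ‖γ • ν₀‖ = |γ| := fun γ => by
    rw [norm_smul, hν1, mul_one, Real.norm_eq_abs]
  -- the imaginary parts
  have hb : ∀ {τ a x γ}, P.rho τ₀ a x₀ = p →
      P.EstAt τ₀ x₀ L κ τ a x (x + (D (γ • ν₀) + (0 : ℝ) • u)) (γ • ν₀) 0 →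
      |P.be τ a (x + γ • D ν₀) - P.be τ a x - γ| ≤ 4 * κ * |γ| := by
    intro τ a x γ ha he
    have h1 := he.b
    rw [hν a ha, real_inner_smul_left, real_inner_self_eq_norm_sq, hν1, hnorm, abs_zero] at h1
    rw [hrew]
    calc _ = |P.be τ a (x + (D (γ • ν₀) + (0 : ℝ) • u)) - P.be τ a x - γ * 1 ^ 2| := by
            congr 1; ring
      _ ≤ _ := h1
      _ = _ := by ring
  have hb2 : ∀ {Δ γ : ℝ}, |Δ - γ| ≤ 4 * κ * |γ| → |Δ| ≤ 5 * |γ| := by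
    intro Δ γ h1
    have h2 : |Δ| ≤ |Δ - γ| + |γ| := by
      have := abs_add_le (Δ - γ) γ
      rwa [sub_add_cancel] at this
    have h3 : κ * |γ| ≤ 1 * |γ| := mul_le_mul_of_nonneg_right hκ1 (abs_nonneg _)
    linarith
  have hfin : ∀ {Δb Δh γ : ℝ}, |Δb - γ| ≤ 4 * κ * |γ| → -(4 * κ * |q| * γ ^ 2) ≤ -(γ * (q * Δh)) →
      p / 2 * γ ^ 2 ≤ γ * (p * Δb - q * Δh) := by
    intro Δb Δh γ h1 h2
    have h3 : -(4 * κ * |γ|) * |γ| ≤ (Δb - γ) * γ := by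
      have : |(Δb - γ) * γ| ≤ 4 * κ * |γ| * |γ| := by
        rw [abs_mul]; exact mul_le_mul_of_nonneg_right h1 (abs_nonneg _)
      linarith [(abs_le.mp this).1]
    have h4 : |γ| * |γ| = γ ^ 2 := by rw [← sq, sq_abs]
    have h5 : γ * (p * Δb - q * Δh) = p * γ ^ 2 + p * ((Δb - γ) * γ) - γ * (q * Δh) := by ring
    have h6 : p * (-(4 * κ * |γ|) * |γ|) ≤ p * ((Δb - γ) * γ) :=
      mul_le_mul_of_nonneg_left h3 h0.le
    have h7 : p * (-(4 * κ * |γ|) * |γ|) = -(4 * κ * p * γ ^ 2) := by rw [← h4]; ring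
    have h8 : 4 * κ * (p + |q|) * γ ^ 2 ≤ p / 2 * γ ^ 2 :=
      mul_le_mul_of_nonneg_right hκ2 (sq_nonneg _)
    rw [h5]
    linarith
  refine h.regAt_radial hτ₀ hx hx₀ h0.le H (κ₀ := p / 2) (K₀ := 5) (q := q) (by positivity)
    (by norm_num) hq (by positivity) (D ν₀) ?_ ?_
  · intro a ha hta
    refine ⟨U, hU, ?_⟩
    filter_upwards [hev] with τ hτ x hxU γ hγ
    have he := hτ x hxU (γ • ν₀) 0 (by rw [← hrew]; exact hγ) a ha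
    have hb1 := hb ha he
    refine ⟨hfin hb1 ?_, ?_, hb2 hb1⟩
    · by_cases hq0 : q = 0
      · simp [hq0]
      · have hw0 : P.w τ₀ a x₀ ≠ 0 := by
          intro h1
          apply hq0
          rw [← hq a ha]
          unfold be
          rw [h1, inner_zero_left]
        have hwp : 0 < ‖P.w τ₀ a x₀‖ := norm_pos_iff.mpr hw0
        have h1 := he.t hw0
        rw [hnorm, abs_zero, real_inner_smul_right, ← hrew] at h1
        have h2 : inner ℝ (P.w τ₀ a x₀) ν₀ = q := by rw [← hν a ha]; exact hq a ha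
        rw [h2] at h1
        set Δ := P.tp τ a (x + γ • D ν₀) - P.tp τ a x
        have h3 : |q * γ * (Δ + γ * q / ‖P.w τ₀ a x₀‖)| ≤ |q| * |γ| * (4 * κ * |γ|) := by
          rw [abs_mul, abs_mul]
          refine mul_le_mul_of_nonneg_left ?_ (by positivity)
          linarith
        have h4 := (abs_le.mp h3).2
        have h5 : |q| * |γ| * (4 * κ * |γ|) = 4 * κ * |q| * γ ^ 2 := by
          rw [← sq_abs γ]; ring
        have h6 : q * γ * (Δ + γ * q / ‖P.w τ₀ a x₀‖) =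
            γ * (q * Δ) + (γ * q) ^ 2 / ‖P.w τ₀ a x₀‖ := by ring
        have h7 : 0 ≤ (γ * q) ^ 2 / ‖P.w τ₀ a x₀‖ := by positivity
        linarith
    · have h1 := he.t'
      rw [hnorm, abs_zero, ← hrew] at h1
      linarith [abs_nonneg γ]
  · intro a ha hta
    refine ⟨U, hU, ?_⟩
    filter_upwards [hev] with τ hτ x hxU γ hγ
    have he := hτ x hxU (γ • ν₀) 0 (by rw [← hrew]; exact hγ) a ha
    have hb1 := hb ha he
    have h1 := he.s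
    rw [hnorm, abs_zero, mul_zero, add_zero, ← hrew] at h1
    refine ⟨hfin hb1 ?_, ?_, hb2 hb1⟩
    · set Δ := P.σ τ a (x + γ • D ν₀) - P.σ τ a x
      have h3 : |γ * (q * Δ)| ≤ |γ| * (|q| * (κ * |γ|)) := by
        rw [abs_mul, abs_mul]
        gcongr
      have h4 := (abs_le.mp h3).2
      have h5 : |γ| * (|q| * (κ * |γ|)) = κ * |q| * γ ^ 2 := by
        rw [← sq_abs γ]; ring
      have h6 : 0 ≤ κ * |q| * γ ^ 2 := by positivity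
      linarith
    · have h3 : κ * |γ| ≤ 1 * |γ| := mul_le_mul_of_nonneg_right hκ1 (abs_nonneg _)
      linarith [abs_nonneg γ]

/-- Case `v = 0`, `q ≠ 0`. -/
theorem Base.regAt_im (h : P.Base s η N) {τ₀ : T} (hτ₀ : τ₀ ∈ s) {x₀ : E} (hx : x₀ ≠ 0)
    (hx₀ : N x₀ ≠ 0) (h0 : gre P.rho τ₀ x₀ = 0) {D : V →L[ℝ] E} {u : E} {L : ℝ}
    (H : P.Loc s τ₀ x₀ D u L) {a₀ : A} (ha₀ : P.rho τ₀ a₀ x₀ = gre P.rho τ₀ x₀)
    (hq0 : P.be τ₀ a₀ x₀ ≠ 0) : RegAt s (P.fn η N) τ₀ x₀ := by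
  set q := P.be τ₀ a₀ x₀ with hqdef
  set ν₀ := P.ν τ₀ a₀ x₀ with hν₀
  have hq : ∀ a, P.rho τ₀ a x₀ = gre P.rho τ₀ x₀ → P.be τ₀ a x₀ = q :=
    fun a ha => h.be_common hτ₀ hx₀ h0.ge ha ha₀
  have hν : ∀ a, P.rho τ₀ a x₀ = gre P.rho τ₀ x₀ → P.ν τ₀ a x₀ = ν₀ :=
    fun a ha => H.hν a a₀ ha ha₀
  have hν1 : ‖ν₀‖ = 1 := h.nn τ₀ hτ₀ a₀ x₀ hx₀
  have hqp : 0 < |q| := abs_pos.mpr hq0
  obtain ⟨g, hg1, hg2⟩ : ∃ g : ℝ, g * |q| = q ∧ |g| = 1 :=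
    ⟨q / |q|, by field_simp, by rw [abs_div, abs_abs, div_self hqp.ne']⟩
  have hg3 : g ^ 2 = 1 := by rw [← sq_abs, hg2]; norm_num
  obtain ⟨m, hm0, hm⟩ : ∃ m : ℝ, 0 < m ∧ ∀ a, ‖P.w τ₀ a x₀‖ ≤ m * |q| := by
    refine ⟨(∑ a, ‖P.w τ₀ a x₀‖ + 1) / |q|, ?_, fun a => ?_⟩
    · have : 0 ≤ ∑ a, ‖P.w τ₀ a x₀‖ := Finset.sum_nonneg fun a _ => norm_nonneg _
      positivity
    · rw [div_mul_cancel₀ _ hqp.ne']
      have : ‖P.w τ₀ a x₀‖ ≤ ∑ b, ‖P.w τ₀ b x₀‖ :=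
        Finset.single_le_sum (f := fun a => ‖P.w τ₀ a x₀‖) (fun a _ => norm_nonneg _)
          (Finset.mem_univ a)
      linarith
  obtain ⟨κ, hκ0, hκ1, hκ2⟩ : ∃ κ : ℝ, 0 < κ ∧ κ ≤ 1 ∧ 8 * (4 * κ * m) ≤ 1 := by
    refine ⟨min 1 (1 / (32 * m)), lt_min one_pos (by positivity), min_le_left _ _, ?_⟩
    calc 8 * (4 * min 1 (1 / (32 * m)) * m) ≤ 8 * (4 * (1 / (32 * m)) * m) := by
          gcongr; exact min_le_right _ _
      _ = 1 := by field_simp; norm_num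
  obtain ⟨U, hU, hev⟩ := H.toLoc0.est h.toBaseL hτ₀ hx₀ h0.ge hκ0 hκ1
  have hrew : ∀ (x : E) (γ : ℝ), x + γ • (D (m • ν₀) - g • u) =
      x + (D ((γ * m) • ν₀) + (-(γ * g)) • u) := fun x γ => by
    rw [smul_sub, map_smul, map_smul, smul_smul, smul_smul, neg_smul, sub_eq_add_neg]
  have hnorm : ∀ γ : ℝ, ‖(γ * m) • ν₀‖ = |γ| * m := fun γ => by
    rw [norm_smul, hν1, mul_one, Real.norm_eq_abs, abs_mul, abs_of_pos hm0]
  have hnl : ∀ γ : ℝ, |-(γ * g)| = |γ| := fun γ => by rw [abs_neg, abs_mul, hg2, mul_one]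
  have hκm : ∀ γ : ℝ, 8 * (4 * κ * (|γ| * m)) ≤ |γ| := fun γ => by
    have := mul_le_mul_of_nonneg_right hκ2 (abs_nonneg γ)
    linarith
  have hb : ∀ {τ a x γ}, P.rho τ₀ a x₀ = gre P.rho τ₀ x₀ →
      P.EstAt τ₀ x₀ L κ τ a x (x + (D ((γ * m) • ν₀) + (-(γ * g)) • u)) ((γ * m) • ν₀)
        (-(γ * g)) →
      |P.be τ a (x + γ • (D (m • ν₀) - g • u)) - P.be τ a x| ≤ (3 * m + 2 + |L|) * |γ| := by
    intro τ a x γ ha he
    have h1 := he.b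
    rw [hν a ha, real_inner_smul_left, real_inner_self_eq_norm_sq, hν1, hnorm, hnl, ← hrew,
      one_pow, mul_one] at h1
    set Δ := P.be τ a (x + γ • (D (m • ν₀) - g • u)) - P.be τ a x
    have h2 : |Δ| ≤ |Δ - γ * m| + |γ * m| := by
      have := abs_add_le (Δ - γ * m) (γ * m)
      rwa [sub_add_cancel] at this
    rw [abs_mul, abs_of_pos hm0] at h2
    have h3 := hκm γ
    have h4 : 0 ≤ |γ| * m := by positivity
    have h5 : 0 ≤ |L| * |γ| := by positivity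
    have h6 := abs_nonneg γ
    calc |Δ| ≤ _ := h2
      _ ≤ 3 * (|γ| * m) + 2 * |γ| + |L| * |γ| := by linarith
      _ = _ := by ring
  have hK : ∀ γ : ℝ, (3 * (|γ| * m) + |γ|) ≤ (3 * m + 2 + |L|) * |γ| := fun γ => by
    have h5 : 0 ≤ |L| * |γ| := by positivity
    have h6 := abs_nonneg γ
    calc _ ≤ 3 * (|γ| * m) + 2 * |γ| + |L| * |γ| := by linarith
      _ = _ := by ring
  refine h.regAt_radial hτ₀ hx hx₀ h0.ge H (κ₀ := |q| / 4) (K₀ := 3 * m + 2 + |L|) (q := q)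
    (by positivity) (by positivity) hq (by positivity) (D (m • ν₀) - g • u) ?_ ?_
  · intro a ha hta
    refine ⟨U, hU, ?_⟩
    filter_upwards [hev] with τ hτ x hxU γ hγ
    have he := hτ x hxU ((γ * m) • ν₀) (-(γ * g)) (by rw [← hrew]; exact hγ) a ha
    refine ⟨?_, ?_, hb ha he⟩
    · have hw0 : P.w τ₀ a x₀ ≠ 0 := by
        intro h1
        apply hq0
        rw [← hq a ha]
        unfold be
        rw [h1, inner_zero_left]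
      have hwp : 0 < ‖P.w τ₀ a x₀‖ := norm_pos_iff.mpr hw0
      have h1 := he.t hw0
      rw [hnorm, hnl, real_inner_smul_right, ← hrew] at h1
      have h2 : inner ℝ (P.w τ₀ a x₀) ν₀ = q := by rw [← hν a ha]; exact hq a ha
      rw [h2] at h1
      set Δ := P.tp τ a (x + γ • (D (m • ν₀) - g • u)) - P.tp τ a x
      rw [h0, zero_mul, zero_sub]
      have h3 : |q * γ * (Δ + γ * m * q / ‖P.w τ₀ a x₀‖)| ≤ |q| * |γ| * (1 / 2 * |γ|) := by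
        rw [abs_mul, abs_mul]
        refine mul_le_mul_of_nonneg_left ?_ (by positivity)
        linarith [hκm γ]
      have h4 := (abs_le.mp h3).2
      have h5 : |q| * |γ| * (1 / 2 * |γ|) = 1 / 2 * (|q| * γ ^ 2) := by
        rw [← sq_abs γ]; ring
      have h6 : q * γ * (Δ + γ * m * q / ‖P.w τ₀ a x₀‖) =
          γ * (q * Δ) + γ ^ 2 * (m * q ^ 2 / ‖P.w τ₀ a x₀‖) := by ring
      have h7 : |q| ≤ m * q ^ 2 / ‖P.w τ₀ a x₀‖ := by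
        rw [le_div_iff₀ hwp, ← sq_abs q]
        have := mul_le_mul_of_nonneg_left (hm a) hqp.le
        linarith
      have h8 : γ ^ 2 * |q| ≤ γ ^ 2 * (m * q ^ 2 / ‖P.w τ₀ a x₀‖) :=
        mul_le_mul_of_nonneg_left h7 (sq_nonneg _)
      have h9 : 0 ≤ |q| * γ ^ 2 := by positivity
      linarith
    · have h1 := he.t'
      rw [hnorm, hnl, ← hrew] at h1
      exact h1.trans (hK γ)
  · intro a ha hta
    refine ⟨U, hU, ?_⟩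
    filter_upwards [hev] with τ hτ x hxU γ hγ
    have he := hτ x hxU ((γ * m) • ν₀) (-(γ * g)) (by rw [← hrew]; exact hγ) a ha
    have hκγ := hκm γ
    have h6 := abs_nonneg γ
    refine ⟨?_, ?_, hb ha he⟩
    · have h1 := he.s' (hta.trans h0)
      rw [hnorm, hnl, ← hrew] at h1
      set Δ := P.σ τ a (x + γ • (D (m • ν₀) - g • u)) - P.σ τ a x
      rw [h0, zero_mul, zero_sub]
      have h2 : (-(γ * g)) ^ 2 = γ ^ 2 := by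
        rw [neg_sq, mul_pow, hg3, mul_one]
      rw [h2] at h1
      have h3 : κ * (|γ| * m) * |γ| ≤ 1 / 32 * γ ^ 2 := by
        have := mul_le_mul_of_nonneg_right hκγ h6
        have e : |γ| * |γ| = γ ^ 2 := by rw [← sq, sq_abs]
        rw [e] at this
        linarith
      have h4 : γ ^ 2 * |q| ≤ (-(γ * g) * Δ + 1 / 32 * γ ^ 2) * |q| :=
        mul_le_mul_of_nonneg_right (by linarith) hqp.le
      have h5 : (-(γ * g) * Δ + 1 / 32 * γ ^ 2) * |q| =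
          -(γ * (g * |q|) * Δ) + 1 / 32 * (|q| * γ ^ 2) := by ring
      rw [h5, hg1] at h4
      have h9 : 0 ≤ |q| * γ ^ 2 := by positivity
      linarith
    · have h1 := he.s
      rw [hnorm, hnl, ← hrew] at h1
      have h2 : L * |γ| ≤ |L| * |γ| := mul_le_mul_of_nonneg_right (le_abs_self L) h6
      have h4 : 0 ≤ |γ| * m := by positivity
      calc _ ≤ _ := h1
        _ ≤ 3 * (|γ| * m) + 2 * |γ| + |L| * |γ| := by linarith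
        _ = _ := by ring

theorem BaseL.exists_omega (h : P.BaseL s η N) {τ₀ : T} (hτ₀ : τ₀ ∈ s) {x₀ : E}
    (hx₀ : N x₀ ≠ 0) (h0 : gre P.rho τ₀ x₀ = 0) {D : V →L[ℝ] E} {u : E} {L : ℝ}
    (H : P.Loc0 s τ₀ x₀ D u L) {a₀ : A} (ha₀ : P.rho τ₀ a₀ x₀ = gre P.rho τ₀ x₀)
    (hq0 : P.be τ₀ a₀ x₀ = 0) :
    ∃ ω : V, ‖ω‖ ≤ 1 ∧ inner ℝ ω (P.ν τ₀ a₀ x₀) = 0 ∧
      ∀ a, P.rho τ₀ a x₀ = gre P.rho τ₀ x₀ → P.tp τ₀ a x₀ = 0 →
        P.w τ₀ a x₀ ≠ 0 ∧ P.w τ₀ a x₀ = -(‖P.w τ₀ a x₀‖ • ω) := by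
  have hne : ∀ a, P.rho τ₀ a x₀ = gre P.rho τ₀ x₀ → P.tp τ₀ a x₀ = 0 → P.w τ₀ a x₀ ≠ 0 := by
    intro a ha hta hw
    have := H.rpos a ha
    unfold tp at hta
    rw [hw, norm_zero] at hta
    linarith
  by_cases hex : ∃ b, P.rho τ₀ b x₀ = gre P.rho τ₀ x₀ ∧ P.tp τ₀ b x₀ = 0
  · obtain ⟨b, hb, htb⟩ := hex
    have hwb : 0 < ‖P.w τ₀ b x₀‖ := norm_pos_iff.mpr (hne b hb htb)
    refine ⟨-(‖P.w τ₀ b x₀‖⁻¹ • P.w τ₀ b x₀), ?_, ?_, fun a ha hta => ⟨hne a ha hta, ?_⟩⟩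
    · rw [norm_neg, norm_smul, norm_inv, norm_norm, inv_mul_cancel₀ hwb.ne']
    · rw [inner_neg_left, real_inner_smul_left, H.hν a₀ b ha₀ hb]
      have h1 : inner ℝ (P.w τ₀ b x₀) (P.ν τ₀ b x₀) = P.be τ₀ b x₀ := rfl
      rw [h1, h.be_common hτ₀ hx₀ h0.ge hb ha₀, hq0, mul_zero, neg_zero]
    · have h1 := H.rim h0 a b (ha.trans h0) (hb.trans h0) hta htb
      rw [smul_neg, neg_neg, smul_smul, mul_comm, ← smul_smul, ← h1, smul_smul,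
        inv_mul_cancel₀ hwb.ne', one_smul]
  · exact ⟨0, by simp, inner_zero_left _, fun a ha hta => absurd ⟨a, ha, hta⟩ hex⟩

/-- The plane of the case `v = q = 0`. -/
noncomputable def rimA (D : V →L[ℝ] E) (u : E) (ω ν₀ : V) : ℂ →L[ℝ] E :=
  Complex.reCLM.smulRight (D ω + u) + Complex.imCLM.smulRight (D ν₀)

theorem rimA_apply (D : V →L[ℝ] E) (u : E) (ω ν₀ : V) (c : ℂ) :
    rimA D u ω ν₀ c = D (c.re • ω + c.im • ν₀) + c.re • u := by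
  simp only [rimA, ContinuousLinearMap.add_apply, ContinuousLinearMap.smulRight_apply,
    Complex.reCLM_apply, Complex.imCLM_apply, map_add, map_smul, smul_add]
  abel

theorem rim_alg1 {a b Δh Δb : ℝ} (h1 : |Δb - b| ≤ 1 / 16 * (|a| + |b|) + 3 / 8 * |a|)
    (h2 : |Δh - a| ≤ 1 / 16 * (|a| + |b|) + 3 / 8 * |a|) :
    1 / 4 * (a ^ 2 + b ^ 2) ≤ Δh * a + Δb * b := by
  have e1 : |(Δb - b) * b| ≤ (1 / 16 * (|a| + |b|) + 3 / 8 * |a|) * |b| := by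
    rw [abs_mul]; exact mul_le_mul_of_nonneg_right h1 (abs_nonneg _)
  have e2 : |(Δh - a) * a| ≤ (1 / 16 * (|a| + |b|) + 3 / 8 * |a|) * |a| := by
    rw [abs_mul]; exact mul_le_mul_of_nonneg_right h2 (abs_nonneg _)
  have e3 := (abs_le.mp e1).1
  have e4 := (abs_le.mp e2).1
  have e5 : a ^ 2 = |a| ^ 2 := (sq_abs a).symm
  have e6 : b ^ 2 = |b| ^ 2 := (sq_abs b).symm
  have e7 : 0 ≤ (|a| - |b|) ^ 2 := sq_nonneg _
  have e8 : Δh * a + Δb * b = a ^ 2 + b ^ 2 + ((Δh - a) * a + (Δb - b) * b) := by ring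
  rw [e8, e5, e6]
  set x := |a|
  set y := |b|
  nlinarith [abs_nonneg a, abs_nonneg b, sq_nonneg x, sq_nonneg y]

theorem rim_alg2 {a b Δh Δb V : ℝ} (h1 : |Δb - b| ≤ 1 / 16 * (|a| + |b|) + 3 / 8 * |a|)
    (hV : V ≤ |a| + |b|) (h2 : a ^ 2 ≤ a * Δh + 1 / 64 * V * |a|) :
    1 / 4 * (a ^ 2 + b ^ 2) ≤ Δh * a + Δb * b := by
  have e1 : |(Δb - b) * b| ≤ (1 / 16 * (|a| + |b|) + 3 / 8 * |a|) * |b| := by
    rw [abs_mul]; exact mul_le_mul_of_nonneg_right h1 (abs_nonneg _)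
  have e3 := (abs_le.mp e1).1
  have e4 : V * |a| ≤ (|a| + |b|) * |a| := mul_le_mul_of_nonneg_right hV (abs_nonneg _)
  have e5 : a ^ 2 = |a| ^ 2 := (sq_abs a).symm
  have e6 : b ^ 2 = |b| ^ 2 := (sq_abs b).symm
  have e7 : 0 ≤ (|a| - |b|) ^ 2 := sq_nonneg _
  have e8 : Δh * a + Δb * b = a * Δh + (b ^ 2 + (Δb - b) * b) := by ring
  rw [e8, e5, e6]
  rw [e5] at h2
  set x := |a|
  set y := |b|
  nlinarith [abs_nonneg a, abs_nonneg b, sq_nonneg x, sq_nonneg y]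

/-- Case `v = q = 0`. -/
theorem BaseL.regAt_rim (h : P.BaseL s η N) {τ₀ : T} (hτ₀ : τ₀ ∈ s) {x₀ : E}
    (hx₀ : N x₀ ≠ 0) (h0 : gre P.rho τ₀ x₀ = 0) {D : V →L[ℝ] E} {u : E} {L : ℝ}
    (H : P.Loc0 s τ₀ x₀ D u L) {a₀ : A} (ha₀ : P.rho τ₀ a₀ x₀ = gre P.rho τ₀ x₀)
    (hq0 : P.be τ₀ a₀ x₀ = 0) : RegAt s (P.fn η N) τ₀ x₀ := by
  obtain ⟨ω, hω1, hω2, hω3⟩ := h.exists_omega hτ₀ hx₀ h0 H ha₀ hq0
  set ν₀ := P.ν τ₀ a₀ x₀ with hν₀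
  have hν : ∀ a, P.rho τ₀ a x₀ = gre P.rho τ₀ x₀ → P.ν τ₀ a x₀ = ν₀ :=
    fun a ha => H.hν a a₀ ha ha₀
  have hν1 : ‖ν₀‖ = 1 := h.nn τ₀ hτ₀ a₀ x₀ hx₀
  have ct : ∀ a, ContinuousWithinAt (fun p : T × E => P.tp p.1 a p.2) (s ×ˢ univ) (τ₀, x₀) :=
    fun a => h.continuousOn_tp a (τ₀, x₀) ⟨hτ₀, mem_univ _⟩
  have cs : ∀ a, ContinuousWithinAt (fun p : T × E => P.σ p.1 a p.2) (s ×ˢ univ) (τ₀, x₀) :=
    fun a => h.cs a (τ₀, x₀) ⟨hτ₀, mem_univ _⟩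
  obtain ⟨U, hU, hev⟩ := H.est h hτ₀ hx₀ h0.ge (κ := 1 / 64) (by norm_num) (by norm_num)
  have hvn : ∀ c : ℂ, ‖c.re • ω + c.im • ν₀‖ ≤ |c.re| + |c.im| := by
    intro c
    refine (norm_add_le _ _).trans ?_
    rw [norm_smul, norm_smul, hν1, mul_one, Real.norm_eq_abs, Real.norm_eq_abs]
    have : |c.re| * ‖ω‖ ≤ |c.re| * 1 := mul_le_mul_of_nonneg_left hω1 (abs_nonneg _)
    linarith
  have hnc : ∀ c : ℂ, ‖c‖ ^ 2 = c.re ^ 2 + c.im ^ 2 := fun c => by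
    rw [Complex.sq_norm, Complex.normSq_apply]; ring
  have hcr := Complex.abs_re_le_norm
  have hci := Complex.abs_im_le_norm
  have hL : L ≤ |L| := le_abs_self L
  have hL0 := abs_nonneg L
  have hb : ∀ {τ a y} {c : ℂ}, P.rho τ₀ a x₀ = gre P.rho τ₀ x₀ →
      P.EstAt τ₀ x₀ L (1 / 64) τ a y (y + (D (c.re • ω + c.im • ν₀) + c.re • u))
        (c.re • ω + c.im • ν₀) c.re →
      |P.be τ a (y + rimA D u ω ν₀ c) - P.be τ a y - c.im| ≤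
        1 / 16 * (|c.re| + |c.im|) + 3 / 8 * |c.re| := by
    intro τ a y c ha he
    have h1 := he.b
    have h2 : inner ℝ (c.re • ω + c.im • ν₀) ν₀ = c.im := by
      rw [inner_add_left, real_inner_smul_left, real_inner_smul_left, hω2,
        real_inner_self_eq_norm_sq, hν1]
      ring
    rw [hν a ha, h2] at h1
    rw [rimA_apply]
    have := hvn c
    linarith
  have hb' : ∀ {Δ : ℝ} {c : ℂ}, |Δ - c.im| ≤ 1 / 16 * (|c.re| + |c.im|) + 3 / 8 * |c.re| →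
      |Δ| ≤ (7 + |L|) * ‖c‖ := by
    intro Δ c h1
    have h2 : |Δ| ≤ |Δ - c.im| + |c.im| := by
      have := abs_add_le (Δ - c.im) c.im
      rwa [sub_add_cancel] at this
    have h3 : 0 ≤ |L| * ‖c‖ := by positivity
    have h4 := hcr c
    have h5 := hci c
    have h6 := norm_nonneg c
    have h7 : (7 + |L|) * ‖c‖ = 7 * ‖c‖ + |L| * ‖c‖ := by ring
    rw [h7]
    linarith
  refine h.glueL.regAt_min (f := P.tp) (g := P.σ) (fun _ _ _ => rfl) hτ₀ hx₀ h0.ge ct cs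
    (κ := 1 / 4) (K := 7 + |L|) (by norm_num) (rimA D u ω ν₀) ?_ ?_
  · intro a ha hta
    obtain ⟨hw0, hw1⟩ := hω3 a ha (hta.trans h0)
    have hwp : 0 < ‖P.w τ₀ a x₀‖ := norm_pos_iff.mpr hw0
    have hωn : ‖ω‖ = 1 := by
      have h1 : ‖P.w τ₀ a x₀‖ = ‖P.w τ₀ a x₀‖ * ‖ω‖ := by
        conv_lhs => rw [hw1]
        rw [norm_neg, norm_smul, norm_norm]
      have h2 : ‖P.w τ₀ a x₀‖ * (‖ω‖ - 1) = 0 := by rw [mul_sub, ← h1]; ring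
      have := (mul_eq_zero.mp h2).resolve_left hwp.ne'
      linarith
    refine ⟨U, hU, ?_⟩
    filter_upwards [hev] with τ hτ y hy c hc
    have he := hτ y hy (c.re • ω + c.im • ν₀) c.re (by rw [← rimA_apply]; exact hc) a ha
    have hb1 := hb ha he
    have ht : |P.tp τ a (y + rimA D u ω ν₀ c) - P.tp τ a y - c.re| ≤
        1 / 16 * (|c.re| + |c.im|) + 3 / 8 * |c.re| := by
      have h1 := he.t hw0
      have h2 : inner ℝ (P.w τ₀ a x₀) (c.re • ω + c.im • ν₀) / ‖P.w τ₀ a x₀‖ = -c.re := by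
        have h3 : inner ℝ (P.w τ₀ a x₀) (c.re • ω + c.im • ν₀) = -(‖P.w τ₀ a x₀‖ * c.re) := by
          conv_lhs => rw [hw1]
          rw [inner_neg_left, real_inner_smul_left, inner_add_right, real_inner_smul_right,
            real_inner_smul_right, real_inner_self_eq_norm_sq, hωn, hω2]
          ring
        rw [h3, neg_div, mul_comm, mul_div_cancel_right₀ _ hwp.ne']
      rw [h2, ← rimA_apply, ← sub_eq_add_neg] at h1
      have := hvn c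
      linarith
    refine ⟨?_, ?_, hb' hb1⟩
    · rw [hnc]; exact rim_alg1 hb1 ht
    · have h1 := he.t'
      rw [← rimA_apply] at h1
      have h3 : 0 ≤ |L| * ‖c‖ := by positivity
      have h7 : (7 + |L|) * ‖c‖ = 7 * ‖c‖ + |L| * ‖c‖ := by ring
      rw [h7]
      linarith [hcr c, hci c, hvn c]
  · intro a ha hta
    refine ⟨U, hU, ?_⟩
    filter_upwards [hev] with τ hτ y hy c hc
    have he := hτ y hy (c.re • ω + c.im • ν₀) c.re (by rw [← rimA_apply]; exact hc) a ha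
    have hb1 := hb ha he
    refine ⟨?_, ?_, hb' hb1⟩
    · have h1 := he.s' (hta.trans h0)
      rw [← rimA_apply] at h1
      rw [hnc]; exact rim_alg2 hb1 (hvn c) h1
    · have h1 := he.s
      rw [← rimA_apply] at h1
      have h3 : L * |c.re| ≤ |L| * ‖c‖ :=
        (mul_le_mul_of_nonneg_right hL (abs_nonneg _)).trans
          (mul_le_mul_of_nonneg_left (hcr c) hL0)
      have h7 : (7 + |L|) * ‖c‖ = 7 * ‖c‖ + |L| * ‖c‖ := by ring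
      rw [h7]
      linarith [hcr c, hci c, hvn c, norm_nonneg c]

/-- Regularity at a point where the real part is nonnegative. -/
theorem Base.regAt (h : P.Base s η N) {τ₀ : T} (hτ₀ : τ₀ ∈ s) {x₀ : E} (hx : x₀ ≠ 0)
    (h0 : 0 ≤ gre P.rho τ₀ x₀) {D : V →L[ℝ] E} {u : E} {L : ℝ}
    (H : P.Loc s τ₀ x₀ D u L) : RegAt s (P.fn η N) τ₀ x₀ := by
  have hx₀ : N x₀ ≠ 0 := h.glue.N_ne hτ₀ hx h0
  rcases h0.eq_or_lt with h1 | h1
  · obtain ⟨a₀, ha₀⟩ := exists_gre P.rho τ₀ x₀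
    by_cases hq : P.be τ₀ a₀ x₀ = 0
    · exact h.regAt_rim hτ₀ hx₀ h1.symm H.toLoc0 ha₀.symm hq
    · exact h.regAt_im hτ₀ hx hx₀ h1.symm H ha₀.symm hq
  · exact h.regAt_pos hτ₀ hx hx₀ h1 H

/-- **Sheets lemma**: a family of sheets satisfying the global conditions and, at the points with
nonnegative real part, the local conditions for its active sheets, is in the class `H`. -/
theorem Base.hfam (h : P.Base s η N)
    (H : ∀ τ₀ ∈ s, ∀ x₀, x₀ ≠ 0 → N x₀ ≠ 0 → 0 ≤ gre P.rho τ₀ x₀ →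
      ∃ (D : V →L[ℝ] E) (u : E) (L : ℝ), P.Loc s τ₀ x₀ D u L) : HFam s (P.fn η N) where
  cont := h.glue.continuousOn_fn
  hom := fun τ hτ => h.glue.hom1 hτ
  reg := fun τ hτ x hx h0 => by
    obtain ⟨D, u, L, hL⟩ := H τ hτ x hx (h.glue.N_ne hτ hx h0) h0
    exact h.regAt hτ hx h0 hL

/-- Regularity at a zero; no Lipschitz condition and no homogeneity is needed. -/
theorem BaseL.regAt_zero (h : P.BaseL s η N) {τ₀ : T} (hτ₀ : τ₀ ∈ s) {x₀ : E} (hx₀ : N x₀ ≠ 0)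
    (h0 : P.fn η N τ₀ x₀ = 0) {D : V →L[ℝ] E} {u : E} {L : ℝ}
    (H : P.Loc0 s τ₀ x₀ D u L) : RegAt s (P.fn η N) τ₀ x₀ := by
  have h1 : gre P.rho τ₀ x₀ = 0 := congrArg Complex.re h0
  have h2 : gim η N P.rho P.be τ₀ x₀ = 0 := congrArg Complex.im h0
  have hn : 0 < N x₀ := lt_of_le_of_ne (h.nN x₀) (Ne.symm hx₀)
  have hη := h.hη
  obtain ⟨a₀, ha₀⟩ := exists_gre P.rho τ₀ x₀
  have h3 : 0 < η / 2 * N x₀ := by positivity
  have h4 : P.be τ₀ a₀ x₀ = 0 := by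
    rw [← h.glueL.im_eq hτ₀ hx₀ (a := a₀) (by rw [← ha₀, h1]; linarith), h2]
  exact h.regAt_rim hτ₀ hx₀ h1 H ha₀.symm h4

/-- **Sheets lemma, zero version**: local conditions (without Lipschitz data) only at the zeros;
the family is in the class `R`. -/
theorem Base.rfam (h : P.Base s η N)
    (H : ∀ τ₀ ∈ s, ∀ x₀, x₀ ≠ 0 → N x₀ ≠ 0 → P.fn η N τ₀ x₀ = 0 → gre P.rho τ₀ x₀ = 0 →
      ∃ (D : V →L[ℝ] E) (u : E) (L : ℝ), P.Loc0 s τ₀ x₀ D u L) : RFam s (P.fn η N) where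
  cont := h.glue.continuousOn_fn
  hom := fun τ hτ => h.glue.hom1 hτ
  reg := fun τ hτ x hx h0 => by
    have h1 : gre P.rho τ x = 0 := congrArg Complex.re h0
    obtain ⟨D, u, L, hL⟩ := H τ hτ x hx (h.glue.N_ne hτ hx h1.ge) h0 h1
    exact h.regAt_zero hτ (h.glue.N_ne hτ hx h1.ge) h0 hL

end SheetData

end Vale.Agent.P268.T
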