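import Vale.Agent.P268.T.Flow

/-!
# P268 / topology: the isotopy lemma

A `C²` path of functions `F (s, ·) : E → ℂ`, positively homogeneous of degree `2` and regular along
their zero sets off `0`, gives a homeomorphism of `E` carrying the zero set of `F (0, ·)` onto the
zero set of `F (1, ·)`.
-/

namespace Vale.Agent.P268.T

open Set Metric ContinuousLinearMap
open scoped NNReal Topology InnerProductSpace

section LemmaE

variable {E : Type*} [NormedAddCommGroup E] [InnerProductSpace ℝ E] [CompleteSpace E]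

/-- derivative in the second variable -/
noncomputable def Dx (F : ℝ × E → ℂ) (p : ℝ × E) : E →L[ℝ] ℂ :=
  (fderiv ℝ F p).comp (ContinuousLinearMap.inr ℝ ℝ E)

/-- derivative in the first variable -/
noncomputable def Ds (F : ℝ × E → ℂ) (p : ℝ × E) : ℂ := fderiv ℝ F p (1, 0)

/-- `A A† + |F|² / |x|²` -/
noncomputable def MM (F : ℝ × E → ℂ) (p : ℝ × E) : ℂ →L[ℝ] ℂ :=
  (Dx F p).comp (adjoint (Dx F p)) + (‖F p‖ ^ 2 / ‖p.2‖ ^ 2) • ContinuousLinearMap.id ℝ ℂ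

/-- the vector field -/
noncomputable def XX (F : ℝ × E → ℂ) (p : ℝ × E) : E :=
  -(adjoint (Dx F p) (Ring.inverse (MM F p) (Ds F p)))

theorem isUnit_MM {F : ℝ × E → ℂ} {p : ℝ × E} (hp : p.2 ≠ 0)
    (h : F p = 0 → Function.Surjective (Dx F p)) : IsUnit (MM F p) := by
  have hinj : Function.Injective (MM F p) := by
    rw [injective_iff_map_eq_zero]
    intro z hz
    have h1 : ⟪MM F p z, z⟫_ℝ = ‖adjoint (Dx F p) z‖ ^ 2 + ‖F p‖ ^ 2 / ‖p.2‖ ^ 2 * ‖z‖ ^ 2 := by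
      simp only [MM, add_apply, ContinuousLinearMap.comp_apply,
        smul_apply, ContinuousLinearMap.id_apply, inner_add_left]
      rw [real_inner_smul_left, real_inner_self_eq_norm_sq, ← adjoint_inner_right,
        real_inner_self_eq_norm_sq]
    rw [hz, inner_zero_left] at h1
    have h2 : 0 ≤ ‖F p‖ ^ 2 / ‖p.2‖ ^ 2 * ‖z‖ ^ 2 := by positivity
    have h3 : 0 ≤ ‖adjoint (Dx F p) z‖ ^ 2 := by positivity
    have h4 : ‖adjoint (Dx F p) z‖ ^ 2 = 0 := by linarith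
    have h5 : ‖F p‖ ^ 2 / ‖p.2‖ ^ 2 * ‖z‖ ^ 2 = 0 := by linarith
    by_cases hF : F p = 0
    · obtain ⟨x, hx⟩ := h hF z
      have h6 : adjoint (Dx F p) z = 0 := by
        rw [← norm_eq_zero]; exact pow_eq_zero_iff (two_ne_zero) |>.mp h4
      have h7 : ⟪z, z⟫_ℝ = 0 := by
        nth_rw 2 [← hx]
        rw [← adjoint_inner_left, h6, inner_zero_left]
      exact inner_self_eq_zero.mp h7
    · have h6 : ‖F p‖ ^ 2 / ‖p.2‖ ^ 2 ≠ 0 := by
        have : ‖F p‖ ≠ 0 := norm_ne_zero_iff.mpr hF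
        have : ‖p.2‖ ≠ 0 := norm_ne_zero_iff.mpr hp
        positivity
      have h7 : ‖z‖ ^ 2 = 0 := by
        rcases mul_eq_zero.mp h5 with h8 | h8
        · exact absurd h8 h6
        · exact h8
      rw [← norm_eq_zero]
      exact pow_eq_zero_iff (two_ne_zero) |>.mp h7
  have h8 : IsUnit ((MM F p : ℂ →L[ℝ] ℂ) : ℂ →ₗ[ℝ] ℂ) := by
    rw [Module.End.isUnit_iff, Function.Bijective]
    refine ⟨hinj, ?_⟩
    exact LinearMap.surjective_of_injective (f := ((MM F p : ℂ →L[ℝ] ℂ) : ℂ →ₗ[ℝ] ℂ)) hinj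
  have hbij : Function.Bijective (MM F p) := (Module.End.isUnit_iff _).mp h8
  exact ContinuousLinearMap.isUnit_iff_bijective.mpr hbij

variable {F : ℝ × E → ℂ}

theorem contDiffAt_fderiv {p : ℝ × E} (h : ContDiffAt ℝ 2 F p) :
    ContDiffAt ℝ 1 (fderiv ℝ F) p :=
  h.fderiv_right (m := 1) (by norm_num)

theorem contDiffAt_Dx {p : ℝ × E} (h : ContDiffAt ℝ 2 F p) : ContDiffAt ℝ 1 (Dx F) p :=
  (contDiffAt_fderiv h).clm_comp contDiffAt_const

theorem contDiffAt_Ds {p : ℝ × E} (h : ContDiffAt ℝ 2 F p) : ContDiffAt ℝ 1 (Ds F) p :=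
  (contDiffAt_fderiv h).clm_apply contDiffAt_const

theorem contDiff_adjoint : ContDiff ℝ 1 (fun A : E →L[ℝ] ℂ => adjoint A) :=
  (adjoint : (E →L[ℝ] ℂ) ≃ₗᵢ⋆[ℝ] (ℂ →L[ℝ] E)).contDiff

theorem contDiffAt_MM {p : ℝ × E} (hp : p.2 ≠ 0) (h : ContDiffAt ℝ 2 F p) :
    ContDiffAt ℝ 1 (MM F) p := by
  have h1 := contDiffAt_Dx h
  have h2 : ContDiffAt ℝ 1 (fun q : ℝ × E => adjoint (Dx F q)) p :=
    contDiff_adjoint.contDiffAt.comp p h1
  have h3 : ContDiffAt ℝ 1 (fun q : ℝ × E => ‖F q‖ ^ 2 / ‖q.2‖ ^ 2) p := by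
    refine ContDiffAt.div ?_ ?_ (by simpa using hp)
    · exact (h.of_le (by norm_num)).norm_sq ℝ
    · exact contDiffAt_snd.norm_sq ℝ
  exact (h1.clm_comp h2).add (h3.smul contDiffAt_const)

theorem contDiffAt_XX {p : ℝ × E} (hp : p.2 ≠ 0) (h : ContDiffAt ℝ 2 F p)
    (hu : IsUnit (MM F p)) : ContDiffAt ℝ 1 (XX F) p := by
  have h1 := contDiffAt_Dx h
  have h2 : ContDiffAt ℝ 1 (fun q : ℝ × E => adjoint (Dx F q)) p :=
    contDiff_adjoint.contDiffAt.comp p h1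
  obtain ⟨u, hu'⟩ := hu
  have h3 : ContDiffAt ℝ 1 (fun q : ℝ × E => Ring.inverse (MM F q)) p := by
    have h4 : ContDiffAt ℝ 1 Ring.inverse (MM F p) := by
      rw [← hu']; exact contDiffAt_ringInverse ℝ u
    exact h4.comp p (contDiffAt_MM hp h)
  exact ((h2.clm_apply (h3.clm_apply (contDiffAt_Ds h)))).neg

/-! ### homogeneity -/

/-- scaling of the second variable -/
noncomputable def scl (c : ℝ) (hc : c ≠ 0) : (ℝ × E) ≃L[ℝ] (ℝ × E) :=
  (ContinuousLinearEquiv.refl ℝ ℝ).prodCongr (ContinuousLinearEquiv.smulLeft (Units.mk0 c hc))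

theorem scl_apply (c : ℝ) (hc : c ≠ 0) (p : ℝ × E) : scl c hc p = (p.1, c • p.2) := rfl

theorem fderiv_scl (hhom : ∀ s c : ℝ, 0 < c → ∀ x, F (s, c • x) = (c : ℂ) ^ 2 * F (s, x))
    {c : ℝ} (hc : 0 < c) (p : ℝ × E) :
    (fderiv ℝ F (p.1, c • p.2)).comp (scl (E := E) c hc.ne').toContinuousLinearMap =
      (c ^ 2 : ℝ) • fderiv ℝ F p := by
  have h1 := (scl (E := E) c hc.ne').comp_right_fderiv (f := F) (x := p)
  rw [scl_apply] at h1
  rw [← h1]
  have h2 : F ∘ (scl (E := E) c hc.ne') = (c ^ 2 : ℝ) • F := by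
    funext q
    rw [Function.comp_apply, scl_apply, hhom q.1 c hc q.2, Pi.smul_apply, Complex.real_smul]
    push_cast
    rfl
  rw [h2]
  rw [fderiv_const_smul_field (c ^ 2 : ℝ)]
  rfl

theorem Dx_scl (hhom : ∀ s c : ℝ, 0 < c → ∀ x, F (s, c • x) = (c : ℂ) ^ 2 * F (s, x))
    {c : ℝ} (hc : 0 < c) (p : ℝ × E) : Dx F (p.1, c • p.2) = c • Dx F p := by
  ext x
  have h1 := congrArg (fun A : (ℝ × E) →L[ℝ] ℂ => A (0, c⁻¹ • x)) (fderiv_scl hhom hc p)
  simp only [ContinuousLinearMap.comp_apply, smul_apply, ContinuousLinearEquiv.coe_coe,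
    scl_apply] at h1
  rw [smul_inv_smul₀ hc.ne'] at h1
  simp only [Dx, ContinuousLinearMap.comp_apply, ContinuousLinearMap.inr_apply, smul_apply]
  rw [h1]
  have h2 : ((0 : ℝ), c⁻¹ • x) = c⁻¹ • ((0 : ℝ), x) := by simp
  rw [h2, map_smul, smul_smul]
  congr 1
  field_simp

theorem Ds_scl (hhom : ∀ s c : ℝ, 0 < c → ∀ x, F (s, c • x) = (c : ℂ) ^ 2 * F (s, x))
    {c : ℝ} (hc : 0 < c) (p : ℝ × E) : Ds F (p.1, c • p.2) = (c ^ 2 : ℝ) • Ds F p := by
  have h1 := congrArg (fun A : (ℝ × E) →L[ℝ] ℂ => A (1, 0)) (fderiv_scl hhom hc p)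
  simp only [ContinuousLinearMap.comp_apply, smul_apply, ContinuousLinearEquiv.coe_coe,
    scl_apply, smul_zero] at h1
  exact h1

theorem MM_scl (hhom : ∀ s c : ℝ, 0 < c → ∀ x, F (s, c • x) = (c : ℂ) ^ 2 * F (s, x))
    {c : ℝ} (hc : 0 < c) (p : ℝ × E) : MM F (p.1, c • p.2) = (c ^ 2 : ℝ) • MM F p := by
  have h1 : ‖F (p.1, c • p.2)‖ ^ 2 / ‖c • p.2‖ ^ 2 = c ^ 2 * (‖F p‖ ^ 2 / ‖p.2‖ ^ 2) := by
    rw [hhom p.1 c hc p.2, norm_mul, norm_pow, Complex.norm_real, Real.norm_of_nonneg hc.le,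
      norm_smul, Real.norm_of_nonneg hc.le]
    by_cases hp : ‖p.2‖ = 0
    · simp [hp]
    · field_simp
  unfold MM
  rw [Dx_scl hhom hc p]
  change (c • Dx F p).comp (adjoint (c • Dx F p)) +
    (‖F (p.1, c • p.2)‖ ^ 2 / ‖c • p.2‖ ^ 2) • ContinuousLinearMap.id ℝ ℂ = _
  rw [h1, map_smulₛₗ, smul_add, smul_smul]
  simp only [smul_comp, comp_smul, smul_smul, conj_trivial]
  rw [pow_two]

theorem inverse_smul {M : ℂ →L[ℝ] ℂ} (hM : IsUnit M) {c : ℝ} (hc : c ≠ 0) :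
    Ring.inverse (c • M) = c⁻¹ • Ring.inverse M := by
  obtain ⟨u, rfl⟩ := hM
  have e1 : ∀ z, (u : ℂ →L[ℝ] ℂ) (((u⁻¹ : (ℂ →L[ℝ] ℂ)ˣ) : ℂ →L[ℝ] ℂ) z) = z := fun z =>
    congrArg (fun A : ℂ →L[ℝ] ℂ => A z) u.mul_inv
  have e2 : ∀ z, ((u⁻¹ : (ℂ →L[ℝ] ℂ)ˣ) : ℂ →L[ℝ] ℂ) ((u : ℂ →L[ℝ] ℂ) z) = z := fun z =>
    congrArg (fun A : ℂ →L[ℝ] ℂ => A z) u.inv_mul
  let w : (ℂ →L[ℝ] ℂ)ˣ :=
    { val := c • (u : ℂ →L[ℝ] ℂ)
      inv := c⁻¹ • ((u⁻¹ : (ℂ →L[ℝ] ℂ)ˣ) : ℂ →L[ℝ] ℂ)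
      val_inv := by
        refine ContinuousLinearMap.ext fun z => ?_
        change c • (u : ℂ →L[ℝ] ℂ) (c⁻¹ • ((u⁻¹ : (ℂ →L[ℝ] ℂ)ˣ) : ℂ →L[ℝ] ℂ) z) = z
        rw [map_smul, e1, smul_smul, mul_inv_cancel₀ hc, one_smul]
      inv_val := by
        refine ContinuousLinearMap.ext fun z => ?_
        change c⁻¹ • ((u⁻¹ : (ℂ →L[ℝ] ℂ)ˣ) : ℂ →L[ℝ] ℂ) (c • (u : ℂ →L[ℝ] ℂ) z) = z
        rw [map_smul, e2, smul_smul, inv_mul_cancel₀ hc, one_smul] }
  have h1 : w.val = c • (u : ℂ →L[ℝ] ℂ) := rfl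
  rw [← h1, Ring.inverse_unit, Ring.inverse_unit]
  rfl

theorem XX_scl (hhom : ∀ s c : ℝ, 0 < c → ∀ x, F (s, c • x) = (c : ℂ) ^ 2 * F (s, x))
    {c : ℝ} (hc : 0 < c) (p : ℝ × E) (hu : IsUnit (MM F p)) :
    XX F (p.1, c • p.2) = c • XX F p := by
  unfold XX
  rw [Dx_scl hhom hc p, Ds_scl hhom hc p, MM_scl hhom hc p,
    inverse_smul hu (by positivity : (c ^ 2 : ℝ) ≠ 0), map_smulₛₗ]
  simp only [smul_apply, map_smul, conj_trivial, smul_neg, smul_smul]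
  congr 2
  field_simp

/-! ### Lipschitz bounds -/

/-- A map homogeneous of degree one, bounded on the sphere, with bounded derivative on an
annulus, is Lipschitz. -/
theorem lipschitz_of_homog {g : E → E} {C1 C2 : ℝ} (h0 : g 0 = 0)
    (hh : ∀ c : ℝ, 0 < c → ∀ x, x ≠ 0 → g (c • x) = c • g x)
    (hb : ∀ x, ‖x‖ = 1 → ‖g x‖ ≤ C2) (hC2 : 0 ≤ C2)
    (hd : ∀ x, 1 / 2 ≤ ‖x‖ → ‖x‖ ≤ 1 → DifferentiableAt ℝ g x ∧ ‖fderiv ℝ g x‖ ≤ C1) :
    LipschitzWith (Real.toNNReal (max C1 (4 * C2))) g := by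
  have hK : 0 ≤ max C1 (4 * C2) := le_max_of_le_right (by positivity)
  have hh0 : ∀ c : ℝ, 0 < c → ∀ x, g (c • x) = c • g x := by
    intro c hc x
    by_cases hx : x = 0
    · rw [hx, smul_zero, h0, smul_zero]
    · exact hh c hc x hx
  have hgn : ∀ x, ‖g x‖ ≤ C2 * ‖x‖ := by
    intro x
    by_cases hx : x = 0
    · rw [hx, h0]; simp
    · have hx' : 0 < ‖x‖ := norm_pos_iff.mpr hx
      have h1 : g x = ‖x‖ • g (‖x‖⁻¹ • x) := by
        rw [← hh0 _ hx', smul_inv_smul₀ hx'.ne']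
      rw [h1, norm_smul, norm_norm, mul_comm C2]
      exact mul_le_mul_of_nonneg_left (hb _ (by rw [norm_smul, norm_inv, norm_norm,
        inv_mul_cancel₀ hx'.ne'])) hx'.le
  have hA : ∀ x y, ‖x‖ = 1 → ‖y‖ ≤ 1 → ‖g x - g y‖ ≤ max C1 (4 * C2) * ‖x - y‖ := by
    intro x y hx hy
    by_cases hxy : ‖x - y‖ ≤ 1 / 2
    · have hs : Convex ℝ (closedBall (0 : E) 1 ∩ closedBall x (1 / 2)) :=
        (convex_closedBall _ _).inter (convex_closedBall _ _)
      have hmem : ∀ z ∈ closedBall (0 : E) 1 ∩ closedBall x (1 / 2), 1 / 2 ≤ ‖z‖ ∧ ‖z‖ ≤ 1 := by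
        intro z hz
        have h1 : ‖z‖ ≤ 1 := by simpa using hz.1
        have h2 : ‖z - x‖ ≤ 1 / 2 := by simpa [dist_eq_norm] using hz.2
        have h3 : ‖x‖ ≤ ‖z‖ + ‖z - x‖ := by
          have := norm_sub_le z (z - x)
          rwa [sub_sub_cancel] at this
        exact ⟨by linarith, h1⟩
      have := hs.norm_image_sub_le_of_norm_fderiv_le (𝕜 := ℝ) (f := g) (C := C1)
        (fun z hz => (hd z (hmem z hz).1 (hmem z hz).2).1)
        (fun z hz => (hd z (hmem z hz).1 (hmem z hz).2).2)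
        (x := y) (y := x)
        ⟨by simpa using hy, by simpa [dist_eq_norm, norm_sub_rev] using hxy⟩
        ⟨by simp [hx], by simp⟩
      exact this.trans (mul_le_mul_of_nonneg_right (le_max_left _ _) (norm_nonneg _))
    · have h1 : ‖g x - g y‖ ≤ C2 * ‖x‖ + C2 * ‖y‖ :=
        (norm_sub_le _ _).trans (add_le_add (hgn x) (hgn y))
      have h2 : C2 * ‖x‖ + C2 * ‖y‖ ≤ 4 * C2 * ‖x - y‖ := by
        rw [hx]
        push Not at hxy
        nlinarith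
      exact h1.trans (h2.trans (mul_le_mul_of_nonneg_right (le_max_right _ _) (norm_nonneg _)))
  have hB : ∀ x y, ‖y‖ ≤ ‖x‖ → ‖g x - g y‖ ≤ max C1 (4 * C2) * ‖x - y‖ := by
    intro x y hyx
    by_cases hx : x = 0
    · have hy : y = 0 := by
        rw [hx, norm_zero] at hyx
        exact norm_le_zero_iff.mp hyx
      rw [hx, hy]; simp
    · have hx' : 0 < ‖x‖ := norm_pos_iff.mpr hx
      have h1 := hA (‖x‖⁻¹ • x) (‖x‖⁻¹ • y) (by rw [norm_smul, norm_inv, norm_norm,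
        inv_mul_cancel₀ hx'.ne']) (by
          rw [norm_smul, norm_inv, norm_norm, inv_mul_le_iff₀ hx', mul_one]; exact hyx)
      rw [hh0 _ (inv_pos.mpr hx'), hh0 _ (inv_pos.mpr hx'), ← smul_sub, ← smul_sub, norm_smul,
        norm_smul, norm_inv, norm_norm] at h1
      have h2 : ‖x‖⁻¹ * ‖g x - g y‖ ≤ ‖x‖⁻¹ * (max C1 (4 * C2) * ‖x - y‖) := by
        calc _ ≤ max C1 (4 * C2) * (‖x‖⁻¹ * ‖x - y‖) := h1
          _ = _ := by ring
      exact le_of_mul_le_mul_left h2 (inv_pos.mpr hx')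
  refine LipschitzWith.of_dist_le_mul fun x y => ?_
  rw [dist_eq_norm, dist_eq_norm, Real.coe_toNNReal _ hK]
  rcases le_total ‖y‖ ‖x‖ with h | h
  · exact hB x y h
  · rw [norm_sub_rev, norm_sub_rev x y]
    exact hB y x h

/-- A path of regular functions, positively homogeneous of degree two. -/
structure RegPath (F : ℝ × E → ℂ) : Prop where
  smooth : ∀ p : ℝ × E, p.1 ∈ Icc (0 : ℝ) 1 → p.2 ≠ 0 → ContDiffAt ℝ 2 F p
  hom : ∀ s c : ℝ, 0 < c → ∀ x, F (s, c • x) = (c : ℂ) ^ 2 * F (s, x)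
  reg : ∀ s ∈ Icc (0 : ℝ) 1, ∀ x, x ≠ 0 → F (s, x) = 0 → Function.Surjective (Dx F (s, x))

namespace RegPath

variable (h : RegPath F)

include h

theorem unit {s : ℝ} (hs : s ∈ Icc (0 : ℝ) 1) {x : E} (hx : x ≠ 0) : IsUnit (MM F (s, x)) :=
  isUnit_MM hx (h.reg s hs x hx)

theorem smoothX {s : ℝ} (hs : s ∈ Icc (0 : ℝ) 1) {x : E} (hx : x ≠ 0) :
    ContDiffAt ℝ 1 (XX F) (s, x) :=
  contDiffAt_XX hx (h.smooth _ hs hx) (h.unit hs hx)

omit h in
/-- the vector field, extended by `0` at `0` and constantly in time outside `[0, 1]` -/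
noncomputable def fld (F : ℝ × E → ℂ) (t : ℝ) (x : E) : E :=
  open Classical in if x = 0 then 0 else XX F (max 0 (min t 1), x)

omit h in
theorem clamp_mem (t : ℝ) : max 0 (min t 1) ∈ Icc (0 : ℝ) 1 :=
  ⟨le_max_left _ _, max_le zero_le_one (min_le_right _ _)⟩

omit h in
theorem clamp_eq {t : ℝ} (ht : t ∈ Icc (0 : ℝ) 1) : max 0 (min t 1) = t := by
  rw [min_eq_left ht.2, max_eq_right ht.1]

omit h in
theorem fld_zero (t : ℝ) : fld F t 0 = 0 := if_pos rfl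

omit h in
theorem fld_of_ne {t : ℝ} {x : E} (hx : x ≠ 0) : fld F t x = XX F (max 0 (min t 1), x) :=
  if_neg hx

theorem fld_cont (x : E) : Continuous fun t => fld F t x := by
  by_cases hx : x = 0
  · subst hx
    simp only [fld_zero]
    exact continuous_const
  · simp only [fld_of_ne hx]
    rw [continuous_iff_continuousAt]
    intro t
    have h1 : ContinuousAt (XX F) (max 0 (min t 1), x) :=
      (h.smoothX (clamp_mem t) hx).continuousAt
    have h2 : Continuous fun t : ℝ => (max 0 (min t 1), x) := by fun_prop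
    exact ContinuousAt.comp (f := fun t : ℝ => (max 0 (min t 1), x)) h1 h2.continuousAt

theorem fld_lip [FiniteDimensional ℝ E] : ∃ K : ℝ≥0, ∀ t, LipschitzWith K (fld F t) := by
  have hinst : ProperSpace E := FiniteDimensional.proper_real E
  -- compact sets
  have hc : IsCompact (Icc (0 : ℝ) 1 ×ˢ (closedBall (0 : E) 1 ∩ {x | 1 / 2 ≤ ‖x‖})) :=
    isCompact_Icc.prod ((isCompact_closedBall 0 1).inter_right
      (isClosed_le continuous_const continuous_norm))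
  have hne : ∀ p ∈ Icc (0 : ℝ) 1 ×ˢ (closedBall (0 : E) 1 ∩ {x | 1 / 2 ≤ ‖x‖}), p.2 ≠ 0 := by
    rintro ⟨s, x⟩ ⟨_, _, hx⟩ h0
    simp only at h0
    rw [h0] at hx
    simp only [mem_setOf_eq, norm_zero] at hx
    linarith
  have hX : ContinuousOn (XX F) (Icc (0 : ℝ) 1 ×ˢ (closedBall (0 : E) 1 ∩ {x | 1 / 2 ≤ ‖x‖})) :=
    fun p hp => (h.smoothX hp.1 (hne p hp)).continuousAt.continuousWithinAt
  have hD : ContinuousOn (fderiv ℝ (XX F))
      (Icc (0 : ℝ) 1 ×ˢ (closedBall (0 : E) 1 ∩ {x | 1 / 2 ≤ ‖x‖})) := by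
    intro p hp
    have h1 : ContDiffAt ℝ 0 (fderiv ℝ (XX F)) p :=
      (h.smoothX hp.1 (hne p hp)).fderiv_right (m := 0) (by norm_num)
    exact h1.continuousAt.continuousWithinAt
  obtain ⟨C2, hC2⟩ := hc.exists_bound_of_continuousOn hX
  have hD' : ContinuousOn (fun p => ‖fderiv ℝ (XX F) p‖)
      (Icc (0 : ℝ) 1 ×ˢ (closedBall (0 : E) 1 ∩ {x | 1 / 2 ≤ ‖x‖})) :=
    (continuous_norm (E := (ℝ × E) →L[ℝ] E)).comp_continuousOn hD
  obtain ⟨C1, hC1'⟩ := hc.bddAbove_image hD'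
  have hC1 : ∀ p ∈ Icc (0 : ℝ) 1 ×ˢ (closedBall (0 : E) 1 ∩ {x | 1 / 2 ≤ ‖x‖}),
      ‖fderiv ℝ (XX F) p‖ ≤ C1 := fun p hp => hC1' (mem_image_of_mem _ hp)
  refine ⟨Real.toNNReal (max C1 (4 * max C2 0)), fun t => ?_⟩
  set s := max 0 (min t 1) with hs
  have hs1 : s ∈ Icc (0 : ℝ) 1 := clamp_mem t
  refine lipschitz_of_homog (fld_zero t) ?_ ?_ (le_max_right _ _) ?_
  · intro c hc x hx
    rw [fld_of_ne hx, fld_of_ne (smul_ne_zero hc.ne' hx)]
    exact XX_scl h.hom hc (s, x) (h.unit hs1 hx)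
  · intro x hx
    have hx0 : x ≠ 0 := by rintro rfl; simp at hx
    rw [fld_of_ne hx0]
    exact (hC2 (s, x) ⟨hs1, by simp [hx], by simp [hx]; norm_num⟩).trans (le_max_left _ _)
  · intro x hx1 hx2
    have hx0 : x ≠ 0 := by
      rintro rfl
      rw [norm_zero] at hx1
      linarith
    have h1 : HasFDerivAt (XX F) (fderiv ℝ (XX F) (s, x)) (s, x) :=
      ((h.smoothX hs1 hx0).differentiableAt (by norm_num)).hasFDerivAt
    have h2 : HasFDerivAt (fun y : E => (s, y)) (ContinuousLinearMap.inr ℝ ℝ E) x :=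
      hasFDerivAt_prodMk_right s x
    have h3 : HasFDerivAt (fun y : E => XX F (s, y))
        ((fderiv ℝ (XX F) (s, x)).comp (ContinuousLinearMap.inr ℝ ℝ E)) x := h1.comp x h2
    have h4 : (fun y : E => XX F (s, y)) =ᶠ[𝓝 x] fld F t := by
      filter_upwards [isOpen_ne.mem_nhds hx0] with y hy
      exact (fld_of_ne hy).symm
    have h5 := h3.congr_of_eventuallyEq h4.symm
    refine ⟨h5.differentiableAt, ?_⟩
    rw [h5.fderiv]
    have h6 : ‖(ContinuousLinearMap.inr ℝ ℝ E)‖ ≤ 1 := ContinuousLinearMap.norm_inr_le_one ℝ ℝ E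
    calc ‖(fderiv ℝ (XX F) (s, x)).comp (ContinuousLinearMap.inr ℝ ℝ E)‖
        ≤ ‖fderiv ℝ (XX F) (s, x)‖ * ‖(ContinuousLinearMap.inr ℝ ℝ E)‖ := opNorm_comp_le _ _
      _ ≤ C1 * 1 := by
          have h7 := hC1 (s, x) ⟨hs1, by simpa using hx2, hx1⟩
          have h8 : 0 ≤ ‖fderiv ℝ (XX F) (s, x)‖ := opNorm_nonneg _
          have h9 : 0 ≤ ‖(ContinuousLinearMap.inr ℝ ℝ E)‖ := opNorm_nonneg _
          exact mul_le_mul h7 h6 h9 (h8.trans h7)
      _ = C1 := mul_one _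

omit h in
/-- a solution vanishing somewhere vanishes at the start -/
theorem sol_zero {v : ℝ → E → E} {K : ℝ≥0} (hv : ∀ t, LipschitzWith K (v t))
    (h0 : ∀ t, v t 0 = 0) {a b : ℝ} {γ : ℝ → E} (hγ : Sol v a b γ) {t : ℝ} (ht : t ∈ Icc a b)
    (hz : γ t = 0) : γ a = 0 := by
  have h1 : Sol v a t γ := fun s hs =>
    (hγ s ⟨hs.1, hs.2.trans ht.2⟩).mono (Icc_subset_Icc_right ht.2)
  have h2 := h1.rev
  have h3 : Sol (fun s x => -v (a + t - s) x) a t (fun _ => (0 : E)) := by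
    intro s _
    simp only [h0, neg_zero]
    exact hasDerivWithinAt_const _ _ _
  have h4 := Sol.unique (v := fun s x => -v (a + t - s) x) (fun s => (hv _).neg) h2 h3
    (by simp [hz]) t (right_mem_Icc.mpr ht.1)
  simpa using h4

/-- the factor in the differential inequality for `F` along the solutions -/
theorem deriv_along {s : ℝ} (hs : s ∈ Icc (0 : ℝ) 1) {x : E} (hx : x ≠ 0) :
    ‖fderiv ℝ F (s, x) (1, XX F (s, x))‖ =
      (‖F (s, x)‖ / ‖x‖ ^ 2 * ‖Ring.inverse (MM F (s, x)) (Ds F (s, x))‖) * ‖F (s, x)‖ := by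
  have h1 : fderiv ℝ F (s, x) (1, XX F (s, x)) = Ds F (s, x) + Dx F (s, x) (XX F (s, x)) := by
    have : ((1 : ℝ), XX F (s, x)) = (1, 0) + (0, XX F (s, x)) := by simp
    rw [this, map_add]
    rfl
  obtain ⟨u, hu⟩ := h.unit hs hx
  have h2 : MM F (s, x) (Ring.inverse (MM F (s, x)) (Ds F (s, x))) = Ds F (s, x) := by
    rw [← hu, Ring.inverse_unit]
    exact congrArg (fun A : ℂ →L[ℝ] ℂ => A (Ds F (s, x))) u.mul_inv
  have h3 : Dx F (s, x) (adjoint (Dx F (s, x)) (Ring.inverse (MM F (s, x)) (Ds F (s, x)))) +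
      (‖F (s, x)‖ ^ 2 / ‖x‖ ^ 2) • (Ring.inverse (MM F (s, x)) (Ds F (s, x))) = Ds F (s, x) := h2
  have h4 : Ds F (s, x) + Dx F (s, x) (XX F (s, x)) =
      (‖F (s, x)‖ ^ 2 / ‖x‖ ^ 2) • (Ring.inverse (MM F (s, x)) (Ds F (s, x))) := by
    rw [XX, map_neg, ← sub_eq_add_neg, sub_eq_iff_eq_add, add_comm]
    exact h3.symm
  rw [h1, h4, norm_smul, Real.norm_of_nonneg (by positivity)]
  ring

theorem zero_along {K : ℝ≥0} (hK : ∀ t, LipschitzWith K (fld F t)) {a b : ℝ} (ha : 0 ≤ a)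
    (hb : b ≤ 1) (hab : a ≤ b) {γ : ℝ → E} (hγ : Sol (fld F) a b γ) (hx : γ a ≠ 0) :
    F (a, γ a) = 0 ↔ F (b, γ b) = 0 := by
  have hne : ∀ t ∈ Icc a b, γ t ≠ 0 := fun t ht hz =>
    hx (sol_zero hK fld_zero hγ ht hz)
  have h01 : ∀ t ∈ Icc a b, t ∈ Icc (0 : ℝ) 1 := fun t ht => ⟨ha.trans ht.1, ht.2.trans hb⟩
  have hγ' : ∀ t ∈ Icc a b, HasDerivWithinAt γ (XX F (t, γ t)) (Icc a b) t := by
    intro t ht
    have := hγ t ht
    rwa [fld_of_ne (hne t ht), clamp_eq (h01 t ht)] at this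
  -- derivative of `t ↦ F (t, γ t)`
  have hd : ∀ t ∈ Icc a b, HasDerivWithinAt (fun t => F (t, γ t))
      (fderiv ℝ F (t, γ t) (1, XX F (t, γ t))) (Icc a b) t := by
    intro t ht
    have h1 : HasFDerivAt F (fderiv ℝ F (t, γ t)) (t, γ t) :=
      ((h.smooth (t, γ t) (h01 t ht) (hne t ht)).differentiableAt (by norm_num)).hasFDerivAt
    have h2 : HasDerivWithinAt (fun t => (t, γ t)) (1, XX F (t, γ t)) (Icc a b) t :=
      (hasDerivWithinAt_id t _).prodMk (hγ' t ht)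
    exact h1.comp_hasDerivWithinAt t h2
  have hγc : ContinuousOn (fun t => (t, γ t)) (Icc a b) :=
    continuousOn_id.prodMk hγ.continuousOn
  -- the factor is bounded
  have hcb : ContinuousOn (fun t => ‖F (t, γ t)‖ / ‖γ t‖ ^ 2 *
      ‖Ring.inverse (MM F (t, γ t)) (Ds F (t, γ t))‖) (Icc a b) := by
    intro t ht
    have e0 := h.smooth (t, γ t) (h01 t ht) (hne t ht)
    have e1 : ContinuousAt F (t, γ t) := e0.continuousAt
    have e2 : ContinuousAt (fun p : ℝ × E => Ring.inverse (MM F p) (Ds F p)) (t, γ t) := by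
      obtain ⟨u, hu⟩ := h.unit (h01 t ht) (hne t ht)
      have h3 : ContDiffAt ℝ 1 (fun q : ℝ × E => Ring.inverse (MM F q)) (t, γ t) := by
        have h4 : ContDiffAt ℝ 1 Ring.inverse (MM F (t, γ t)) := by
          rw [← hu]; exact contDiffAt_ringInverse ℝ u
        exact h4.comp (t, γ t) (contDiffAt_MM (hne t ht) e0)
      exact (h3.clm_apply (contDiffAt_Ds e0)).continuousAt
    have e3 : ContinuousAt (fun p : ℝ × E => ‖F p‖ / ‖p.2‖ ^ 2 *
        ‖Ring.inverse (MM F p) (Ds F p)‖) (t, γ t) := by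
      refine ContinuousAt.mul (ContinuousAt.div e1.norm (by fun_prop) ?_) e2.norm
      have := norm_ne_zero_iff.mpr (hne t ht)
      positivity
    exact ContinuousAt.comp_continuousWithinAt (f := fun t => (t, γ t)) e3 (hγc t ht)
  obtain ⟨C, hC⟩ := isCompact_Icc.bddAbove_image hcb
  have hbd : ∀ t ∈ Icc a b, ‖fderiv ℝ F (t, γ t) (1, XX F (t, γ t))‖ ≤ C * ‖F (t, γ t)‖ := by
    intro t ht
    rw [h.deriv_along (h01 t ht) (hne t ht)]
    exact mul_le_mul_of_nonneg_right (hC (mem_image_of_mem _ ht)) (norm_nonneg _)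
  -- a general statement
  have key : ∀ f f' : ℝ → ℂ, (∀ t ∈ Icc a b, HasDerivWithinAt f (f' t) (Icc a b) t) →
      (∀ t ∈ Icc a b, ‖f' t‖ ≤ C * ‖f t‖) → f a = 0 → f b = 0 := by
    intro f f' h1 h2 h3
    exact eq_zero_of_abs_deriv_le_mul_abs_self_of_eq_zero_right (K := C)
      (fun t ht => (h1 t ht).continuousWithinAt)
      (fun t ht => (h1 t (Ico_subset_Icc_self ht)).mono_of_mem_nhdsWithin
        (Icc_mem_nhdsGE_of_mem ht)) h3
      (fun t ht => h2 t (Ico_subset_Icc_self ht)) b (right_mem_Icc.mpr hab)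
  constructor
  · exact fun h3 => key _ _ hd hbd h3
  · intro h3
    have h4 := key (fun t => F (a + b - t, γ (a + b - t)))
      (fun t => -(fderiv ℝ F (a + b - t, γ (a + b - t)) (1, XX F (a + b - t, γ (a + b - t)))))
      (fun t ht => by
        have h5 : a + b - t ∈ Icc a b := ⟨by linarith [ht.2], by linarith [ht.1]⟩
        have h6 : HasDerivWithinAt (fun t : ℝ => a + b - t) (-1) (Icc a b) t := by
          simpa using (hasDerivWithinAt_id t (Icc a b)).const_sub (a + b)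
        have h7 := HasDerivWithinAt.scomp (h := fun t : ℝ => a + b - t)
          (g₁ := fun t => F (t, γ t)) (t' := Icc a b) t (hd _ h5) h6
          (fun s hs => ⟨by linarith [hs.2], by linarith [hs.1]⟩)
        rw [neg_one_smul] at h7
        exact h7)
      (fun t ht => by
        rw [norm_neg]
        exact hbd _ ⟨by linarith [ht.2], by linarith [ht.1]⟩)
      (by simpa using h3)
    simpa using h4

theorem step [FiniteDimensional ℝ E] {K : ℝ≥0} (hK : ∀ t, LipschitzWith K (fld F t)) {a b : ℝ}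
    (ha : 0 ≤ a) (hb : b ≤ 1) (hab : a ≤ b) (hKab : K * (b - a) ≤ 1 / 2) :
    ∃ Φ : E ≃ₜ E, Φ 0 = 0 ∧ ∀ x, x ≠ 0 → (F (a, x) = 0 ↔ F (b, Φ x) = 0) := by
  obtain ⟨Φ, hΦ⟩ := exists_flow hK h.fld_cont fld_zero hab hKab
  refine ⟨Φ, ?_, fun x hx => ?_⟩
  · obtain ⟨γ, h1, h2, h3⟩ := hΦ 0
    have h4 : Sol (fld F) a b (fun _ => (0 : E)) := by
      intro s _
      simp only [fld_zero]
      exact hasDerivWithinAt_const _ _ _
    rw [← h2]
    exact Sol.unique hK h3 h4 h1 b (right_mem_Icc.mpr hab)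
  · obtain ⟨γ, h1, h2, h3⟩ := hΦ x
    have := h.zero_along hK ha hb hab h3 (by rw [h1]; exact hx)
    rwa [h1, h2] at this

/-- **Isotopy lemma.** -/
theorem exists_homeo [FiniteDimensional ℝ E] :
    ∃ Φ : E ≃ₜ E, Φ 0 = 0 ∧ ∀ x, (F (0, x) = 0 ↔ F (1, Φ x) = 0) := by
  obtain ⟨K, hK⟩ := h.fld_lip
  obtain ⟨n, hn⟩ := exists_nat_gt (2 * (K : ℝ))
  have hn0 : 0 < (n : ℝ) := lt_of_le_of_lt (by positivity) hn
  have hF0 : ∀ s, F (s, 0) = 0 := by
    intro s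
    have h1 := h.hom s 2 two_pos 0
    rw [smul_zero] at h1
    have h2 : (3 : ℂ) * F (s, 0) = 0 := by
      push_cast at h1
      linear_combination -h1
    rcases mul_eq_zero.mp h2 with h3 | h3
    · norm_num at h3
    · exact h3
  have key : ∀ k : ℕ, k ≤ n → ∃ Φ : E ≃ₜ E, Φ 0 = 0 ∧
      ∀ x, x ≠ 0 → (F (0, x) = 0 ↔ F ((k : ℝ) / n, Φ x) = 0) := by
    intro k
    induction k with
    | zero => exact fun _ => ⟨Homeomorph.refl E, rfl, fun x _ => by simp⟩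
    | succ k ih =>
      intro hk
      obtain ⟨Φ, h1, h2⟩ := ih (by omega)
      obtain ⟨Ψ, h3, h4⟩ := h.step hK (a := (k : ℝ) / n) (b := ((k + 1 : ℕ) : ℝ) / n)
        (by positivity)
        (by rw [div_le_one hn0]; exact_mod_cast hk)
        (by gcongr; exact_mod_cast Nat.le_succ k)
        (by
          have : ((k + 1 : ℕ) : ℝ) / n - (k : ℝ) / n = 1 / n := by
            rw [← sub_div]; push_cast; ring_nf
          rw [this, mul_one_div, div_le_iff₀ hn0]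
          linarith)
      refine ⟨Φ.trans Ψ, by simp [h1, h3], fun x hx => ?_⟩
      rw [h2 x hx, h4 (Φ x) (fun hz => hx ?_)]
      · rfl
      · exact Φ.injective (hz.trans h1.symm)
  obtain ⟨Φ, h1, h2⟩ := key n le_rfl
  refine ⟨Φ, h1, fun x => ?_⟩
  by_cases hx : x = 0
  · rw [hx, h1, hF0, hF0]
  · rw [h2 x hx, div_self hn0.ne']

end RegPath

end LemmaE

end Vale.Agent.P268.T
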