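import Mathlib

/-!
# P268, topological half: Lipschitz isotopy extension

`E = κ → ℝ` with the sup norm.  A map on a subset of `E` which differs from the identity by a
`c`-Lipschitz map, `c < 1`, extends to a homeomorphism of `E`; hence a relatively
Lipschitz-continuous family of maps `X → E` is realised by ambient homeomorphisms.
-/

namespace Vale.Agent.P268.T

open Set Filter Topology
open scoped NNReal

variable {κ : Type*} [Fintype κ]

/-- Identity plus a contraction is a homeomorphism. -/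
theorem exists_homeo_of_lipschitz (g : (κ → ℝ) → (κ → ℝ)) (c : ℝ≥0) (hc : c < 1)
    (hg : LipschitzWith c g) : ∃ Φ : (κ → ℝ) ≃ₜ (κ → ℝ), ∀ x, Φ x = x + g x := by
  have happ : ApproximatesLinearOn (fun x => x + g x)
      ((ContinuousLinearEquiv.refl ℝ (κ → ℝ) : (κ → ℝ) ≃L[ℝ] (κ → ℝ)) :
        (κ → ℝ) →L[ℝ] (κ → ℝ)) univ c := by
    intro x _ y _
    have h1 : (fun x => x + g x) x - (fun x => x + g x) y -
        ((ContinuousLinearEquiv.refl ℝ (κ → ℝ) : (κ → ℝ) ≃L[ℝ] (κ → ℝ)) :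
          (κ → ℝ) →L[ℝ] (κ → ℝ)) (x - y) = g x - g y := by
      simp only [ContinuousLinearEquiv.coe_refl, ContinuousLinearMap.coe_id', id_eq]
      abel
    rw [h1, ← dist_eq_norm, ← dist_eq_norm]
    exact hg.dist_le_mul x y
  have hc' : Subsingleton (κ → ℝ) ∨
      c < ‖((ContinuousLinearEquiv.refl ℝ (κ → ℝ)).symm : (κ → ℝ) →L[ℝ] (κ → ℝ))‖₊⁻¹ := by
    rcases subsingleton_or_nontrivial (κ → ℝ) with h | h
    · exact Or.inl h
    · right
      have : ‖((ContinuousLinearEquiv.refl ℝ (κ → ℝ)).symm : (κ → ℝ) →L[ℝ] (κ → ℝ))‖₊ = 1 := by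
        rw [ContinuousLinearEquiv.refl_symm, ContinuousLinearEquiv.coe_refl]
        exact ContinuousLinearMap.nnnorm_id
      rw [this, inv_one]
      exact hc
  refine ⟨happ.toHomeomorph _ hc', fun x => ?_⟩
  rfl

/-- One step: a map on a set which is Lipschitz-close to the identity extends. -/
theorem exists_homeo_extend {s : Set (κ → ℝ)} (h : (κ → ℝ) → (κ → ℝ)) (c : ℝ≥0) (hc : c < 1)
    (hL : LipschitzOnWith c (fun x => h x - x) s) :
    ∃ Φ : (κ → ℝ) ≃ₜ (κ → ℝ), ∀ x ∈ s, Φ x = h x := by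
  obtain ⟨g, hg, hge⟩ := hL.extend_pi
  obtain ⟨Φ, hΦ⟩ := exists_homeo_of_lipschitz g c hc hg
  refine ⟨Φ, fun x hx => ?_⟩
  rw [hΦ, ← hge hx]
  simp

/-- Two maps `f, f' : X → E` whose difference is relatively Lipschitz-small are related by an
ambient homeomorphism. -/
theorem exists_homeo_of_close {X : Type*} (f f' : X → (κ → ℝ)) (c : ℝ) (hc : c < 1)
    (hL : ∀ x y, ‖(f' x - f' y) - (f x - f y)‖ ≤ c * ‖f x - f y‖) :
    ∃ Φ : (κ → ℝ) ≃ₜ (κ → ℝ), ∀ x, Φ (f x) = f' x := by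
  classical
  have hfac : ∀ x y, f x = f y → f' x = f' y := by
    intro x y hxy
    have h1 := hL x y
    rw [hxy, sub_self, sub_zero, norm_zero, mul_zero] at h1
    have h2 := norm_le_zero_iff.mp h1
    exact sub_eq_zero.mp h2
  let h : (κ → ℝ) → (κ → ℝ) := Function.extend f f' id
  have hh : ∀ x, h (f x) = f' x := by
    intro x
    have : ∃ a, f a = f x := ⟨x, rfl⟩
    change Function.extend f f' id (f x) = f' x
    rw [Function.extend_def, dif_pos this]
    exact hfac _ _ (Classical.choose_spec this)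
  have hlt : c.toNNReal < 1 := Real.toNNReal_lt_one.mpr hc
  obtain ⟨Φ, hΦ⟩ := exists_homeo_extend (s := range f) h c.toNNReal hlt (by
    refine LipschitzOnWith.of_dist_le_mul ?_
    rintro _ ⟨x, rfl⟩ _ ⟨y, rfl⟩
    simp only [hh]
    rw [dist_eq_norm, dist_eq_norm]
    have h1 : f' x - f x - (f' y - f y) = (f' x - f' y) - (f x - f y) := by abel
    rw [h1]
    refine (hL x y).trans ?_
    exact mul_le_mul_of_nonneg_right (Real.le_coe_toNNReal c) (norm_nonneg _))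
  exact ⟨Φ, fun x => by rw [hΦ _ (mem_range_self x), hh]⟩

/-- **Lipschitz isotopy extension.**  If `f t : X → E` is relatively Lipschitz-continuous in `t`
on a preconnected parameter set, all the `f t` are related by ambient homeomorphisms. -/
theorem exists_homeo_of_isotopy {T X : Type*} [TopologicalSpace T] {s : Set T}
    (hs : IsPreconnected s) (f : T → X → (κ → ℝ))
    (hf : ∀ t ∈ s, ∀ᶠ t' in 𝓝[s] t, ∃ c < 1, ∀ x y,
      ‖(f t' x - f t' y) - (f t x - f t y)‖ ≤ c * ‖f t x - f t y‖)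
    {a b : T} (ha : a ∈ s) (hb : b ∈ s) :
    ∃ Φ : (κ → ℝ) ≃ₜ (κ → ℝ), ∀ x, Φ (f a x) = f b x := by
  refine hs.induction₂ (fun t t' => ∃ Φ : (κ → ℝ) ≃ₜ (κ → ℝ), ∀ x, Φ (f t x) = f t' x)
    ?_ ?_ ?_ ha hb
  · intro t ht
    filter_upwards [hf t ht] with t' ⟨c, hc, h⟩
    exact exists_homeo_of_close (f t) (f t') c hc h
  · rintro t t' t'' _ _ _ ⟨Φ, hΦ⟩ ⟨Ψ, hΨ⟩
    exact ⟨Φ.trans Ψ, fun x => by simp [hΦ, hΨ]⟩
  · rintro t t' _ _ ⟨Φ, hΦ⟩
    exact ⟨Φ.symm, fun x => by rw [← hΦ x]; simp⟩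

end Vale.Agent.P268.T

namespace Vale.Agent.P268.T

open Set Filter Topology
open scoped NNReal

variable {κ : Type*} [Fintype κ]

/-- The version for bi-Lipschitz families: `m • dist ≤ ‖f t x - f t y‖`, and the Lipschitz
constant of `f t' - f t` tends to `0` as `t' → t`. -/
theorem exists_homeo_of_biLipschitz {T X : Type*} [TopologicalSpace T] {s : Set T}
    (hs : IsPreconnected s) (f : T → X → (κ → ℝ)) (d : X → X → ℝ) (_hd : ∀ x y, 0 ≤ d x y)
    (hlow : ∀ t ∈ s, ∃ m > 0, ∀ x y, m * d x y ≤ ‖f t x - f t y‖)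
    (hcont : ∀ t ∈ s, ∀ ε > 0, ∀ᶠ t' in 𝓝[s] t, ∀ x y,
      ‖(f t' x - f t' y) - (f t x - f t y)‖ ≤ ε * d x y)
    {a b : T} (ha : a ∈ s) (hb : b ∈ s) :
    ∃ Φ : (κ → ℝ) ≃ₜ (κ → ℝ), ∀ x, Φ (f a x) = f b x := by
  refine exists_homeo_of_isotopy hs f (fun t ht => ?_) ha hb
  obtain ⟨m, hm, hlow⟩ := hlow t ht
  filter_upwards [hcont t ht (m / 2) (by positivity)] with t' ht'
  refine ⟨1 / 2, by norm_num, fun x y => ?_⟩
  have h1 := ht' x y
  have h2 := hlow x y
  linarith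

/-- Images: the sets swept out by the family are ambiently homeomorphic, and a common value `v`
of the family may be kept fixed. -/
theorem exists_homeo_image {T X : Type*} [TopologicalSpace T] {s : Set T}
    (hs : IsPreconnected s) (f : T → X → (κ → ℝ)) (v : κ → ℝ)
    (hf : ∀ t ∈ s, ∀ᶠ t' in 𝓝[s] t, ∃ c < 1, ∀ x y,
      ‖(f t' x - f t' y) - (f t x - f t y)‖ ≤ c * ‖f t x - f t y‖)
    (hv : ∃ x₀, ∀ t ∈ s, f t x₀ = v) (A : Set X)
    {a b : T} (ha : a ∈ s) (hb : b ∈ s) :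
    ∃ Φ : (κ → ℝ) ≃ₜ (κ → ℝ), Φ '' (f a '' A) = f b '' A ∧ Φ v = v := by
  obtain ⟨Φ, hΦ⟩ := exists_homeo_of_isotopy hs f hf ha hb
  obtain ⟨x₀, hx₀⟩ := hv
  refine ⟨Φ, ?_, ?_⟩
  · rw [image_image]
    exact image_congr fun x _ => hΦ x
  · have := hΦ x₀
    rwa [hx₀ a ha, hx₀ b hb] at this

end Vale.Agent.P268.T
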