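import Vale.Agent.P268.T.MReg

/-!
# P268, topological half: local conjugacy
-/

namespace Vale.Agent.P268.T

open Set Filter Topology

variable {E : Type*} [NormedAddCommGroup E] [NormedSpace ℝ E]
  {Z : Type*} [NormedAddCommGroup Z] [NormedSpace ℝ Z]

/-- The displacement. -/
theorem exists_disp [CompleteSpace Z] {k ρ σ ε : ℝ} (hk0 : 0 ≤ k) (hk : k < 1) (hσ0 : 0 ≤ σ)
    (hσ : 4 * σ ≤ ρ) (hε : ε ≤ (1 - k) * σ) {F G : E → Z} {C : Set E} {A : Z →L[ℝ] E}
    (hMG : ∀ x ∈ C, MR k ρ G A x)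
    (hclose : ∀ x ∈ C, ‖F x - G x‖ ≤ ε * ‖x‖) :
    ∃ c : E → Z, (∀ x, ‖c x‖ ≤ σ * ‖x‖) ∧ (∀ x ∉ C, c x = 0) ∧
      ∀ x ∈ C, G (x + A (c x)) = F x := by
  classical
  have key : ∀ x : E, ∃ c : Z, ‖c‖ ≤ σ * ‖x‖ ∧ (x ∉ C → c = 0) ∧ (x ∈ C → G (x + A c) = F x) := by
    intro x
    by_cases hx : x ∈ C
    · obtain ⟨c, h1, h2⟩ := (hMG x hx).exists_solution hk0 hk (by linarith) hε
        (z := F x) (by rw [norm_sub_rev]; exact hclose x hx)
      exact ⟨c, h1, fun h => absurd hx h, fun _ => h2⟩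
    · exact ⟨0, by rw [norm_zero]; positivity, fun _ => rfl, fun h => absurd h hx⟩
  choose c h1 h2 h3 using key
  exact ⟨c, h1, h2, h3⟩

theorem disp_continuous {k ρ σ : ℝ} (hk : k < 1) (hσ0 : 0 ≤ σ)
    (hσ : 4 * σ ≤ ρ) {F G : E → Z} (hF : Continuous F) (hG : Continuous G) {C : Set E}
    (hC : IsClosed C) {A : Z →L[ℝ] E}
    (hMG : ∀ x ∈ C, MR k ρ G A x) (hoff : ∀ x ∉ C, F x = G x)
    {c : E → Z} (hc1 : ∀ x, ‖c x‖ ≤ σ * ‖x‖) (hc2 : ∀ x ∉ C, c x = 0)
    (hc3 : ∀ x ∈ C, G (x + A (c x)) = F x) : Continuous c := by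
  rw [continuous_iff_continuousAt]
  intro x
  by_cases hx : x ∈ C
  · rcases eq_or_ne x 0 with rfl | hx0
    · -- at zero
      have hc0 : c 0 = 0 := by
        have := hc1 0
        rw [norm_zero, mul_zero] at this
        exact norm_le_zero_iff.mp this
      rw [ContinuousAt, hc0]
      refine squeeze_zero_norm hc1 ?_
      have : Tendsto (fun y : E => σ * ‖y‖) (𝓝 0) (𝓝 (σ * ‖(0 : E)‖)) :=
        (continuous_const.mul continuous_norm).tendsto 0
      simpa using this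
    · have hxpos : 0 < ‖x‖ := norm_pos_iff.mpr hx0
      rw [← continuousWithinAt_univ, ← union_compl_self C]
      refine ContinuousWithinAt.union ?_ ?_
      · -- within C
        have hlim : Tendsto (fun y => (1 - k)⁻¹ * ‖F y - G (y + A (c x))‖) (𝓝[C] x) (𝓝 0) := by
          have h1 : Continuous (fun y => (1 - k)⁻¹ * ‖F y - G (y + A (c x))‖) := by fun_prop
          have h2 := (h1.tendsto x).mono_left (nhdsWithin_le_nhds (s := C))
          simpa [hc3 x hx] using h2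
        have hev : ∀ᶠ y in 𝓝[C] x, ‖x‖ ≤ 2 * ‖y‖ := by
          have h1 : ∀ᶠ y in 𝓝 x, ‖x‖ / 2 < ‖y‖ :=
            (continuous_norm.tendsto x).eventually (lt_mem_nhds (by linarith))
          filter_upwards [nhdsWithin_le_nhds h1] with y hy
          linarith
        rw [ContinuousWithinAt, tendsto_iff_norm_sub_tendsto_zero]
        refine squeeze_zero' (Eventually.of_forall fun _ => norm_nonneg _) ?_ hlim
        filter_upwards [hev, self_mem_nhdsWithin] with y hy hyC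
        have h1 : ‖c y‖ ≤ ρ * ‖y‖ :=
          (hc1 y).trans (mul_le_mul_of_nonneg_right (by linarith) (norm_nonneg _))
        have h2 : ‖c x‖ ≤ ρ * ‖y‖ := by
          refine (hc1 x).trans ?_
          have h3 : σ * ‖x‖ ≤ σ * (2 * ‖y‖) := mul_le_mul_of_nonneg_left hy hσ0
          have h4 : (4 * σ) * ‖y‖ ≤ ρ * ‖y‖ := mul_le_mul_of_nonneg_right hσ (norm_nonneg _)
          have h5 : 0 ≤ σ * ‖y‖ := by positivity
          linarith
        have h3 := (hMG y hyC).lower h1 h2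
        rw [hc3 y hyC] at h3
        have hk' : 0 < 1 - k := by linarith
        rw [inv_mul_eq_div, le_div_iff₀ hk']
        linarith
      · -- within the complement
        by_cases hcl : x ∈ closure Cᶜ
        · have hFG : F x = G x := by
            have hcl' : IsClosed {y | F y = G y} := isClosed_eq hF hG
            exact closure_minimal (fun y hy => hoff y hy) hcl' hcl
          have hcx : c x = 0 := by
            have h1 : ‖c x‖ ≤ ρ * ‖x‖ :=
              (hc1 x).trans (mul_le_mul_of_nonneg_right (by linarith) (norm_nonneg _))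
            refine (hMG x hx).inj hk h1 (c' := 0) ?_ ?_
            · rw [norm_zero]; exact (norm_nonneg _).trans h1
            · rw [hc3 x hx, map_zero, add_zero, hFG]
          have : ContinuousWithinAt (fun _ => (0 : Z)) Cᶜ x := continuousWithinAt_const
          refine this.congr (fun y hy => hc2 y hy) hcx
        · have : 𝓝[Cᶜ] x = ⊥ := by
            rw [← notMem_closure_iff_nhdsWithin_eq_bot]
            exact hcl
          rw [ContinuousWithinAt, this]
          exact tendsto_bot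
  · have hev : c =ᶠ[𝓝 x] fun _ => 0 := by
      filter_upwards [hC.isOpen_compl.mem_nhds hx] with y hy using hc2 y hy
    exact (continuousAt_const).congr hev.symm

theorem disp_inverse {k ρ σ : ℝ} (hk : k < 1) (hσ0 : 0 ≤ σ)
    (hσ : 4 * σ ≤ ρ) {F G : E → Z} {C : Set E} {A : Z →L[ℝ] E} (hA : ‖A‖ * ρ ≤ 1)
    (hMF : ∀ x ∈ C, MR k ρ F A x) (hoff : ∀ x ∉ C, F x = G x)
    {c d : E → Z} (hc1 : ∀ x, ‖c x‖ ≤ σ * ‖x‖) (hc2 : ∀ x ∉ C, c x = 0)
    (hc3 : ∀ x ∈ C, G (x + A (c x)) = F x)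
    (hd1 : ∀ x, ‖d x‖ ≤ σ * ‖x‖) (hd2 : ∀ x ∉ C, d x = 0)
    (hd3 : ∀ x ∈ C, F (x + A (d x)) = G x) (x : E) :
    (x + A (c x)) + A (d (x + A (c x))) = x := by
  by_cases hx : x ∈ C
  · set y := x + A (c x) with hy
    have hny : ‖y‖ ≤ 2 * ‖x‖ := by
      have h1 : ‖A (c x)‖ ≤ ‖A‖ * (σ * ‖x‖) :=
        (A.le_opNorm _).trans (mul_le_mul_of_nonneg_left (hc1 x) (norm_nonneg _))
      have h2 : ‖A‖ * (σ * ‖x‖) ≤ ‖A‖ * ρ * ‖x‖ := by
        rw [mul_assoc]
        exact mul_le_mul_of_nonneg_left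
          (mul_le_mul_of_nonneg_right (by linarith) (norm_nonneg _)) (norm_nonneg _)
      have h3 : ‖A‖ * ρ * ‖x‖ ≤ 1 * ‖x‖ := mul_le_mul_of_nonneg_right hA (norm_nonneg _)
      have h4 := norm_add_le x (A (c x))
      linarith
    have hsx : 0 ≤ σ * ‖x‖ := by positivity
    have hρx : (4 * σ) * ‖x‖ ≤ ρ * ‖x‖ := mul_le_mul_of_nonneg_right hσ (norm_nonneg _)
    have hyx : y + A (d y) = x + A (c x + d y) := by rw [hy, map_add]; abel
    have hdy : ‖d y‖ ≤ 2 * (σ * ‖x‖) := by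
      refine (hd1 y).trans ?_
      have := mul_le_mul_of_nonneg_left hny hσ0
      linarith
    have hcd : ‖c x + d y‖ ≤ ρ * ‖x‖ := by
      refine (norm_add_le _ _).trans ?_
      have := hc1 x
      linarith
    have h0 : ‖(0 : Z)‖ ≤ ρ * ‖x‖ := by rw [norm_zero]; linarith
    have hFy : F (x + A (c x + d y)) = F (x + A 0) := by
      rw [map_zero, add_zero, ← hyx]
      by_cases hyC : y ∈ C
      · rw [hd3 y hyC, hy, hc3 x hx]
      · rw [hd2 y hyC, map_zero, add_zero, hoff y hyC, hy, hc3 x hx]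
    have h1 := (hMF x hx).inj hk hcd h0 hFy
    rw [hyx, h1, map_zero, add_zero]
  · rw [hc2 x hx, map_zero, add_zero, hd2 x hx, map_zero, add_zero]

/-- **Local conjugacy.** -/
theorem local_conj [CompleteSpace Z] {k ρ σ ε : ℝ} (hk0 : 0 ≤ k) (hk : k < 1) (hσ0 : 0 ≤ σ)
    (hσ : 4 * σ ≤ ρ) (hε : ε ≤ (1 - k) * σ) {F G : E → Z} (hF : Continuous F)
    (hG : Continuous G) {C : Set E} (hC : IsClosed C) {A : Z →L[ℝ] E} (hA : ‖A‖ * ρ ≤ 1)
    (hMF : ∀ x ∈ C, MR k ρ F A x) (hMG : ∀ x ∈ C, MR k ρ G A x)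
    (hoff : ∀ x ∉ C, F x = G x) (hclose : ∀ x ∈ C, ‖F x - G x‖ ≤ ε * ‖x‖) :
    ∃ h : E ≃ₜ E, h 0 = 0 ∧ ∀ x, G (h x) = F x := by
  obtain ⟨c, hc1, hc2, hc3⟩ := exists_disp hk0 hk hσ0 hσ hε hMG hclose
  obtain ⟨d, hd1, hd2, hd3⟩ := exists_disp (F := G) (G := F) hk0 hk hσ0 hσ hε hMF
    (fun x hx => by rw [norm_sub_rev]; exact hclose x hx)
  have hcc := disp_continuous hk hσ0 hσ hF hG hC hMG hoff hc1 hc2 hc3
  have hdc := disp_continuous hk hσ0 hσ hG hF hC hMF (fun x hx => (hoff x hx).symm) hd1 hd2 hd3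
  refine ⟨{ toFun := fun x => x + A (c x), invFun := fun x => x + A (d x),
            left_inv := fun x => disp_inverse hk hσ0 hσ hA hMF hoff hc1 hc2 hc3 hd1 hd2 hd3 x,
            right_inv := fun x => disp_inverse hk hσ0 hσ hA hMG (fun x hx => (hoff x hx).symm)
              hd1 hd2 hd3 hc1 hc2 hc3 x,
            continuous_toFun := by fun_prop, continuous_invFun := by fun_prop }, ?_, ?_⟩
  · have h0 : c 0 = 0 := by
      have := hc1 0
      rw [norm_zero, mul_zero] at this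
      exact norm_le_zero_iff.mp this
    show (0 : E) + A (c 0) = 0
    rw [h0, map_zero, add_zero]
  · intro x
    show G (x + A (c x)) = F x
    by_cases hx : x ∈ C
    · exact hc3 x hx
    · rw [hc2 x hx, map_zero, add_zero, hoff x hx]

end Vale.Agent.P268.T
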