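import Mathlib

/-!
# P268, topological half: metric regularity and local conjugacy

`MR k ρ F A x`: along the plane `x + A(Z)`, at scale `ρ ‖x‖`, the map `F` is a `k`-Lipschitz
perturbation of the identity.
-/

namespace Vale.Agent.P268.T

open Set Filter Topology

variable {E : Type*} [NormedAddCommGroup E] [NormedSpace ℝ E]
  {Z : Type*} [NormedAddCommGroup Z] [NormedSpace ℝ Z]

/-- Metric regularity at `x` along `A` at scale `ρ ‖x‖`. -/
def MR (k ρ : ℝ) (F : E → Z) (A : Z →L[ℝ] E) (x : E) : Prop :=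
  ∀ c c' : Z, ‖c‖ ≤ ρ * ‖x‖ → ‖c'‖ ≤ ρ * ‖x‖ →
    ‖F (x + A c) - F (x + A c') - (c - c')‖ ≤ k * ‖c - c'‖

theorem MR.inj {k ρ : ℝ} (hk : k < 1) {F : E → Z} {A : Z →L[ℝ] E} {x : E} (h : MR k ρ F A x)
    {c c' : Z} (hc : ‖c‖ ≤ ρ * ‖x‖) (hc' : ‖c'‖ ≤ ρ * ‖x‖) (he : F (x + A c) = F (x + A c')) :
    c = c' := by
  have h1 := h c c' hc hc'
  rw [he, sub_self, zero_sub, norm_neg] at h1
  have h2 : ‖c - c'‖ = 0 := by
    have := norm_nonneg (c - c')
    nlinarith
  exact sub_eq_zero.mp (norm_eq_zero.mp h2)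

/-- Lower bound. -/
theorem MR.lower {k ρ : ℝ} {F : E → Z} {A : Z →L[ℝ] E} {x : E} (h : MR k ρ F A x)
    {c c' : Z} (hc : ‖c‖ ≤ ρ * ‖x‖) (hc' : ‖c'‖ ≤ ρ * ‖x‖) :
    (1 - k) * ‖c - c'‖ ≤ ‖F (x + A c) - F (x + A c')‖ := by
  have h1 := h c c' hc hc'
  have h2 : ‖c - c'‖ ≤ ‖F (x + A c) - F (x + A c')‖ +
      ‖F (x + A c) - F (x + A c') - (c - c')‖ := by
    have : c - c' = (F (x + A c) - F (x + A c')) - (F (x + A c) - F (x + A c') - (c - c')) := by
      abel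
    calc ‖c - c'‖ = ‖(F (x + A c) - F (x + A c')) - (F (x + A c) - F (x + A c') - (c - c'))‖ := by
          rw [← this]
      _ ≤ _ := norm_sub_le _ _
  linarith

/-- Solving `G (x + A c) = z`. -/
theorem MR.exists_solution [CompleteSpace Z] {k ρ σ ε : ℝ} (hk0 : 0 ≤ k) (hk : k < 1)
    (hσ : σ ≤ ρ) (hε : ε ≤ (1 - k) * σ) {G : E → Z} {A : Z →L[ℝ] E} {x : E}
    (h : MR k ρ G A x) {z : Z} (hz : ‖G x - z‖ ≤ ε * ‖x‖) :
    ∃ c : Z, ‖c‖ ≤ σ * ‖x‖ ∧ G (x + A c) = z := by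
  have hx := norm_nonneg x
  rcases lt_or_ge (σ * ‖x‖) 0 with hneg | hpos
  · exfalso
    have h1 : 0 ≤ ε * ‖x‖ := (norm_nonneg _).trans hz
    have h2 : ε * ‖x‖ ≤ (1 - k) * (σ * ‖x‖) := by nlinarith
    nlinarith
  · let B : Set Z := Metric.closedBall 0 (σ * ‖x‖)
    let T : Z → Z := fun c => c - (G (x + A c) - z)
    have hσρ : σ * ‖x‖ ≤ ρ * ‖x‖ := mul_le_mul_of_nonneg_right hσ hx
    have hB : ∀ c ∈ B, ‖c‖ ≤ ρ * ‖x‖ := fun c hc => by
      have : ‖c‖ ≤ σ * ‖x‖ := by simpa [B] using hc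
      exact this.trans hσρ
    have hmaps : MapsTo T B B := by
      intro c hc
      have hc' : ‖c‖ ≤ σ * ‖x‖ := by simpa [B] using hc
      have h1 := h c 0 (hB c hc) (by rw [norm_zero]; exact hpos.trans hσρ)
      rw [map_zero, add_zero, sub_zero] at h1
      have h2 : T c = -(G (x + A c) - G x - c) - (G x - z) := by
        simp only [T]; abel
      have h3 : ‖T c‖ ≤ k * ‖c‖ + ε * ‖x‖ := by
        rw [h2]
        refine (norm_sub_le _ _).trans ?_
        rw [norm_neg]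
        exact add_le_add h1 hz
      have h4 : ε * ‖x‖ ≤ (1 - k) * (σ * ‖x‖) := by nlinarith
      have h5 : k * ‖c‖ ≤ k * (σ * ‖x‖) := mul_le_mul_of_nonneg_left hc' hk0
      have h6 : ‖T c‖ ≤ σ * ‖x‖ := by linarith
      simpa [B] using h6
    have hcontr : ContractingWith ⟨k, hk0⟩ (hmaps.restrict T B B) := by
      refine ⟨by exact_mod_cast hk, ?_⟩
      refine LipschitzWith.of_dist_le_mul ?_
      rintro ⟨c, hc⟩ ⟨c', hc'⟩
      rw [Subtype.dist_eq, Subtype.dist_eq, dist_eq_norm, dist_eq_norm]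
      simp only [MapsTo.val_restrict_apply, T, NNReal.coe_mk]
      have h1 := h c c' (hB c hc) (hB c' hc')
      have h2 : c - (G (x + A c) - z) - (c' - (G (x + A c') - z)) =
          -(G (x + A c) - G (x + A c') - (c - c')) := by abel
      rw [h2, norm_neg]
      exact h1
    have hcomplete : IsComplete B := Metric.isClosed_closedBall.isComplete
    obtain ⟨c, hc, hfix, -⟩ := hcontr.exists_fixedPoint' hcomplete hmaps (x := 0)
      (by simpa [B] using hpos) (edist_ne_top _ _)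
    refine ⟨c, by simpa [B] using hc, ?_⟩
    have h1 : T c = c := hfix
    simp only [T] at h1
    have h2 : G (x + A c) - z = 0 := by
      have := sub_eq_self.mp h1
      exact this
    exact sub_eq_zero.mp h2

end Vale.Agent.P268.T
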