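import Vale.Agent.P268.T.DeltaR

/-!
# P268, topological half: the normal form under linear isometries of the fibre and reindexing
-/

set_option linter.unusedSectionVars false

namespace Vale.Agent.P268.T.NNIso

open Set Filter Topology Metric

variable {P V V' A A' : Type*} [NormedAddCommGroup P] [NormedSpace ℝ P]
  [NormedAddCommGroup V] [InnerProductSpace ℝ V] [NormedAddCommGroup V'] [InnerProductSpace ℝ V']

/-- A glued function only depends on the real and imaginary parts of the sheets. -/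
theorem gfn_congr {T E : Type*} [TopologicalSpace T] [NormedAddCommGroup E] [NormedSpace ℝ E]
    [Fintype A] [Nonempty A]
    {E' : Type*} [NormedAddCommGroup E'] [NormedSpace ℝ E'] {η : ℝ} {N : E → ℝ} {N' : E' → ℝ}
    {rho be : T → A → E → ℝ} {rho' be' : T → A → E' → ℝ} {τ : T} {x : E} {x' : E'}
    (hN : N x = N' x') (hr : ∀ a, rho τ a x = rho' τ a x') (hb : ∀ a, be τ a x = be' τ a x') :
    gfn η N rho be τ x = gfn η N' rho' be' τ x' := by
  have h1 : gre rho τ x = gre rho' τ x' := by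
    unfold gre
    exact Finset.sup'_congr _ rfl fun a _ => hr a
  have h2 : gim η N rho be τ x = gim η N' rho' be' τ x' := by
    unfold gim gwt
    simp only [hr, hb, hN]
  unfold gfn
  rw [h1, h2]

/-- The normal form under a linear isometry of the fibre. -/
theorem NN_isometry [Fintype A] (L : V ≃ₗᵢ[ℝ] V') (e : V) (ε R M : ℝ) (b ν : A → P → V)
    (x : (ℝ × P) × V) :
    NN (L e) ε R M (fun a y => L (b a y)) (fun a y => L (ν a y)) (x.1, L x.2) =
      NN e ε R M b ν x := by
  unfold NN SheetData.fn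
  refine gfn_congr rfl ?_ ?_
  · rintro (_ | a)
    · show min (R * ‖x.1‖ - ‖L x.2‖) _ = min (R * ‖x.1‖ - ‖x.2‖) _
      rw [L.norm_map]; rfl
    · show min (ε * ‖x.1‖ - ‖L x.2 - ‖x.1‖ • L (b a (kap x.1))‖) _ =
        min (ε * ‖x.1‖ - ‖x.2 - ‖x.1‖ • b a (kap x.1)‖) _
      rw [← map_smul, ← map_sub, L.norm_map]; rfl
  · rintro (_ | a)
    · show inner ℝ (L x.2) (L e) = inner ℝ x.2 e
      rw [L.inner_map_map]
    · show inner ℝ (L x.2 - ‖x.1‖ • L (b a (kap x.1))) (L (ν a (kap x.1))) =
        inner ℝ (x.2 - ‖x.1‖ • b a (kap x.1)) (ν a (kap x.1))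
      rw [← map_smul, ← map_sub, L.inner_map_map]

/-- The normal form under a linear isometry of the fibre, zero sets. -/
theorem NN_isometry_veq [Fintype A] (L : V ≃ₗᵢ[ℝ] V') (e : V) (ε R M : ℝ) (b ν : A → P → V) :
    VEq (NN e ε R M b ν)
      (NN (L e) ε R M (fun a y => L (b a y)) (fun a y => L (ν a y))) := by
  refine ⟨(Homeomorph.refl (ℝ × P)).prodCongr L.toHomeomorph, ?_, fun x => ?_⟩
  · show ((0 : ℝ × P), L 0) = 0
    rw [map_zero]; rfl
  · have h := NN_isometry L e ε R M b ν x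
    show NN e ε R M b ν x = 0 ↔
      NN (L e) ε R M (fun a y => L (b a y)) (fun a y => L (ν a y)) (x.1, L x.2) = 0
    rw [h]

/-- A glued function under a change of the index set. -/
theorem gfn_reindex {T E : Type*} [TopologicalSpace T] [NormedAddCommGroup E] [NormedSpace ℝ E]
    [Fintype A] [Nonempty A] [Fintype A'] [Nonempty A'] (f : A ≃ A') {η : ℝ} {N : E → ℝ}
    {rho be : T → A → E → ℝ} {rho' be' : T → A' → E → ℝ} {τ : T} {x : E}
    (hr : ∀ a, rho' τ (f a) x = rho τ a x) (hb : ∀ a, be' τ (f a) x = be τ a x) :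
    gfn η N rho' be' τ x = gfn η N rho be τ x := by
  have h1 : gre rho' τ x = gre rho τ x := by
    unfold gre
    refine le_antisymm (Finset.sup'_le _ _ fun a _ => ?_) (Finset.sup'_le _ _ fun a _ => ?_)
    · obtain ⟨b, rfl⟩ := f.surjective a
      rw [hr]
      exact Finset.le_sup' (fun a => rho τ a x) (Finset.mem_univ b)
    · rw [← hr]
      exact Finset.le_sup' (fun a => rho' τ a x) (Finset.mem_univ (f a))
  have h2 : gim η N rho' be' τ x = gim η N rho be τ x := by
    unfold gim gwt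
    rw [← Equiv.sum_comp f fun a => max (rho' τ a x + η * N x) 0 * be' τ a x,
      ← Equiv.sum_comp f fun a => max (rho' τ a x + η * N x) 0]
    simp only [hr, hb]
  unfold gfn
  rw [h1, h2]

/-- The normal form under a change of the index set. -/
theorem NN_reindex [Fintype A] [Fintype A'] (f : A ≃ A') (e : V) (ε R M : ℝ) (b ν : A → P → V)
    (b' ν' : A' → P → V) (hb : ∀ a, b' (f a) = b a) (hν : ∀ a, ν' (f a) = ν a) :
    NN e ε R M b' ν' = NN e ε R M b ν := by
  funext x
  unfold NN SheetData.fn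
  refine gfn_reindex (Equiv.optionCongr f) ?_ ?_
  · rintro (_ | a)
    · rfl
    · show min (ε * ‖x.1‖ - ‖x.2 - ‖x.1‖ • b' (f a) (kap x.1)‖) _ =
        min (ε * ‖x.1‖ - ‖x.2 - ‖x.1‖ • b a (kap x.1)‖) _
      rw [hb]; rfl
  · rintro (_ | a)
    · rfl
    · show inner ℝ (x.2 - ‖x.1‖ • b' (f a) (kap x.1)) (ν' (f a) (kap x.1)) =
        inner ℝ (x.2 - ‖x.1‖ • b a (kap x.1)) (ν a (kap x.1))
      rw [hb, hν]

end Vale.Agent.P268.T.NNIso
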