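import Vale.Agent.P268.T.SkelNF
import Vale.Agent.P268.T.NNIso
import Vale.Agent.P268.T.Blocks
import Vale.Agent.P268.T.B4.Chart921
import Vale.Agent.P268.T.B4.Lip921

/-!
# P268, topological half: the normal forms of the ray functions, from the pieces

`blockNF_of`: `BlockNF` from `KFormB3`, `KFormKA`, `KSwing` and `KType g`.
-/

set_option linter.unusedSectionVars false

namespace Vale.Agent.P268.T

open Set Filter Topology Metric Matrix Vale.Agent.P268.T.B4 Vale.Agent.P268.T.A109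
  Vale.Agent.P268.T.K372
open Vale.Agent.P268.H288 (mx hcl)
open scoped Topology.Homotopy RealInnerProductSpace

/-! ### Change of the index set of the coordinates -/

/-- The ray function under a change of the index set. -/
theorem FS_reindex {σ ι ι' : Type} [Fintype σ] [Nonempty σ] [Fintype ι] [Fintype ι'] (f : ι ≃ ι')
    (ε : ℝ) (K : σ → ι → ℕ) : VEq (FS ε K) (FS ε fun a j => K a (f.symm j)) := by
  refine ⟨⟨⟨fun x j => x (f.symm j), fun y i => y (f i), fun x => ?_, fun y => ?_⟩, ?_, ?_⟩, ?_,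
    fun x => ?_⟩
  · funext i; simp
  · funext i; simp
  · exact continuous_pi fun j => continuous_apply _
  · exact continuous_pi fun j => continuous_apply _
  · funext j; rfl
  · have h : FS ε (fun a j => K a (f.symm j)) (fun j => x (f.symm j)) = FS ε K x := by
      unfold FS raySup turnSum
      congr 1
      · refine Finset.sup'_congr _ rfl fun a _ => ?_
        exact Equiv.sum_comp f.symm fun j => ray ε (K a j) (x j)
      · exact Equiv.sum_comp f.symm fun j => turn (x j)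
    show FS ε K x = 0 ↔ FS ε (fun a j => K a (f.symm j)) (fun j => x (f.symm j)) = 0
    rw [h]

/-! ### The isometry -/

theorem Lk_eDiag (k : ℕ) : Lk k (eDiag (Fin (k + 4))) = (frk k).h :=
  Submodule.reflection_sub (by rw [norm_eDiag, (frk k).hh])

/-! ### Data under isometries and changes of the index set -/

namespace NFaux

section Data

variable {T P V A : Type*} [TopologicalSpace T] [NormedAddCommGroup P] [NormedSpace ℝ P]
  [NormedAddCommGroup V] [InnerProductSpace ℝ V] {s : Set T} {e : V} {b ν : T → A → P → V}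

/-- Data under a linear isometry. -/
theorem isometry {V' : Type*} [NormedAddCommGroup V'] [InnerProductSpace ℝ V']
    (L : V ≃ₗᵢ[ℝ] V') (h : BFam s e b ν) :
    BFam s (L e) (fun t a x => L (b t a x)) (fun t a x => L (ν t a x)) where
  cb a := L.continuous.comp_continuousOn (h.cb a)
  cn a := L.continuous.comp_continuousOn (h.cn a)
  nn t ht a x hx := by rw [L.norm_map]; exact h.nn t ht a x hx
  inj t ht x hx _ _ haa := h.inj t ht x hx (L.injective haa)
  bh t ht a x hx := by rw [L.inner_map_map]; exact h.bh t ht a x hx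
  nh t ht a x hx := by rw [h.nh t ht a x hx]

/-- Reindexed data. -/
theorem reindex {A' : Type*} (f : A' ≃ A) (h : BFam s e b ν) :
    BFam s e (fun t a => b t (f a)) (fun t a => ν t (f a)) where
  cb a := h.cb (f a)
  cn a := h.cn (f a)
  nn t ht a x hx := h.nn t ht (f a) x hx
  inj t ht x hx _ _ haa := f.injective (h.inj t ht x hx haa)
  bh t ht a x hx := h.bh t ht (f a) x hx
  nh t ht a x hx := h.nh t ht (f a) x hx

/-- A far constant sheet. -/
theorem far (h : BFam s e b ν) (he : ‖e‖ = 1) {b₀ : V} (h0 : ⟪b₀, e⟫ = 0)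
    (hb : ∀ t ∈ s, ∀ a, ∀ x ∈ closedBall (0 : P) 1, ‖b t a x‖ < ‖b₀‖) :
    BFam s e (fun t => farB b₀ (b t)) (fun t => farN e (ν t)) where
  cb a := by
    cases a with
    | none => exact continuousOn_const
    | some a => exact h.cb a
  cn a := by
    cases a with
    | none => exact continuousOn_const
    | some a => exact h.cn a
  nn t ht a x hx := by
    cases a with
    | none => exact he
    | some a => exact h.nn t ht a x hx
  inj t ht x hx := by
    intro a a' haa
    cases a with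
    | none =>
      cases a' with
      | none => rfl
      | some a' =>
        have h1 : b₀ = b t a' x := haa
        have h2 := hb t ht a' x hx
        rw [← h1] at h2
        exact absurd h2 (lt_irrefl _)
    | some a =>
      cases a' with
      | none =>
        have h1 : b t a x = b₀ := haa
        have h2 := hb t ht a x hx
        rw [h1] at h2
        exact absurd h2 (lt_irrefl _)
      | some a' => exact congrArg some (h.inj t ht x hx haa)
  bh t ht a x hx := by
    cases a with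
    | none => exact h0
    | some a => exact h.bh t ht a x hx
  nh t ht a x hx := by
    cases a with
    | none => rfl
    | some a => exact h.nh t ht a x hx

/-- Bounds for families over compact sets. -/
theorem exists_bound [ProperSpace P] [Fintype A] (h : BFam s e b ν) (hs : IsCompact s) :
    ∃ C : ℝ, ∀ t ∈ s, ∀ a, ∀ x ∈ closedBall (0 : P) 1, ‖b t a x‖ ≤ C := by
  have hK : IsCompact (s ×ˢ closedBall (0 : P) 1) := hs.prod (isCompact_closedBall 0 1)
  have h1 : ∀ a, ∃ C : ℝ, ∀ q ∈ s ×ˢ closedBall (0 : P) 1, ‖b q.1 a q.2‖ ≤ C := fun a =>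
    hK.exists_bound_of_continuousOn (h.cb a)
  choose C hC using h1
  refine ⟨∑ a, |C a|, fun t ht a x hx => ?_⟩
  have h2 : |C a| ≤ ∑ a, |C a| :=
    Finset.single_le_sum (f := fun a => |C a|) (fun _ _ => abs_nonneg _) (Finset.mem_univ a)
  have h3 : ‖b t a x‖ ≤ C a := hC a (t, x) ⟨ht, hx⟩
  exact h3.trans ((le_abs_self _).trans h2)

end Data

section AdmLemmas

variable {P V A : Type*} [NormedAddCommGroup P] [NormedSpace ℝ P]
  [NormedAddCommGroup V] [InnerProductSpace ℝ V]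

theorem adm_of_far {ε R M : ℝ} {b : A → P → V} {b₀ : V} (h : Adm ε R M (farB b₀ b)) :
    Adm ε R M b where
  hε := h.hε
  hR := h.hR
  hM := h.hM
  hb a x hx := h.hb (some a) x hx
  hd a a' haa x hx := h.hd (some a) (some a') (fun h => haa (Option.some_injective _ h)) x hx

/-- Admissible parameters under a linear isometry and a change of the index set. -/
theorem adm_congr {V' A' : Type*} [NormedAddCommGroup V'] [InnerProductSpace ℝ V']
    (L : V ≃ₗᵢ[ℝ] V') (f : A ≃ A') {ε R M : ℝ} {b : A → P → V} {b' : A' → P → V'}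
    (h : Adm ε R M b) (hb : ∀ a x, b' (f a) x = L (b a x)) : Adm ε R M b' where
  hε := h.hε
  hR := h.hR
  hM := h.hM
  hb a x hx := by
    obtain ⟨a, rfl⟩ := f.surjective a
    rw [hb, L.norm_map]
    exact h.hb a x hx
  hd a a' haa x hx := by
    obtain ⟨a, rfl⟩ := f.surjective a
    obtain ⟨a', rfl⟩ := f.surjective a'
    rw [hb, hb, ← map_sub, L.norm_map]
    exact h.hd a a' (fun h => haa (h ▸ rfl)) x hx

end AdmLemmas

/-! ### Change of the chart -/

theorem dl_pos (k : ℕ) : 0 < dl k := by unfold dl; positivity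

theorem dd_pos (k : ℕ) : 0 < dd k := by unfold dd; positivity

theorem two_dd (k : ℕ) : 2 * dd k = dl k := by
  unfold dd dl
  field_simp
  ring

theorem card_dl (k : ℕ) : Fintype.card (Fin (k + 4)) * dl k ^ 2 < 1 := by
  rw [Fintype.card_fin]
  unfold dl
  push_cast
  rw [div_pow, one_pow, mul_one_div, div_lt_one (by positivity)]
  nlinarith [show (0 : ℝ) ≤ k from Nat.cast_nonneg k]

/-- **Change of the chart parameter**, from `3/2 * d` to `dd k`. -/
theorem kChart (k : ℕ) (σ : Type) [Fintype σ] (K : σ → Fin (k + 4) → ℕ)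
    (G : (Fin (k + 4) → ℕ) → ℝ) (hG : GoodG K G) :
    ∀ᶠ d in 𝓝[>] (0 : ℝ), ∀ᶠ d' in 𝓝[>] (0 : ℝ), ∀ᶠ θ in 𝓝[>] (0 : ℝ),
      BFam (Icc (0 : ℝ) 1) (eDiag (Fin (k + 4)))
        (fun t => kbc k ((1 - t) * (3 / 2 * d) + t * dd k) d' θ G K)
        (fun t => knc k ((1 - t) * (3 / 2 * d) + t * dd k) (σ := σ)) := by
  have hd0 := dd_pos k
  filter_upwards [Ioc_mem_nhdsGT (show (0 : ℝ) < 2 / 3 * dd k by positivity)] with d hd
  obtain ⟨hd1, hd2⟩ := hd
  have hd3 : 0 < 3 / 2 * d := by linarith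
  have hd4 : 3 / 2 * d ≤ dd k := by linarith
  set X : ℝ := Real.sqrt ((k + 3 : ℕ) + 1) * (1 + 1 / (3 / 2 * d)) with hX
  have hX0 : 0 ≤ X := by positivity
  filter_upwards [Ioc_mem_nhdsGT (show (0 : ℝ) < 1 / (2 * (X + 1)) by positivity)] with d' hd'
  obtain ⟨θ₀, hθ₀, hθ⟩ := exists_theta K G (4 * Fintype.card (Fin (k + 4)))
  filter_upwards [Ioc_mem_nhdsGT hθ₀] with θ hθ'
  have hc : d' * X < 1 := by
    have h1 : d' * X ≤ 1 / (2 * (X + 1)) * X := mul_le_mul_of_nonneg_right hd'.2 hX0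
    have h2 : 1 / (2 * (X + 1)) * X < 1 := by
      rw [one_div_mul_eq_div, div_lt_one (by positivity)]
      linarith
    linarith
  have h := bFam_usec (n := k + 3) (δ := dl k) (d' := d') (nu := nuV (dl k))
    (c := fun a => cV (dl k) d' θ G (K a)) (s := Icc (3 / 2 * d) (dd k)) (d₁ := 3 / 2 * d) hd3
    (fun t ht => ⟨ht.1, by rw [← two_dd]; linarith [ht.2]⟩) hd'.1.le hc
    (nField_nuV (dl_pos k).le (card_dl k))
    (fun a => continuous_cV (dl_pos k).le hd'.1.le θ G (K a))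
    (fun a r hr u => cV_smul _ _ θ G (K a) hr u)
    (fun a u hu => by
      rw [real_inner_comm]
      exact inner_cV_nuV_eq_zero (dl_pos k).le d' θ G (K a) (mx_le_iff.mp hu))
    (fun a b hab u _ hu h => hab (cV_injective (dl_pos k).le (card_dl k) hd'.1 hθ'.1 hG.1 hG.2.1
      (fun a b => hθ θ hθ'.1.le hθ'.2 a b) (lt_mx_iff.mp hu) h))
  refine BFam.param (φ := fun t : ℝ => (1 - t) * (3 / 2 * d) + t * dd k) (s' := Icc (0 : ℝ) 1)
    (Continuous.continuousOn (by fun_prop)) (fun t ht => ?_) h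
  constructor
  · show 3 / 2 * d ≤ (1 - t) * (3 / 2 * d) + t * dd k
    nlinarith [ht.1, ht.2]
  · show (1 - t) * (3 / 2 * d) + t * dd k ≤ dd k
    nlinarith [ht.1, ht.2]

end NFaux

/-! ### The reduction -/

open Vale.Agent.P268.T.NFaux

/-- **`BlockNF` from the pieces.** -/
theorem blockNF_of (h1 : KFormB3) (h2 : KFormKA) (h3 : KSwing)
    {g : ∀ k, (frk k).PiG (Fin (k + 2))} (h4 : KType g) : BlockNF Nfb (typb g) := by
  intro k r σ ι _ _ _ K hι hK e he
  obtain ⟨f⟩ : Nonempty (ι ≃ Fin (k + 4)) := ⟨Fintype.equivFinOfCardEq hι⟩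
  obtain ⟨K', hKK⟩ : ∃ K' : σ → Fin (k + 4) → ℕ, K' = fun a j => K a (f.symm j) := ⟨_, rfl⟩
  have hK' : Function.Injective K' := by
    intro a b hab
    apply hK
    funext i
    have := congrFun hab (f i)
    rw [hKK] at this
    simpa using this
  have hle : ∀ x y, (∀ j, K' x j ≤ K' y j) ↔ ∀ j, K x j ≤ K y j := by
    intro x y
    rw [hKK]
    exact ⟨fun h j => by simpa using h (f j), fun h j => h _⟩
  have he' : LinExt K' e := fun x y hxy => he x y ((hle x y).mp hxy)
  have hz : zetaK K' e = zetaK K e := by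
    funext x y
    unfold zetaK
    simp only [hle]
  obtain ⟨G, hG⟩ := exists_G_family hK'
  have hG' : GoodG K' G := hG
  -- the parameters
  obtain ⟨ρ, hρ1, hρ2⟩ := ((h1 k σ K' hK' G hG').and (h2 k σ K' hK' G hG')).exists
  obtain ⟨d, hd1, hd2, hd3⟩ := (hρ1.and (hρ2.and (kChart k σ K' G hG'))).exists
  obtain ⟨d', he1, he2, he3, he4⟩ :=
    (hd1.and (hd2.and (hd3.and (h4 k r σ K' hK' e he' G hG')))).exists
  obtain ⟨θ, ht1, ht2, hBc, p, hp, b, ν, hB, hb0, hν0, hb1, hν1⟩ :=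
    (he1.and (he2.and (he3.and he4))).exists
  obtain ⟨ε, hε1, hε2⟩ := (ht1.and ht2).exists
  obtain ⟨M, hM1, hM2⟩ := (hε1.and hε2).exists
  clear hρ1 hρ2 hd1 hd2 hd3 he1 he2 he3 he4 ht1 ht2 hε1 hε2
  obtain ⟨ε₁, hε₁, hFS⟩ := mem_nhdsGT_iff_exists_Ioc_subset.mp hM1
  -- the data of the K-form
  set dc : ℝ → ℝ := fun t => (1 - t) * (3 / 2 * d) + t * dd k with hdc
  have dc0 : dc 0 = 3 / 2 * d := by rw [hdc]; ring
  have dc1 : dc 1 = dd k := by rw [hdc]; ring
  have hBc' : BFam (Icc (0 : ℝ) 1) (eDiag (Fin (k + 4))) (fun t => kbc k (dc t) d' θ G K')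
      (fun t => knc k (dc t) (σ := σ)) := hBc
  have hDc : BData (eDiag (Fin (k + 4))) (kbc k (3 / 2 * d) d' θ G K')
      (knc k (3 / 2 * d) (σ := σ)) := by
    have h5 := hBc'.at (t := 0) ⟨le_rfl, zero_le_one⟩
    rwa [dc0] at h5
  obtain ⟨C₁, hC₁⟩ := NFaux.exists_bound hB isCompact_Icc
  obtain ⟨C₂, hC₂⟩ := NFaux.exists_bound hBc' isCompact_Icc
  obtain ⟨C, hC0, hC1, hC2⟩ : ∃ C : ℝ, 0 ≤ C ∧ C₁ ≤ C ∧ C₂ ≤ C :=
    ⟨|C₁| + |C₂|, by positivity, by linarith [le_abs_self C₁, abs_nonneg C₂],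
      by linarith [le_abs_self C₂, abs_nonneg C₁]⟩
  -- the braid with parameters
  obtain ⟨b', hb'p, hb'ρ⟩ := exists_NBr blockAdm p (12 * C + 24)
  have hρ : 0 < b'.ρ := by linarith
  refine ⟨ε₁, hε₁, fun ε' hε' => ⟨b', ?_, ?_⟩⟩
  · show (frk k).HasType (g k) (zetaK K e) (hcl b'.p)
    rw [hb'p, ← hz]
    exact hp
  -- the far sheet
  set b₀ : Vk k := (Lk k).symm (-(b'.ρ • (frk k).e)) with hb₀
  have hb₀n : ‖b₀‖ = b'.ρ := by
    rw [hb₀, (Lk k).symm.norm_map, norm_neg, norm_smul, (frk k).he, mul_one, Real.norm_eq_abs,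
      abs_of_pos hρ]
  have hb₀e : ⟪b₀, eDiag (Fin (k + 4))⟫ = 0 := by
    have h5 : ⟪Lk k b₀, Lk k (eDiag (Fin (k + 4)))⟫ = 0 := by
      rw [Lk_eDiag, hb₀, (Lk k).apply_symm_apply, inner_neg_left, inner_smul_left, real_inner_comm,
        (frk k).heh, mul_zero, neg_zero]
    rwa [(Lk k).inner_map_map] at h5
  have hfarC : BFam (Icc (0 : ℝ) 1) (eDiag (Fin (k + 4)))
      (fun t => farB b₀ (kbc k (dc t) d' θ G K'))
      (fun t => farN (eDiag _) (knc k (dc t) (σ := σ))) :=
    NFaux.far hBc' norm_eDiag hb₀e fun t ht a x hx => by rw [hb₀n]; linarith [hC₂ t ht a x hx]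
  have hfarB : BFam (Icc (0 : ℝ) 1) (frk k).h (fun t => farB (-(b'.ρ • (frk k).e)) (b t))
      (fun t => farN (frk k).h (ν t)) := by
    refine NFaux.far hB (frk k).hh ?_ fun t ht a x hx => ?_
    · rw [inner_neg_left, inner_smul_left, real_inner_comm, (frk k).heh, mul_zero, neg_zero]
    · rw [norm_neg, norm_smul, (frk k).he, mul_one, Real.norm_eq_abs, abs_of_pos hρ]
      linarith [hC₁ t ht a x hx]
  obtain ⟨ε₀, hε₀, R₀, hR₀, hA⟩ := exists_adm isCompact_Icc hfarC
  have hAdm : ∀ t ∈ Icc (0 : ℝ) 1,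
      Adm (min ε₀ (1 / 4)) R₀ (16 * R₀) (farB b₀ (kbc k (dc t) d' θ G K')) :=
    hA _ ⟨lt_min hε₀ (by norm_num), min_le_left _ _⟩ R₀ le_rfl _ le_rfl
  set ε₂ := min ε₀ (1 / 4) with hε₂
  have hε₂' : ε₂ ≤ 1 / 4 := min_le_right _ _
  have hAdm0 := hAdm 0 ⟨le_rfl, zero_le_one⟩
  have hAdm1 := hAdm 1 ⟨zero_le_one, le_rfl⟩
  rw [dc0] at hAdm0
  rw [dc1] at hAdm1
  -- the chain
  have s1 : VEq (FS ε' K) (FS ε' K') := hKK ▸ FS_reindex f ε' K
  have s2 : VEq (FS ε' K') (kform (dl k) d d' θ ε ρ M G K') := hFS hε'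
  have s3 := hM2 ε₂ R₀ (16 * R₀) (adm_of_far hAdm0)
  have s4 := h3 k σ (eDiag _) _ _ norm_eDiag hDc b₀ (2 * C + 4) ε₂ R₀ (16 * R₀) hb₀e (by linarith)
    (fun a x hx => by
      have h5 := hC₂ 0 ⟨le_rfl, zero_le_one⟩ a x hx
      rw [dc0] at h5
      linarith) (by rw [hb₀n]; linarith) hε₂' hAdm0
  have s5 := NN_veq_of_homotopy norm_eDiag hfarC (hAdm 0 ⟨le_rfl, zero_le_one⟩)
    (hAdm 1 ⟨zero_le_one, le_rfl⟩)
  beta_reduce at s5
  rw [dc0, dc1] at s5
  have s6 := NNIso.NN_isometry_veq (Lk k) (eDiag (Fin (k + 4))) ε₂ R₀ (16 * R₀)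
    (farB b₀ (kbk k d' θ G K')) (farN (eDiag _) (knk k (σ := σ)))
  rw [Lk_eDiag] at s6
  have s7 := NNIso.NN_reindex (Equiv.optionCongr e) (frk k).h ε₂ R₀ (16 * R₀)
    (fun a y => Lk k (farB b₀ (kbk k d' θ G K') a y))
    (fun a y => Lk k (farN (eDiag _) (knk k (σ := σ)) a y))
    (farB (-(b'.ρ • (frk k).e)) (b 0)) (farN (frk k).h (ν 0))
    (by
      rintro (_ | a)
      · funext y
        show -(b'.ρ • (frk k).e) = Lk k b₀
        rw [hb₀, (Lk k).apply_symm_apply]
      · funext y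
        show b 0 (e a) y = Lk k (kbk k d' θ G K' a y)
        rw [hb0, e.symm_apply_apply])
    (by
      rintro (_ | a)
      · funext y
        show (frk k).h = Lk k (eDiag _)
        rw [Lk_eDiag]
      · funext y
        show ν 0 (e a) y = Lk k (knk k a y)
        rw [hν0]
        rfl)
  have hAdmB : Adm ε₂ R₀ (16 * R₀) (farB (-(b'.ρ • (frk k).e)) (b 0)) := by
    refine adm_congr (Lk k) (Equiv.optionCongr e) hAdm1 ?_
    rintro (_ | a) x
    · show -(b'.ρ • (frk k).e) = Lk k b₀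
      rw [hb₀, (Lk k).apply_symm_apply]
    · show b 0 (e a) x = Lk k (kbk k d' θ G K' a x)
      rw [hb0, e.symm_apply_apply]
  have E1 : farB (-(b'.ρ • (frk k).e)) (b 1) = shB (frk k) b'.p b'.ρ := by
    funext a x
    cases a with
    | none => rfl
    | some i =>
      show b 1 i x = (((b'.p (cubeM x).1).1 (cubeM x).2).1.1 i : Vk k)
      rw [hb1, hb'p]
  have E2 : farN (frk k).h (ν 1) = nuB (frk k) b'.p := by
    funext a x
    cases a with
    | none => rfl
    | some i =>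
      show ν 1 i x = (((b'.p (cubeM x).1).1 (cubeM x).2).2 i : Vk k)
      rw [hν1, hb'p]
  have s8 := blockHom k _ (fun t => farB (-(b'.ρ • (frk k).e)) (b t))
    (fun t => farN (frk k).h (ν t)) ε₂ R₀ (16 * R₀) b'.ε b'.R b'.M hfarB hAdmB
    (by show Adm _ _ _ (farB (-(b'.ρ • (frk k).e)) (b 1)); rw [E1]; exact b'.adm)
  beta_reduce at s8
  rw [E1, E2, s7] at s8
  exact s1.trans (s2.trans (s3.trans (s4.trans (s5.trans (s6.trans s8)))))

end Vale.Agent.P268.T
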