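import Vale.Agent.P268.T.Glob

/-!
# P268, topological half: families of regular homogeneous functions
-/

set_option linter.unusedSectionVars false

namespace Vale.Agent.P268.T

open Set Filter Topology

variable {E : Type*} [NormedAddCommGroup E] [NormedSpace ℝ E]
  {Z : Type*} [NormedAddCommGroup Z] [NormedSpace ℝ Z]

/-- Positively homogeneous of degree one. -/
def Hom1 (F : E → Z) : Prop := ∀ r : ℝ, 0 ≤ r → ∀ x, F (r • x) = r • F x

theorem Hom1.zero {F : E → Z} (h : Hom1 F) : F 0 = 0 := by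
  have := h 0 le_rfl 0
  simpa using this

/-- Metric regularity on a set. -/
def MRegOn (k : ℝ) (F : E → Z) (A : Z →L[ℝ] E) (U : Set E) : Prop :=
  ∀ x ∈ U, ∀ c, x + A c ∈ U → ‖F (x + A c) - F x - c‖ ≤ k * ‖c‖

/-- The family `F` is metrically regular near `(t₀, x)`: there is one plane direction along which
all `F t`, `t ∈ s` near `t₀`, are `k`-Lipschitz perturbations of the identity near `x`, `k < 1`. -/
def RegAt {T : Type*} [TopologicalSpace T] (s : Set T) (F : T → E → Z) (t₀ : T) (x : E) : Prop :=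
  ∃ k : ℝ, 0 ≤ k ∧ k < 1 ∧ ∃ A : Z →L[ℝ] E, ∃ U ∈ 𝓝 x, ∀ᶠ t in 𝓝[s] t₀, MRegOn k (F t) A U

theorem MRegOn.mono_const {k k' : ℝ} {F : E → Z} {A : Z →L[ℝ] E} {U : Set E}
    (h : MRegOn k F A U) (hk : k ≤ k') : MRegOn k' F A U := fun x hx c hc =>
  (h x hx c hc).trans (mul_le_mul_of_nonneg_right hk (norm_nonneg _))

theorem MRegOn.mono {k : ℝ} {F : E → Z} {A : Z →L[ℝ] E} {U V : Set E} (h : MRegOn k F A U)
    (hV : V ⊆ U) : MRegOn k F A V := fun x hx c hc => h x (hV hx) c (hV hc)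

/-- The direction of a vector. -/
noncomputable def dir (x : E) : E := ‖x‖⁻¹ • x

theorem norm_dir_le (x : E) : ‖dir x‖ ≤ 1 := by
  rw [dir, norm_smul, norm_inv, norm_norm]
  exact inv_mul_le_one

theorem norm_dir {x : E} (hx : x ≠ 0) : ‖dir x‖ = 1 := by
  rw [dir, norm_smul, norm_inv, norm_norm]
  exact inv_mul_cancel₀ (norm_ne_zero_iff.mpr hx)

theorem norm_smul_dir (x : E) : ‖x‖ • dir x = x := by
  rcases eq_or_ne x 0 with rfl | hx
  · simp [dir]
  · rw [dir, smul_smul, mul_inv_cancel₀ (norm_ne_zero_iff.mpr hx), one_smul]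

theorem dir_sub (y y' : E) : ‖dir y - dir y'‖ * ‖y'‖ ≤ 2 * ‖y - y'‖ := by
  have h1 : ‖y'‖ • (dir y - dir y') = (‖y'‖ - ‖y‖) • dir y + (y - y') := by
    rw [smul_sub, sub_smul, norm_smul_dir, norm_smul_dir]; abel
  have h2 : ‖dir y - dir y'‖ * ‖y'‖ = ‖‖y'‖ • (dir y - dir y')‖ := by
    rw [norm_smul, norm_norm, mul_comm]
  rw [h2, h1]
  have h3 : ‖(‖y'‖ - ‖y‖) • dir y‖ ≤ ‖y - y'‖ := by
    rw [norm_smul, Real.norm_eq_abs]
    calc |‖y'‖ - ‖y‖| * ‖dir y‖ ≤ |‖y'‖ - ‖y‖| * 1 :=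
          mul_le_mul_of_nonneg_left (norm_dir_le y) (abs_nonneg _)
      _ ≤ ‖y - y'‖ := by
          rw [mul_one, norm_sub_rev]
          exact abs_norm_sub_norm_le y' y
  linarith [norm_add_le ((‖y'‖ - ‖y‖) • dir y) (y - y')]

theorem MRegOn.toMR {k ρ : ℝ} {F : E → Z} (hF : Hom1 F) {A : Z →L[ℝ] E} {U : Set E}
    (h : MRegOn k F A U) {x : E} (hx : x ≠ 0 → ∀ c : Z, ‖c‖ ≤ ρ → dir x + A c ∈ U) :
    MR k ρ F A x := by
  intro c c' hc hc'
  rcases eq_or_ne x 0 with rfl | hx0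
  · rw [norm_zero, mul_zero] at hc hc'
    have h1 := norm_le_zero_iff.mp hc
    have h2 := norm_le_zero_iff.mp hc'
    subst h1
    subst h2
    simp
  · have hn : 0 < ‖x‖ := norm_pos_iff.mpr hx0
    have hs : ∀ c : Z, x + A c = ‖x‖ • (dir x + A (‖x‖⁻¹ • c)) := by
      intro c
      rw [smul_add, norm_smul_dir, map_smul, smul_smul, mul_inv_cancel₀ hn.ne', one_smul]
    have hb : ∀ c : Z, ‖c‖ ≤ ρ * ‖x‖ → ‖‖x‖⁻¹ • c‖ ≤ ρ := by
      intro c hc
      rw [norm_smul, norm_inv, norm_norm, inv_mul_le_iff₀ hn, mul_comm]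
      exact hc
    have h1 := h _ (hx hx0 _ (hb c' hc')) (‖x‖⁻¹ • (c - c')) (by
      have : dir x + A (‖x‖⁻¹ • c') + A (‖x‖⁻¹ • (c - c')) = dir x + A (‖x‖⁻¹ • c) := by
        rw [add_assoc, ← map_add, ← smul_add]; congr 3; abel
      rw [this]
      exact hx hx0 _ (hb c hc))
    have h2 : dir x + A (‖x‖⁻¹ • c') + A (‖x‖⁻¹ • (c - c')) = dir x + A (‖x‖⁻¹ • c) := by
      rw [add_assoc, ← map_add, ← smul_add]; congr 3; abel
    rw [h2] at h1
    rw [hs c, hs c', hF _ hn.le, hF _ hn.le]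
    have h3 : ‖x‖ • F (dir x + A (‖x‖⁻¹ • c)) - ‖x‖ • F (dir x + A (‖x‖⁻¹ • c')) - (c - c') =
        ‖x‖ • (F (dir x + A (‖x‖⁻¹ • c)) - F (dir x + A (‖x‖⁻¹ • c')) - ‖x‖⁻¹ • (c - c')) := by
      rw [smul_sub, smul_sub, smul_smul, mul_inv_cancel₀ hn.ne', one_smul]
    rw [h3, norm_smul, norm_norm]
    calc ‖x‖ * _ ≤ ‖x‖ * (k * ‖‖x‖⁻¹ • (c - c')‖) := mul_le_mul_of_nonneg_left h1 hn.le
      _ = k * ‖c - c'‖ := by
          rw [norm_smul, norm_inv, norm_norm]
          field_simp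

/-- The cut-off function. -/
noncomputable def bump (r : ℝ) (a : E) (y : E) : ℝ := max 0 (min 1 (2 - ‖dir y - a‖ / r))

theorem bump_le_one (r : ℝ) (a y : E) : bump r a y ≤ 1 :=
  max_le zero_le_one (min_le_left _ _)

theorem bump_eq_one {r : ℝ} (hr : 0 < r) {a y : E} (h : ‖dir y - a‖ ≤ r) : bump r a y = 1 := by
  have : (1 : ℝ) ≤ 2 - ‖dir y - a‖ / r := by
    have := (div_le_one hr).mpr h
    linarith
  rw [bump, min_eq_left this, max_eq_right zero_le_one]

theorem bump_eq_zero {r : ℝ} (hr : 0 < r) {a y : E} (h : 2 * r ≤ ‖dir y - a‖) :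
    bump r a y = 0 := by
  have : 2 - ‖dir y - a‖ / r ≤ 0 := by
    have := (le_div_iff₀ hr).mpr h
    linarith
  rw [bump, max_eq_left ((min_le_right _ _).trans this)]

theorem bump_DL {r : ℝ} (hr : 0 < r) (a : E) : DL (2 / r) (bump r a) := by
  intro y y'
  have h1 : |bump r a y - bump r a y'| ≤ ‖dir y - dir y'‖ / r := by
    unfold bump
    refine (abs_max_sub_max_le_max _ _ _ _).trans ?_
    rw [sub_self, abs_zero, max_eq_right (abs_nonneg _)]
    refine (abs_min_sub_min_le_max _ _ _ _).trans ?_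
    rw [sub_self, abs_zero, max_eq_right (abs_nonneg _)]
    have h2 : 2 - ‖dir y - a‖ / r - (2 - ‖dir y' - a‖ / r) =
        -((‖dir y - a‖ - ‖dir y' - a‖) / r) := by ring
    rw [h2, abs_neg, abs_div, abs_of_pos hr]
    refine div_le_div_of_nonneg_right ?_ hr.le
    refine (abs_norm_sub_norm_le _ _).trans ?_
    rw [sub_sub_sub_cancel_right]
  calc |bump r a y - bump r a y'| * ‖y'‖ ≤ ‖dir y - dir y'‖ / r * ‖y'‖ :=
        mul_le_mul_of_nonneg_right h1 (norm_nonneg _)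
    _ = (‖dir y - dir y'‖ * ‖y'‖) / r := by ring
    _ ≤ (2 * ‖y - y'‖) / r := div_le_div_of_nonneg_right (dir_sub y y') hr.le
    _ = 2 / r * ‖y - y'‖ := by ring

/-- The cone. -/
def cone (r : ℝ) (a : E) : Set E := {y | ‖y - ‖y‖ • a‖ ≤ 2 * r * ‖y‖}

theorem isClosed_cone (r : ℝ) (a : E) : IsClosed (cone r a) :=
  isClosed_le (by fun_prop) (by fun_prop)

theorem norm_sub_smul (y a : E) : ‖y - ‖y‖ • a‖ = ‖y‖ * ‖dir y - a‖ := by
  have : y - ‖y‖ • a = ‖y‖ • (dir y - a) := by rw [smul_sub, norm_smul_dir]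
  rw [this, norm_smul, norm_norm]

theorem mem_cone {r : ℝ} {a y : E} (hy : y ≠ 0) : y ∈ cone r a ↔ ‖dir y - a‖ ≤ 2 * r := by
  have hn : 0 < ‖y‖ := norm_pos_iff.mpr hy
  rw [cone, mem_ofPred_eq, norm_sub_smul, mul_comm (2 * r)]
  exact mul_le_mul_iff_right₀ hn

theorem zero_mem_cone (r : ℝ) (a : E) : (0 : E) ∈ cone r a := by
  simp [cone]

/-- **Nearby functions are conjugate on the zero sets.** -/
theorem nearby [ProperSpace E] [CompleteSpace Z] {T : Type*} [TopologicalSpace T] {s : Set T}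
    {F : T → E → Z} (hF : ContinuousOn (fun p : T × E => F p.1 p.2) (s ×ˢ univ))
    (hhom : ∀ t ∈ s, Hom1 (F t)) {t₀ : T} (ht₀ : t₀ ∈ s)
    (hreg : ∀ x ≠ 0, F t₀ x = 0 → RegAt s F t₀ x) :
    ∀ᶠ t in 𝓝[s] t₀, ∃ h : E ≃ₜ E, h 0 = 0 ∧ ∀ x, F t₀ x = 0 ↔ F t (h x) = 0 := by
  classical
  have hFc : ∀ t ∈ s, Continuous (F t) := by
    intro t ht
    rw [continuous_iff_continuousAt]
    intro x
    have h1 : ContinuousWithinAt (fun p : T × E => F p.1 p.2) (s ×ˢ univ) (t, x) :=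
      hF (t, x) ⟨ht, mem_univ _⟩
    have h2 : ContinuousWithinAt (fun y : E => (t, y)) univ x :=
      (Continuous.prodMk_right t).continuousWithinAt
    have h3 := h1.comp h2 (fun y _ => ⟨ht, mem_univ _⟩)
    rw [continuousWithinAt_univ] at h3
    exact h3
  set S : Set E := Metric.sphere 0 1 with hS
  have hScomp : IsCompact S := isCompact_sphere 0 1
  set Z₀ : Set E := S ∩ {x | F t₀ x = 0} with hZ₀
  have hZcomp : IsCompact Z₀ := hScomp.inter_right (isClosed_eq (hFc t₀ ht₀) continuous_const)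
  -- charts
  have hchart : ∀ x : E, ∃ (A : Z →L[ℝ] E) (r k : ℝ), 0 < r ∧ 0 ≤ k ∧ k < 1 ∧
      (x ∈ Z₀ → ∀ᶠ t in 𝓝[s] t₀, MRegOn k (F t) A (Metric.ball x (4 * r))) := by
    intro x
    by_cases hx : x ∈ Z₀
    · have hx0 : x ≠ 0 := by
        rintro rfl
        have := hx.1
        simp [hS] at this
      obtain ⟨k, hk0, hk1, A, U, hU, hev⟩ := hreg x hx0 hx.2
      obtain ⟨R, hR, hRU⟩ := Metric.mem_nhds_iff.mp hU
      refine ⟨A, R / 4, k, by positivity, hk0, hk1, fun _ => ?_⟩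
      filter_upwards [hev] with t ht
      refine ht.mono ?_
      rwa [mul_div_cancel₀ R (by norm_num : (4 : ℝ) ≠ 0)]
    · exact ⟨0, 1, 0, one_pos, le_rfl, one_pos, fun h => absurd h hx⟩
  choose A r κ hr hκ0 hκ1 hev using hchart
  obtain ⟨fs, hfsZ, hfsc⟩ := hZcomp.elim_nhds_subcover (fun x => Metric.ball x (r x))
    (fun x _ => Metric.ball_mem_nhds x (hr x))
  -- the constant k
  obtain ⟨k, hk0, hk1, hκk⟩ : ∃ k : ℝ, 0 ≤ k ∧ k < 1 ∧ ∀ x ∈ fs, κ x ≤ k := by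
    clear hfsZ hfsc
    induction fs using Finset.induction_on with
    | empty => exact ⟨0, le_rfl, one_pos, by simp⟩
    | insert a fs _ ih =>
      obtain ⟨k, h0, h1, h2⟩ := ih
      refine ⟨max k (κ a), h0.trans (le_max_left _ _), max_lt h1 (hκ1 a), fun x hx => ?_⟩
      rcases Finset.mem_insert.mp hx with rfl | hx
      · exact le_max_right _ _
      · exact (h2 x hx).trans (le_max_left _ _)
  -- radius rho
  have hρex : ∀ x : E, ∃ ρ : ℝ, 0 < ρ ∧ ‖A x‖ * ρ ≤ r x ∧ ‖A x‖ * ρ ≤ 1 := by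
    intro x
    refine ⟨min (r x) 1 / (‖A x‖ + 1), ?_, ?_, ?_⟩
    · have := hr x
      positivity
    · have h1 : ‖A x‖ * (min (r x) 1 / (‖A x‖ + 1)) ≤ min (r x) 1 := by
        rw [mul_div_assoc', div_le_iff₀ (by positivity)]
        have h0 : 0 ≤ min (r x) 1 := le_min (hr x).le zero_le_one
        nlinarith [norm_nonneg (A x)]
      exact h1.trans (min_le_left _ _)
    · have h1 : ‖A x‖ * (min (r x) 1 / (‖A x‖ + 1)) ≤ min (r x) 1 := by
        rw [mul_div_assoc', div_le_iff₀ (by positivity)]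
        have h0 : 0 ≤ min (r x) 1 := le_min (hr x).le zero_le_one
        nlinarith [norm_nonneg (A x)]
      exact h1.trans (min_le_right _ _)
  choose ρ hρ0 hρr hρ1 using hρex
  -- the constant L
  obtain ⟨L, hL0, hL⟩ : ∃ L : ℝ, 0 ≤ L ∧ ∀ x ∈ fs, 2 / r x ≤ L := by
    refine ⟨∑ x ∈ fs, 2 / r x, Finset.sum_nonneg fun x _ => by have := hr x; positivity,
      fun x hx => ?_⟩
    exact Finset.single_le_sum (f := fun x => 2 / r x)
      (fun y _ => by have := hr y; positivity) hx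
  -- lower bound off the charts
  have hK : IsCompact (S \ ⋃ x ∈ fs, Metric.ball x (r x)) :=
    hScomp.diff (isOpen_biUnion fun x _ => Metric.isOpen_ball)
  obtain ⟨δ, hδ0, hδ⟩ : ∃ δ : ℝ, 0 < δ ∧ ∀ y ∈ S \ ⋃ x ∈ fs, Metric.ball x (r x),
      δ ≤ ‖F t₀ y‖ := by
    refine hK.exists_forall_le' (hFc t₀ ht₀).norm.continuousOn (a := 0) ?_
    intro y hy
    rw [norm_pos_iff]
    intro h0
    exact hy.2 (hfsc ⟨hy.1, h0⟩)
  -- the constant eta
  obtain ⟨η, hη0, hηδ, hη⟩ : ∃ η : ℝ, 0 < η ∧ η < δ ∧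
      ∀ x ∈ fs, 8 * η ≤ (1 - k) * ρ x ∧ η * L * ‖A x‖ ≤ (1 - k) / 2 := by
    have h1 : ∀ᶠ η in 𝓝[>] (0 : ℝ), η < δ := nhdsWithin_le_nhds (gt_mem_nhds hδ0)
    have h2 : ∀ᶠ η in 𝓝[>] (0 : ℝ), ∀ x ∈ fs, 8 * η ≤ (1 - k) * ρ x ∧
        η * L * ‖A x‖ ≤ (1 - k) / 2 := by
      rw [Filter.eventually_all_finset]
      intro x _
      refine nhdsWithin_le_nhds ?_
      have c1 : Tendsto (fun η : ℝ => 8 * η) (𝓝 0) (𝓝 (8 * 0)) :=
        (continuous_const.mul continuous_id).tendsto 0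
      have c2 : Tendsto (fun η : ℝ => η * L * ‖A x‖) (𝓝 0) (𝓝 (0 * L * ‖A x‖)) := by
        have : Continuous (fun η : ℝ => η * L * ‖A x‖) := by fun_prop
        exact this.tendsto 0
      rw [mul_zero] at c1
      rw [zero_mul, zero_mul] at c2
      filter_upwards [c1.eventually (gt_mem_nhds (mul_pos (by linarith : 0 < 1 - k) (hρ0 x))),
        c2.eventually (gt_mem_nhds (by linarith : (0 : ℝ) < (1 - k) / 2))] with η e1 e2
      exact ⟨e1.le, e2.le⟩
    obtain ⟨η, ⟨e1, e2⟩, e3⟩ := ((h1.and h2).and self_mem_nhdsWithin).exists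
    exact ⟨η, e3, e1, e2⟩
  -- closeness
  have hclose : ∀ᶠ t in 𝓝[s] t₀, ∀ y ∈ S, ‖F t y - F t₀ y‖ < η := by
    have hloc : ∀ y ∈ S, ∀ᶠ p : T × E in (𝓝[s] t₀) ×ˢ 𝓝 y, ‖F p.1 p.2 - F t₀ p.2‖ < η := by
      intro y _
      have h1 : Tendsto (fun p : T × E => F p.1 p.2) ((𝓝[s] t₀) ×ˢ 𝓝 y) (𝓝 (F t₀ y)) := by
        have h2 : ContinuousWithinAt (fun p : T × E => F p.1 p.2) (s ×ˢ univ) (t₀, y) :=
          hF (t₀, y) ⟨ht₀, mem_univ _⟩
        rw [ContinuousWithinAt, nhdsWithin_prod_eq, nhdsWithin_univ] at h2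
        exact h2
      have h3 : Tendsto (fun p : T × E => F t₀ p.2) ((𝓝[s] t₀) ×ˢ 𝓝 y) (𝓝 (F t₀ y)) :=
        ((hFc t₀ ht₀).tendsto y).comp tendsto_snd
      have h4 := (h1.sub h3).norm
      rw [sub_self, norm_zero] at h4
      exact h4.eventually (gt_mem_nhds hη0)
    have := hScomp.eventually_forall_of_forall_eventually (x₀ := t₀) (P := fun t y => t ∈ s →
      ‖F t y - F t₀ y‖ < η) (fun y hy => by
        have h1 := hloc y hy
        have h2 : ∀ᶠ p : T × E in 𝓝 (t₀, y), p.1 ∈ s → ‖F p.1 p.2 - F t₀ p.2‖ < η := by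
          rw [nhds_prod_eq]
          rw [eventually_prod_iff] at h1 ⊢
          obtain ⟨pa, ha, pb, hb, hab⟩ := h1
          refine ⟨fun t => t ∈ s → pa t, ?_, pb, hb, fun {t} ht {y} hy hts => hab (ht hts) hy⟩
          exact eventually_nhdsWithin_iff.mp ha
        exact h2)
    rw [eventually_nhdsWithin_iff]
    filter_upwards [this] with t ht hts y hy
    exact ht y hy hts
  have hmr : ∀ᶠ t in 𝓝[s] t₀, ∀ x ∈ fs, MRegOn k (F t) (A x) (Metric.ball x (4 * r x)) := by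
    rw [Filter.eventually_all_finset]
    intro x hx
    filter_upwards [hev x (hfsZ x hx)] with t ht
    exact ht.mono_const (hκk x hx)
  have hmr₀ := hmr.self_of_nhdsWithin ht₀
  filter_upwards [hclose, hmr, self_mem_nhdsWithin] with t hct hmt hts
  have hη' : ∀ x, ‖F t x - F t₀ x‖ ≤ η * ‖x‖ := by
    intro x
    rcases eq_or_ne x 0 with rfl | hx
    · rw [(hhom t hts).zero, (hhom t₀ ht₀).zero]; simp
    · have h1 : F t x - F t₀ x = ‖x‖ • (F t (dir x) - F t₀ (dir x)) := by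
        rw [smul_sub, ← hhom t hts _ (norm_nonneg _), ← hhom t₀ ht₀ _ (norm_nonneg _),
          norm_smul_dir]
      rw [h1, norm_smul, norm_norm, mul_comm]
      exact mul_le_mul_of_nonneg_right (hct _ (by simp [hS, norm_dir hx])).le (norm_nonneg _)
  have hball : ∀ x, ∀ y ∈ cone (r x) x, y ≠ 0 → ∀ c : Z, ‖c‖ ≤ ρ x →
      dir y + A x c ∈ Metric.ball x (4 * r x) := by
    intro x y hy hy0 c hc
    rw [Metric.mem_ball, dist_eq_norm]
    have h1 := (mem_cone hy0).mp hy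
    have h2 : ‖A x c‖ ≤ r x := ((A x).le_opNorm c).trans
      ((mul_le_mul_of_nonneg_left hc (norm_nonneg _)).trans (hρr x))
    have h3 : dir y + A x c - x = (dir y - x) + A x c := by abel
    rw [h3]
    have h4 := norm_add_le (dir y - x) (A x c)
    have := hr x
    linarith
  obtain ⟨h, h0, hh⟩ := glob hk0 hk1 fs.toList (fun x => bump (r x) x) (fun x => cone (r x) x) A ρ
    hη0.le hL0 (fun x => isClosed_cone _ _) (fun x y => bump_le_one _ _ _)
    (fun x y hy => by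
      have hy0 : y ≠ 0 := by rintro rfl; exact hy (zero_mem_cone _ _)
      rw [mem_cone hy0, not_le] at hy
      exact bump_eq_zero (hr x) hy.le)
    (fun x hx => (bump_DL (hr x) x).mono (hL x (by simpa using hx)))
    (hFc t₀ ht₀) (hFc t hts) hη'
    (fun x hx y hy => (hmr₀ x (by simpa using hx)).toMR (hhom t₀ ht₀) (hball x y hy))
    (fun x hx y hy => (hmt x (by simpa using hx)).toMR (hhom t hts) (hball x y hy))
    (fun x _ => (hρ0 x).le) (fun x _ => hρ1 x)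
    (fun x hx => (hη x (by simpa using hx)).1) (fun x hx => (hη x (by simpa using hx)).2)
  refine ⟨h, h0, fun x => ?_⟩
  rw [← hh x]
  set y := h x
  rcases eq_or_ne y 0 with hy | hy
  · rw [hy, (hhom t hts).zero, (hhom t₀ ht₀).zero]; simp
  · have hyn : 0 < ‖y‖ := norm_pos_iff.mpr hy
    by_cases hc : dir y ∈ ⋃ x ∈ fs, Metric.ball x (r x)
    · simp only [mem_iUnion, Metric.mem_ball, dist_eq_norm, exists_prop] at hc
      obtain ⟨a, ha, hya⟩ := hc
      have h1 : cut (fun x => bump (r x) x) fs.toList y = 1 := by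
        refine le_antisymm (cut_le_one (fun x y => bump_le_one _ _ _) _ _) ?_
        have := le_cut (fun x => bump (r x) x) (l := fs.toList) (i := a) (by simpa using ha) y
        rwa [bump_eq_one (hr a) hya.le] at this
      rw [h1, one_smul, add_sub_cancel]
    · have hlow : δ * ‖y‖ ≤ ‖F t₀ y‖ := by
        have h1 := hδ (dir y) ⟨by simp [hS, norm_dir hy], hc⟩
        have h2 : F t₀ y = ‖y‖ • F t₀ (dir y) := by
          rw [← hhom t₀ ht₀ _ (norm_nonneg _), norm_smul_dir]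
        rw [h2, norm_smul, norm_norm, mul_comm]
        exact mul_le_mul_of_nonneg_left h1 hyn.le
      have hlt : η * ‖y‖ < δ * ‖y‖ := mul_lt_mul_of_pos_right hηδ hyn
      have hD := hη' y
      constructor
      · intro h1
        exfalso
        have h2 : F t₀ y = -(cut (fun x => bump (r x) x) fs.toList y • (F t y - F t₀ y)) :=
          eq_neg_of_add_eq_zero_left h1
        have h3 : ‖F t₀ y‖ ≤ ‖F t y - F t₀ y‖ := by
          have h4 : ‖F t₀ y‖ =
              ‖cut (fun x => bump (r x) x) fs.toList y • (F t y - F t₀ y)‖ := by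
            conv_lhs => rw [h2]
            rw [norm_neg]
          rw [h4, norm_smul, Real.norm_eq_abs, abs_of_nonneg (cut_nonneg _ _ _)]
          exact mul_le_of_le_one_left (norm_nonneg _)
            (cut_le_one (fun x y => bump_le_one _ _ _) _ _)
        linarith
      · intro h1
        exfalso
        rw [h1, zero_sub, norm_neg] at hD
        linarith

/-- **Path theorem.** -/
theorem path_conj [ProperSpace E] [CompleteSpace Z] {T : Type*} [TopologicalSpace T] {s : Set T}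
    (hs : IsPreconnected s)
    {F : T → E → Z} (hF : ContinuousOn (fun p : T × E => F p.1 p.2) (s ×ˢ univ))
    (hhom : ∀ t ∈ s, Hom1 (F t))
    (hreg : ∀ t₀ ∈ s, ∀ x ≠ 0, F t₀ x = 0 → RegAt s F t₀ x) {a b : T} (ha : a ∈ s) (hb : b ∈ s) :
    ∃ h : E ≃ₜ E, h 0 = 0 ∧ ∀ x, F a x = 0 ↔ F b (h x) = 0 := by
  refine hs.induction₂ (fun a b => ∃ h : E ≃ₜ E, h 0 = 0 ∧ ∀ x, F a x = 0 ↔ F b (h x) = 0)
    ?_ ?_ ?_ ha hb
  · intro t ht
    exact nearby hF hhom ht (hreg t ht)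
  · rintro x y z _ _ _ ⟨h, h0, hh⟩ ⟨g, g0, hg⟩
    refine ⟨h.trans g, ?_, fun p => ?_⟩
    · show g (h 0) = 0
      rw [h0, g0]
    · exact (hh p).trans (hg (h p))
  · rintro x y _ _ ⟨h, h0, hh⟩
    refine ⟨h.symm, ?_, fun p => ?_⟩
    · rw [h.symm_apply_eq, h0]
    · have := hh (h.symm p)
      rw [h.apply_symm_apply] at this
      exact this.symm

end Vale.Agent.P268.T
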