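import Vale.Agent.P268.T.PlatesA

/-!
# P268, topological half: gluing sheets

Finitely many sheets `a`, each with a real part `rho a` and an imaginary part `be a` (functions of
a parameter `τ` and of the point).  The glued function has real part `sup_a rho a`, and its
imaginary part is the average of the `be a` with weights `max (rho a + η N) 0`, where `N` is a
gauge.  If the `be a` of two nearly active sheets agree, the imaginary part is `be a` near the
points where the sheet `a` is active.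
-/

set_option linter.unusedSectionVars false

namespace Vale.Agent.P268.T

open Set Filter Topology

variable {T E A : Type*} [TopologicalSpace T] [NormedAddCommGroup E] [NormedSpace ℝ E]
  [Fintype A] [Nonempty A]

/-- Weights. -/
def gwt (η : ℝ) (N : E → ℝ) (rho : T → A → E → ℝ) (τ : T) (a : A) (x : E) : ℝ :=
  max (rho τ a x + η * N x) 0

/-- Real part of the glued function. -/
noncomputable def gre (rho : T → A → E → ℝ) (τ : T) (x : E) : ℝ :=
  Finset.univ.sup' Finset.univ_nonempty (fun a => rho τ a x)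

/-- Imaginary part of the glued function. -/
noncomputable def gim (η : ℝ) (N : E → ℝ) (rho be : T → A → E → ℝ) (τ : T) (x : E) : ℝ :=
  (∑ a, gwt η N rho τ a x * be τ a x) / max (∑ a, gwt η N rho τ a x) (η / 2 * N x)

/-- **The glued function.** -/
noncomputable def gfn (η : ℝ) (N : E → ℝ) (rho be : T → A → E → ℝ) (τ : T) (x : E) : ℂ :=
  ⟨gre rho τ x, gim η N rho be τ x⟩

/-- Gluing conditions, local part: continuity and agreement of the imaginary parts.  No
homogeneity: this is also used in affine charts, with `N = 1`. -/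
structure GlueL (s : Set T) (η : ℝ) (N : E → ℝ) (rho be : T → A → E → ℝ) : Prop where
  hη : 0 < η
  cN : Continuous N
  nN : ∀ x, 0 ≤ N x
  cr : ∀ a, ContinuousOn (fun p : T × E => rho p.1 a p.2) (s ×ˢ univ)
  cb : ∀ a, ContinuousOn (fun p : T × E => be p.1 a p.2) (s ×ˢ {x | N x ≠ 0})
  sep : ∀ τ ∈ s, ∀ x, N x ≠ 0 → ∀ a b, -η * N x < rho τ a x → -η * N x < rho τ b x →
    be τ a x = be τ b x

/-- Gluing conditions. -/
structure Glue (s : Set T) (η : ℝ) (N : E → ℝ) (rho be : T → A → E → ℝ) : Prop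
    extends GlueL s η N rho be where
  hN : ∀ k : ℝ, 0 ≤ k → ∀ x, N (k • x) = k * N x
  hr : ∀ τ ∈ s, ∀ a, ∀ k : ℝ, 0 ≤ k → ∀ x, rho τ a (k • x) = k * rho τ a x
  hb : ∀ τ ∈ s, ∀ a, ∀ k : ℝ, 0 < k → ∀ x, N x ≠ 0 → be τ a (k • x) = k * be τ a x
  neg : ∀ τ ∈ s, ∀ a x, x ≠ 0 → N x = 0 → rho τ a x < 0
  bd : ∀ a, ∃ B : T → E → ℝ, ContinuousOn (fun p : T × E => B p.1 p.2) (s ×ˢ univ) ∧
    (∀ τ ∈ s, B τ 0 = 0) ∧ ∀ τ ∈ s, ∀ x, N x ≠ 0 → |be τ a x| ≤ B τ x

variable {s : Set T} {η : ℝ} {N : E → ℝ} {rho be : T → A → E → ℝ}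

theorem gwt_nonneg (τ : T) (a : A) (x : E) : 0 ≤ gwt η N rho τ a x := le_max_right _ _

theorem gre_ge (τ : T) (a : A) (x : E) : rho τ a x ≤ gre rho τ x :=
  Finset.le_sup' (fun a => rho τ a x) (Finset.mem_univ a)

theorem exists_gre (rho : T → A → E → ℝ) (τ : T) (x : E) : ∃ a, gre rho τ x = rho τ a x := by
  obtain ⟨a, -, ha⟩ := Finset.exists_mem_eq_sup' (Finset.univ_nonempty (α := A))
    (fun a => rho τ a x)
  exact ⟨a, ha⟩

theorem Glue.N0 (h : Glue s η N rho be) : N 0 = 0 := by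
  have := h.hN 0 le_rfl 0
  simpa using this

theorem Glue.rho0 (h : Glue s η N rho be) {τ : T} (hτ : τ ∈ s) (a : A) : rho τ a 0 = 0 := by
  have := h.hr τ hτ a 0 le_rfl 0
  simpa using this

theorem Glue.wt_smul (h : Glue s η N rho be) {τ : T} (hτ : τ ∈ s) (a : A) {k : ℝ} (hk : 0 ≤ k)
    (x : E) : gwt η N rho τ a (k • x) = k * gwt η N rho τ a x := by
  unfold gwt
  rw [h.hr τ hτ a k hk, h.hN k hk, mul_max_of_nonneg _ _ hk]
  congr 1 <;> ring

theorem Glue.wt_zero (h : Glue s η N rho be) {τ : T} (hτ : τ ∈ s) (a : A) {x : E}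
    (hx : N x = 0) : gwt η N rho τ a x = 0 := by
  unfold gwt
  rw [hx, mul_zero, add_zero]
  apply max_eq_right
  by_cases hx0 : x = 0
  · rw [hx0, h.rho0 hτ a]
  · exact (h.neg τ hτ a x hx0 hx).le

theorem Glue.re_smul (h : Glue s η N rho be) {τ : T} (hτ : τ ∈ s) {k : ℝ} (hk : 0 ≤ k)
    (x : E) : gre rho τ (k • x) = k * gre rho τ x := by
  apply le_antisymm
  · obtain ⟨a, ha⟩ := exists_gre rho τ (k • x)
    rw [ha, h.hr τ hτ a k hk]
    exact mul_le_mul_of_nonneg_left (gre_ge τ a x) hk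
  · obtain ⟨a, ha⟩ := exists_gre rho τ x
    rw [ha, ← h.hr τ hτ a k hk]
    exact gre_ge τ a _

theorem Glue.im_zero (h : Glue s η N rho be) {τ : T} (hτ : τ ∈ s) {x : E} (hx : N x = 0) :
    gim η N rho be τ x = 0 := by
  unfold gim
  have e : ∑ a, gwt η N rho τ a x * be τ a x = 0 :=
    Finset.sum_eq_zero fun a _ => by rw [h.wt_zero hτ a hx, zero_mul]
  rw [e, zero_div]

theorem Glue.im_smul (h : Glue s η N rho be) {τ : T} (hτ : τ ∈ s) {k : ℝ} (hk : 0 ≤ k)
    (x : E) : gim η N rho be τ (k • x) = k * gim η N rho be τ x := by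
  by_cases hx : N x = 0
  · rw [h.im_zero hτ hx, h.im_zero hτ (by rw [h.hN k hk, hx, mul_zero]), mul_zero]
  rcases hk.eq_or_lt with rfl | hk'
  · rw [zero_mul, h.im_zero hτ (by rw [h.hN 0 le_rfl, zero_mul])]
  · unfold gim
    have e1 : ∀ a, gwt η N rho τ a (k • x) = k * gwt η N rho τ a x :=
      fun a => h.wt_smul hτ a hk x
    have e2 : ∀ a, be τ a (k • x) = k * be τ a x := fun a => h.hb τ hτ a k hk' x hx
    simp only [e1, e2]
    rw [h.hN k hk, ← Finset.mul_sum]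
    have e3 : max (k * ∑ a, gwt η N rho τ a x) (η / 2 * (k * N x)) =
        k * max (∑ a, gwt η N rho τ a x) (η / 2 * N x) := by
      rw [mul_max_of_nonneg _ _ hk]
      congr 1; ring
    have e4 : ∑ a, k * gwt η N rho τ a x * (k * be τ a x) =
        k * (k * ∑ a, gwt η N rho τ a x * be τ a x) := by
      rw [Finset.mul_sum, Finset.mul_sum]
      exact Finset.sum_congr rfl fun a _ => by ring
    rw [e3, e4, mul_div_mul_left _ _ hk'.ne', mul_div_assoc]

theorem Glue.hom1 (h : Glue s η N rho be) {τ : T} (hτ : τ ∈ s) :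
    Hom1 (gfn η N rho be τ) := by
  intro k hk x
  apply Complex.ext
  · show gre rho τ (k • x) = (k • gfn η N rho be τ x).re
    rw [h.re_smul hτ hk, Complex.smul_re, smul_eq_mul]; rfl
  · show gim η N rho be τ (k • x) = (k • gfn η N rho be τ x).im
    rw [h.im_smul hτ hk, Complex.smul_im, smul_eq_mul]; rfl

/-! ### Continuity -/

theorem GlueL.continuousOn_wt (h : GlueL s η N rho be) (a : A) :
    ContinuousOn (fun p : T × E => gwt η N rho p.1 a p.2) (s ×ˢ univ) := by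
  have h3 : ContinuousOn (fun p : T × E => η * N p.2) (s ×ˢ univ) :=
    (continuous_const.mul (h.cN.comp continuous_snd)).continuousOn
  exact ((h.cr a).add h3).sup continuousOn_const

theorem GlueL.continuousOn_re (h : GlueL s η N rho be) :
    ContinuousOn (fun p : T × E => gre rho p.1 p.2) (s ×ˢ univ) := by
  unfold gre
  exact ContinuousOn.finset_sup'_apply _ fun a _ => h.cr a

theorem GlueL.mem_N (h : GlueL s η N rho be) {x₀ : E} (hx₀ : N x₀ ≠ 0) (τ₀ : T) :
    {p : T × E | N p.2 ≠ 0} ∈ 𝓝 (τ₀, x₀) := by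
  have : Continuous (fun p : T × E => N p.2) := h.cN.comp continuous_snd
  exact this.continuousAt.preimage_mem_nhds (isOpen_compl_singleton.mem_nhds hx₀)

theorem GlueL.continuousWithinAt_be (h : GlueL s η N rho be) (a : A) {τ₀ : T} (hτ₀ : τ₀ ∈ s)
    {x₀ : E} (hx₀ : N x₀ ≠ 0) :
    ContinuousWithinAt (fun p : T × E => be p.1 a p.2) (s ×ˢ univ) (τ₀, x₀) := by
  refine (h.cb a (τ₀, x₀) ⟨hτ₀, hx₀⟩).mono_of_mem_nhdsWithin ?_
  filter_upwards [self_mem_nhdsWithin, mem_nhdsWithin_of_mem_nhds (h.mem_N hx₀ τ₀)] with p hp hp'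
  exact ⟨hp.1, hp'⟩

theorem Glue.exists_bound (h : Glue s η N rho be) : ∃ B : T → E → ℝ,
    ContinuousOn (fun p : T × E => B p.1 p.2) (s ×ˢ univ) ∧
    (∀ τ ∈ s, B τ 0 = 0) ∧ ∀ τ ∈ s, ∀ x, |gim η N rho be τ x| ≤ |B τ x| := by
  choose B hB1 hB2 hB3 using h.bd
  refine ⟨fun τ x => ∑ a, |B a τ x|, continuousOn_finsetSum _ fun a _ => (hB1 a).abs,
    fun τ hτ => Finset.sum_eq_zero fun a _ => by rw [hB2 a τ hτ, abs_zero], fun τ hτ x => ?_⟩
  have hS : 0 ≤ ∑ a, |B a τ x| := Finset.sum_nonneg fun a _ => abs_nonneg _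
  rw [abs_of_nonneg hS]
  by_cases hx : N x = 0
  · rw [h.im_zero hτ hx, abs_zero]; exact hS
  · have hpos : 0 < N x := lt_of_le_of_ne (h.nN x) (Ne.symm hx)
    have hη := h.hη
    have hM : 0 < max (∑ a, gwt η N rho τ a x) (η / 2 * N x) :=
      lt_max_of_lt_right (by positivity)
    unfold gim
    rw [abs_div, abs_of_pos hM, div_le_iff₀ hM]
    calc |∑ a, gwt η N rho τ a x * be τ a x| ≤ ∑ a, |gwt η N rho τ a x * be τ a x| :=
          Finset.abs_sum_le_sum_abs _ _
      _ ≤ ∑ a, gwt η N rho τ a x * ∑ b, |B b τ x| := by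
          refine Finset.sum_le_sum fun a _ => ?_
          rw [abs_mul, abs_of_nonneg (gwt_nonneg _ _ _)]
          refine mul_le_mul_of_nonneg_left ?_ (gwt_nonneg _ _ _)
          exact ((hB3 a τ hτ x hx).trans (le_abs_self _)).trans
            (Finset.single_le_sum (f := fun b => |B b τ x|) (fun b _ => abs_nonneg _)
              (Finset.mem_univ a))
      _ = (∑ b, |B b τ x|) * ∑ a, gwt η N rho τ a x := by rw [← Finset.sum_mul, mul_comm]
      _ ≤ _ := mul_le_mul_of_nonneg_left (le_max_left _ _) hS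

theorem GlueL.continuousWithinAt_im (h : GlueL s η N rho be) {τ₀ : T} (hτ₀ : τ₀ ∈ s) {x₀ : E}
    (hx : N x₀ ≠ 0) :
    ContinuousWithinAt (fun p : T × E => gim η N rho be p.1 p.2) (s ×ˢ univ) (τ₀, x₀) := by
  have hn : ContinuousWithinAt (fun p : T × E => ∑ a, gwt η N rho p.1 a p.2 * be p.1 a p.2)
      (s ×ˢ univ) (τ₀, x₀) := by
    refine tendsto_finsetSum _ fun a _ => ?_
    exact ((h.continuousOn_wt a) (τ₀, x₀) ⟨hτ₀, mem_univ _⟩).mul
      (h.continuousWithinAt_be a hτ₀ hx)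
  have hd : ContinuousWithinAt (fun p : T × E =>
      max (∑ a, gwt η N rho p.1 a p.2) (η / 2 * N p.2)) (s ×ˢ univ) (τ₀, x₀) := by
    have h1 : ContinuousWithinAt (fun p : T × E => ∑ a, gwt η N rho p.1 a p.2)
        (s ×ˢ univ) (τ₀, x₀) :=
      tendsto_finsetSum _ fun a _ => (h.continuousOn_wt a) (τ₀, x₀) ⟨hτ₀, mem_univ _⟩
    have h3 : ContinuousWithinAt (fun p : T × E => η / 2 * N p.2) (s ×ˢ univ)
        (τ₀, x₀) := (continuous_const.mul (h.cN.comp continuous_snd)).continuousWithinAt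
    exact h1.sup h3
  have hpos : 0 < N x₀ := lt_of_le_of_ne (h.nN x₀) (Ne.symm hx)
  have hη := h.hη
  exact hn.div hd (lt_max_of_lt_right (by positivity)).ne'

theorem Glue.continuousOn_im (h : Glue s η N rho be) :
    ContinuousOn (fun p : T × E => gim η N rho be p.1 p.2) (s ×ˢ univ) := by
  rintro ⟨τ₀, x₀⟩ ⟨hτ₀, -⟩
  have hτ₀ : τ₀ ∈ s := hτ₀
  by_cases hx : N x₀ = 0
  · have h0 : gim η N rho be τ₀ x₀ = 0 := h.im_zero hτ₀ hx
    have hgoal : Tendsto (fun p : T × E => gim η N rho be p.1 p.2) (𝓝[s ×ˢ univ] (τ₀, x₀))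
        (𝓝 (gim η N rho be τ₀ x₀)) := by
      rw [h0]
      by_cases hx0 : x₀ = 0
      · obtain ⟨B, hB1, hB2, hB3⟩ := h.exists_bound
        have hB4 : Tendsto (fun p : T × E => |B p.1 p.2|) (𝓝[s ×ˢ univ] (τ₀, x₀)) (𝓝 0) := by
          have h5 := (hB1 (τ₀, x₀) ⟨hτ₀, mem_univ _⟩).abs
          have h6 : |B τ₀ x₀| = 0 := by rw [hx0, hB2 τ₀ hτ₀, abs_zero]
          have h7 : Tendsto (fun p : T × E => |B p.1 p.2|) (𝓝[s ×ˢ univ] (τ₀, x₀))
            (𝓝 |B τ₀ x₀|) := h5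
          rwa [h6] at h7
        refine squeeze_zero_norm' ?_ hB4
        filter_upwards [self_mem_nhdsWithin] with p hp
        rw [Real.norm_eq_abs]
        exact hB3 p.1 hp.1 p.2
      · have h1 : ∀ a, ∀ᶠ p : T × E in 𝓝[s ×ˢ univ] (τ₀, x₀), gwt η N rho p.1 a p.2 = 0 := by
          intro a
          have h3 : ContinuousOn (fun p : T × E => rho p.1 a p.2 + η * N p.2) (s ×ˢ univ) :=
            (h.cr a).add (continuous_const.mul (h.cN.comp continuous_snd)).continuousOn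
          have h4 : rho τ₀ a x₀ + η * N x₀ < 0 := by
            rw [hx, mul_zero, add_zero]; exact h.neg τ₀ hτ₀ a x₀ hx0 hx
          have h5 : Tendsto (fun p : T × E => rho p.1 a p.2 + η * N p.2) (𝓝[s ×ˢ univ] (τ₀, x₀))
            (𝓝 (rho τ₀ a x₀ + η * N x₀)) := h3 (τ₀, x₀) ⟨hτ₀, mem_univ _⟩
          filter_upwards [h5.eventually (gt_mem_nhds h4)] with p hp
          exact max_eq_right hp.le
        have h2 : (fun _ : T × E => (0 : ℝ)) =ᶠ[𝓝[s ×ˢ univ] (τ₀, x₀)]
            fun p => gim η N rho be p.1 p.2 := by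
          filter_upwards [eventually_all.mpr h1] with p hp
          unfold gim
          rw [Finset.sum_eq_zero fun a _ => by rw [hp a, zero_mul], zero_div]
        exact tendsto_const_nhds.congr' h2
    exact hgoal
  · exact h.continuousWithinAt_im hτ₀ hx

theorem continuousOn_gfn
    (hre : ContinuousOn (fun p : T × E => gre rho p.1 p.2) (s ×ˢ univ))
    (him : ContinuousOn (fun p : T × E => gim η N rho be p.1 p.2) (s ×ˢ univ)) :
    ContinuousOn (fun p : T × E => gfn η N rho be p.1 p.2) (s ×ˢ univ) := by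
  have e : (fun p : T × E => gfn η N rho be p.1 p.2) =
      fun p => (gre rho p.1 p.2 : ℂ) + (gim η N rho be p.1 p.2 : ℂ) * Complex.I := by
    funext p
    apply Complex.ext <;> simp [gfn]
  rw [e]
  exact (Complex.continuous_ofReal.comp_continuousOn hre).add
    ((Complex.continuous_ofReal.comp_continuousOn him).mul continuousOn_const)

theorem Glue.continuousOn_fn (h : Glue s η N rho be) :
    ContinuousOn (fun p : T × E => gfn η N rho be p.1 p.2) (s ×ˢ univ) :=
  continuousOn_gfn h.continuousOn_re h.continuousOn_im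

/-- Continuity when the gauge does not vanish (affine charts). -/
theorem GlueL.continuousOn_fn (h : GlueL s η N rho be) (hN : ∀ x, N x ≠ 0) :
    ContinuousOn (fun p : T × E => gfn η N rho be p.1 p.2) (s ×ˢ univ) :=
  continuousOn_gfn h.continuousOn_re fun p hp => h.continuousWithinAt_im hp.1 (hN p.2)

/-! ### The imaginary part near an active sheet -/

theorem GlueL.im_eq (h : GlueL s η N rho be) {τ : T} (hτ : τ ∈ s) {x : E} (hx : N x ≠ 0) {a : A}
    (ha : -(η / 2) * N x < rho τ a x) : gim η N rho be τ x = be τ a x := by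
  have hη := h.hη
  have hn : 0 < N x := lt_of_le_of_ne (h.nN x) (Ne.symm hx)
  have ha' : -η * N x < rho τ a x := by nlinarith
  have hw : η / 2 * N x < gwt η N rho τ a x := by
    refine lt_of_lt_of_le ?_ (le_max_left _ _)
    linarith
  have hsum : gwt η N rho τ a x ≤ ∑ b, gwt η N rho τ b x :=
    Finset.single_le_sum (f := fun b => gwt η N rho τ b x) (fun b _ => gwt_nonneg τ b x)
      (Finset.mem_univ a)
  have hmax : max (∑ b, gwt η N rho τ b x) (η / 2 * N x) = ∑ b, gwt η N rho τ b x :=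
    max_eq_left (hw.le.trans hsum)
  have hpos : 0 < ∑ b, gwt η N rho τ b x := by
    have : 0 < η / 2 * N x := by positivity
    linarith
  unfold gim
  rw [hmax, div_eq_iff hpos.ne', Finset.mul_sum]
  refine Finset.sum_congr rfl fun b _ => ?_
  rcases (gwt_nonneg (η := η) (N := N) (rho := rho) τ b x).eq_or_lt with h0 | h0
  · rw [← h0, zero_mul, mul_zero]
  · have hb : -η * N x < rho τ b x := by
      rcases lt_max_iff.mp h0 with h1 | h1
      · linarith
      · exact absurd h1 (lt_irrefl _)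
    rw [h.sep τ hτ x hx b a hb ha', mul_comm]

theorem Glue.N_ne (h : Glue s η N rho be) {τ : T} (hτ : τ ∈ s) {x : E} (hx : x ≠ 0)
    (h0 : 0 ≤ gre rho τ x) : N x ≠ 0 := by
  intro hN
  obtain ⟨a, ha⟩ := exists_gre rho τ x
  have := h.neg τ hτ a x hx hN
  linarith

theorem GlueL.near (h : GlueL s η N rho be) {τ₀ : T} (hτ₀ : τ₀ ∈ s) {x₀ : E} (hx₀ : N x₀ ≠ 0)
    {a : A} (ha : 0 ≤ rho τ₀ a x₀) :
    ∃ U ∈ 𝓝 x₀, ∀ᶠ τ in 𝓝[s] τ₀, ∀ x ∈ U, gim η N rho be τ x = be τ a x := by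
  refine ev_prod (Q := fun τ x => gim η N rho be τ x = be τ a x) ?_
  have hη := h.hη
  have hn : 0 < N x₀ := lt_of_le_of_ne (h.nN x₀) (Ne.symm hx₀)
  have h3 : ContinuousOn (fun p : T × E => rho p.1 a p.2 + η / 2 * N p.2) (s ×ˢ univ) :=
    (h.cr a).add (continuous_const.mul (h.cN.comp continuous_snd)).continuousOn
  have h5 : Tendsto (fun p : T × E => rho p.1 a p.2 + η / 2 * N p.2) (𝓝[s ×ˢ univ] (τ₀, x₀))
    (𝓝 (rho τ₀ a x₀ + η / 2 * N x₀)) := h3 (τ₀, x₀) ⟨hτ₀, mem_univ _⟩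
  have h6 : 0 < rho τ₀ a x₀ + η / 2 * N x₀ := by positivity
  filter_upwards [h5.eventually (lt_mem_nhds h6), self_mem_nhdsWithin,
    mem_nhdsWithin_of_mem_nhds (h.mem_N hx₀ τ₀)] with p hp hp1 hp2
  exact h.im_eq hp1.1 hp2 (by linarith)

theorem GlueL.active (h : GlueL s η N rho be) {τ₀ : T} (hτ₀ : τ₀ ∈ s) (x₀ : E) :
    ∀ᶠ p : T × E in 𝓝[s ×ˢ univ] (τ₀, x₀), ∃ a, rho τ₀ a x₀ = gre rho τ₀ x₀ ∧
      gre rho p.1 p.2 = rho p.1 a p.2 := by
  have h1 : ∀ a, ∀ᶠ p : T × E in 𝓝[s ×ˢ univ] (τ₀, x₀), rho τ₀ a x₀ < gre rho τ₀ x₀ →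
      rho p.1 a p.2 < gre rho p.1 p.2 := by
    intro a
    by_cases ha : rho τ₀ a x₀ < gre rho τ₀ x₀
    · have h2 : Tendsto (fun p : T × E => rho p.1 a p.2) (𝓝[s ×ˢ univ] (τ₀, x₀))
        (𝓝 (rho τ₀ a x₀)) := h.cr a (τ₀, x₀) ⟨hτ₀, mem_univ _⟩
      have h3 : Tendsto (fun p : T × E => gre rho p.1 p.2) (𝓝[s ×ˢ univ] (τ₀, x₀))
        (𝓝 (gre rho τ₀ x₀)) := h.continuousOn_re (τ₀, x₀) ⟨hτ₀, mem_univ _⟩
      filter_upwards [h2.eventually_lt h3 ha] with p hp _
      exact hp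
    · exact Eventually.of_forall fun p hp => absurd hp ha
  filter_upwards [eventually_all.mpr h1] with p hp
  obtain ⟨a, ha⟩ := exists_gre rho p.1 p.2
  refine ⟨a, ?_, ha⟩
  rcases (gre_ge (rho := rho) τ₀ a x₀).eq_or_lt with h2 | h2
  · exact h2
  · exact absurd (hp a h2) (by rw [ha]; exact lt_irrefl _)

/-- Regularity of the glued function at `x₀`, when each real part is a minimum of two functions:
all active pieces must be strongly monotone along a common direction. -/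
theorem GlueL.regAt_min (h : GlueL s η N rho be) {f g : T → A → E → ℝ}
    (hmin : ∀ τ a x, rho τ a x = min (f τ a x) (g τ a x))
    {τ₀ : T} (hτ₀ : τ₀ ∈ s) {x₀ : E} (hx₀ : N x₀ ≠ 0) (h0 : 0 ≤ gre rho τ₀ x₀)
    (cf : ∀ a, ContinuousWithinAt (fun p : T × E => f p.1 a p.2) (s ×ˢ univ) (τ₀, x₀))
    (cg : ∀ a, ContinuousWithinAt (fun p : T × E => g p.1 a p.2) (s ×ˢ univ) (τ₀, x₀))
    {κ K : ℝ} (hκ : 0 < κ) (D : ℂ →L[ℝ] E)
    (hf : ∀ a, rho τ₀ a x₀ = gre rho τ₀ x₀ → f τ₀ a x₀ = gre rho τ₀ x₀ →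
      ∃ U ∈ 𝓝 x₀, ∀ᶠ τ in 𝓝[s] τ₀, Inc2 κ K (f τ a) (be τ a) D U)
    (hg : ∀ a, rho τ₀ a x₀ = gre rho τ₀ x₀ → g τ₀ a x₀ = gre rho τ₀ x₀ →
      ∃ U ∈ 𝓝 x₀, ∀ᶠ τ in 𝓝[s] τ₀, Inc2 κ K (g τ a) (be τ a) D U) :
    RegAt s (gfn η N rho be) τ₀ x₀ := by
  classical
  let H : A × Bool → T → E → ℝ := fun i τ x => if i.2 then f τ i.1 x else g τ i.1 x
  refine RegAt.of_inc2 (κ := κ) (K := K) hκ D
    (Finset.univ.filter fun i : A × Bool => rho τ₀ i.1 x₀ = gre rho τ₀ x₀ ∧
      H i τ₀ x₀ = gre rho τ₀ x₀) H (fun i τ x => be τ i.1 x) ?_ ?_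
  · have h1 := h.active hτ₀ x₀
    have h2 : ∀ a, ∀ᶠ p : T × E in 𝓝[s ×ˢ univ] (τ₀, x₀), f τ₀ a x₀ < g τ₀ a x₀ →
        f p.1 a p.2 < g p.1 a p.2 := by
      intro a
      by_cases ha : f τ₀ a x₀ < g τ₀ a x₀
      · filter_upwards [Tendsto.eventually_lt (cf a) (cg a) ha] with p hp _
        exact hp
      · exact Eventually.of_forall fun p hp => absurd hp ha
    have h3 : ∀ a, ∀ᶠ p : T × E in 𝓝[s ×ˢ univ] (τ₀, x₀), g τ₀ a x₀ < f τ₀ a x₀ →
        g p.1 a p.2 < f p.1 a p.2 := by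
      intro a
      by_cases ha : g τ₀ a x₀ < f τ₀ a x₀
      · filter_upwards [Tendsto.eventually_lt (cg a) (cf a) ha] with p hp _
        exact hp
      · exact Eventually.of_forall fun p hp => absurd hp ha
    obtain ⟨U, hU, hev⟩ := ev_prod (Q := fun τ x =>
      (∃ a, rho τ₀ a x₀ = gre rho τ₀ x₀ ∧ gre rho τ x = rho τ a x) ∧
      (∀ a, f τ₀ a x₀ < g τ₀ a x₀ → f τ a x < g τ a x) ∧
      (∀ a, g τ₀ a x₀ < f τ₀ a x₀ → g τ a x < f τ a x))
      (h1.and ((eventually_all.mpr h2).and (eventually_all.mpr h3)))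
    refine ⟨U, hU, ?_⟩
    filter_upwards [hev] with τ hτ x hx y hy
    obtain ⟨a, ha, hya⟩ := (hτ y hy).1
    have hxa : rho τ a x ≤ gre rho τ x := gre_ge τ a x
    show ∃ i ∈ _, gre rho τ y - gre rho τ x ≤ _
    rcases le_total (f τ a x) (g τ a x) with hle | hle
    · refine ⟨(a, true), ?_, ?_⟩
      · simp only [Finset.mem_filter, Finset.mem_univ, true_and, H, if_true]
        refine ⟨ha, ?_⟩
        rw [← ha, hmin]
        by_contra hne
        have h4 : g τ₀ a x₀ < f τ₀ a x₀ := by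
          by_contra h5
          exact hne (min_eq_left (not_lt.mp h5)).symm
        exact absurd ((hτ x hx).2.2 a h4) (not_lt.mpr hle)
      · have h5 : rho τ a x = f τ a x := by rw [hmin, min_eq_left hle]
        have h6 : rho τ a y ≤ f τ a y := by rw [hmin]; exact min_le_left _ _
        simp only [H, if_true]
        linarith
    · refine ⟨(a, false), ?_, ?_⟩
      · simp only [Finset.mem_filter, Finset.mem_univ, true_and, H, Bool.false_eq_true, if_false]
        refine ⟨ha, ?_⟩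
        rw [← ha, hmin]
        by_contra hne
        have h4 : f τ₀ a x₀ < g τ₀ a x₀ := by
          by_contra h5
          exact hne (min_eq_right (not_lt.mp h5)).symm
        exact absurd ((hτ x hx).2.1 a h4) (not_lt.mpr hle)
      · have h5 : rho τ a x = g τ a x := by rw [hmin, min_eq_right hle]
        have h6 : rho τ a y ≤ g τ a y := by rw [hmin]; exact min_le_right _ _
        simp only [H, Bool.false_eq_true, if_false]
        linarith
  · rintro ⟨a, b⟩ hi
    rw [Finset.mem_filter] at hi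
    obtain ⟨-, hi1, hi2⟩ := hi
    obtain ⟨U, hU, hev⟩ := h.near hτ₀ hx₀ (a := a) (by
      have : rho τ₀ a x₀ = gre rho τ₀ x₀ := hi1
      rw [this]; exact h0)
    have key : ∃ V ∈ 𝓝 x₀, ∀ᶠ τ in 𝓝[s] τ₀, Inc2 κ K (H (a, b) τ) (be τ a) D V := by
      cases b with
      | false =>
        have := hg a hi1 (by simpa [H] using hi2)
        simpa [H] using this
      | true =>
        have := hf a hi1 (by simpa [H] using hi2)
        simpa [H] using this
    obtain ⟨V, hV, hev'⟩ := key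
    refine ⟨U ∩ V, inter_mem hU hV, ?_⟩
    filter_upwards [hev, hev'] with τ e1 e2
    exact ⟨e2.mono inter_subset_right, fun x hx => e1 x hx.1⟩

end Vale.Agent.P268.T
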