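import Vale.Agent.P268.T.PlatesB

/-!
# P268, topological half: sheets `δ - |w| + i ⟨w, ν⟩` with boundary fronts

A sheet is given by `w` (its core is `w = 0`), a unit normal `ν`, a radius `r` and a domain
function `σ`: real part `min (r - ‖w‖) σ`, imaginary part `⟪w, ν⟫`.
-/

set_option linter.unusedSectionVars false

namespace Vale.Agent.P268.T

open Set Filter Topology

/-- Data of a finite family of sheets, depending on a parameter `τ : T`. -/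
structure SheetData (T E V A : Type*) where
  /-- the core is `w = 0` -/
  w : T → A → E → V
  /-- unit normal -/
  ν : T → A → E → V
  /-- radius -/
  r : T → A → E → ℝ
  /-- domain function -/
  σ : T → A → E → ℝ

section Norms

variable {V : Type*} [NormedAddCommGroup V] [InnerProductSpace ℝ V]

/-- Strict differentiability of the norm. -/
theorem norm_incr {z₀ : V} (hz₀ : z₀ ≠ 0) {ε : ℝ} (hε : 0 < ε) :
    ∀ᶠ p : V × V in 𝓝 (z₀, z₀),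
      |‖p.2‖ - ‖p.1‖ - inner ℝ z₀ (p.2 - p.1) / ‖z₀‖| ≤ ε * ‖p.2 - p.1‖ := by
  have hz : 0 < ‖z₀‖ := norm_pos_iff.mpr hz₀
  let g : V × V → V := fun p => (‖p.1‖ + ‖p.2‖)⁻¹ • (p.1 + p.2)
  have hg : ContinuousAt g (z₀, z₀) := by
    have h1 : ContinuousAt (fun p : V × V => ‖p.1‖ + ‖p.2‖) (z₀, z₀) := by fun_prop
    have h2 : ContinuousAt (fun p : V × V => p.1 + p.2) (z₀, z₀) := by fun_prop
    have h3 : (fun p : V × V => ‖p.1‖ + ‖p.2‖) (z₀, z₀) ≠ 0 := by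
      show ‖z₀‖ + ‖z₀‖ ≠ 0
      linarith
    exact (h1.inv₀ h3).smul h2
  have hg0 : g (z₀, z₀) = ‖z₀‖⁻¹ • z₀ := by
    show (‖z₀‖ + ‖z₀‖)⁻¹ • (z₀ + z₀) = ‖z₀‖⁻¹ • z₀
    rw [← two_smul ℝ z₀, smul_smul]
    congr 1
    field_simp
    norm_num
  have h1 := hg.eventually (Metric.ball_mem_nhds _ hε)
  have h2 : ∀ᶠ p : V × V in 𝓝 (z₀, z₀), p.1 ≠ 0 :=
    continuous_fst.continuousAt.eventually (isOpen_compl_singleton.mem_nhds hz₀)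
  filter_upwards [h1, h2] with p hp hp2
  have hp1 : 0 < ‖p.1‖ := norm_pos_iff.mpr hp2
  have hs : 0 < ‖p.1‖ + ‖p.2‖ := by positivity
  have e1 : ‖p.2‖ - ‖p.1‖ = inner ℝ (g p) (p.2 - p.1) := by
    show _ = inner ℝ ((‖p.1‖ + ‖p.2‖)⁻¹ • (p.1 + p.2)) (p.2 - p.1)
    rw [real_inner_smul_left, inner_add_left, inner_sub_right, inner_sub_right,
      real_inner_self_eq_norm_sq, real_inner_self_eq_norm_sq, real_inner_comm p.1 p.2]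
    field_simp
    ring
  have e2 : inner ℝ z₀ (p.2 - p.1) / ‖z₀‖ = inner ℝ (g (z₀, z₀)) (p.2 - p.1) := by
    rw [hg0, real_inner_smul_left, div_eq_inv_mul]
  rw [e1, e2, ← inner_sub_left]
  refine (abs_real_inner_le_norm _ _).trans ?_
  have h3 := Metric.mem_ball.mp hp
  rw [dist_eq_norm] at h3
  exact mul_le_mul_of_nonneg_right h3.le (norm_nonneg _)

theorem be_est {w w' n n' v n0 : V} {D κ R : ℝ} (hn' : ‖n'‖ = 1) (h1 : ‖w' - w - v‖ ≤ D)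
    (h2 : ‖n' - n0‖ ≤ κ) (h3 : ‖w‖ ≤ 1 + R) (h4 : (1 + R) * ‖n' - n‖ ≤ D) :
    |inner ℝ w' n' - inner ℝ w n - inner ℝ v n0| ≤ 2 * D + κ * ‖v‖ := by
  have e : inner ℝ w' n' - inner ℝ w n - inner ℝ v n0 =
      inner ℝ (w' - w - v) n' + inner ℝ w (n' - n) + inner ℝ v (n' - n0) := by
    simp only [inner_sub_left, inner_sub_right]; ring
  rw [e]
  have a1 : |inner ℝ (w' - w - v) n'| ≤ D :=
    (abs_real_inner_le_norm _ _).trans (by rw [hn', mul_one]; exact h1)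
  have a2 : |inner ℝ w (n' - n)| ≤ D :=
    (abs_real_inner_le_norm _ _).trans
      ((mul_le_mul_of_nonneg_right h3 (norm_nonneg _)).trans h4)
  have a3 : |inner ℝ v (n' - n0)| ≤ κ * ‖v‖ :=
    (abs_real_inner_le_norm _ _).trans (by
      rw [mul_comm]; exact mul_le_mul_of_nonneg_right h2 (norm_nonneg _))
  refine (abs_add_three _ _ _).trans ?_
  linarith

theorem tp_est {w w' v w0 : V} {r r' D κ : ℝ} (h1 : ‖w' - w - v‖ ≤ D) (hr : |r' - r| ≤ D)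
    (hκ0 : 0 ≤ κ) (h2 : |‖w'‖ - ‖w‖ - inner ℝ w0 (w' - w) / ‖w0‖| ≤ κ * ‖w' - w‖)
    (hw0 : w0 ≠ 0) :
    |(r' - ‖w'‖) - (r - ‖w‖) + inner ℝ w0 v / ‖w0‖| ≤ 2 * D + κ * (‖v‖ + D) := by
  have hpos : 0 < ‖w0‖ := norm_pos_iff.mpr hw0
  have e : (r' - ‖w'‖) - (r - ‖w‖) + inner ℝ w0 v / ‖w0‖ =
      (r' - r) + (-(‖w'‖ - ‖w‖ - inner ℝ w0 (w' - w) / ‖w0‖)) +
        (-(inner ℝ w0 (w' - w - v) / ‖w0‖)) := by
    rw [inner_sub_right w0 (w' - w) v]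
    ring
  rw [e]
  have a1 : |inner ℝ w0 (w' - w - v) / ‖w0‖| ≤ D := by
    rw [abs_div, abs_of_pos hpos, div_le_iff₀ hpos, mul_comm D]
    exact (abs_real_inner_le_norm _ _).trans (mul_le_mul_of_nonneg_left h1 hpos.le)
  have a2 : ‖w' - w‖ ≤ ‖v‖ + D := by
    have : w' - w = v + (w' - w - v) := by abel
    calc ‖w' - w‖ = ‖v + (w' - w - v)‖ := by rw [← this]
      _ ≤ ‖v‖ + ‖w' - w - v‖ := norm_add_le _ _
      _ ≤ _ := by linarith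
  have a3 : κ * ‖w' - w‖ ≤ κ * (‖v‖ + D) := mul_le_mul_of_nonneg_left a2 hκ0
  refine (abs_add_three _ _ _).trans ?_
  rw [abs_neg, abs_neg]
  linarith

theorem tp_est' {w w' v : V} {r r' D : ℝ} (h1 : ‖w' - w - v‖ ≤ D) (hr : |r' - r| ≤ D) :
    |(r' - ‖w'‖) - (r - ‖w‖)| ≤ ‖v‖ + 2 * D := by
  have e : (r' - ‖w'‖) - (r - ‖w‖) = (r' - r) + (-(‖w'‖ - ‖w‖)) := by ring
  rw [e]
  have a2 : ‖w' - w‖ ≤ ‖v‖ + D := by
    have : w' - w = v + (w' - w - v) := by abel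
    calc ‖w' - w‖ = ‖v + (w' - w - v)‖ := by rw [← this]
      _ ≤ ‖v‖ + ‖w' - w - v‖ := norm_add_le _ _
      _ ≤ _ := by linarith
  refine (abs_add_le _ _).trans ?_
  rw [abs_neg]
  have := abs_norm_sub_norm_le w' w
  linarith

end Norms

namespace SheetData

variable {T E V A : Type*} [TopologicalSpace T] [NormedAddCommGroup E] [NormedSpace ℝ E]
  [NormedAddCommGroup V] [InnerProductSpace ℝ V] [Fintype A] [Nonempty A]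

/-- Radial part of a sheet. -/
def tp (P : SheetData T E V A) (τ : T) (a : A) (x : E) : ℝ := P.r τ a x - ‖P.w τ a x‖

/-- Real part of one sheet. -/
def rho (P : SheetData T E V A) (τ : T) (a : A) (x : E) : ℝ := min (P.tp τ a x) (P.σ τ a x)

/-- Imaginary part of one sheet. -/
noncomputable def be (P : SheetData T E V A) (τ : T) (a : A) (x : E) : ℝ :=
  inner ℝ (P.w τ a x) (P.ν τ a x)

/-- **The sheet function.** -/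
noncomputable def fn (P : SheetData T E V A) (η : ℝ) (N : E → ℝ) (τ : T) (x : E) : ℂ :=
  gfn η N P.rho P.be τ x

/-- Continuity and separation.  No homogeneity: also used in affine charts, with `N = 1`. -/
structure BaseL (P : SheetData T E V A) (s : Set T) (η : ℝ) (N : E → ℝ) : Prop where
  hη : 0 < η
  cN : Continuous N
  nN : ∀ x, 0 ≤ N x
  cw : ∀ a, ContinuousOn (fun p : T × E => P.w p.1 a p.2) (s ×ˢ univ)
  cr : ∀ a, ContinuousOn (fun p : T × E => P.r p.1 a p.2) (s ×ˢ univ)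
  cs : ∀ a, ContinuousOn (fun p : T × E => P.σ p.1 a p.2) (s ×ˢ univ)
  cn : ∀ a, ContinuousOn (fun p : T × E => P.ν p.1 a p.2) (s ×ˢ {x | N x ≠ 0})
  nn : ∀ τ ∈ s, ∀ a, ∀ x, N x ≠ 0 → ‖P.ν τ a x‖ = 1
  sep : ∀ τ ∈ s, ∀ x, N x ≠ 0 → ∀ a b, -η * N x < P.rho τ a x → -η * N x < P.rho τ b x →
    P.be τ a x = P.be τ b x

/-- Global conditions: continuity, homogeneity and separation. -/
structure Base (P : SheetData T E V A) (s : Set T) (η : ℝ) (N : E → ℝ) : Prop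
    extends P.BaseL s η N where
  hN : ∀ k : ℝ, 0 ≤ k → ∀ x, N (k • x) = k * N x
  hw : ∀ τ ∈ s, ∀ a, ∀ k : ℝ, 0 ≤ k → ∀ x, P.w τ a (k • x) = k • P.w τ a x
  hr : ∀ τ ∈ s, ∀ a, ∀ k : ℝ, 0 ≤ k → ∀ x, P.r τ a (k • x) = k * P.r τ a x
  hs : ∀ τ ∈ s, ∀ a, ∀ k : ℝ, 0 ≤ k → ∀ x, P.σ τ a (k • x) = k * P.σ τ a x
  hn : ∀ τ ∈ s, ∀ a, ∀ k : ℝ, 0 < k → ∀ x, P.ν τ a (k • x) = P.ν τ a x
  neg : ∀ τ ∈ s, ∀ a x, x ≠ 0 → N x = 0 → P.rho τ a x < 0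

variable {P : SheetData T E V A} {s : Set T} {η : ℝ} {N : E → ℝ}

theorem Base.tp_smul (h : P.Base s η N) {τ : T} (hτ : τ ∈ s) (a : A) {k : ℝ} (hk : 0 ≤ k)
    (x : E) : P.tp τ a (k • x) = k * P.tp τ a x := by
  unfold tp
  rw [h.hr τ hτ a k hk, h.hw τ hτ a k hk, norm_smul, Real.norm_eq_abs, abs_of_nonneg hk]
  ring

theorem Base.rho_smul (h : P.Base s η N) {τ : T} (hτ : τ ∈ s) (a : A) {k : ℝ} (hk : 0 ≤ k)
    (x : E) : P.rho τ a (k • x) = k * P.rho τ a x := by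
  unfold rho
  rw [h.tp_smul hτ a hk, h.hs τ hτ a k hk, mul_min_of_nonneg _ _ hk]

theorem Base.be_smul (h : P.Base s η N) {τ : T} (hτ : τ ∈ s) (a : A) {k : ℝ} (hk : 0 ≤ k)
    (x : E) : P.be τ a (k • x) = k * P.be τ a x := by
  unfold be
  rcases hk.eq_or_lt with rfl | hk'
  · rw [h.hw τ hτ a 0 le_rfl, zero_smul, inner_zero_left, zero_mul]
  · rw [h.hw τ hτ a k hk, h.hn τ hτ a k hk', real_inner_smul_left]

theorem BaseL.continuousOn_tp (h : P.BaseL s η N) (a : A) :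
    ContinuousOn (fun p : T × E => P.tp p.1 a p.2) (s ×ˢ univ) :=
  (h.cr a).sub (h.cw a).norm

/-- The local gluing conditions hold. -/
theorem BaseL.glueL (h : P.BaseL s η N) : GlueL s η N P.rho P.be where
  hη := h.hη
  cN := h.cN
  nN := h.nN
  cr := fun a => (h.continuousOn_tp a).inf (h.cs a)
  cb := fun a => by
    have h1 : ContinuousOn (fun p : T × E => P.w p.1 a p.2) (s ×ˢ {x | N x ≠ 0}) :=
      (h.cw a).mono (prod_mono Subset.rfl (subset_univ _))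
    exact h1.inner (𝕜 := ℝ) (h.cn a)
  sep := h.sep

/-- The gluing conditions hold. -/
theorem Base.glue (h : P.Base s η N) : Glue s η N P.rho P.be where
  toGlueL := h.toBaseL.glueL
  hN := h.hN
  hr := fun τ hτ a k hk x => h.rho_smul hτ a hk x
  hb := fun τ hτ a k hk x _ => h.be_smul hτ a hk.le x
  neg := h.neg
  bd := fun a => ⟨fun τ x => ‖P.w τ a x‖, (h.cw a).norm, fun τ hτ => by
    have := h.hw τ hτ a 0 le_rfl 0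
    rw [zero_smul, zero_smul] at this
    show ‖P.w τ a 0‖ = 0
    rw [this, norm_zero], fun τ hτ x hx => by
      refine (abs_real_inner_le_norm _ _).trans ?_
      rw [h.nn τ hτ a x hx, mul_one]⟩

/-- Local conditions at `(τ₀, x₀)`, for the active sheets only: a common normal, positive radius,
and directions `D` (moving `w`) and `u` (moving the fronts).  No Lipschitz condition. -/
structure Loc0 (P : SheetData T E V A) (s : Set T) (τ₀ : T) (x₀ : E) (D : V →L[ℝ] E) (u : E)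
    (L : ℝ) : Prop where
  hν : ∀ a b, P.rho τ₀ a x₀ = gre P.rho τ₀ x₀ → P.rho τ₀ b x₀ = gre P.rho τ₀ x₀ →
    P.ν τ₀ a x₀ = P.ν τ₀ b x₀
  rim : gre P.rho τ₀ x₀ = 0 → ∀ a b, P.rho τ₀ a x₀ = 0 → P.rho τ₀ b x₀ = 0 →
    P.tp τ₀ a x₀ = 0 → P.tp τ₀ b x₀ = 0 →
    ‖P.w τ₀ b x₀‖ • P.w τ₀ a x₀ = ‖P.w τ₀ a x₀‖ • P.w τ₀ b x₀
  rpos : ∀ a, P.rho τ₀ a x₀ = gre P.rho τ₀ x₀ → 0 < P.r τ₀ a x₀
  dir : ∀ κ : ℝ, 0 < κ → ∃ U ∈ 𝓝 x₀, ∀ᶠ τ in 𝓝[s] τ₀, ∀ y ∈ U, ∀ (v : V) (l : ℝ),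
    y + (D v + l • u) ∈ U → ∀ a, P.rho τ₀ a x₀ = gre P.rho τ₀ x₀ →
      ‖P.w τ a (y + (D v + l • u)) - P.w τ a y - v‖ ≤ κ * ‖v‖ + |l| / 8 ∧
      |P.r τ a (y + (D v + l • u)) - P.r τ a y| ≤ κ * ‖v‖ + |l| / 8 ∧
      (1 + P.r τ₀ a x₀) * ‖P.ν τ a (y + (D v + l • u)) - P.ν τ a y‖ ≤ κ * ‖v‖ + |l| / 8 ∧
      |P.σ τ a (y + (D v + l • u)) - P.σ τ a y| ≤ κ * ‖v‖ + L * |l| ∧
      (P.σ τ₀ a x₀ = 0 → l ^ 2 ≤ l * (P.σ τ a (y + (D v + l • u)) - P.σ τ a y) +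
        κ * ‖v‖ * |l|)

/-- Local conditions at `(τ₀, x₀)`, with Lipschitz data (needed where the value is not zero). -/
structure Loc (P : SheetData T E V A) (s : Set T) (τ₀ : T) (x₀ : E) (D : V →L[ℝ] E) (u : E)
    (L : ℝ) : Prop extends P.Loc0 s τ₀ x₀ D u L where
  lw : ∀ a, P.rho τ₀ a x₀ = gre P.rho τ₀ x₀ → LocLip s (fun τ x => P.w τ a x) τ₀ x₀
  ln : ∀ a, P.rho τ₀ a x₀ = gre P.rho τ₀ x₀ → LocLip s (fun τ x => P.ν τ a x) τ₀ x₀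
  lr : ∀ a, P.rho τ₀ a x₀ = gre P.rho τ₀ x₀ → LocLip s (fun τ x => P.r τ a x) τ₀ x₀
  ls : ∀ a, P.rho τ₀ a x₀ = gre P.rho τ₀ x₀ → LocLip s (fun τ x => P.σ τ a x) τ₀ x₀

/-- The increments of one sheet. -/
structure EstAt (P : SheetData T E V A) (τ₀ : T) (x₀ : E) (L κ : ℝ) (τ : T) (a : A) (y y' : E)
    (v : V) (l : ℝ) : Prop where
  b : |P.be τ a y' - P.be τ a y - inner ℝ v (P.ν τ₀ a x₀)| ≤ 4 * κ * ‖v‖ + 3 / 8 * |l|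
  t : P.w τ₀ a x₀ ≠ 0 →
    |P.tp τ a y' - P.tp τ a y + inner ℝ (P.w τ₀ a x₀) v / ‖P.w τ₀ a x₀‖| ≤
      4 * κ * ‖v‖ + 3 / 8 * |l|
  t' : |P.tp τ a y' - P.tp τ a y| ≤ 3 * ‖v‖ + |l|
  s : |P.σ τ a y' - P.σ τ a y| ≤ κ * ‖v‖ + L * |l|
  s' : P.σ τ₀ a x₀ = 0 → l ^ 2 ≤ l * (P.σ τ a y' - P.σ τ a y) + κ * ‖v‖ * |l|

/-- The directional condition alone. -/
def DirAt (P : SheetData T E V A) (s : Set T) (τ₀ : T) (x₀ : E) (D : V →L[ℝ] E) (u : E)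
    (L : ℝ) : Prop :=
  ∀ κ : ℝ, 0 < κ → ∃ U ∈ 𝓝 x₀, ∀ᶠ τ in 𝓝[s] τ₀, ∀ y ∈ U, ∀ (v : V) (l : ℝ),
    y + (D v + l • u) ∈ U → ∀ a, P.rho τ₀ a x₀ = gre P.rho τ₀ x₀ →
      ‖P.w τ a (y + (D v + l • u)) - P.w τ a y - v‖ ≤ κ * ‖v‖ + |l| / 8 ∧
      |P.r τ a (y + (D v + l • u)) - P.r τ a y| ≤ κ * ‖v‖ + |l| / 8 ∧
      (1 + P.r τ₀ a x₀) * ‖P.ν τ a (y + (D v + l • u)) - P.ν τ a y‖ ≤ κ * ‖v‖ + |l| / 8 ∧
      |P.σ τ a (y + (D v + l • u)) - P.σ τ a y| ≤ κ * ‖v‖ + L * |l| ∧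
      (P.σ τ₀ a x₀ = 0 → l ^ 2 ≤ l * (P.σ τ a (y + (D v + l • u)) - P.σ τ a y) +
        κ * ‖v‖ * |l|)

theorem BaseL.est (h : P.BaseL s η N) {τ₀ : T} (hτ₀ : τ₀ ∈ s) {x₀ : E} (hx₀ : N x₀ ≠ 0)
    (h0 : 0 ≤ gre P.rho τ₀ x₀) {D : V →L[ℝ] E} {u : E} {L : ℝ} (Hd : P.DirAt s τ₀ x₀ D u L)
    {κ : ℝ} (hκ : 0 < κ) (hκ1 : κ ≤ 1) :
    ∃ U ∈ 𝓝 x₀, ∀ᶠ τ in 𝓝[s] τ₀, ∀ y ∈ U, ∀ (v : V) (l : ℝ), y + (D v + l • u) ∈ U →
      ∀ a, P.rho τ₀ a x₀ = gre P.rho τ₀ x₀ →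
        P.EstAt τ₀ x₀ L κ τ a y (y + (D v + l • u)) v l := by
  obtain ⟨U, hU, hev⟩ := Hd κ hκ
  -- one sheet
  have h1 : ∀ a, ∀ᶠ p : T × E in 𝓝[s ×ˢ univ] (τ₀, x₀), ‖P.ν p.1 a p.2‖ = 1 ∧
      ‖P.ν p.1 a p.2 - P.ν τ₀ a x₀‖ ≤ κ ∧
      (P.rho τ₀ a x₀ = gre P.rho τ₀ x₀ → ‖P.w p.1 a p.2‖ ≤ 1 + P.r τ₀ a x₀) := by
    intro a
    have c1 : ContinuousWithinAt (fun p : T × E => P.ν p.1 a p.2) (s ×ˢ univ) (τ₀, x₀) := by
      refine (h.cn a (τ₀, x₀) ⟨hτ₀, hx₀⟩).mono_of_mem_nhdsWithin ?_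
      filter_upwards [self_mem_nhdsWithin,
        mem_nhdsWithin_of_mem_nhds (h.glueL.mem_N hx₀ τ₀)] with p hp hp'
      exact ⟨hp.1, hp'⟩
    have c2 : Tendsto (fun p : T × E => ‖P.w p.1 a p.2‖) (𝓝[s ×ˢ univ] (τ₀, x₀))
      (𝓝 ‖P.w τ₀ a x₀‖) := (h.cw a (τ₀, x₀) ⟨hτ₀, mem_univ _⟩).norm
    have c3 := c1.eventually (Metric.ball_mem_nhds _ hκ)
    have c4 : ∀ᶠ p : T × E in 𝓝[s ×ˢ univ] (τ₀, x₀), P.rho τ₀ a x₀ = gre P.rho τ₀ x₀ →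
        ‖P.w p.1 a p.2‖ ≤ 1 + P.r τ₀ a x₀ := by
      by_cases ha : P.rho τ₀ a x₀ = gre P.rho τ₀ x₀
      · have h2 : 0 ≤ P.tp τ₀ a x₀ := (h0.trans ha.symm.le).trans (min_le_left _ _)
        unfold tp at h2
        filter_upwards [c2.eventually (gt_mem_nhds
          (show ‖P.w τ₀ a x₀‖ < 1 + P.r τ₀ a x₀ by linarith))] with p hp _
        exact hp.le
      · exact Eventually.of_forall fun p hp => absurd hp ha
    filter_upwards [c3, c4, self_mem_nhdsWithin,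
      mem_nhdsWithin_of_mem_nhds (h.glueL.mem_N hx₀ τ₀)] with p hp hp4 hp1 hp2
    refine ⟨h.nn p.1 hp1.1 a p.2 hp2, ?_, hp4⟩
    have := Metric.mem_ball.mp hp
    rw [dist_eq_norm] at this
    exact this.le
  have h2 : ∀ a, ∃ W ∈ 𝓝 (P.w τ₀ a x₀), P.w τ₀ a x₀ ≠ 0 → ∀ z ∈ W, ∀ z' ∈ W,
      |‖z'‖ - ‖z‖ - inner ℝ (P.w τ₀ a x₀) (z' - z) / ‖P.w τ₀ a x₀‖| ≤ κ * ‖z' - z‖ := by
    intro a
    by_cases ha : P.w τ₀ a x₀ = 0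
    · exact ⟨univ, univ_mem, fun hne => absurd ha hne⟩
    · have h3 := norm_incr ha hκ
      rw [nhds_prod_eq, eventually_prod_iff] at h3
      obtain ⟨pa, ha', pb, hb', hab⟩ := h3
      exact ⟨{z | pa z ∧ pb z}, ha'.and hb', fun _ z hz z' hz' => hab hz.1 hz'.2⟩
  choose W hW1 hW2 using h2
  have h3 : ∀ a, ∀ᶠ p : T × E in 𝓝[s ×ˢ univ] (τ₀, x₀), P.w p.1 a p.2 ∈ W a :=
    fun a => (h.cw a (τ₀, x₀) ⟨hτ₀, mem_univ _⟩).eventually (hW1 a)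
  obtain ⟨U', hU', hev'⟩ := ev_prod (Q := fun τ x => (∀ a, ‖P.ν τ a x‖ = 1 ∧
      ‖P.ν τ a x - P.ν τ₀ a x₀‖ ≤ κ ∧
      (P.rho τ₀ a x₀ = gre P.rho τ₀ x₀ → ‖P.w τ a x‖ ≤ 1 + P.r τ₀ a x₀)) ∧
      ∀ a, P.w τ a x ∈ W a) ((eventually_all.mpr h1).and (eventually_all.mpr h3))
  refine ⟨U ∩ U', inter_mem hU hU', ?_⟩
  filter_upwards [hev, hev'] with τ e1 e2 y hy v l hyv a ha
  obtain ⟨d1, d2, d3, d4, d5⟩ := e1 y hy.1 v l hyv.1 a ha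
  obtain ⟨f1, f2⟩ := e2 y hy.2
  obtain ⟨g1, g2⟩ := e2 _ hyv.2
  set y' := y + (D v + l • u) with hy'
  have hv := norm_nonneg v
  have hl := abs_nonneg l
  have hκv : 0 ≤ κ * ‖v‖ := by positivity
  refine ⟨?_, ?_, ?_, d4, d5⟩
  · refine (be_est (g1 a).1 d1 (g1 a).2.1 ((f1 a).2.2 ha) d3).trans ?_
    linarith
  · intro hw0
    refine (tp_est d1 d2 hκ.le (hW2 a hw0 _ (f2 a) _ (g2 a)) hw0).trans ?_
    have i1 : κ * (κ * ‖v‖ + |l| / 8) ≤ 1 * (κ * ‖v‖ + |l| / 8) :=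
      mul_le_mul_of_nonneg_right hκ1 (by positivity)
    linarith
  · refine (tp_est' d1 d2).trans ?_
    have i1 : κ * ‖v‖ ≤ 1 * ‖v‖ := mul_le_mul_of_nonneg_right hκ1 hv
    linarith

theorem Loc0.est (h : P.BaseL s η N) {τ₀ : T} (hτ₀ : τ₀ ∈ s) {x₀ : E} (hx₀ : N x₀ ≠ 0)
    (h0 : 0 ≤ gre P.rho τ₀ x₀) {D : V →L[ℝ] E} {u : E} {L : ℝ} (H : P.Loc0 s τ₀ x₀ D u L)
    {κ : ℝ} (hκ : 0 < κ) (hκ1 : κ ≤ 1) :
    ∃ U ∈ 𝓝 x₀, ∀ᶠ τ in 𝓝[s] τ₀, ∀ y ∈ U, ∀ (v : V) (l : ℝ), y + (D v + l • u) ∈ U →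
      ∀ a, P.rho τ₀ a x₀ = gre P.rho τ₀ x₀ →
        P.EstAt τ₀ x₀ L κ τ a y (y + (D v + l • u)) v l :=
  h.est hτ₀ hx₀ h0 H.dir hκ hκ1

end SheetData

end Vale.Agent.P268.T
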