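import Vale.Agent.P268.T.PlatesD

/-!
# P268, topological half: plates (sheets in fibre form)

The space is `S × V`: `S` base, `V` fibre.  A plate `a` is given by a centre `c`, a unit normal
`ν`, a radius `r` and a domain function `σ`, all functions of the base point.  It is the disc of
radius `r` around `c` in the hyperplane orthogonal to `ν`, over the region `σ > 0` of the base.
-/

set_option linter.unusedSectionVars false

namespace Vale.Agent.P268.T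

open Set Filter Topology

/-- Data of a finite family of plates, depending on a parameter `τ : T`. -/
structure PlateData (T S V A : Type*) where
  /-- centre -/
  c : T → A → S → V
  /-- unit normal -/
  ν : T → A → S → V
  /-- radius -/
  r : T → A → S → ℝ
  /-- domain function -/
  σ : T → A → S → ℝ

namespace PlateData

variable {T S V A : Type*} [TopologicalSpace T] [NormedAddCommGroup S] [NormedSpace ℝ S]
  [NormedAddCommGroup V] [InnerProductSpace ℝ V] [Fintype A] [Nonempty A]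

/-- The sheets of a family of plates. -/
def toSheet (P : PlateData T S V A) : SheetData T (S × V) V A where
  w := fun τ a x => x.2 - P.c τ a x.1
  ν := fun τ a x => P.ν τ a x.1
  r := fun τ a x => P.r τ a x.1
  σ := fun τ a x => P.σ τ a x.1

/-- Continuity, homogeneity and separation of a family of plates (two plates may overlap in a
common hyperplane in an arbitrary way). -/
structure Base0 (P : PlateData T S V A) (s : Set T) (η : ℝ) (g : S → ℝ) : Prop where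
  hη : 0 < η
  cg : Continuous g
  ng : ∀ x, 0 ≤ g x
  hg : ∀ k : ℝ, 0 ≤ k → ∀ x, g (k • x) = k * g x
  pg : ∀ x, g x = 0 → x = 0
  cc : ∀ a, ContinuousOn (fun p : T × S => P.c p.1 a p.2) (s ×ˢ univ)
  cr : ∀ a, ContinuousOn (fun p : T × S => P.r p.1 a p.2) (s ×ˢ univ)
  cs : ∀ a, ContinuousOn (fun p : T × S => P.σ p.1 a p.2) (s ×ˢ univ)
  cn : ∀ a, ContinuousOn (fun p : T × S => P.ν p.1 a p.2) (s ×ˢ {x | x ≠ 0})
  hc : ∀ τ ∈ s, ∀ a, ∀ k : ℝ, 0 ≤ k → ∀ x, P.c τ a (k • x) = k • P.c τ a x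
  hr : ∀ τ ∈ s, ∀ a, ∀ k : ℝ, 0 ≤ k → ∀ x, P.r τ a (k • x) = k * P.r τ a x
  hs : ∀ τ ∈ s, ∀ a, ∀ k : ℝ, 0 ≤ k → ∀ x, P.σ τ a (k • x) = k * P.σ τ a x
  hn : ∀ τ ∈ s, ∀ a, ∀ k : ℝ, 0 < k → ∀ x, P.ν τ a (k • x) = P.ν τ a x
  nn : ∀ τ ∈ s, ∀ a, ∀ x, x ≠ 0 → ‖P.ν τ a x‖ = 1
  /-- Nearly present plates are disjoint or coplanar. -/
  sep : ∀ τ ∈ s, ∀ x, x ≠ 0 → ∀ a b, a ≠ b → -η * g x < P.σ τ a x → -η * g x < P.σ τ b x →
    P.r τ a x + P.r τ b x + 2 * η * g x ≤ ‖P.c τ a x - P.c τ b x‖ ∨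
      (P.ν τ a x = P.ν τ b x ∧ inner ℝ (P.c τ a x - P.c τ b x) (P.ν τ a x) = 0)

/-- Continuity, homogeneity and separation of a family of plates. -/
structure Base (P : PlateData T S V A) (s : Set T) (η : ℝ) (g : S → ℝ) : Prop
    extends P.Base0 s η g where
  rpos : ∀ τ ∈ s, ∀ a, ∀ x, x ≠ 0 → 0 ≤ P.σ τ a x → 0 < P.r τ a x
  /-- Present plates are disjoint or nested. -/
  nest : ∀ τ ∈ s, ∀ x, x ≠ 0 → ∀ a b, a ≠ b → 0 ≤ P.σ τ a x → 0 ≤ P.σ τ b x →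
    P.r τ a x + P.r τ b x < ‖P.c τ a x - P.c τ b x‖ ∨
      ‖P.c τ a x - P.c τ b x‖ < |P.r τ a x - P.r τ b x|

variable {P : PlateData T S V A} {s : Set T} {η : ℝ} {g : S → ℝ}

theorem Base0.g0 (h : P.Base0 s η g) : g 0 = 0 := by
  have := h.hg 0 le_rfl 0
  simpa using this

theorem Base0.g_ne (h : P.Base0 s η g) {x : S} (hx : g x ≠ 0) : x ≠ 0 := by
  rintro rfl; exact hx h.g0

theorem Base0.g_pos (h : P.Base0 s η g) {x : S} (hx : x ≠ 0) : 0 < g x :=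
  lt_of_le_of_ne (h.ng x) (fun h0 => hx (h.pg x h0.symm))

theorem Base0.be_eq (h : P.Base0 s η g) {τ : T} (hτ : τ ∈ s) {x : S × V} (hx : x.1 ≠ 0) {a b : A}
    (ha : -η * g x.1 < P.toSheet.rho τ a x) (hb : -η * g x.1 < P.toSheet.rho τ b x) :
    a = b ∨ (P.ν τ a x.1 = P.ν τ b x.1 ∧
      inner ℝ (P.c τ a x.1 - P.c τ b x.1) (P.ν τ a x.1) = 0) := by
  by_cases hab : a = b
  · exact Or.inl hab
  · right
    have ha1 : -η * g x.1 < P.σ τ a x.1 := ha.trans_le (min_le_right _ _)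
    have hb1 : -η * g x.1 < P.σ τ b x.1 := hb.trans_le (min_le_right _ _)
    have ha2 : -η * g x.1 < P.r τ a x.1 - ‖x.2 - P.c τ a x.1‖ := ha.trans_le (min_le_left _ _)
    have hb2 : -η * g x.1 < P.r τ b x.1 - ‖x.2 - P.c τ b x.1‖ := hb.trans_le (min_le_left _ _)
    rcases h.sep τ hτ x.1 hx a b hab ha1 hb1 with h1 | h1
    · exfalso
      have h3 : ‖P.c τ a x.1 - P.c τ b x.1‖ ≤ ‖x.2 - P.c τ b x.1‖ + ‖x.2 - P.c τ a x.1‖ := by
        have e : P.c τ a x.1 - P.c τ b x.1 = (x.2 - P.c τ b x.1) - (x.2 - P.c τ a x.1) := by abel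
        rw [e]
        exact norm_sub_le _ _
      linarith
    · exact h1

/-- The global conditions for the sheets. -/
theorem Base0.toSheet (h : P.Base0 s η g) : P.toSheet.Base s η (fun x => g x.1) where
  hη := h.hη
  cN := h.cg.comp continuous_fst
  nN := fun x => h.ng x.1
  hN := fun k hk x => h.hg k hk x.1
  cw := fun a => by
    have hm : Continuous (fun p : T × (S × V) => (p.1, p.2.1)) := by fun_prop
    have h2 := (h.cc a).comp (t := s ×ˢ univ) (s := s ×ˢ (univ : Set (S × V))) hm.continuousOn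
      (fun p hp => ⟨hp.1, mem_univ _⟩)
    have h3 : ContinuousOn (fun p : T × (S × V) => p.2.2) (s ×ˢ univ) := by fun_prop
    exact h3.sub h2
  cr := fun a => by
    have hm : Continuous (fun p : T × (S × V) => (p.1, p.2.1)) := by fun_prop
    exact (h.cr a).comp hm.continuousOn (fun p hp => ⟨hp.1, mem_univ _⟩)
  cs := fun a => by
    have hm : Continuous (fun p : T × (S × V) => (p.1, p.2.1)) := by fun_prop
    exact (h.cs a).comp hm.continuousOn (fun p hp => ⟨hp.1, mem_univ _⟩)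
  cn := fun a => by
    have hm : Continuous (fun p : T × (S × V) => (p.1, p.2.1)) := by fun_prop
    exact (h.cn a).comp hm.continuousOn (fun p hp => ⟨hp.1, h.g_ne hp.2⟩)
  hw := fun τ hτ a k hk x => by
    show k • x.2 - P.c τ a (k • x.1) = k • (x.2 - P.c τ a x.1)
    rw [h.hc τ hτ a k hk, smul_sub]
  hr := fun τ hτ a k hk x => h.hr τ hτ a k hk x.1
  hs := fun τ hτ a k hk x => h.hs τ hτ a k hk x.1
  hn := fun τ hτ a k hk x => h.hn τ hτ a k hk x.1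
  nn := fun τ hτ a x hx => h.nn τ hτ a x.1 (h.g_ne hx)
  neg := fun τ hτ a x hx hN => by
    have h1 : x.1 = 0 := h.pg _ hN
    have h2 : x.2 ≠ 0 := fun h2 => hx (Prod.ext h1 h2)
    have h3 : P.c τ a 0 = 0 := by
      have := h.hc τ hτ a 0 le_rfl 0
      simpa using this
    have h4 : P.r τ a 0 = 0 := by
      have := h.hr τ hτ a 0 le_rfl 0
      simpa using this
    refine (min_le_left _ _).trans_lt ?_
    show P.r τ a x.1 - ‖x.2 - P.c τ a x.1‖ < 0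
    rw [h1, h3, h4, sub_zero, zero_sub]
    exact neg_lt_zero.mpr (norm_pos_iff.mpr h2)
  sep := fun τ hτ x hx a b ha hb => by
    rcases h.be_eq hτ (h.g_ne hx) ha hb with rfl | ⟨h1, h2⟩
    · rfl
    · show inner ℝ (x.2 - P.c τ a x.1) (P.ν τ a x.1) = inner ℝ (x.2 - P.c τ b x.1) (P.ν τ b x.1)
      rw [← h1]
      have e : x.2 - P.c τ b x.1 = (x.2 - P.c τ a x.1) + (P.c τ a x.1 - P.c τ b x.1) := by abel
      rw [e, inner_add_left, h2, add_zero]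

/-- A front direction at `x₀`, for the active plates. -/
def Front (P : PlateData T S V A) (s : Set T) (τ₀ : T) (x₀ : S × V) (u : S) (L : ℝ) : Prop :=
  ∃ U ∈ 𝓝 x₀.1, ∀ᶠ τ in 𝓝[s] τ₀, ∀ y ∈ U, ∀ l : ℝ, y + l • u ∈ U →
    ∀ a, P.toSheet.rho τ₀ a x₀ = gre P.toSheet.rho τ₀ x₀ →
      ‖P.c τ a (y + l • u) - P.c τ a y‖ ≤ |l| / 8 ∧
      |P.r τ a (y + l • u) - P.r τ a y| ≤ |l| / 8 ∧
      (1 + P.r τ₀ a x₀.1) * ‖P.ν τ a (y + l • u) - P.ν τ a y‖ ≤ |l| / 8 ∧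
      |P.σ τ a (y + l • u) - P.σ τ a y| ≤ L * |l| ∧
      (P.σ τ₀ a x₀.1 = 0 → l ^ 2 ≤ l * (P.σ τ a (y + l • u) - P.σ τ a y))

/-- If no active plate has `σ = 0` at `x₀`, the zero direction is a front direction. -/
theorem front_zero {τ₀ : T} {x₀ : S × V}
    (h : ∀ a, P.toSheet.rho τ₀ a x₀ = gre P.toSheet.rho τ₀ x₀ → P.σ τ₀ a x₀.1 ≠ 0) :
    P.Front s τ₀ x₀ 0 0 := by
  refine ⟨univ, univ_mem, Eventually.of_forall fun τ y _ l _ a ha => ?_⟩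
  have hl : 0 ≤ |l| / 8 := by positivity
  simp only [smul_zero, add_zero, sub_self, norm_zero, abs_zero, mul_zero, zero_mul]
  exact ⟨hl, hl, hl, le_rfl, fun h0 => absurd h0 (h a ha)⟩

theorem Base0.hν (h : P.Base0 s η g) {τ₀ : T} (hτ₀ : τ₀ ∈ s) {x₀ : S × V} (hx₀ : x₀.1 ≠ 0)
    (h0 : 0 ≤ gre P.toSheet.rho τ₀ x₀) (a b : A)
    (ha : P.toSheet.rho τ₀ a x₀ = gre P.toSheet.rho τ₀ x₀)
    (hb : P.toSheet.rho τ₀ b x₀ = gre P.toSheet.rho τ₀ x₀) : P.ν τ₀ a x₀.1 = P.ν τ₀ b x₀.1 := by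
  have hη := h.hη
  have hg := h.g_pos hx₀
  have h1 : 0 < η * g x₀.1 := by positivity
  rcases h.be_eq hτ₀ hx₀ (a := a) (b := b) (by linarith) (by linarith) with rfl | ⟨h1, -⟩
  · rfl
  · exact h1

theorem dirAt {τ₀ : T} {x₀ : S × V} {u : S} {L : ℝ} (F : P.Front s τ₀ x₀ u L) :
    P.toSheet.DirAt s τ₀ x₀ (ContinuousLinearMap.inr ℝ S V) (u, 0) L := by
  intro κ hκ
  obtain ⟨U, hU, hev⟩ := F
  refine ⟨Prod.fst ⁻¹' U, continuous_fst.continuousAt.preimage_mem_nhds hU, ?_⟩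
  filter_upwards [hev] with τ hτ y hy v l hyv a ha
  have e1 : (y + ((ContinuousLinearMap.inr ℝ S V) v + l • ((u, 0) : S × V))).1 =
      y.1 + l • u := by
    simp
  have e2 : (y + ((ContinuousLinearMap.inr ℝ S V) v + l • ((u, 0) : S × V))).2 =
      y.2 + v := by
    simp
  have hyv' : y.1 + l • u ∈ U := by rw [← e1]; exact hyv
  obtain ⟨d1, d2, d3, d4, d5⟩ := hτ y.1 hy l hyv' a ha
  have hκv : 0 ≤ κ * ‖v‖ := by positivity
  have hl := abs_nonneg l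
  simp only [PlateData.toSheet]
  rw [e1, e2]
  refine ⟨?_, by linarith, by linarith, by linarith, fun h0 => ?_⟩
  · have e3 : y.2 + v - P.c τ a (y.1 + l • u) - (y.2 - P.c τ a y.1) - v =
        -(P.c τ a (y.1 + l • u) - P.c τ a y.1) := by abel
    rw [e3, norm_neg]
    linarith
  · have := d5 h0
    have h6 : 0 ≤ κ * ‖v‖ * |l| := by positivity
    linarith

/-- The local conditions for the sheets. -/
theorem Base.loc0 (h : P.Base s η g) {τ₀ : T} (hτ₀ : τ₀ ∈ s) {x₀ : S × V} (hx₀ : x₀.1 ≠ 0)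
    (h0 : 0 ≤ gre P.toSheet.rho τ₀ x₀) {u : S} {L : ℝ} (F : P.Front s τ₀ x₀ u L) :
    P.toSheet.Loc0 s τ₀ x₀ (ContinuousLinearMap.inr ℝ S V) (u, 0) L where
  hν := fun a b ha hb => h.toBase0.hν hτ₀ hx₀ h0 a b ha hb
  rim := fun hv a b ha hb hta htb => by
    by_cases hab : a = b
    · subst hab; rfl
    · exfalso
      have ha1 : 0 ≤ P.σ τ₀ a x₀.1 := ha.ge.trans (min_le_right _ _)
      have hb1 : 0 ≤ P.σ τ₀ b x₀.1 := hb.ge.trans (min_le_right _ _)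
      have ha2 : P.r τ₀ a x₀.1 - ‖x₀.2 - P.c τ₀ a x₀.1‖ = 0 := hta
      have hb2 : P.r τ₀ b x₀.1 - ‖x₀.2 - P.c τ₀ b x₀.1‖ = 0 := htb
      have e : P.c τ₀ a x₀.1 - P.c τ₀ b x₀.1 =
        (x₀.2 - P.c τ₀ b x₀.1) - (x₀.2 - P.c τ₀ a x₀.1) := by abel
      have h3 : ‖P.c τ₀ a x₀.1 - P.c τ₀ b x₀.1‖ ≤
          ‖x₀.2 - P.c τ₀ b x₀.1‖ + ‖x₀.2 - P.c τ₀ a x₀.1‖ := by
        rw [e]; exact norm_sub_le _ _
      have h4 : |‖x₀.2 - P.c τ₀ b x₀.1‖ - ‖x₀.2 - P.c τ₀ a x₀.1‖| ≤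
          ‖P.c τ₀ a x₀.1 - P.c τ₀ b x₀.1‖ := by
        rw [e]; exact abs_norm_sub_norm_le _ _
      have h5 : P.r τ₀ a x₀.1 = ‖x₀.2 - P.c τ₀ a x₀.1‖ := by linarith
      have h6 : P.r τ₀ b x₀.1 = ‖x₀.2 - P.c τ₀ b x₀.1‖ := by linarith
      rcases h.nest τ₀ hτ₀ x₀.1 hx₀ a b hab ha1 hb1 with h1 | h1
      · linarith
      · rw [abs_sub_comm, h5, h6] at h1
        linarith
  rpos := fun a ha => h.rpos τ₀ hτ₀ a x₀.1 hx₀ ((h0.trans ha.ge).trans (min_le_right _ _))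
  dir := dirAt F

/-- **Plates lemma, zero version**: merely continuous data; a front direction is needed only at
the zeros where some active plate ends. -/
theorem Base.rfam (h : P.Base s η g)
    (F : ∀ τ₀ ∈ s, ∀ x₀ : S × V, x₀.1 ≠ 0 → P.toSheet.fn η (fun x => g x.1) τ₀ x₀ = 0 →
      gre P.toSheet.rho τ₀ x₀ = 0 →
      (∃ a, P.toSheet.rho τ₀ a x₀ = 0 ∧ P.σ τ₀ a x₀.1 = 0) → ∃ u L, P.Front s τ₀ x₀ u L) :
    RFam s (P.toSheet.fn η (fun x => g x.1)) := by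
  refine h.toBase0.toSheet.rfam fun τ₀ hτ₀ x₀ hx hN hf h0 => ?_
  by_cases hex : ∃ a, P.toSheet.rho τ₀ a x₀ = 0 ∧ P.σ τ₀ a x₀.1 = 0
  · obtain ⟨u, L, hF⟩ := F τ₀ hτ₀ x₀ (h.g_ne hN) hf h0 hex
    exact ⟨_, _, _, h.loc0 hτ₀ (h.g_ne hN) h0.ge hF⟩
  · exact ⟨_, _, _, h.loc0 hτ₀ (h.g_ne hN) h0.ge
      (front_zero fun a ha hs => hex ⟨a, ha.trans h0, hs⟩)⟩

theorem locLip_fst {W : Type*} [NormedAddCommGroup W] {f : T → S → W} {τ₀ : T} {x₀ : S × V}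
    (h : LocLip s f τ₀ x₀.1) : LocLip s (fun τ (x : S × V) => f τ x.1) τ₀ x₀ := by
  obtain ⟨L, U, hU, hev⟩ := h
  refine ⟨|L|, Prod.fst ⁻¹' U, continuous_fst.continuousAt.preimage_mem_nhds hU, ?_⟩
  filter_upwards [hev] with τ hτ x hx y hy
  have h1 := hτ x.1 hx y.1 hy
  have h2 : ‖x.1 - y.1‖ ≤ ‖x - y‖ := norm_fst_le (x - y)
  calc _ ≤ _ := h1
    _ ≤ |L| * ‖x.1 - y.1‖ := mul_le_mul_of_nonneg_right (le_abs_self L) (norm_nonneg _)
    _ ≤ _ := mul_le_mul_of_nonneg_left h2 (abs_nonneg _)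

theorem locLip_w {τ₀ : T} {x₀ : S × V} {a : A}
    (h : LocLip s (fun τ x => P.c τ a x) τ₀ x₀.1) :
    LocLip s (fun τ (x : S × V) => x.2 - P.c τ a x.1) τ₀ x₀ := by
  obtain ⟨L, U, hU, hev⟩ := locLip_fst (V := V) (x₀ := x₀) h
  refine ⟨1 + L, U, hU, ?_⟩
  filter_upwards [hev] with τ hτ x hx y hy
  have h1 : ‖P.c τ a x.1 - P.c τ a y.1‖ ≤ L * ‖x - y‖ := hτ x hx y hy
  have h2 : ‖x.2 - y.2‖ ≤ ‖x - y‖ := norm_snd_le (x - y)
  have e : x.2 - P.c τ a x.1 - (y.2 - P.c τ a y.1) =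
      (x.2 - y.2) - (P.c τ a x.1 - P.c τ a y.1) := by abel
  rw [e]
  refine (norm_sub_le _ _).trans ?_
  rw [add_mul, one_mul]
  linarith

/-- **Plates lemma**: Lipschitz data; the family is in the class `H`.  A front direction is needed
only at the points with nonnegative real part where some active plate ends. -/
theorem Base.hfam (h : P.Base s η g)
    (lc : ∀ τ₀ ∈ s, ∀ x₀ : S, x₀ ≠ 0 → ∀ a, LocLip s (fun τ x => P.c τ a x) τ₀ x₀)
    (ln : ∀ τ₀ ∈ s, ∀ x₀ : S, x₀ ≠ 0 → ∀ a, LocLip s (fun τ x => P.ν τ a x) τ₀ x₀)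
    (lr : ∀ τ₀ ∈ s, ∀ x₀ : S, x₀ ≠ 0 → ∀ a, LocLip s (fun τ x => P.r τ a x) τ₀ x₀)
    (ls : ∀ τ₀ ∈ s, ∀ x₀ : S, x₀ ≠ 0 → ∀ a, LocLip s (fun τ x => P.σ τ a x) τ₀ x₀)
    (F : ∀ τ₀ ∈ s, ∀ x₀ : S × V, x₀.1 ≠ 0 → 0 ≤ gre P.toSheet.rho τ₀ x₀ →
      (∃ a, P.toSheet.rho τ₀ a x₀ = gre P.toSheet.rho τ₀ x₀ ∧ P.σ τ₀ a x₀.1 = 0) →
      ∃ u L, P.Front s τ₀ x₀ u L) :
    HFam s (P.toSheet.fn η (fun x => g x.1)) := by
  refine h.toBase0.toSheet.hfam fun τ₀ hτ₀ x₀ hx hN h0 => ?_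
  have hx₁ := h.g_ne hN
  have key : ∀ u L, P.Front s τ₀ x₀ u L →
      P.toSheet.Loc s τ₀ x₀ (ContinuousLinearMap.inr ℝ S V) (u, 0) L := fun u L hF =>
    { toLoc0 := h.loc0 hτ₀ hx₁ h0 hF
      lw := fun a _ => locLip_w (lc τ₀ hτ₀ x₀.1 hx₁ a)
      ln := fun a _ => locLip_fst (ln τ₀ hτ₀ x₀.1 hx₁ a)
      lr := fun a _ => locLip_fst (lr τ₀ hτ₀ x₀.1 hx₁ a)
      ls := fun a _ => locLip_fst (ls τ₀ hτ₀ x₀.1 hx₁ a) }
  by_cases hex : ∃ a, P.toSheet.rho τ₀ a x₀ = gre P.toSheet.rho τ₀ x₀ ∧ P.σ τ₀ a x₀.1 = 0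
  · obtain ⟨u, L, hF⟩ := F τ₀ hτ₀ x₀ hx₁ h0 hex
    exact ⟨_, _, _, key u L hF⟩
  · exact ⟨_, _, _, key 0 0 (front_zero fun a ha hs => hex ⟨a, ha, hs⟩)⟩

end PlateData

end Vale.Agent.P268.T
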