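import Vale.Agent.P268.T.PlatesF

/-!
# P268, topological half: overlapping coplanar sheets

At a zero where several coplanar sheets reach their rims, it is enough that there is one fibre
vector `e` with `⟪e, w a⟫ < 0` for all of them (instead of nestedness).
-/

set_option linter.unusedSectionVars false

namespace Vale.Agent.P268.T

open Set Filter Topology

namespace SheetData

variable {T E V A : Type*} [TopologicalSpace T] [NormedAddCommGroup E] [NormedSpace ℝ E]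
  [NormedAddCommGroup V] [InnerProductSpace ℝ V] [Fintype A] [Nonempty A]
  {P : SheetData T E V A} {s : Set T} {η : ℝ} {N : E → ℝ}

/-- Local conditions at a zero, for overlapping coplanar sheets. -/
structure LocD (P : SheetData T E V A) (s : Set T) (τ₀ : T) (x₀ : E) (D : V →L[ℝ] E) (u : E)
    (L : ℝ) : Prop where
  hν : ∀ a b, P.rho τ₀ a x₀ = gre P.rho τ₀ x₀ → P.rho τ₀ b x₀ = gre P.rho τ₀ x₀ →
    P.ν τ₀ a x₀ = P.ν τ₀ b x₀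
  rimD : ∃ (e : V) (κ₀ : ℝ), 0 < κ₀ ∧ ∀ a, P.rho τ₀ a x₀ = gre P.rho τ₀ x₀ →
    P.tp τ₀ a x₀ = gre P.rho τ₀ x₀ → inner ℝ e (P.w τ₀ a x₀) ≤ -κ₀
  dir : P.DirAt s τ₀ x₀ D u L

/-- A normalised common direction. -/
theorem BaseL.exists_omegaD (h : P.BaseL s η N) {τ₀ : T} (hτ₀ : τ₀ ∈ s) {x₀ : E}
    (hx₀ : N x₀ ≠ 0) (h0 : gre P.rho τ₀ x₀ = 0) {D : V →L[ℝ] E} {u : E} {L : ℝ}
    (H : P.LocD s τ₀ x₀ D u L) {a₀ : A} (ha₀ : P.rho τ₀ a₀ x₀ = gre P.rho τ₀ x₀)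
    (hq0 : P.be τ₀ a₀ x₀ = 0) :
    ∃ (ω : V) (θ : ℝ), 0 < θ ∧ θ ≤ 1 ∧ ‖ω‖ ≤ 1 ∧ inner ℝ ω (P.ν τ₀ a₀ x₀) = 0 ∧
      ∀ a, P.rho τ₀ a x₀ = gre P.rho τ₀ x₀ → P.tp τ₀ a x₀ = 0 →
        P.w τ₀ a x₀ ≠ 0 ∧ inner ℝ (P.w τ₀ a x₀) ω / ‖P.w τ₀ a x₀‖ ≤ -θ := by
  obtain ⟨e, κ₀, hκ₀, he⟩ := H.rimD
  set ν₀ := P.ν τ₀ a₀ x₀ with hν₀
  have hν1 : ‖ν₀‖ = 1 := h.nn τ₀ hτ₀ a₀ x₀ hx₀
  -- orthogonal projection
  set e' := e - (inner ℝ e ν₀) • ν₀ with he'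
  have hort : inner ℝ e' ν₀ = 0 := by
    rw [he', inner_sub_left, real_inner_smul_left, real_inner_self_eq_norm_sq, hν1]
    ring
  set W : ℝ := ∑ a, ‖P.w τ₀ a x₀‖ + 1 with hW
  have hWpos : 0 < W := by
    have : 0 ≤ ∑ a, ‖P.w τ₀ a x₀‖ := Finset.sum_nonneg fun a _ => norm_nonneg _
    linarith
  have hWa : ∀ a, ‖P.w τ₀ a x₀‖ ≤ W := fun a => by
    have : ‖P.w τ₀ a x₀‖ ≤ ∑ b, ‖P.w τ₀ b x₀‖ :=
      Finset.single_le_sum (f := fun a => ‖P.w τ₀ a x₀‖) (fun a _ => norm_nonneg _)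
        (Finset.mem_univ a)
    linarith
  have hM : 0 < ‖e'‖ + 1 := by positivity
  refine ⟨(‖e'‖ + 1)⁻¹ • e', min 1 (κ₀ / ((‖e'‖ + 1) * W)), lt_min one_pos (by positivity),
    min_le_left _ _, ?_, ?_, fun a ha hta => ?_⟩
  · rw [norm_smul, norm_inv, Real.norm_eq_abs, abs_of_pos hM, inv_mul_le_iff₀ hM]
    linarith
  · rw [real_inner_smul_left, hort, mul_zero]
  · have h1 := he a ha (hta.trans h0.symm)
    have hw0 : P.w τ₀ a x₀ ≠ 0 := by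
      intro hw
      rw [hw, inner_zero_right] at h1
      linarith
    have hwp : 0 < ‖P.w τ₀ a x₀‖ := norm_pos_iff.mpr hw0
    refine ⟨hw0, ?_⟩
    have h2 : inner ℝ (P.w τ₀ a x₀) ν₀ = 0 := by
      have h3 : inner ℝ (P.w τ₀ a x₀) (P.ν τ₀ a x₀) = P.be τ₀ a x₀ := rfl
      rw [hν₀, ← H.hν a a₀ ha ha₀, h3, h.be_common hτ₀ hx₀ h0.ge ha ha₀, hq0]
    have h4 : inner ℝ (P.w τ₀ a x₀) e' = inner ℝ e (P.w τ₀ a x₀) := by
      rw [he', inner_sub_right, real_inner_smul_right, h2, mul_zero, sub_zero, real_inner_comm]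
    rw [real_inner_smul_right, h4, div_le_iff₀ hwp, inv_mul_le_iff₀ hM]
    have h5 : min 1 (κ₀ / ((‖e'‖ + 1) * W)) * ‖P.w τ₀ a x₀‖ ≤ κ₀ / ((‖e'‖ + 1) * W) * W :=
      mul_le_mul (min_le_right _ _) (hWa a) (norm_nonneg _) (by positivity)
    have h6 : κ₀ / ((‖e'‖ + 1) * W) * W = κ₀ / (‖e'‖ + 1) := by field_simp
    rw [h6] at h5
    have h7 : (‖e'‖ + 1) * (κ₀ / (‖e'‖ + 1)) = κ₀ := by field_simp
    have h8 := mul_le_mul_of_nonneg_left h5 hM.le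
    rw [h7] at h8
    linarith

theorem rimD_alg1 {a b θ Δh Δb : ℝ} (hθ : 0 < θ) (hθ1 : θ ≤ 1)
    (h1 : |Δb - b| ≤ θ / 16 * (|a| + |b|) + 3 / 16 * θ * |a|)
    (h2 : θ * a ^ 2 - (θ / 16 * (|a| + |b|) + 3 / 16 * θ * |a|) * |a| ≤ Δh * a) :
    θ / 4 * (a ^ 2 + b ^ 2) ≤ Δh * a + Δb * b := by
  have e1 : |(Δb - b) * b| ≤ (θ / 16 * (|a| + |b|) + 3 / 16 * θ * |a|) * |b| := by
    rw [abs_mul]; exact mul_le_mul_of_nonneg_right h1 (abs_nonneg _)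
  have e3 := (abs_le.mp e1).1
  have e5 : a ^ 2 = |a| ^ 2 := (sq_abs a).symm
  have e6 : b ^ 2 = |b| ^ 2 := (sq_abs b).symm
  have e8 : Δh * a + Δb * b = Δh * a + (b ^ 2 + (Δb - b) * b) := by ring
  rw [e8, e5, e6]
  rw [e5] at h2
  set x := |a| with hx
  set y := |b| with hy
  have hx0 : 0 ≤ x := abs_nonneg a
  have hy0 : 0 ≤ y := abs_nonneg b
  clear_value x y
  have k1 : 0 ≤ θ * (x - y) ^ 2 := by positivity
  have k2 : θ * y ^ 2 ≤ 1 * y ^ 2 := mul_le_mul_of_nonneg_right hθ1 (sq_nonneg _)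
  have k3 : 0 ≤ θ * x ^ 2 := by positivity
  nlinarith

theorem rimD_alg2 {a b θ Δh Δb W : ℝ} (hθ : 0 < θ) (hθ1 : θ ≤ 1)
    (h1 : |Δb - b| ≤ θ / 16 * (|a| + |b|) + 3 / 16 * θ * |a|) (hW : W ≤ |a| + |b|)
    (h2 : (θ / 2 * a) ^ 2 ≤ θ / 2 * a * Δh + θ / 64 * W * (θ / 2 * |a|)) :
    θ / 4 * (a ^ 2 + b ^ 2) ≤ Δh * a + Δb * b := by
  have e1 : |(Δb - b) * b| ≤ (θ / 16 * (|a| + |b|) + 3 / 16 * θ * |a|) * |b| := by
    rw [abs_mul]; exact mul_le_mul_of_nonneg_right h1 (abs_nonneg _)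
  have e3 := (abs_le.mp e1).1
  have e4 : W * |a| ≤ (|a| + |b|) * |a| := mul_le_mul_of_nonneg_right hW (abs_nonneg _)
  have e5 : a ^ 2 = |a| ^ 2 := (sq_abs a).symm
  have e6 : b ^ 2 = |b| ^ 2 := (sq_abs b).symm
  have e9 : θ / 2 * (θ / 2 * a ^ 2) ≤ θ / 2 * (Δh * a + θ / 64 * (W * |a|)) := by
    calc θ / 2 * (θ / 2 * a ^ 2) = (θ / 2 * a) ^ 2 := by ring
      _ ≤ _ := h2
      _ = _ := by ring
  have e10 : θ / 2 * a ^ 2 ≤ Δh * a + θ / 64 * (W * |a|) :=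
    le_of_mul_le_mul_left e9 (by positivity)
  have e11 : θ / 64 * (W * |a|) ≤ θ / 64 * ((|a| + |b|) * |a|) :=
    mul_le_mul_of_nonneg_left e4 (by positivity)
  have e8 : Δh * a + Δb * b = Δh * a + (b ^ 2 + (Δb - b) * b) := by ring
  rw [e8, e5, e6]
  rw [e5] at e10
  set x := |a| with hx
  set y := |b| with hy
  have hx0 : 0 ≤ x := abs_nonneg a
  have hy0 : 0 ≤ y := abs_nonneg b
  clear_value x y
  have k1 : 0 ≤ θ * (x - y) ^ 2 := by positivity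
  have k2 : θ * y ^ 2 ≤ 1 * y ^ 2 := mul_le_mul_of_nonneg_right hθ1 (sq_nonneg _)
  have k3 : 0 ≤ θ * x ^ 2 := by positivity
  nlinarith

theorem BaseL.regAt_rimD (h : P.BaseL s η N) {τ₀ : T} (hτ₀ : τ₀ ∈ s) {x₀ : E}
    (hx₀ : N x₀ ≠ 0) (h0 : gre P.rho τ₀ x₀ = 0) {D : V →L[ℝ] E} {u : E} {L : ℝ}
    (H : P.LocD s τ₀ x₀ D u L) {a₀ : A} (ha₀ : P.rho τ₀ a₀ x₀ = gre P.rho τ₀ x₀)
    (hq0 : P.be τ₀ a₀ x₀ = 0) : RegAt s (P.fn η N) τ₀ x₀ := by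
  obtain ⟨ω, θ, hθ, hθ1, hω1, hω2, hω3⟩ := h.exists_omegaD hτ₀ hx₀ h0 H ha₀ hq0
  set ν₀ := P.ν τ₀ a₀ x₀ with hν₀
  have hν : ∀ a, P.rho τ₀ a x₀ = gre P.rho τ₀ x₀ → P.ν τ₀ a x₀ = ν₀ :=
    fun a ha => H.hν a a₀ ha ha₀
  have hν1 : ‖ν₀‖ = 1 := h.nn τ₀ hτ₀ a₀ x₀ hx₀
  have ct : ∀ a, ContinuousWithinAt (fun p : T × E => P.tp p.1 a p.2) (s ×ˢ univ) (τ₀, x₀) :=
    fun a => h.continuousOn_tp a (τ₀, x₀) ⟨hτ₀, mem_univ _⟩
  have cs : ∀ a, ContinuousWithinAt (fun p : T × E => P.σ p.1 a p.2) (s ×ˢ univ) (τ₀, x₀) :=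
    fun a => h.cs a (τ₀, x₀) ⟨hτ₀, mem_univ _⟩
  obtain ⟨U, hU, hev⟩ := h.est hτ₀ hx₀ h0.ge H.dir (κ := θ / 64) (by positivity) (by linarith)
  have hvn : ∀ c : ℂ, ‖c.re • ω + c.im • ν₀‖ ≤ |c.re| + |c.im| := by
    intro c
    refine (norm_add_le _ _).trans ?_
    rw [norm_smul, norm_smul, hν1, mul_one, Real.norm_eq_abs, Real.norm_eq_abs]
    have : |c.re| * ‖ω‖ ≤ |c.re| * 1 := mul_le_mul_of_nonneg_left hω1 (abs_nonneg _)
    linarith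
  have hnc : ∀ c : ℂ, ‖c‖ ^ 2 = c.re ^ 2 + c.im ^ 2 := fun c => by
    rw [Complex.sq_norm, Complex.normSq_apply]; ring
  have hcr := Complex.abs_re_le_norm
  have hci := Complex.abs_im_le_norm
  have hL : L ≤ |L| := le_abs_self L
  have hL0 := abs_nonneg L
  have hrew : ∀ c : ℂ, rimA D ((θ / 2) • u) ω ν₀ c =
      D (c.re • ω + c.im • ν₀) + (θ / 2 * c.re) • u := fun c => by
    rw [rimA_apply, smul_smul, mul_comm]
  have hla : ∀ c : ℂ, |θ / 2 * c.re| = θ / 2 * |c.re| := fun c => by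
    rw [abs_mul, abs_of_pos (by positivity : (0 : ℝ) < θ / 2)]
  have hb : ∀ {τ a y} {c : ℂ}, P.rho τ₀ a x₀ = gre P.rho τ₀ x₀ →
      P.EstAt τ₀ x₀ L (θ / 64) τ a y (y + (D (c.re • ω + c.im • ν₀) + (θ / 2 * c.re) • u))
        (c.re • ω + c.im • ν₀) (θ / 2 * c.re) →
      |P.be τ a (y + rimA D ((θ / 2) • u) ω ν₀ c) - P.be τ a y - c.im| ≤
        θ / 16 * (|c.re| + |c.im|) + 3 / 16 * θ * |c.re| := by
    intro τ a y c ha he
    have h1 := he.b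
    have h2 : inner ℝ (c.re • ω + c.im • ν₀) ν₀ = c.im := by
      rw [inner_add_left, real_inner_smul_left, real_inner_smul_left, hω2,
        real_inner_self_eq_norm_sq, hν1]
      ring
    rw [hν a ha, h2, hla] at h1
    rw [hrew]
    have h3 := mul_le_mul_of_nonneg_left (hvn c) (by positivity : (0 : ℝ) ≤ 4 * (θ / 64))
    linarith
  have hθc : ∀ c : ℂ, θ * |c.re| ≤ |c.re| := fun c => by
    have := mul_le_mul_of_nonneg_right hθ1 (abs_nonneg c.re)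
    linarith
  have hθi : ∀ c : ℂ, θ * |c.im| ≤ |c.im| := fun c => by
    have := mul_le_mul_of_nonneg_right hθ1 (abs_nonneg c.im)
    linarith
  have hb' : ∀ {Δ : ℝ} {c : ℂ}, |Δ - c.im| ≤
      θ / 16 * (|c.re| + |c.im|) + 3 / 16 * θ * |c.re| → |Δ| ≤ (7 + |L|) * ‖c‖ := by
    intro Δ c h1
    have h2 : |Δ| ≤ |Δ - c.im| + |c.im| := by
      have := abs_add_le (Δ - c.im) c.im
      rwa [sub_add_cancel] at this
    have h3 : 0 ≤ |L| * ‖c‖ := by positivity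
    have h4 := hcr c
    have h5 := hci c
    have h6 := norm_nonneg c
    have h7 : (7 + |L|) * ‖c‖ = 7 * ‖c‖ + |L| * ‖c‖ := by ring
    rw [h7]
    linarith [hθc c, hθi c, abs_nonneg c.re, abs_nonneg c.im]
  refine h.glueL.regAt_min (f := P.tp) (g := P.σ) (fun _ _ _ => rfl) hτ₀ hx₀ h0.ge ct cs
    (κ := θ / 4) (K := 7 + |L|) (by positivity) (rimA D ((θ / 2) • u) ω ν₀) ?_ ?_
  · intro a ha hta
    obtain ⟨hw0, hw1⟩ := hω3 a ha (hta.trans h0)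
    have hwp : 0 < ‖P.w τ₀ a x₀‖ := norm_pos_iff.mpr hw0
    have hwν : inner ℝ (P.w τ₀ a x₀) ν₀ = 0 := by
      have h3 : inner ℝ (P.w τ₀ a x₀) (P.ν τ₀ a x₀) = P.be τ₀ a x₀ := rfl
      rw [← hν a ha, h3, h.be_common hτ₀ hx₀ h0.ge ha ha₀, hq0]
    refine ⟨U, hU, ?_⟩
    filter_upwards [hev] with τ hτ y hy c hc
    have he := hτ y hy (c.re • ω + c.im • ν₀) (θ / 2 * c.re) (by rw [← hrew]; exact hc) a ha
    have hb1 := hb ha he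
    refine ⟨?_, ?_, hb' hb1⟩
    · rw [hnc]
      refine rimD_alg1 hθ hθ1 hb1 ?_
      have h1 := he.t hw0
      have h2 : inner ℝ (P.w τ₀ a x₀) (c.re • ω + c.im • ν₀) / ‖P.w τ₀ a x₀‖ =
          c.re * (inner ℝ (P.w τ₀ a x₀) ω / ‖P.w τ₀ a x₀‖) := by
        rw [inner_add_right, real_inner_smul_right, real_inner_smul_right, hwν]
        ring
      rw [h2, hla, ← hrew] at h1
      set Δ := P.tp τ a (y + rimA D ((θ / 2) • u) ω ν₀ c) - P.tp τ a y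
      set ψ := inner ℝ (P.w τ₀ a x₀) ω / ‖P.w τ₀ a x₀‖
      have h3 : |(Δ + c.re * ψ) * c.re| ≤
          (4 * (θ / 64) * ‖c.re • ω + c.im • ν₀‖ + 3 / 8 * (θ / 2 * |c.re|)) * |c.re| := by
        rw [abs_mul]; exact mul_le_mul_of_nonneg_right h1 (abs_nonneg _)
      have h4 := (abs_le.mp h3).1
      have h5 : (4 * (θ / 64) * ‖c.re • ω + c.im • ν₀‖ + 3 / 8 * (θ / 2 * |c.re|)) * |c.re| ≤
          (θ / 16 * (|c.re| + |c.im|) + 3 / 16 * θ * |c.re|) * |c.re| := by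
        refine mul_le_mul_of_nonneg_right ?_ (abs_nonneg _)
        have h6 := mul_le_mul_of_nonneg_left (hvn c) (by positivity : (0 : ℝ) ≤ 4 * (θ / 64))
        linarith
      have h7 : c.re ^ 2 * ψ ≤ c.re ^ 2 * (-θ) := mul_le_mul_of_nonneg_left hw1 (sq_nonneg _)
      have h8 : (Δ + c.re * ψ) * c.re = Δ * c.re + c.re ^ 2 * ψ := by ring
      rw [h8] at h4
      linarith
    · have h1 := he.t'
      rw [← hrew, hla] at h1
      have h3 : 0 ≤ |L| * ‖c‖ := by positivity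
      have h7 : (7 + |L|) * ‖c‖ = 7 * ‖c‖ + |L| * ‖c‖ := by ring
      rw [h7]
      linarith [hcr c, hci c, hvn c, hθc c, abs_nonneg c.re]
  · intro a ha hta
    refine ⟨U, hU, ?_⟩
    filter_upwards [hev] with τ hτ y hy c hc
    have he := hτ y hy (c.re • ω + c.im • ν₀) (θ / 2 * c.re) (by rw [← hrew]; exact hc) a ha
    have hb1 := hb ha he
    refine ⟨?_, ?_, hb' hb1⟩
    · have h1 := he.s' (hta.trans h0)
      rw [← hrew, hla] at h1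
      rw [hnc]
      exact rimD_alg2 hθ hθ1 hb1 (hvn c) h1
    · have h1 := he.s
      rw [← hrew, hla] at h1
      have h3 : L * (θ / 2 * |c.re|) ≤ |L| * ‖c‖ := by
        have h4 : θ / 2 * |c.re| ≤ ‖c‖ := by linarith [hθc c, hcr c, abs_nonneg c.re]
        exact (mul_le_mul_of_nonneg_right hL (by positivity)).trans
          (mul_le_mul_of_nonneg_left h4 hL0)
      have h5 : θ / 64 * ‖c.re • ω + c.im • ν₀‖ ≤ 1 * (|c.re| + |c.im|) :=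
        mul_le_mul (by linarith) (hvn c) (norm_nonneg _) zero_le_one
      have h7 : (7 + |L|) * ‖c‖ = 7 * ‖c‖ + |L| * ‖c‖ := by ring
      rw [h7]
      linarith [hcr c, hci c, norm_nonneg c]

/-- Regularity at a zero, overlapping coplanar sheets. -/
theorem BaseL.regAt_zeroD (h : P.BaseL s η N) {τ₀ : T} (hτ₀ : τ₀ ∈ s) {x₀ : E}
    (hx₀ : N x₀ ≠ 0) (h0 : P.fn η N τ₀ x₀ = 0) {D : V →L[ℝ] E} {u : E} {L : ℝ}
    (H : P.LocD s τ₀ x₀ D u L) : RegAt s (P.fn η N) τ₀ x₀ := by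
  have h1 : gre P.rho τ₀ x₀ = 0 := congrArg Complex.re h0
  have h2 : gim η N P.rho P.be τ₀ x₀ = 0 := congrArg Complex.im h0
  have hn : 0 < N x₀ := lt_of_le_of_ne (h.nN x₀) (Ne.symm hx₀)
  have hη := h.hη
  obtain ⟨a₀, ha₀⟩ := exists_gre P.rho τ₀ x₀
  have h3 : 0 < η / 2 * N x₀ := by positivity
  have h4 : P.be τ₀ a₀ x₀ = 0 := by
    rw [← h.glueL.im_eq hτ₀ hx₀ (a := a₀) (by rw [← ha₀, h1]; linarith), h2]
  exact h.regAt_rimD hτ₀ hx₀ h1 H ha₀.symm h4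

/-- **Sheets lemma, zero version, overlapping coplanar sheets.** -/
theorem Base.rfamD (h : P.Base s η N)
    (H : ∀ τ₀ ∈ s, ∀ x₀, x₀ ≠ 0 → N x₀ ≠ 0 → P.fn η N τ₀ x₀ = 0 → gre P.rho τ₀ x₀ = 0 →
      ∃ (D : V →L[ℝ] E) (u : E) (L : ℝ), P.LocD s τ₀ x₀ D u L) : RFam s (P.fn η N) where
  cont := h.glue.continuousOn_fn
  hom := fun τ hτ => h.glue.hom1 hτ
  reg := fun τ hτ x hx h0 => by
    have h1 : gre P.rho τ x = 0 := congrArg Complex.re h0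
    obtain ⟨D, u, L, hL⟩ := H τ hτ x hx (h.glue.N_ne hτ hx h1.ge) h0 h1
    exact h.toBaseL.regAt_zeroD hτ (h.glue.N_ne hτ hx h1.ge) h0 hL

end SheetData

namespace PlateData

variable {T S V A : Type*} [TopologicalSpace T] [NormedAddCommGroup S] [NormedSpace ℝ S]
  [NormedAddCommGroup V] [InnerProductSpace ℝ V] [Fintype A] [Nonempty A]
  {P : PlateData T S V A} {s : Set T} {η : ℝ} {g : S → ℝ}

/-- The rim condition at `x₀`: one fibre vector points into all the active discs which reach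
their rim at `x₀`. -/
def Rim (P : PlateData T S V A) (τ₀ : T) (x₀ : S × V) : Prop :=
  ∃ (e : V) (κ₀ : ℝ), 0 < κ₀ ∧ ∀ a, P.toSheet.rho τ₀ a x₀ = 0 →
    P.r τ₀ a x₀.1 = ‖x₀.2 - P.c τ₀ a x₀.1‖ → inner ℝ e (x₀.2 - P.c τ₀ a x₀.1) ≤ -κ₀

/-- **Plates lemma, zero version, overlapping coplanar plates**: continuous data; at each zero
the rim condition, and a front direction where some active plate ends. -/
theorem Base0.rfam (h : P.Base0 s η g)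
    (R : ∀ τ₀ ∈ s, ∀ x₀ : S × V, x₀.1 ≠ 0 → P.toSheet.fn η (fun x => g x.1) τ₀ x₀ = 0 →
      gre P.toSheet.rho τ₀ x₀ = 0 → P.Rim τ₀ x₀)
    (F : ∀ τ₀ ∈ s, ∀ x₀ : S × V, x₀.1 ≠ 0 → P.toSheet.fn η (fun x => g x.1) τ₀ x₀ = 0 →
      gre P.toSheet.rho τ₀ x₀ = 0 →
      (∃ a, P.toSheet.rho τ₀ a x₀ = 0 ∧ P.σ τ₀ a x₀.1 = 0) → ∃ u L, P.Front s τ₀ x₀ u L) :
    RFam s (P.toSheet.fn η (fun x => g x.1)) := by
  refine h.toSheet.rfamD fun τ₀ hτ₀ x₀ hx hN hf h0 => ?_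
  have hx₁ := h.g_ne hN
  obtain ⟨e, κ₀, hκ₀, he⟩ := R τ₀ hτ₀ x₀ hx₁ hf h0
  have key : ∀ u L, P.Front s τ₀ x₀ u L →
      P.toSheet.LocD s τ₀ x₀ (ContinuousLinearMap.inr ℝ S V) (u, 0) L := fun u L hF =>
    { hν := fun a b ha hb => h.hν hτ₀ hx₁ h0.ge a b ha hb
      rimD := ⟨e, κ₀, hκ₀, fun a ha hta => by
        have h1 : P.r τ₀ a x₀.1 - ‖x₀.2 - P.c τ₀ a x₀.1‖ = 0 := hta.trans h0
        exact he a (ha.trans h0) (by linarith)⟩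
      dir := dirAt hF }
  by_cases hex : ∃ a, P.toSheet.rho τ₀ a x₀ = 0 ∧ P.σ τ₀ a x₀.1 = 0
  · obtain ⟨u, L, hF⟩ := F τ₀ hτ₀ x₀ hx₁ hf h0 hex
    exact ⟨_, _, _, key u L hF⟩
  · exact ⟨_, _, _, key 0 0 (front_zero fun a ha hs => hex ⟨a, ha.trans h0, hs⟩)⟩

end PlateData

end Vale.Agent.P268.T
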