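import Vale.Agent.P268.T.PlatesG

/-!
# P268, topological half: flexible local conditions at a zero

`LocF`: one reference active sheet `a₁` controls the imaginary part; of the other active sheets
only the piece (`r - ‖w‖` or `σ`) which is active at the point is controlled.
-/

set_option linter.unusedSectionVars false

namespace Vale.Agent.P268.T

open Set Filter Topology

section Norms

variable {V : Type*} [NormedAddCommGroup V] [InnerProductSpace ℝ V]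

/-- Neighbourhoods on which the norm is strictly differentiable. -/
theorem exists_nhds_norm_incr (z₀ : V) {κ : ℝ} (hκ : 0 < κ) : ∃ W ∈ 𝓝 z₀, z₀ ≠ 0 →
    ∀ z ∈ W, ∀ z' ∈ W, |‖z'‖ - ‖z‖ - inner ℝ z₀ (z' - z) / ‖z₀‖| ≤ κ * ‖z' - z‖ := by
  by_cases ha : z₀ = 0
  · exact ⟨univ, univ_mem, fun hne => absurd ha hne⟩
  · have h3 := norm_incr ha hκ
    rw [nhds_prod_eq, eventually_prod_iff] at h3
    obtain ⟨pa, ha', pb, hb', hab⟩ := h3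
    exact ⟨{z | pa z ∧ pb z}, ha'.and hb', fun _ z hz z' hz' => hab hz.1 hz'.2⟩

end Norms

namespace SheetData

variable {T E V A : Type*} [TopologicalSpace T] [NormedAddCommGroup E] [NormedSpace ℝ E]
  [NormedAddCommGroup V] [InnerProductSpace ℝ V] [Fintype A] [Nonempty A]
  {P : SheetData T E V A} {s : Set T} {η : ℝ} {N : E → ℝ}

/-- Flexible local conditions at a zero. -/
structure LocF (P : SheetData T E V A) (s : Set T) (τ₀ : T) (x₀ : E) (a₁ : A) (D : V →L[ℝ] E)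
    (u : E) (L : ℝ) : Prop where
  /-- the reference sheet is active -/
  act : P.rho τ₀ a₁ x₀ = gre P.rho τ₀ x₀
  /-- the normals of the sheets which reach their rim at the point agree with the reference -/
  hν : ∀ a, P.rho τ₀ a x₀ = gre P.rho τ₀ x₀ → P.tp τ₀ a x₀ = gre P.rho τ₀ x₀ →
    P.ν τ₀ a x₀ = P.ν τ₀ a₁ x₀
  /-- a common direction pointing inside -/
  rim : ∃ (e : V) (κ₀ : ℝ), 0 < κ₀ ∧ ∀ a, P.rho τ₀ a x₀ = gre P.rho τ₀ x₀ →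
    P.tp τ₀ a x₀ = gre P.rho τ₀ x₀ → inner ℝ e (P.w τ₀ a x₀) ≤ -κ₀
  /-- increments -/
  dir : ∀ κ : ℝ, 0 < κ → ∃ U ∈ 𝓝 x₀, ∀ᶠ τ in 𝓝[s] τ₀, ∀ y ∈ U, ∀ (v : V) (l : ℝ),
    y + (D v + l • u) ∈ U →
      (‖P.w τ a₁ (y + (D v + l • u)) - P.w τ a₁ y - v‖ ≤ κ * ‖v‖ + |l| / 8 ∧
        (1 + P.r τ₀ a₁ x₀) * ‖P.ν τ a₁ (y + (D v + l • u)) - P.ν τ a₁ y‖ ≤
          κ * ‖v‖ + |l| / 8) ∧
      (∀ a, P.rho τ₀ a x₀ = gre P.rho τ₀ x₀ → P.tp τ₀ a x₀ = gre P.rho τ₀ x₀ →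
        ‖P.w τ a (y + (D v + l • u)) - P.w τ a y - v‖ ≤ κ * ‖v‖ + |l| / 8 ∧
        |P.r τ a (y + (D v + l • u)) - P.r τ a y| ≤ κ * ‖v‖ + |l| / 8) ∧
      (∀ a, P.rho τ₀ a x₀ = gre P.rho τ₀ x₀ → P.σ τ₀ a x₀ = gre P.rho τ₀ x₀ →
        |P.σ τ a (y + (D v + l • u)) - P.σ τ a y| ≤ κ * ‖v‖ + L * |l| ∧
        l ^ 2 ≤ l * (P.σ τ a (y + (D v + l • u)) - P.σ τ a y) + κ * ‖v‖ * |l|)

/-- The resulting increments. -/
structure EstF (P : SheetData T E V A) (τ₀ : T) (x₀ : E) (a₁ : A) (L κ : ℝ) (τ : T) (y y' : E)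
    (v : V) (l : ℝ) : Prop where
  b : ∀ a, P.rho τ₀ a x₀ = gre P.rho τ₀ x₀ →
    |P.be τ a y' - P.be τ a y - inner ℝ v (P.ν τ₀ a₁ x₀)| ≤ 4 * κ * ‖v‖ + 3 / 8 * |l|
  t : ∀ a, P.rho τ₀ a x₀ = gre P.rho τ₀ x₀ → P.tp τ₀ a x₀ = gre P.rho τ₀ x₀ →
    P.w τ₀ a x₀ ≠ 0 →
    |P.tp τ a y' - P.tp τ a y + inner ℝ (P.w τ₀ a x₀) v / ‖P.w τ₀ a x₀‖| ≤
      4 * κ * ‖v‖ + 3 / 8 * |l|
  t' : ∀ a, P.rho τ₀ a x₀ = gre P.rho τ₀ x₀ → P.tp τ₀ a x₀ = gre P.rho τ₀ x₀ →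
    |P.tp τ a y' - P.tp τ a y| ≤ 3 * ‖v‖ + |l|
  s : ∀ a, P.rho τ₀ a x₀ = gre P.rho τ₀ x₀ → P.σ τ₀ a x₀ = gre P.rho τ₀ x₀ →
    |P.σ τ a y' - P.σ τ a y| ≤ κ * ‖v‖ + L * |l| ∧
      l ^ 2 ≤ l * (P.σ τ a y' - P.σ τ a y) + κ * ‖v‖ * |l|

/-- Near a point, the imaginary parts of the active sheets agree. -/
theorem BaseL.be_near (h : P.BaseL s η N) {τ₀ : T} (hτ₀ : τ₀ ∈ s) {x₀ : E} (hx₀ : N x₀ ≠ 0)
    (h0 : 0 ≤ gre P.rho τ₀ x₀) :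
    ∃ U ∈ 𝓝 x₀, ∀ᶠ τ in 𝓝[s] τ₀, ∀ x ∈ U, ∀ a, P.rho τ₀ a x₀ = gre P.rho τ₀ x₀ →
      P.be τ a x = gim η N P.rho P.be τ x := by
  classical
  have key : ∀ Q : Finset A, ∃ W ∈ 𝓝 x₀, ∀ᶠ τ in 𝓝[s] τ₀, ∀ x ∈ W, ∀ a ∈ Q,
      P.rho τ₀ a x₀ = gre P.rho τ₀ x₀ → P.be τ a x = gim η N P.rho P.be τ x := by
    intro Q
    induction Q using Finset.induction_on with
    | empty => exact ⟨univ, univ_mem, Eventually.of_forall fun t x _ a ha => by simp at ha⟩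
    | insert a Q ha IH =>
      obtain ⟨W, hW, h1⟩ := IH
      by_cases hact : P.rho τ₀ a x₀ = gre P.rho τ₀ x₀
      · obtain ⟨W', hW', h2⟩ := h.glueL.near hτ₀ hx₀ (a := a) (by rw [hact]; exact h0)
        refine ⟨W ∩ W', inter_mem hW hW', ?_⟩
        filter_upwards [h1, h2] with τ e1 e2 x hx c hc hcact
        rcases Finset.mem_insert.mp hc with rfl | hc
        · exact (e2 x hx.2).symm
        · exact e1 x hx.1 c hc hcact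
      · refine ⟨W, hW, ?_⟩
        filter_upwards [h1] with τ e1 x hx c hc hcact
        rcases Finset.mem_insert.mp hc with rfl | hc
        · exact absurd hcact hact
        · exact e1 x hx c hc hcact
  obtain ⟨W, hW, hev⟩ := key Finset.univ
  exact ⟨W, hW, hev.mono fun τ e x hx a => e x hx a (Finset.mem_univ a)⟩

theorem BaseL.estF (h : P.BaseL s η N) {τ₀ : T} (hτ₀ : τ₀ ∈ s) {x₀ : E} (hx₀ : N x₀ ≠ 0)
    (h0 : 0 ≤ gre P.rho τ₀ x₀) {a₁ : A} {D : V →L[ℝ] E} {u : E} {L : ℝ}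
    (H : P.LocF s τ₀ x₀ a₁ D u L) {κ : ℝ} (hκ : 0 < κ) (hκ1 : κ ≤ 1) :
    ∃ U ∈ 𝓝 x₀, ∀ᶠ τ in 𝓝[s] τ₀, ∀ y ∈ U, ∀ (v : V) (l : ℝ), y + (D v + l • u) ∈ U →
      P.EstF τ₀ x₀ a₁ L κ τ y (y + (D v + l • u)) v l := by
  obtain ⟨U, hU, hev⟩ := H.dir κ hκ
  have h1 : ∀ᶠ p : T × E in 𝓝[s ×ˢ univ] (τ₀, x₀), ‖P.ν p.1 a₁ p.2‖ = 1 ∧
      ‖P.ν p.1 a₁ p.2 - P.ν τ₀ a₁ x₀‖ ≤ κ ∧ ‖P.w p.1 a₁ p.2‖ ≤ 1 + P.r τ₀ a₁ x₀ := by
    have c1 : ContinuousWithinAt (fun p : T × E => P.ν p.1 a₁ p.2) (s ×ˢ univ) (τ₀, x₀) := by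
      refine (h.cn a₁ (τ₀, x₀) ⟨hτ₀, hx₀⟩).mono_of_mem_nhdsWithin ?_
      filter_upwards [self_mem_nhdsWithin,
        mem_nhdsWithin_of_mem_nhds (h.glueL.mem_N hx₀ τ₀)] with p hp hp'
      exact ⟨hp.1, hp'⟩
    have c2 : Tendsto (fun p : T × E => ‖P.w p.1 a₁ p.2‖) (𝓝[s ×ˢ univ] (τ₀, x₀))
      (𝓝 ‖P.w τ₀ a₁ x₀‖) := (h.cw a₁ (τ₀, x₀) ⟨hτ₀, mem_univ _⟩).norm
    have c3 := c1.eventually (Metric.ball_mem_nhds _ hκ)
    have h2 : 0 ≤ P.tp τ₀ a₁ x₀ := (h0.trans H.act.symm.le).trans (min_le_left _ _)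
    unfold tp at h2
    filter_upwards [c3, c2.eventually (gt_mem_nhds
        (show ‖P.w τ₀ a₁ x₀‖ < 1 + P.r τ₀ a₁ x₀ by linarith)), self_mem_nhdsWithin,
      mem_nhdsWithin_of_mem_nhds (h.glueL.mem_N hx₀ τ₀)] with p hp hp4 hp1 hp2
    refine ⟨h.nn p.1 hp1.1 a₁ p.2 hp2, ?_, hp4.le⟩
    have := Metric.mem_ball.mp hp
    rw [dist_eq_norm] at this
    exact this.le
  choose W hW1 hW2 using fun a => exists_nhds_norm_incr (P.w τ₀ a x₀) hκ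
  have h3 : ∀ a, ∀ᶠ p : T × E in 𝓝[s ×ˢ univ] (τ₀, x₀), P.w p.1 a p.2 ∈ W a :=
    fun a => (h.cw a (τ₀, x₀) ⟨hτ₀, mem_univ _⟩).eventually (hW1 a)
  obtain ⟨U', hU', hev'⟩ := ev_prod (Q := fun τ x => (‖P.ν τ a₁ x‖ = 1 ∧
      ‖P.ν τ a₁ x - P.ν τ₀ a₁ x₀‖ ≤ κ ∧ ‖P.w τ a₁ x‖ ≤ 1 + P.r τ₀ a₁ x₀) ∧
      ∀ a, P.w τ a x ∈ W a) (h1.and (eventually_all.mpr h3))
  obtain ⟨U'', hU'', hev''⟩ := h.be_near hτ₀ hx₀ h0
  refine ⟨U ∩ (U' ∩ U''), inter_mem hU (inter_mem hU' hU''), ?_⟩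
  filter_upwards [hev, hev', hev''] with τ e1 e2 e3 y hy v l hyv
  obtain ⟨⟨d1, d3⟩, dt, ds⟩ := e1 y hy.1 v l hyv.1
  obtain ⟨f1, f2⟩ := e2 y hy.2.1
  obtain ⟨g1, g2⟩ := e2 _ hyv.2.1
  set y' := y + (D v + l • u) with hy'
  have hv := norm_nonneg v
  have hl := abs_nonneg l
  have hκv : 0 ≤ κ * ‖v‖ := by positivity
  refine ⟨fun a ha => ?_, fun a ha hta hw0 => ?_, fun a ha hta => ?_, ds⟩
  · have i1 : P.be τ a y' = P.be τ a₁ y' :=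
      (e3 y' hyv.2.2 a ha).trans (e3 y' hyv.2.2 a₁ H.act).symm
    have i2 : P.be τ a y = P.be τ a₁ y :=
      (e3 y hy.2.2 a ha).trans (e3 y hy.2.2 a₁ H.act).symm
    rw [i1, i2]
    refine (be_est g1.1 d1 g1.2.1 f1.2.2 d3).trans ?_
    linarith
  · obtain ⟨j1, j2⟩ := dt a ha hta
    refine (tp_est j1 j2 hκ.le (hW2 a hw0 _ (f2 a) _ (g2 a)) hw0).trans ?_
    have i1 : κ * (κ * ‖v‖ + |l| / 8) ≤ 1 * (κ * ‖v‖ + |l| / 8) :=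
      mul_le_mul_of_nonneg_right hκ1 (by positivity)
    linarith
  · obtain ⟨j1, j2⟩ := dt a ha hta
    refine (tp_est' j1 j2).trans ?_
    have i1 : κ * ‖v‖ ≤ 1 * ‖v‖ := mul_le_mul_of_nonneg_right hκ1 hv
    linarith

/-- A normalised common direction. -/
theorem BaseL.exists_omegaF (h : P.BaseL s η N) {τ₀ : T} (hτ₀ : τ₀ ∈ s) {x₀ : E}
    (hx₀ : N x₀ ≠ 0) (h0 : gre P.rho τ₀ x₀ = 0) {a₁ : A} {D : V →L[ℝ] E} {u : E} {L : ℝ}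
    (H : P.LocF s τ₀ x₀ a₁ D u L) (hq0 : P.be τ₀ a₁ x₀ = 0) :
    ∃ (ω : V) (θ : ℝ), 0 < θ ∧ θ ≤ 1 ∧ ‖ω‖ ≤ 1 ∧ inner ℝ ω (P.ν τ₀ a₁ x₀) = 0 ∧
      ∀ a, P.rho τ₀ a x₀ = gre P.rho τ₀ x₀ → P.tp τ₀ a x₀ = gre P.rho τ₀ x₀ →
        P.w τ₀ a x₀ ≠ 0 ∧ inner ℝ (P.w τ₀ a x₀) (P.ν τ₀ a₁ x₀) = 0 ∧
          inner ℝ (P.w τ₀ a x₀) ω / ‖P.w τ₀ a x₀‖ ≤ -θ := by
  obtain ⟨e, κ₀, hκ₀, he⟩ := H.rim
  set ν₀ := P.ν τ₀ a₁ x₀ with hν₀
  have hν1 : ‖ν₀‖ = 1 := h.nn τ₀ hτ₀ a₁ x₀ hx₀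
  set e' := e - (inner ℝ e ν₀) • ν₀ with he'
  have hort : inner ℝ e' ν₀ = 0 := by
    rw [he', inner_sub_left, real_inner_smul_left, real_inner_self_eq_norm_sq, hν1]
    ring
  set W : ℝ := ∑ a, ‖P.w τ₀ a x₀‖ + 1 with hW
  have hWpos : 0 < W := by
    have : 0 ≤ ∑ a, ‖P.w τ₀ a x₀‖ := Finset.sum_nonneg fun a _ => norm_nonneg _
    linarith
  have hWa : ∀ a, ‖P.w τ₀ a x₀‖ ≤ W := fun a => by
    have : ‖P.w τ₀ a x₀‖ ≤ ∑ b, ‖P.w τ₀ b x₀‖ :=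
      Finset.single_le_sum (f := fun a => ‖P.w τ₀ a x₀‖) (fun a _ => norm_nonneg _)
        (Finset.mem_univ a)
    linarith
  have hM : 0 < ‖e'‖ + 1 := by positivity
  refine ⟨(‖e'‖ + 1)⁻¹ • e', min 1 (κ₀ / ((‖e'‖ + 1) * W)), lt_min one_pos (by positivity),
    min_le_left _ _, ?_, ?_, fun a ha hta => ?_⟩
  · rw [norm_smul, norm_inv, Real.norm_eq_abs, abs_of_pos hM, inv_mul_le_iff₀ hM]
    linarith
  · rw [real_inner_smul_left, hort, mul_zero]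
  · have h1 := he a ha hta
    have hw0 : P.w τ₀ a x₀ ≠ 0 := by
      intro hw
      rw [hw, inner_zero_right] at h1
      linarith
    have hwp : 0 < ‖P.w τ₀ a x₀‖ := norm_pos_iff.mpr hw0
    have h2 : inner ℝ (P.w τ₀ a x₀) ν₀ = 0 := by
      have h3 : inner ℝ (P.w τ₀ a x₀) (P.ν τ₀ a x₀) = P.be τ₀ a x₀ := rfl
      rw [hν₀, ← H.hν a ha hta, h3, h.be_common hτ₀ hx₀ h0.ge ha H.act, hq0]
    refine ⟨hw0, h2, ?_⟩
    have h4 : inner ℝ (P.w τ₀ a x₀) e' = inner ℝ e (P.w τ₀ a x₀) := by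
      rw [he', inner_sub_right, real_inner_smul_right, h2, mul_zero, sub_zero, real_inner_comm]
    rw [real_inner_smul_right, h4, div_le_iff₀ hwp, inv_mul_le_iff₀ hM]
    have h5 : min 1 (κ₀ / ((‖e'‖ + 1) * W)) * ‖P.w τ₀ a x₀‖ ≤ κ₀ / ((‖e'‖ + 1) * W) * W :=
      mul_le_mul (min_le_right _ _) (hWa a) (norm_nonneg _) (by positivity)
    have h6 : κ₀ / ((‖e'‖ + 1) * W) * W = κ₀ / (‖e'‖ + 1) := by field_simp
    rw [h6] at h5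
    have h7 : (‖e'‖ + 1) * (κ₀ / (‖e'‖ + 1)) = κ₀ := by field_simp
    have h8 := mul_le_mul_of_nonneg_left h5 hM.le
    rw [h7] at h8
    linarith

theorem BaseL.regAt_rimF (h : P.BaseL s η N) {τ₀ : T} (hτ₀ : τ₀ ∈ s) {x₀ : E}
    (hx₀ : N x₀ ≠ 0) (h0 : gre P.rho τ₀ x₀ = 0) {a₁ : A} {D : V →L[ℝ] E} {u : E} {L : ℝ}
    (H : P.LocF s τ₀ x₀ a₁ D u L) (hq0 : P.be τ₀ a₁ x₀ = 0) :
    RegAt s (P.fn η N) τ₀ x₀ := by
  obtain ⟨ω, θ, hθ, hθ1, hω1, hω2, hω3⟩ := h.exists_omegaF hτ₀ hx₀ h0 H hq0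
  set ν₀ := P.ν τ₀ a₁ x₀ with hν₀
  have hν1 : ‖ν₀‖ = 1 := h.nn τ₀ hτ₀ a₁ x₀ hx₀
  have ct : ∀ a, ContinuousWithinAt (fun p : T × E => P.tp p.1 a p.2) (s ×ˢ univ) (τ₀, x₀) :=
    fun a => h.continuousOn_tp a (τ₀, x₀) ⟨hτ₀, mem_univ _⟩
  have cs : ∀ a, ContinuousWithinAt (fun p : T × E => P.σ p.1 a p.2) (s ×ˢ univ) (τ₀, x₀) :=
    fun a => h.cs a (τ₀, x₀) ⟨hτ₀, mem_univ _⟩
  obtain ⟨U, hU, hev⟩ := h.estF hτ₀ hx₀ h0.ge H (κ := θ / 64) (by positivity) (by linarith)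
  have hvn : ∀ c : ℂ, ‖c.re • ω + c.im • ν₀‖ ≤ |c.re| + |c.im| := by
    intro c
    refine (norm_add_le _ _).trans ?_
    rw [norm_smul, norm_smul, hν1, mul_one, Real.norm_eq_abs, Real.norm_eq_abs]
    have : |c.re| * ‖ω‖ ≤ |c.re| * 1 := mul_le_mul_of_nonneg_left hω1 (abs_nonneg _)
    linarith
  have hnc : ∀ c : ℂ, ‖c‖ ^ 2 = c.re ^ 2 + c.im ^ 2 := fun c => by
    rw [Complex.sq_norm, Complex.normSq_apply]; ring
  have hcr := Complex.abs_re_le_norm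
  have hci := Complex.abs_im_le_norm
  have hL : L ≤ |L| := le_abs_self L
  have hL0 := abs_nonneg L
  have hrew : ∀ c : ℂ, rimA D ((θ / 2) • u) ω ν₀ c =
      D (c.re • ω + c.im • ν₀) + (θ / 2 * c.re) • u := fun c => by
    rw [rimA_apply, smul_smul, mul_comm]
  have hla : ∀ c : ℂ, |θ / 2 * c.re| = θ / 2 * |c.re| := fun c => by
    rw [abs_mul, abs_of_pos (by positivity : (0 : ℝ) < θ / 2)]
  have hb : ∀ {τ a y} {c : ℂ}, P.rho τ₀ a x₀ = gre P.rho τ₀ x₀ →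
      P.EstF τ₀ x₀ a₁ L (θ / 64) τ y (y + (D (c.re • ω + c.im • ν₀) + (θ / 2 * c.re) • u))
        (c.re • ω + c.im • ν₀) (θ / 2 * c.re) →
      |P.be τ a (y + rimA D ((θ / 2) • u) ω ν₀ c) - P.be τ a y - c.im| ≤
        θ / 16 * (|c.re| + |c.im|) + 3 / 16 * θ * |c.re| := by
    intro τ a y c ha he
    have h1 := he.b a ha
    have h2 : inner ℝ (c.re • ω + c.im • ν₀) ν₀ = c.im := by
      rw [inner_add_left, real_inner_smul_left, real_inner_smul_left, hω2,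
        real_inner_self_eq_norm_sq, hν1]
      ring
    rw [← hν₀, h2, hla] at h1
    rw [hrew]
    have h3 := mul_le_mul_of_nonneg_left (hvn c) (by positivity : (0 : ℝ) ≤ 4 * (θ / 64))
    linarith
  have hθc : ∀ c : ℂ, θ * |c.re| ≤ |c.re| := fun c => by
    have := mul_le_mul_of_nonneg_right hθ1 (abs_nonneg c.re)
    linarith
  have hθi : ∀ c : ℂ, θ * |c.im| ≤ |c.im| := fun c => by
    have := mul_le_mul_of_nonneg_right hθ1 (abs_nonneg c.im)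
    linarith
  have hb' : ∀ {Δ : ℝ} {c : ℂ}, |Δ - c.im| ≤
      θ / 16 * (|c.re| + |c.im|) + 3 / 16 * θ * |c.re| → |Δ| ≤ (7 + |L|) * ‖c‖ := by
    intro Δ c h1
    have h2 : |Δ| ≤ |Δ - c.im| + |c.im| := by
      have := abs_add_le (Δ - c.im) c.im
      rwa [sub_add_cancel] at this
    have h3 : 0 ≤ |L| * ‖c‖ := by positivity
    have h4 := hcr c
    have h5 := hci c
    have h6 := norm_nonneg c
    have h7 : (7 + |L|) * ‖c‖ = 7 * ‖c‖ + |L| * ‖c‖ := by ring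
    rw [h7]
    linarith [hθc c, hθi c, abs_nonneg c.re, abs_nonneg c.im]
  refine h.glueL.regAt_min (f := P.tp) (g := P.σ) (fun _ _ _ => rfl) hτ₀ hx₀ h0.ge ct cs
    (κ := θ / 4) (K := 7 + |L|) (by positivity) (rimA D ((θ / 2) • u) ω ν₀) ?_ ?_
  · intro a ha hta
    obtain ⟨hw0, hwν, hw1⟩ := hω3 a ha hta
    have hwp : 0 < ‖P.w τ₀ a x₀‖ := norm_pos_iff.mpr hw0
    refine ⟨U, hU, ?_⟩
    filter_upwards [hev] with τ hτ y hy c hc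
    have he := hτ y hy (c.re • ω + c.im • ν₀) (θ / 2 * c.re) (by rw [← hrew]; exact hc)
    have hb1 := hb ha he
    refine ⟨?_, ?_, hb' hb1⟩
    · rw [hnc]
      refine rimD_alg1 hθ hθ1 hb1 ?_
      have h1 := he.t a ha hta hw0
      have h2 : inner ℝ (P.w τ₀ a x₀) (c.re • ω + c.im • ν₀) / ‖P.w τ₀ a x₀‖ =
          c.re * (inner ℝ (P.w τ₀ a x₀) ω / ‖P.w τ₀ a x₀‖) := by
        rw [inner_add_right, real_inner_smul_right, real_inner_smul_right, hwν]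
        ring
      rw [h2, hla, ← hrew] at h1
      set Δ := P.tp τ a (y + rimA D ((θ / 2) • u) ω ν₀ c) - P.tp τ a y
      set ψ := inner ℝ (P.w τ₀ a x₀) ω / ‖P.w τ₀ a x₀‖
      have h3 : |(Δ + c.re * ψ) * c.re| ≤
          (4 * (θ / 64) * ‖c.re • ω + c.im • ν₀‖ + 3 / 8 * (θ / 2 * |c.re|)) * |c.re| := by
        rw [abs_mul]; exact mul_le_mul_of_nonneg_right h1 (abs_nonneg _)
      have h4 := (abs_le.mp h3).1
      have h5 : (4 * (θ / 64) * ‖c.re • ω + c.im • ν₀‖ + 3 / 8 * (θ / 2 * |c.re|)) * |c.re| ≤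
          (θ / 16 * (|c.re| + |c.im|) + 3 / 16 * θ * |c.re|) * |c.re| := by
        refine mul_le_mul_of_nonneg_right ?_ (abs_nonneg _)
        have h6 := mul_le_mul_of_nonneg_left (hvn c) (by positivity : (0 : ℝ) ≤ 4 * (θ / 64))
        linarith
      have h7 : c.re ^ 2 * ψ ≤ c.re ^ 2 * (-θ) := mul_le_mul_of_nonneg_left hw1 (sq_nonneg _)
      have h8 : (Δ + c.re * ψ) * c.re = Δ * c.re + c.re ^ 2 * ψ := by ring
      rw [h8] at h4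
      linarith
    · have h1 := he.t' a ha hta
      rw [← hrew, hla] at h1
      have h3 : 0 ≤ |L| * ‖c‖ := by positivity
      have h7 : (7 + |L|) * ‖c‖ = 7 * ‖c‖ + |L| * ‖c‖ := by ring
      rw [h7]
      linarith [hcr c, hci c, hvn c, hθc c, abs_nonneg c.re]
  · intro a ha hta
    refine ⟨U, hU, ?_⟩
    filter_upwards [hev] with τ hτ y hy c hc
    have he := hτ y hy (c.re • ω + c.im • ν₀) (θ / 2 * c.re) (by rw [← hrew]; exact hc)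
    have hb1 := hb ha he
    obtain ⟨s1, s2⟩ := he.s a ha hta
    rw [← hrew, hla] at s1 s2
    refine ⟨?_, ?_, hb' hb1⟩
    · rw [hnc]
      exact rimD_alg2 hθ hθ1 hb1 (hvn c) s2
    · have h3 : L * (θ / 2 * |c.re|) ≤ |L| * ‖c‖ := by
        have h4 : θ / 2 * |c.re| ≤ ‖c‖ := by linarith [hθc c, hcr c, abs_nonneg c.re]
        exact (mul_le_mul_of_nonneg_right hL (by positivity)).trans
          (mul_le_mul_of_nonneg_left h4 hL0)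
      have h5 : θ / 64 * ‖c.re • ω + c.im • ν₀‖ ≤ 1 * (|c.re| + |c.im|) :=
        mul_le_mul (by linarith) (hvn c) (norm_nonneg _) zero_le_one
      have h7 : (7 + |L|) * ‖c‖ = 7 * ‖c‖ + |L| * ‖c‖ := by ring
      rw [h7]
      linarith [hcr c, hci c, norm_nonneg c]

/-- **Regularity at a zero, flexible version.** -/
theorem BaseL.regAt_zeroF (h : P.BaseL s η N) {τ₀ : T} (hτ₀ : τ₀ ∈ s) {x₀ : E}
    (hx₀ : N x₀ ≠ 0) (h0 : P.fn η N τ₀ x₀ = 0) {a₁ : A} {D : V →L[ℝ] E} {u : E} {L : ℝ}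
    (H : P.LocF s τ₀ x₀ a₁ D u L) : RegAt s (P.fn η N) τ₀ x₀ := by
  have h1 : gre P.rho τ₀ x₀ = 0 := congrArg Complex.re h0
  have h2 : gim η N P.rho P.be τ₀ x₀ = 0 := congrArg Complex.im h0
  have hn : 0 < N x₀ := lt_of_le_of_ne (h.nN x₀) (Ne.symm hx₀)
  have hη := h.hη
  have h3 : 0 < η / 2 * N x₀ := by positivity
  have h4 : P.be τ₀ a₁ x₀ = 0 := by
    rw [← h.glueL.im_eq hτ₀ hx₀ (a := a₁) (by rw [H.act, h1]; linarith), h2]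
  exact h.regAt_rimF hτ₀ hx₀ h1 H h4

/-- The same on a subfamily `i : B → A` which realises the supremum near the point. -/
theorem BaseL.regAt_zeroF_comap {B : Type*} [Fintype B] [Nonempty B] (h : P.BaseL s η N)
    {τ₀ : T} (hτ₀ : τ₀ ∈ s) {x₀ : E} (hx₀ : N x₀ ≠ 0) (h0 : P.fn η N τ₀ x₀ = 0) (i : B → A)
    (hB : ∀ a, P.rho τ₀ a x₀ = 0 → ∃ U ∈ 𝓝 x₀, ∀ᶠ τ in 𝓝[s] τ₀, ∀ x ∈ U,
      ∃ b, P.rho τ a x ≤ P.rho τ (i b) x)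
    {b₁ : B} {D : V →L[ℝ] E} {u : E} {L : ℝ} (H : (P.comap i).LocF s τ₀ x₀ b₁ D u L) :
    RegAt s (P.fn η N) τ₀ x₀ := by
  have hg : gre P.rho τ₀ x₀ = 0 := congrArg Complex.re h0
  have hB' := h.gre_comap hτ₀ (x₀ := x₀) i (fun a ha => hB a (ha.trans hg))
  refine h.regAt_comap hτ₀ hx₀ hg.ge i hB' ?_
  have hg' : gre P.rho τ₀ x₀ = gre (P.comap i).rho τ₀ x₀ := by
    obtain ⟨U, hU, hev⟩ := hB'
    exact hev.self_of_nhdsWithin hτ₀ x₀ (mem_of_mem_nhds hU)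
  have hg0 : gre (P.comap i).rho τ₀ x₀ = 0 := hg' ▸ hg
  have hbe : P.rho τ₀ (i b₁) x₀ = 0 := H.act.trans hg0
  have hfn : (P.comap i).fn η N τ₀ x₀ = 0 := by
    apply Complex.ext
    · exact hg0
    · have h2 : gim η N P.rho P.be τ₀ x₀ = 0 := congrArg Complex.im h0
      have hn : 0 < N x₀ := lt_of_le_of_ne (h.nN x₀) (Ne.symm hx₀)
      have hη := h.hη
      have h3 : 0 < η / 2 * N x₀ := by positivity
      show gim η N (P.comap i).rho (P.comap i).be τ₀ x₀ = 0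
      rw [(h.comap i).glueL.im_eq hτ₀ hx₀ (a := b₁) (by
          show _ < P.rho τ₀ (i b₁) x₀
          rw [hbe]; linarith), comap_be, ← h2]
      exact (h.glueL.im_eq hτ₀ hx₀ (a := i b₁) (by rw [hbe]; linarith)).symm
  exact (h.comap i).regAt_zeroF hτ₀ hx₀ hfn H

end SheetData

end Vale.Agent.P268.T
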