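import Vale.Agent.P268.T.SkelChain
import Vale.Agent.P268.T.H128.First
import Vale.Agent.P268.T.H671.LevDone
import Vale.Agent.P268.T.H963.P0
import Vale.Agent.P268.T.H740.TauDone
import Vale.Agent.P268.T.H897.RayFS

/-!
# P268, topological half: the finished pieces of block B1 plugged into the skeleton

`blockChain_of_move`: the missing piece is `GateMove`.
-/

namespace Vale.Agent.P268.T.N625

open Vale.Agent.P268.T.RV

/-- **Block B1** from its missing piece. -/
theorem blockChain_of_move (hmove : GateMove) : BlockChain :=
  blockChain_of P0.blockP0 firstLevelW H740.tauPhaseW C671.levTameW C671.levIHW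
    K748.levOneW hmove rayFS

/-- **Blocks B1 and B2** from the missing piece. -/
theorem blockSum_of_move (hmove : GateMove) : BlockSum :=
  blockSum_of_chain (blockChain_of_move hmove)

end Vale.Agent.P268.T.N625
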