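import Vale.Agent.P268.T.Nearby

/-!
# P268, topological half: calculus of regular families
-/

set_option linter.unusedSectionVars false

namespace Vale.Agent.P268.T

open Set Filter Topology

section VEq

variable {E : Type*} [TopologicalSpace E] [Zero E] {E' : Type*} [TopologicalSpace E'] [Zero E']
  {E'' : Type*} [TopologicalSpace E''] [Zero E'']
  {Z : Type*} [Zero Z] {Z' : Type*} [Zero Z'] {Z'' : Type*} [Zero Z'']

/-- The zero sets of `F` and `G` are related by a homeomorphism of the ambient spaces fixing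
the origin. -/
def VEq (F : E → Z) (G : E' → Z') : Prop :=
  ∃ h : E ≃ₜ E', h 0 = 0 ∧ ∀ x, F x = 0 ↔ G (h x) = 0

theorem VEq.refl (F : E → Z) : VEq F F := ⟨Homeomorph.refl E, rfl, fun _ => Iff.rfl⟩

theorem VEq.symm {F : E → Z} {G : E' → Z'} (h : VEq F G) : VEq G F := by
  obtain ⟨h, h0, hh⟩ := h
  refine ⟨h.symm, by rw [h.symm_apply_eq, h0], fun p => ?_⟩
  have := hh (h.symm p)
  rw [h.apply_symm_apply] at this
  exact this.symm

theorem VEq.trans {F : E → Z} {G : E' → Z'} {H : E'' → Z''} (h : VEq F G) (g : VEq G H) :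
    VEq F H := by
  obtain ⟨h, h0, hh⟩ := h
  obtain ⟨g, g0, hg⟩ := g
  refine ⟨h.trans g, ?_, fun p => (hh p).trans (hg (h p))⟩
  show g (h 0) = 0
  rw [h0, g0]

theorem VEq.of_homeo (h : E ≃ₜ E') (h0 : h 0 = 0) {F : E → Z} {G : E' → Z'}
    (hh : ∀ x, F x = 0 ↔ G (h x) = 0) : VEq F G := ⟨h, h0, hh⟩

theorem VEq.of_iff {F : E → Z} {G : E → Z'} (h : ∀ x, F x = 0 ↔ G x = 0) : VEq F G :=
  ⟨Homeomorph.refl E, rfl, h⟩

theorem VEq.comp (h : E ≃ₜ E') (h0 : h 0 = 0) (G : E' → Z) : VEq (fun x => G (h x)) G :=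
  ⟨h, h0, fun _ => Iff.rfl⟩

end VEq

section Fam

variable {E : Type*} [NormedAddCommGroup E] [NormedSpace ℝ E]
  {E' : Type*} [NormedAddCommGroup E'] [NormedSpace ℝ E']
  {Z : Type*} [NormedAddCommGroup Z] [NormedSpace ℝ Z]
  {T : Type*} [TopologicalSpace T]

theorem VEq.of_linear {Z' : Type*} [Zero Z'] (e : E ≃L[ℝ] E') (G : E' → Z') :
    VEq (fun x => G (e x)) G :=
  ⟨e.toHomeomorph, e.map_zero, fun _ => Iff.rfl⟩

/-- Families of class `R`: regular along the zero sets. -/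
structure RFam (s : Set T) (F : T → E → Z) : Prop where
  cont : ContinuousOn (fun p : T × E => F p.1 p.2) (s ×ˢ univ)
  hom : ∀ t ∈ s, Hom1 (F t)
  reg : ∀ t ∈ s, ∀ x ≠ 0, F t x = 0 → RegAt s F t x

/-- Families of class `O`: regular everywhere off the origin. -/
structure OFam (s : Set T) (F : T → E → Z) : Prop where
  cont : ContinuousOn (fun p : T × E => F p.1 p.2) (s ×ˢ univ)
  hom : ∀ t ∈ s, Hom1 (F t)
  reg : ∀ t ∈ s, ∀ x ≠ 0, RegAt s F t x

theorem OFam.toRFam {s : Set T} {F : T → E → Z} (h : OFam s F) : RFam s F :=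
  ⟨h.cont, h.hom, fun t ht x hx _ => h.reg t ht x hx⟩

/-- Members of a family of class `R` over a connected set have equivalent zero sets. -/
theorem RFam.veq [ProperSpace E] [CompleteSpace Z] {s : Set T} (hs : IsPreconnected s)
    {F : T → E → Z} (hF : RFam s F) {a b : T} (ha : a ∈ s) (hb : b ∈ s) : VEq (F a) (F b) :=
  path_conj hs hF.cont hF.hom hF.reg ha hb

/-- The unit interval version. -/
theorem RFam.veq_Icc [ProperSpace E] [CompleteSpace Z] {F : ℝ → E → Z}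
    (hF : RFam (Icc (0 : ℝ) 1) F) : VEq (F 0) (F 1) :=
  hF.veq isPreconnected_Icc (left_mem_Icc.mpr zero_le_one) (right_mem_Icc.mpr zero_le_one)

theorem RegAt.mono {s s' : Set T} (hs : s' ⊆ s) {F : T → E → Z} {t : T} {x : E}
    (h : RegAt s F t x) : RegAt s' F t x := by
  obtain ⟨k, h0, h1, A, U, hU, hev⟩ := h
  exact ⟨k, h0, h1, A, U, hU, hev.filter_mono (nhdsWithin_mono t hs)⟩

theorem RFam.mono {s s' : Set T} (hs : s' ⊆ s) {F : T → E → Z} (h : RFam s F) : RFam s' F :=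
  ⟨h.cont.mono (prod_mono hs Subset.rfl), fun t ht => h.hom t (hs ht),
    fun t ht x hx h0 => (h.reg t (hs ht) x hx h0).mono hs⟩

theorem OFam.mono {s s' : Set T} (hs : s' ⊆ s) {F : T → E → Z} (h : OFam s F) : OFam s' F :=
  ⟨h.cont.mono (prod_mono hs Subset.rfl), fun t ht => h.hom t (hs ht),
    fun t ht x hx => (h.reg t (hs ht) x hx).mono hs⟩

/-- Change of parameter. -/
theorem RegAt.param {T' : Type*} [TopologicalSpace T'] {s : Set T} {s' : Set T'} {F : T → E → Z}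
    {φ : T' → T} {t : T'} (hφ : ContinuousWithinAt φ s' t) (hs : MapsTo φ s' s) {x : E}
    (h : RegAt s F (φ t) x) : RegAt s' (fun t => F (φ t)) t x := by
  obtain ⟨k, h0, h1, A, U, hU, hev⟩ := h
  exact ⟨k, h0, h1, A, U, hU, (hφ.tendsto_nhdsWithin hs).eventually hev⟩

theorem RFam.param {T' : Type*} [TopologicalSpace T'] {s : Set T} {s' : Set T'} {F : T → E → Z}
    (h : RFam s F) {φ : T' → T} (hφ : ContinuousOn φ s') (hs : MapsTo φ s' s) :
    RFam s' (fun t => F (φ t)) := by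
  refine ⟨?_, fun t ht => h.hom _ (hs ht), fun t ht x hx h0 =>
    (h.reg _ (hs ht) x hx h0).param (hφ t ht) hs⟩
  have h1 : ContinuousOn (fun p : T' × E => (φ p.1, p.2)) (s' ×ˢ univ) :=
    (hφ.comp continuousOn_fst (fun p hp => hp.1)).prodMk continuousOn_snd
  exact h.cont.comp h1 (fun p hp => ⟨hs hp.1, mem_univ _⟩)

theorem OFam.param {T' : Type*} [TopologicalSpace T'] {s : Set T} {s' : Set T'} {F : T → E → Z}
    (h : OFam s F) {φ : T' → T} (hφ : ContinuousOn φ s') (hs : MapsTo φ s' s) :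
    OFam s' (fun t => F (φ t)) := by
  refine ⟨?_, fun t ht => h.hom _ (hs ht), fun t ht x hx =>
    (h.reg _ (hs ht) x hx).param (hφ t ht) hs⟩
  have h1 : ContinuousOn (fun p : T' × E => (φ p.1, p.2)) (s' ×ˢ univ) :=
    (hφ.comp continuousOn_fst (fun p hp => hp.1)).prodMk continuousOn_snd
  exact h.cont.comp h1 (fun p hp => ⟨hs hp.1, mem_univ _⟩)

/-- A single function as a constant family. -/
theorem RegAt.const {F : E → Z} {x : E} (h : RegAt (univ : Set Unit) (fun _ => F) () x)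
    (s : Set T) (t : T) : RegAt s (fun _ => F) t x :=
  RegAt.param (φ := fun _ => ()) (s := univ) continuousWithinAt_const (fun _ _ => mem_univ _) h

/-- `RegAt` only depends on the germ. -/
theorem RegAt.congr {s : Set T} {F G : T → E → Z} {t : T} {x : E} (h : RegAt s F t x)
    (hFG : ∃ U ∈ 𝓝 x, ∀ᶠ t' in 𝓝[s] t, ∀ y ∈ U, F t' y = G t' y) : RegAt s G t x := by
  obtain ⟨k, h0, h1, A, U, hU, hev⟩ := h
  obtain ⟨V, hV, hev'⟩ := hFG
  refine ⟨k, h0, h1, A, U ∩ V, inter_mem hU hV, ?_⟩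
  filter_upwards [hev, hev'] with t' e1 e2 y hy c hc
  rw [← e2 y hy.2, ← e2 _ hc.2]
  exact e1 y hy.1 c hc.1

/-- **Fibre lemma**: it is enough that `F` is regular along a fibre direction, with all other
variables considered as parameters (so only continuous dependence matters). Here `π x` are the
parameters and `q x` is the fibre coordinate. -/
theorem RegAt.pull {s : Set T} {B : Type*} [TopologicalSpace B] {V : Type*}
    [NormedAddCommGroup V] [NormedSpace ℝ V] {π : E → B} {q : E → V} {ι : V →L[ℝ] E} {t₀ : T}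
    {x₀ : E} {S : Set B} (hπ : ContinuousAt π x₀) (hq : ContinuousAt q x₀) {U₀ : Set E}
    (hU₀ : U₀ ∈ 𝓝 x₀) (hS : ∀ x ∈ U₀, π x ∈ S)
    (h1 : ∀ x ∈ U₀, ∀ v, x + ι v ∈ U₀ → π (x + ι v) = π x)
    (h2 : ∀ x ∈ U₀, ∀ v, x + ι v ∈ U₀ → q (x + ι v) = q x + v) {f : T → B → V → Z}
    (hf : RegAt (s ×ˢ S) (fun (tb : T × B) v => f tb.1 tb.2 v) (t₀, π x₀) (q x₀)) :
    RegAt s (fun t x => f t (π x) (q x)) t₀ x₀ := by
  obtain ⟨k, hk0, hk1, A, U, hU, hev⟩ := hf
  rw [nhdsWithin_prod_eq, eventually_prod_iff] at hev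
  obtain ⟨pa, ha, pb, hb, hab⟩ := hev
  have hb' : ∀ᶠ x in 𝓝 x₀, π x ∈ S → pb (π x) := hπ.eventually (eventually_nhdsWithin_iff.mp hb)
  refine ⟨k, hk0, hk1, ι.comp A, {x | (π x ∈ S → pb (π x)) ∧ q x ∈ U ∧ x ∈ U₀}, ?_, ?_⟩
  · filter_upwards [hb', hq.eventually (eventually_mem_nhds_iff.mpr hU), hU₀] with x e1 e2 e3
    exact ⟨e1, mem_of_mem_nhds e2, e3⟩
  · filter_upwards [ha] with t ht x hx c hc
    have e1 := hab ht (hx.1 (hS x hx.2.2)) (q x) hx.2.1 c
    rw [ContinuousLinearMap.comp_apply] at hc ⊢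
    have e2 := h1 x hx.2.2 (A c) hc.2.2
    have e3 := h2 x hx.2.2 (A c) hc.2.2
    show ‖f t (π (x + ι (A c))) (q (x + ι (A c))) - f t (π x) (q x) - c‖ ≤ k * ‖c‖
    rw [e2, e3]
    refine e1 ?_
    rw [← e3]
    exact hc.2.1

/-- Fibre lemma for a product. -/
theorem RegAt.snd {s : Set T} {F : T → E × E' → Z} {t₀ : T} {x₀ : E × E'}
    (h : RegAt (s ×ˢ univ) (fun (tb : T × E) v => F tb.1 (tb.2, v)) (t₀, x₀.1) x₀.2) :
    RegAt s F t₀ x₀ := by
  have := RegAt.pull (s := s) (π := Prod.fst) (q := Prod.snd) (S := univ)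
    (ι := ContinuousLinearMap.inr ℝ E E')
    (t₀ := t₀) (x₀ := x₀) continuousAt_fst continuousAt_snd univ_mem (fun _ _ => mem_univ _)
    (fun x _ v _ => by simp) (fun x _ v _ => by simp) (f := fun t b v => F t (b, v)) h
  exact this

/-- Fibre lemma for a product. -/
theorem RegAt.fst {s : Set T} {F : T → E × E' → Z} {t₀ : T} {x₀ : E × E'}
    (h : RegAt (s ×ˢ univ) (fun (tb : T × E') v => F tb.1 (v, tb.2)) (t₀, x₀.2) x₀.1) :
    RegAt s F t₀ x₀ := by
  have := RegAt.pull (s := s) (π := Prod.snd) (q := Prod.fst) (S := univ)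
    (ι := ContinuousLinearMap.inl ℝ E E')
    (t₀ := t₀) (x₀ := x₀) continuousAt_snd continuousAt_fst univ_mem (fun _ _ => mem_univ _)
    (fun x _ v _ => by simp) (fun x _ v _ => by simp) (f := fun t b v => F t (v, b)) h
  exact this

/-- Adding something constant in the fibre direction does not matter. -/
theorem RegAt.add_const {s : Set T} {F : T → E → Z} {t₀ : T} {x₀ : E} (h : RegAt s F t₀ x₀)
    (g : T → Z) : RegAt s (fun t x => g t + F t x) t₀ x₀ := by
  obtain ⟨k, hk0, hk1, A, U, hU, hev⟩ := h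
  refine ⟨k, hk0, hk1, A, U, hU, ?_⟩
  filter_upwards [hev] with t ht x hx c hc
  rw [add_sub_add_left_eq_sub]
  exact ht x hx c hc

theorem RegAt.add_snd {s : Set T} {F : T → E → Z} {G : T → E' → Z} {t₀ : T} {x₀ : E × E'}
    (h : RegAt s G t₀ x₀.2) : RegAt s (fun t p => F t p.1 + G t p.2) t₀ x₀ := by
  refine RegAt.snd ?_
  exact RegAt.add_const (s := s ×ˢ (univ : Set E)) (t₀ := (t₀, x₀.1)) (x₀ := x₀.2)
    (F := fun (tb : T × E) v => G tb.1 v)
    (RegAt.param (φ := Prod.fst) continuousWithinAt_fst (fun p hp => hp.1) h)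
    (fun tb => F tb.1 tb.2)

theorem RegAt.add_fst {s : Set T} {F : T → E → Z} {G : T → E' → Z} {t₀ : T} {x₀ : E × E'}
    (h : RegAt s F t₀ x₀.1) : RegAt s (fun t p => F t p.1 + G t p.2) t₀ x₀ := by
  refine RegAt.fst ?_
  have := RegAt.add_const (s := s ×ˢ (univ : Set E')) (t₀ := (t₀, x₀.2)) (x₀ := x₀.1)
    (F := fun (tb : T × E') v => F tb.1 v) (g := fun tb => G tb.1 tb.2)
    (RegAt.param (φ := Prod.fst) continuousWithinAt_fst (fun p hp => hp.1) h)
  simpa [add_comm] using this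

theorem cont_add {s : Set T} {F : T → E → Z} {G : T → E' → Z}
    (hF : ContinuousOn (fun p : T × E => F p.1 p.2) (s ×ˢ univ))
    (hG : ContinuousOn (fun p : T × E' => G p.1 p.2) (s ×ˢ univ)) :
    ContinuousOn (fun p : T × (E × E') => F p.1 p.2.1 + G p.1 p.2.2) (s ×ˢ univ) := by
  have h1 : ContinuousOn (fun p : T × (E × E') => (p.1, p.2.1)) (s ×ˢ univ) :=
    (continuous_fst.prodMk (continuous_fst.comp continuous_snd)).continuousOn
  have h2 : ContinuousOn (fun p : T × (E × E') => (p.1, p.2.2)) (s ×ˢ univ) :=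
    (continuous_fst.prodMk (continuous_snd.comp continuous_snd)).continuousOn
  exact (hF.comp h1 (fun p hp => ⟨hp.1, mem_univ _⟩)).add
    (hG.comp h2 (fun p hp => ⟨hp.1, mem_univ _⟩))

/-- **`R + O ⊆ R`** for Thom–Sebastiani sums. -/
theorem RFam.add {s : Set T} {F : T → E → Z} {G : T → E' → Z} (hF : RFam s F) (hG : OFam s G) :
    RFam s (fun t (p : E × E') => F t p.1 + G t p.2) where
  cont := cont_add hF.cont hG.cont
  hom := fun t ht r hr p => by
    simp only [Prod.smul_fst, Prod.smul_snd, smul_add]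
    rw [hF.hom t ht r hr, hG.hom t ht r hr]
  reg := by
    rintro t ht ⟨x, y⟩ hxy h0
    by_cases hy : y = 0
    · subst hy
      have hx : x ≠ 0 := by rintro rfl; exact hxy rfl
      have h1 : F t x = 0 := by
        have : F t x + G t 0 = 0 := h0
        rwa [(hG.hom t ht).zero, add_zero] at this
      exact RegAt.add_fst (hF.reg t ht x hx h1)
    · exact RegAt.add_snd (hG.reg t ht y hy)

/-- **`O + R ⊆ R`** for Thom–Sebastiani sums. -/
theorem RFam.add' {s : Set T} {F : T → E → Z} {G : T → E' → Z} (hF : OFam s F) (hG : RFam s G) :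
    RFam s (fun t (p : E × E') => F t p.1 + G t p.2) where
  cont := cont_add hF.cont hG.cont
  hom := fun t ht r hr p => by
    simp only [Prod.smul_fst, Prod.smul_snd, smul_add]
    rw [hF.hom t ht r hr, hG.hom t ht r hr]
  reg := by
    rintro t ht ⟨x, y⟩ hxy h0
    by_cases hx : x = 0
    · subst hx
      have hy : y ≠ 0 := by rintro rfl; exact hxy rfl
      have h1 : G t y = 0 := by
        have : F t 0 + G t y = 0 := h0
        rwa [(hF.hom t ht).zero, zero_add] at this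
      exact RegAt.add_snd (hG.reg t ht y hy h1)
    · exact RegAt.add_fst (hF.reg t ht x hx)

/-- **`O + O ⊆ O`** for Thom–Sebastiani sums. -/
theorem OFam.add {s : Set T} {F : T → E → Z} {G : T → E' → Z} (hF : OFam s F) (hG : OFam s G) :
    OFam s (fun t (p : E × E') => F t p.1 + G t p.2) where
  cont := cont_add hF.cont hG.cont
  hom := fun t ht r hr p => by
    simp only [Prod.smul_fst, Prod.smul_snd, smul_add]
    rw [hF.hom t ht r hr, hG.hom t ht r hr]
  reg := by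
    rintro t ht ⟨x, y⟩ hxy
    by_cases hy : y = 0
    · subst hy
      have hx : x ≠ 0 := by rintro rfl; exact hxy rfl
      exact RegAt.add_fst (hF.reg t ht x hx)
    · exact RegAt.add_snd (hG.reg t ht y hy)

/-- Linear change of coordinates. -/
theorem RegAt.comp_linear {s : Set T} {F : T → E' → Z} {t₀ : T} (e : E ≃L[ℝ] E') {x₀ : E}
    (h : RegAt s F t₀ (e x₀)) : RegAt s (fun t x => F t (e x)) t₀ x₀ := by
  obtain ⟨k, hk0, hk1, A, U, hU, hev⟩ := h
  refine ⟨k, hk0, hk1, (e.symm : E' →L[ℝ] E).comp A, e ⁻¹' U,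
    e.continuous.continuousAt.preimage_mem_nhds hU, ?_⟩
  filter_upwards [hev] with t ht x hx c hc
  have h1 : e (x + ((e.symm : E' →L[ℝ] E).comp A) c) = e x + A c := by
    simp
  rw [mem_preimage, h1] at hc
  show ‖F t (e (x + ((e.symm : E' →L[ℝ] E).comp A) c)) - F t (e x) - c‖ ≤ k * ‖c‖
  rw [h1]
  exact ht _ hx c hc

theorem RFam.comp_linear {s : Set T} {F : T → E' → Z} (e : E ≃L[ℝ] E') (h : RFam s F) :
    RFam s (fun t x => F t (e x)) where
  cont := by
    have h1 : ContinuousOn (fun p : T × E => (p.1, e p.2)) (s ×ˢ univ) :=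
      (continuous_fst.prodMk (e.continuous.comp continuous_snd)).continuousOn
    exact h.cont.comp h1 (fun p hp => ⟨hp.1, mem_univ _⟩)
  hom := fun t ht r hr x => by
    show F t (e (r • x)) = r • F t (e x)
    rw [map_smul]; exact h.hom t ht r hr _
  reg := fun t ht x hx h0 => RegAt.comp_linear e (h.reg t ht (e x) (by simpa using hx) h0)

theorem OFam.comp_linear {s : Set T} {F : T → E' → Z} (e : E ≃L[ℝ] E') (h : OFam s F) :
    OFam s (fun t x => F t (e x)) where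
  cont := by
    have h1 : ContinuousOn (fun p : T × E => (p.1, e p.2)) (s ×ˢ univ) :=
      (continuous_fst.prodMk (e.continuous.comp continuous_snd)).continuousOn
    exact h.cont.comp h1 (fun p hp => ⟨hp.1, mem_univ _⟩)
  hom := fun t ht r hr x => by
    show F t (e (r • x)) = r • F t (e x)
    rw [map_smul]; exact h.hom t ht r hr _
  reg := fun t ht x hx => RegAt.comp_linear e (h.reg t ht (e x) (by simpa using hx))

/-- Adding a family which is `l`-Lipschitz along the direction. -/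
theorem MRegOn.add_lip {k l : ℝ} {F G : E → Z} {A : Z →L[ℝ] E} {U : Set E} (h : MRegOn k F A U)
    (hG : ∀ x ∈ U, ∀ c, x + A c ∈ U → ‖G (x + A c) - G x‖ ≤ l * ‖c‖) :
    MRegOn (k + l) (fun x => F x + G x) A U := by
  intro x hx c hc
  have h1 : F (x + A c) + G (x + A c) - (F x + G x) - c =
      (F (x + A c) - F x - c) + (G (x + A c) - G x) := by abel
  rw [h1]
  linarith [norm_add_le (F (x + A c) - F x - c) (G (x + A c) - G x), h x hx c hc, hG x hx c hc]

/-- Regularity from (uniform) strict differentiability with surjective derivative. -/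
theorem RegAt.of_strict [FiniteDimensional ℝ Z] {s : Set T} {F : T → E → Z} {t₀ : T} {x₀ : E}
    (F' : E →L[ℝ] Z) (hF' : Function.Surjective F')
    (h : ∀ ε > 0, ∃ U ∈ 𝓝 x₀, ∀ᶠ t in 𝓝[s] t₀, ∀ y ∈ U, ∀ z ∈ U,
      ‖F t y - F t z - F' (y - z)‖ ≤ ε * ‖y - z‖) : RegAt s F t₀ x₀ := by
  obtain ⟨A', hA'⟩ := (F' : E →ₗ[ℝ] Z).exists_rightInverse_of_surjective
    (LinearMap.range_eq_top.mpr hF')
  set A : Z →L[ℝ] E := LinearMap.toContinuousLinearMap A' with hA
  have hFA : ∀ c, F' (A c) = c := fun c => LinearMap.congr_fun hA' c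
  obtain ⟨U, hU, hev⟩ := h (1 / (2 * (‖A‖ + 1))) (by positivity)
  refine ⟨1 / 2, by norm_num, by norm_num, A, U, hU, ?_⟩
  filter_upwards [hev] with t ht x hx c hc
  have h1 := ht _ hc x hx
  rw [add_sub_cancel_left, hFA] at h1
  refine h1.trans ?_
  have h2 : ‖A c‖ ≤ (‖A‖ + 1) * ‖c‖ :=
    (A.le_opNorm c).trans (mul_le_mul_of_nonneg_right (by linarith) (norm_nonneg _))
  calc 1 / (2 * (‖A‖ + 1)) * ‖A c‖ ≤ 1 / (2 * (‖A‖ + 1)) * ((‖A‖ + 1) * ‖c‖) :=
        mul_le_mul_of_nonneg_left h2 (by positivity)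
    _ = 1 / 2 * ‖c‖ := by
        have : ‖A‖ + 1 ≠ 0 := by positivity
        field_simp

/-- Uniform strict differentiability from a jointly continuous derivative. -/
theorem strict_of_fderiv {s : Set T} {F : T → E → Z} {t₀ : T} {x₀ : E}
    {D : T → E → (E →L[ℝ] Z)} {F' : E →L[ℝ] Z}
    (hD : ∀ᶠ p : T × E in 𝓝[s] t₀ ×ˢ 𝓝 x₀, HasFDerivAt (F p.1) (D p.1 p.2) p.2)
    (hlim : Tendsto (fun p : T × E => D p.1 p.2) (𝓝[s] t₀ ×ˢ 𝓝 x₀) (𝓝 F')) {ε : ℝ}
    (hε : 0 < ε) :
    ∃ U ∈ 𝓝 x₀, ∀ᶠ t in 𝓝[s] t₀, ∀ y ∈ U, ∀ z ∈ U,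
      ‖F t y - F t z - F' (y - z)‖ ≤ ε * ‖y - z‖ := by
  have h1 : ∀ᶠ p : T × E in 𝓝[s] t₀ ×ˢ 𝓝 x₀, HasFDerivAt (F p.1) (D p.1 p.2) p.2 ∧
      ‖D p.1 p.2 - F'‖ ≤ ε := by
    have h2 : ∀ᶠ p : T × E in 𝓝[s] t₀ ×ˢ 𝓝 x₀, ‖D p.1 p.2 - F'‖ < ε := by
      have h3 : Tendsto (fun p : T × E => ‖D p.1 p.2 - F'‖) (𝓝[s] t₀ ×ˢ 𝓝 x₀) (𝓝 0) := by
        have := (hlim.sub_const F').norm
        simpa using this
      exact h3.eventually (gt_mem_nhds hε)
    filter_upwards [hD, h2] with p e1 e2 using ⟨e1, e2.le⟩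
  rw [eventually_prod_iff] at h1
  obtain ⟨pa, ha, pb, hb, hab⟩ := h1
  obtain ⟨R, hR, hRb⟩ := Metric.eventually_nhds_iff_ball.mp hb
  refine ⟨Metric.ball x₀ R, Metric.ball_mem_nhds _ hR, ?_⟩
  filter_upwards [ha] with t ht y hy z hz
  have hconv : Convex ℝ (Metric.ball x₀ R) := convex_ball x₀ R
  have h2 := hconv.norm_image_sub_le_of_norm_hasFDerivWithin_le (𝕜 := ℝ)
    (f := fun y => F t y - F' y) (f' := fun y => D t y - F') (C := ε)
    (fun w hw => ((hab ht (hRb w hw)).1.hasFDerivWithinAt).sub F'.hasFDerivWithinAt)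
    (fun w hw => (hab ht (hRb w hw)).2) hz hy
  have h3 : F t y - F t z - F' (y - z) = F t y - F' y - (F t z - F' z) := by
    rw [map_sub]; abel
  rw [h3]
  exact h2

/-- Regularity from a jointly continuous derivative which is surjective at the point. -/
theorem RegAt.of_fderiv [FiniteDimensional ℝ Z] {s : Set T} {F : T → E → Z} {t₀ : T} {x₀ : E}
    {D : T → E → (E →L[ℝ] Z)} {F' : E →L[ℝ] Z}
    (hD : ∀ᶠ p : T × E in 𝓝[s] t₀ ×ˢ 𝓝 x₀, HasFDerivAt (F p.1) (D p.1 p.2) p.2)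
    (hlim : Tendsto (fun p : T × E => D p.1 p.2) (𝓝[s] t₀ ×ˢ 𝓝 x₀) (𝓝 F'))
    (hF' : Function.Surjective F') : RegAt s F t₀ x₀ :=
  RegAt.of_strict F' hF' fun _ hε => strict_of_fderiv hD hlim hε

end Fam

end Vale.Agent.P268.T
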