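import Vale.Agent.P268.T.NBr
import Vale.Agent.P268.T.DeltaR
import Vale.Agent.P268.H288.UnM

/-!
# P268, topological half: normal forms of free braids

`type_theorem`: data `b`, `ν` whose sheet `none` is constant and far are, as far as the normal form
is concerned, a based braid `β`; the type of `β` is read off free homotopies of the differences and
of the normals.
-/

set_option linter.unusedSectionVars false

namespace Vale.Agent.P268.T

open scoped unitInterval Topology Topology.Homotopy RealInnerProductSpace Matrix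
open Set Metric Vale.Agent.P268.H288 Vale.Agent.P268.T.A109

/-! ### Congruence -/

section Congr

variable {P V A : Type*} [NormedAddCommGroup P] [NormedSpace ℝ P]
  [NormedAddCommGroup V] [InnerProductSpace ℝ V]

/-- The normal form depends only on the data over the closed unit ball. -/
theorem NN_congr [Fintype A] {e : V} {ε R M : ℝ} {b b' ν ν' : A → P → V}
    (hb : ∀ a, ∀ x ∈ closedBall (0 : P) 1, b a x = b' a x)
    (hν : ∀ a, ∀ x ∈ closedBall (0 : P) 1, ν a x = ν' a x) :
    NN e ε R M b ν = NN e ε R M b' ν' := by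
  have h : nplates e (fun _ : Unit => ε) (fun _ => R) (fun _ => M) (fun _ => b) (fun _ => ν) =
      nplates e (fun _ : Unit => ε) (fun _ => R) (fun _ => M) (fun _ => b') (fun _ => ν') := by
    have h1 : ∀ (a : A) (x : (ℝ × P) × V), b a (kap x.1) = b' a (kap x.1) := fun a x =>
      hb a _ (kap_mem x.1)
    have h2 : ∀ (a : A) (x : (ℝ × P) × V), ν a (kap x.1) = ν' a (kap x.1) := fun a x =>
      hν a _ (kap_mem x.1)
    unfold nplates
    simp only [h1, h2]
  rw [NN, NN, h]

theorem Adm.congr_ball {ε R M : ℝ} {b b' : A → P → V} (h : Adm ε R M b)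
    (hb : ∀ a, ∀ x ∈ closedBall (0 : P) 1, b a x = b' a x) : Adm ε R M b' where
  hε := h.hε
  hR := h.hR
  hM := h.hM
  hb a x hx := by rw [← hb a x hx]; exact h.hb a x hx
  hd a a' ha x hx := by rw [← hb a x hx, ← hb a' x hx]; exact h.hd a a' ha x hx

end Congr

/-! ### Homotopies -/

section Hom

variable {V : Type*} [NormedAddCommGroup V] [InnerProductSpace ℝ V] (φ : Fr V) {m r : ℕ}

/-- A free homotopy of braids, with a moving constant sheet, gives a family of data. -/
theorem bFam_of_free {H : ℝ → (Fin m → I) × I → BX V r}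
    (hH : Continuous fun z : ℝ × ((Fin m → I) × I) => H z.1 z.2)
    (hrel : ∀ t ∈ Icc (0 : ℝ) 1, ∀ q ∈ bdC (Fin m), H t q ∈ φ.BA r) {ρ : ℝ → ℝ}
    (hρ : Continuous ρ) (hbd : ∀ t ∈ Icc (0 : ℝ) 1, ∀ i q, ‖(H t q).1.1 i‖ < ρ t) :
    BFam (Icc (0 : ℝ) 1) φ.h (fun t => shF φ (H t) (ρ t)) (fun t => nuF φ (H t)) where
  cb a := by
    refine Continuous.continuousOn ?_
    cases a with
    | none => exact ((hρ.comp continuous_fst).smul continuous_const).neg
    | some i =>
      exact (continuous_cen i).comp (hH.comp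
        (continuous_fst.prodMk (continuous_cubeM.comp continuous_snd)))
  cn a := by
    refine Continuous.continuousOn ?_
    cases a with
    | none => exact continuous_const
    | some i =>
      exact (continuous_nrm i).comp (hH.comp
        (continuous_fst.prodMk (continuous_cubeM.comp continuous_snd)))
  nn t _ a x _ := by
    cases a with
    | none => exact φ.hh
    | some i => exact ((H t (cubeM x)).2 i).2
  inj t ht x _ := by
    have hne : ∀ i, -(ρ t • φ.e) ≠ (H t (cubeM x)).1.1 i := by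
      intro i h
      have h1 := hbd t ht i (cubeM x)
      have h0 : 0 < ρ t := (norm_nonneg _).trans_lt h1
      rw [← h, norm_neg, norm_smul, φ.he, mul_one, Real.norm_eq_abs, abs_of_pos h0] at h1
      exact lt_irrefl _ h1
    intro a b hab
    cases a with
    | none =>
      cases b with
      | none => rfl
      | some j => exact absurd hab (hne j)
    | some i =>
      cases b with
      | none => exact absurd hab.symm (hne i)
      | some j => exact congrArg some ((H t (cubeM x)).1.2 hab)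
  bh t ht a x hx := by
    cases a with
    | none =>
      show ⟪-(ρ t • φ.e), φ.h⟫ = 0
      rw [inner_neg_left, inner_smul_left, real_inner_comm, φ.heh, mul_zero, neg_zero]
    | some i =>
      show ⟪(H t (cubeM x)).1.1 i, φ.h⟫ = 0
      rw [real_inner_comm]
      exact (hrel t ht _ (cubeM_mem_bdC hx)).1 i
  nh t ht a x hx := by
    cases a with
    | none => rfl
    | some i => exact congrArg Subtype.val ((hrel t ht _ (cubeM_mem_bdC hx)).2 i)

/-- A path in `H` from `w₀` to `-ρ e`, far from the origin. -/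
theorem exists_far_path [FiniteDimensional ℝ V] (hV : 3 ≤ Module.finrank ℝ V) {w₀ : V}
    (hw : ⟪φ.h, w₀⟫ = 0) {ρ : ℝ} (hρ : ‖w₀‖ ≤ ρ) :
    ∃ γ : ℝ → V, Continuous γ ∧ γ 0 = w₀ ∧ γ 1 = -(ρ • φ.e) ∧ (∀ t, ⟪φ.h, γ t⟫ = 0) ∧
      ∀ t ∈ Icc (0 : ℝ) 1, ‖w₀‖ ≤ ‖γ t‖ := by
  have hρ0 : 0 ≤ ρ := (norm_nonneg _).trans hρ
  have he : ⟪φ.h, -(ρ • φ.e)⟫ = 0 := by rw [inner_neg_right, inner_smul_right, φ.heh]; simp
  have hn : ‖-(ρ • φ.e)‖ = ρ := by
    rw [norm_neg, norm_smul, φ.he, mul_one, Real.norm_eq_abs, abs_of_nonneg hρ0]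
  rcases eq_or_ne w₀ 0 with rfl | h0
  · refine ⟨fun t => t • -(ρ • φ.e), by fun_prop, by simp, by simp, fun t => ?_, fun t _ => ?_⟩
    · rw [inner_smul_right, he, mul_zero]
    · rw [norm_zero]; exact norm_nonneg _
  have hρ1 : 0 < ρ := (norm_pos_iff.mpr h0).trans_le hρ
  have h1 : -(ρ • φ.e) ≠ 0 := by
    rw [← norm_pos_iff, hn]; exact hρ1
  obtain ⟨δ, hδ⟩ := exists_path φ hV (x := ⟨w₀, h0⟩) (y := ⟨-(ρ • φ.e), h1⟩) hw he
  let g₁ : ℝ → V := fun t => (δ (projIcc 0 1 zero_le_one t) : V)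
  have hg₁ : Continuous g₁ :=
    continuous_subtype_val.comp (δ.continuous.comp continuous_projIcc)
  have hg₁0 : ∀ t, ‖g₁ t‖ ≠ 0 := fun t => norm_ne_zero_iff.mpr (δ (projIcc 0 1 zero_le_one t)).2
  have e0 : g₁ 0 = w₀ := by
    change (δ (projIcc 0 1 zero_le_one 0) : V) = w₀
    rw [projIcc_zero, δ.source]
  have e1 : g₁ 1 = -(ρ • φ.e) := by
    change (δ (projIcc 0 1 zero_le_one 1) : V) = _
    rw [projIcc_one, δ.target]
  refine ⟨fun t => (((1 - t) * ‖w₀‖ + t * ρ) * ‖g₁ t‖⁻¹) • g₁ t, ?_, ?_, ?_, fun t => ?_,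
    fun t ht => ?_⟩
  · exact ((by fun_prop : Continuous fun t : ℝ => (1 - t) * ‖w₀‖ + t * ρ).mul
      (hg₁.norm.inv₀ hg₁0)).smul hg₁
  · simp only [e0]
    rw [sub_zero, one_mul, zero_mul, add_zero, mul_inv_cancel₀ (norm_ne_zero_iff.mpr h0), one_smul]
  · simp only [e1]
    rw [hn, sub_self, zero_mul, one_mul, zero_add, mul_inv_cancel₀ hρ1.ne', one_smul]
  · rw [inner_smul_right]
    have h2 : ⟪φ.h, g₁ t⟫ = 0 := hδ _
    rw [h2, mul_zero]
  · have h2 : 0 ≤ 1 - t := by linarith [ht.2]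
    have h3 : ‖w₀‖ ≤ (1 - t) * ‖w₀‖ + t * ρ := by
      have h4 := mul_le_mul_of_nonneg_left hρ ht.1
      linarith
    rw [norm_smul, norm_mul, norm_inv, norm_norm, mul_assoc, inv_mul_cancel₀ (hg₁0 t), mul_one,
      Real.norm_eq_abs, abs_of_nonneg ((norm_nonneg _).trans h3)]
    exact h3

end Hom

/-! ### The type theorem -/

theorem four_le_finrank (k : ℕ) : 4 ≤ Module.finrank ℝ (Vk k) := by
  rw [finrank_euclideanSpace_fin]
  omega

/-- **The type theorem, for normal forms.** -/
theorem type_theorem (k r : ℕ) {b ν : Option (Fin r) → Pk k → Vk k}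
    (hb : BData (frk k).h b ν) {ε R M : ℝ} (ha : Adm ε R M b) {w₀ : Vk k}
    (hw : ∀ x ∈ closedBall (0 : Pk k) 1, b none x = w₀)
    (hwn : ∀ x ∈ closedBall (0 : Pk k) 1, ν none x = (frk k).h)
    (hfar : ∀ i, ∀ x ∈ closedBall (0 : Pk k) 1, ‖b (some i) x‖ < ‖w₀‖)
    (G : C((Fin (k + 2) → I) × I, V0 (Vk k))) (hG : ∀ q ∈ bdC (Fin (k + 2)), G q ∈ (frk k).A0)
    (L : Matrix (Fin r) (Fin r) ℤ) (hdiag : ∀ i, L i i = 1) (hlow : ∀ i j, i < j → L j i = 0)
    (hpair : ∀ i j : Fin r, i < j → ∃ D : C(I × ((Fin (k + 2) → I) × I), Vk k),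
      (∀ p, D p ≠ 0) ∧ (∀ q, D (0, q) = b (some j) (unM q) - b (some i) (unM q)) ∧
      (∀ s, ∀ q ∈ bdC (Fin (k + 2)), ⟪(frk k).h, D (s, q)⟫ = 0) ∧
      ((L i j = 1 ∧ ∀ q, D (1, q) = G q) ∨ (L i j = 0 ∧ ∀ q, ⟪(frk k).h, D (1, q)⟫ = 0)))
    (htw : ∀ i : Fin r, ∃ N : C(I × ((Fin (k + 2) → I) × I), S1 (Vk k)),
      (∀ q, (N (0, q) : Vk k) = ν (some i) (unM q)) ∧
      (∀ q, (N (1, q) : Vk k) = rf (G q : Vk k) (frk k).h) ∧
      ∀ s, ∀ q ∈ bdC (Fin (k + 2)), N (s, q) = (frk k).h1) :
    ∃ β : NBr k r,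
      (frk k).HasType (gcl (frk k) (four_le_finrank k) G hG) L (hcl β.p) ∧
      VEq (NN (frk k).h ε R M b ν : Ek k → ℂ) (Nfb k r β) := by
  classical
  -- the free braid
  have hcb : ∀ a, Continuous fun q : (Fin (k + 2) → I) × I => b a (unM q) := fun a =>
    (hb.cb a).comp_continuous (f := fun q : (Fin (k + 2) → I) × I => (((), unM q) : Unit × Pk k))
      (by have := continuous_unM (m := k + 2); fun_prop) fun q => ⟨mem_univ _, unM_mem q⟩
  have hcn : ∀ a, Continuous fun q : (Fin (k + 2) → I) × I => ν a (unM q) := fun a =>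
    (hb.cn a).comp_continuous (f := fun q : (Fin (k + 2) → I) × I => (((), unM q) : Unit × Pk k))
      (by have := continuous_unM (m := k + 2); fun_prop) fun q => ⟨mem_univ _, unM_mem q⟩
  let c : C((Fin (k + 2) → I) × I, BX (Vk k) r) :=
    ⟨fun q => (⟨fun i => b (some i) (unM q), fun i j hij =>
      Option.some_injective _ (hb.inj () (mem_univ _) _ (unM_mem q) hij)⟩,
      fun i => ⟨ν (some i) (unM q), hb.nn () (mem_univ _) _ _ (unM_mem q)⟩), by
      refine Continuous.prodMk (Continuous.subtype_mk (continuous_pi fun i => hcb _) _)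
        (continuous_pi fun i => Continuous.subtype_mk (hcn _) _)⟩
  have hc : ∀ q ∈ bdC (Fin (k + 2)), c q ∈ (frk k).BA r := fun q hq => by
    refine ⟨fun i => ?_, fun i => Subtype.ext ?_⟩
    · rw [real_inner_comm]
      exact hb.bh () (mem_univ _) (some i) _ (norm_unM_eq hq)
    · exact hb.nh () (mem_univ _) (some i) _ (norm_unM_eq hq)
  obtain ⟨δ, hδ⟩ := exists_conf_path (frk k) (four_le_finrank k) (hc _ topC_mem)
    ((frk k).bx_mem r)
  -- the homotopy to the based braid
  let Hm : ℝ → (Fin (k + 2) → I) × I → BX (Vk k) r := fun t q =>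
    basC c δ (projIcc 0 1 zero_le_one t) q
  have hHc : Continuous fun z : I × ((Fin (k + 2) → I) × I) => basC c δ z.1 z.2 := by
    have h := continuous_basC (T := Unit) (F := fun _ => c) (δ := fun _ => δ)
      (c.continuous.comp continuous_snd) (δ.continuous.comp continuous_snd) (fun _ => δ.source)
    exact h.comp (by fun_prop : Continuous fun z : I × ((Fin (k + 2) → I) × I) => ((), z))
  have hproj : Continuous fun z : ℝ × ((Fin (k + 2) → I) × I) =>
      (projIcc (0 : ℝ) 1 zero_le_one z.1, z.2) :=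
    (continuous_projIcc.comp continuous_fst).prodMk continuous_snd
  have hHm : Continuous fun z : ℝ × ((Fin (k + 2) → I) × I) => Hm z.1 z.2 := hHc.comp hproj
  obtain ⟨ρ₀, hρ₀⟩ : ∃ L : ℝ, ∀ i z, ‖(basC c δ (z : I × ((Fin (k + 2) → I) × I)).1 z.2).1.1 i‖
      < L := by
    have h1 : ∀ i, ∃ ρ : ℝ, ∀ z : I × ((Fin (k + 2) → I) × I),
        ‖(basC c δ z.1 z.2).1.1 i‖ ≤ ρ := by
      intro i
      have h2 : Continuous fun z : I × ((Fin (k + 2) → I) × I) => ‖(basC c δ z.1 z.2).1.1 i‖ :=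
        ((continuous_cen i).comp hHc).norm
      obtain ⟨ρ, hρ⟩ := (isCompact_univ (X := I × ((Fin (k + 2) → I) × I))).exists_bound_of_continuousOn
        h2.continuousOn
      exact ⟨ρ, fun q => by simpa using hρ q (mem_univ _)⟩
    choose ρ hρ using h1
    refine ⟨∑ i, |ρ i| + 1, fun i q => ?_⟩
    have h2 : |ρ i| ≤ ∑ i, |ρ i| :=
      Finset.single_le_sum (f := fun i => |ρ i|) (fun _ _ => abs_nonneg _) (Finset.mem_univ i)
    linarith [hρ i q, le_abs_self (ρ i)]
  let ρ : ℝ := max ρ₀ ‖w₀‖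
  have hρw : ‖w₀‖ ≤ ρ := le_max_right _ _
  have hbd : ∀ t ∈ Icc (0 : ℝ) 1, ∀ i q, ‖(Hm t q).1.1 i‖ < ρ := fun t _ i q =>
    (hρ₀ i (projIcc 0 1 zero_le_one t, q)).trans_le (le_max_left _ _)
  have hfam2 : BFam (Icc (0 : ℝ) 1) (frk k).h (fun t => shF (frk k) (Hm t) ρ)
      (fun t => nuF (frk k) (Hm t)) :=
    bFam_of_free (frk k) hHm (fun t _ q hq => basC_mem hc hδ δ.source _ hq)
      (ρ := fun _ => ρ) continuous_const hbd
  -- the path of the sheet `none`
  have hw0 : ⟪(frk k).h, w₀⟫ = 0 := by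
    have h1 : ‖(fun _ => 1 : Pk k)‖ = 1 := by
      rw [pi_norm_const]; exact norm_one
    rw [← hw (fun _ => 1) (by rw [mem_closedBall_zero_iff, h1]), real_inner_comm]
    exact hb.bh () (mem_univ _) none _ h1
  obtain ⟨γ, hγc, hγ0, hγ1, hγh, hγn⟩ := exists_far_path (frk k)
    (by have := four_le_finrank k; omega) hw0 hρw
  let B1 : ℝ → Option (Fin r) → Pk k → Vk k := fun t a x =>
    a.elim (γ t) fun i => b (some i) x
  let N1 : ℝ → Option (Fin r) → Pk k → Vk k := fun _ a x =>
    a.elim (frk k).h fun i => ν (some i) x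
  have hfam1 : BFam (Icc (0 : ℝ) 1) (frk k).h B1 N1 := by
    refine ⟨fun a => ?_, fun a => ?_, fun t ht a x hx => ?_, fun t ht x hx => ?_,
      fun t ht a x hx => ?_, fun t ht a x hx => ?_⟩
    · cases a with
      | none => exact (hγc.comp continuous_fst).continuousOn
      | some i =>
        exact (hb.cb (some i)).comp (f := fun q : ℝ × Pk k => (((), q.2) : Unit × Pk k))
          (by fun_prop) fun q hq => ⟨mem_univ _, hq.2⟩
    · cases a with
      | none => exact continuousOn_const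
      | some i =>
        exact (hb.cn (some i)).comp (f := fun q : ℝ × Pk k => (((), q.2) : Unit × Pk k))
          (by fun_prop) fun q hq => ⟨mem_univ _, hq.2⟩
    · cases a with
      | none => exact (frk k).hh
      | some i => exact hb.nn () (mem_univ _) (some i) x hx
    · have hne : ∀ i, γ t ≠ b (some i) x := fun i h => by
        have h1 := (hfar i x hx).trans_le (hγn t ht)
        rw [h] at h1
        exact lt_irrefl _ h1
      intro a a' haa'
      cases a with
      | none =>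
        cases a' with
        | none => rfl
        | some j => exact absurd haa' (hne j)
      | some i =>
        cases a' with
        | none => exact absurd haa'.symm (hne i)
        | some j => exact hb.inj () (mem_univ _) x hx haa'
    · cases a with
      | none =>
        show ⟪γ t, (frk k).h⟫ = 0
        rw [real_inner_comm]
        exact hγh t
      | some i => exact hb.bh () (mem_univ _) (some i) x hx
    · cases a with
      | none => rfl
      | some i => exact hb.nh () (mem_univ _) (some i) x hx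
  -- ends
  have l := left_mem_Icc.mpr (zero_le_one (α := ℝ))
  have rr := right_mem_Icc.mpr (zero_le_one (α := ℝ))
  have E0b : ∀ a, ∀ x ∈ closedBall (0 : Pk k) 1, b a x = B1 0 a x := by
    intro a x hx
    cases a with
    | none => exact (hw x hx).trans hγ0.symm
    | some i => rfl
  have E0n : ∀ a, ∀ x ∈ closedBall (0 : Pk k) 1, ν a x = N1 0 a x := by
    intro a x hx
    cases a with
    | none => exact hwn x hx
    | some i => rfl
  have hP0 : ∀ q, Hm 0 q = c q := fun q => by
    change basC c δ (projIcc 0 1 zero_le_one 0) q = c q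
    rw [projIcc_zero, basC_zero]
  have E1b : ∀ a, ∀ x ∈ closedBall (0 : Pk k) 1, B1 1 a x = shF (frk k) (Hm 0) ρ a x := by
    intro a x hx
    cases a with
    | none => exact hγ1
    | some i =>
      change b (some i) x = (Hm 0 (cubeM x)).1.1 i
      rw [hP0]
      change b (some i) x = b (some i) (unM (cubeM x))
      rw [unM_cubeM (mem_closedBall_zero_iff.mp hx)]
  have E1n : ∀ a, ∀ x ∈ closedBall (0 : Pk k) 1, N1 1 a x = nuF (frk k) (Hm 0) a x := by
    intro a x hx
    cases a with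
    | none => rfl
    | some i =>
      change ν (some i) x = (Hm 0 (cubeM x)).2 i
      rw [hP0]
      change ν (some i) x = ν (some i) (unM (cubeM x))
      rw [unM_cubeM (mem_closedBall_zero_iff.mp hx)]
  -- admissible parameters
  obtain ⟨ε₁, hε₁, R₁, hR₁, hA₁⟩ := exists_adm isCompact_Icc hfam1
  obtain ⟨ε₂, hε₂, R₂, hR₂, hA₂⟩ := exists_adm isCompact_Icc hfam2
  have A1 := hA₁ ε₁ ⟨hε₁, le_rfl⟩ R₁ le_rfl _ le_rfl 1 rr
  have A2 : Adm ε₁ R₁ (16 * R₁) (shF (frk k) (Hm 0) ρ) := A1.congr_ball E1b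
  have A3 := hA₂ ε₂ ⟨hε₂, le_rfl⟩ R₂ le_rfl _ le_rfl 1 rr
  let p : (frk k).BrL (Fin (k + 2)) r := toB ((frk k).bx_mem r) c δ hc hδ
  have hHp : Hm 1 = fun q => (p q.1).1 q.2 := by
    funext q
    change basC c δ (projIcc 0 1 zero_le_one 1) q = basC c δ 1 (q.1, q.2)
    rw [projIcc_one]
  have hsh : shF (frk k) (Hm 1) ρ = shB (frk k) p ρ := by rw [hHp]; rfl
  have hnu : nuF (frk k) (Hm 1) = nuB (frk k) p := by rw [hHp]; rfl
  refine ⟨⟨p, ρ, ε₂, R₂, 16 * R₂, fun i q => ?_, ?_⟩, ?_, ?_⟩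
  · have h1 := hbd 1 rr i q
    rw [hHp] at h1
    exact h1
  · rw [← hsh]
    exact A3
  · exact hasType_toB (frk k) (four_le_finrank k) c δ hc hδ G hG L hdiag hlow
      (fun i j hij => hpair i j hij) (fun i => by
        obtain ⟨N, h1, h2, h3⟩ := htw i
        exact ⟨N, fun q => Subtype.ext (h1 q), h2, h3⟩)
  · have v1 := NN_veq_of_homotopy (frk k).hh hfam1 (ha.congr_ball E0b) A1
    have v2 := NN_veq_of_homotopy (frk k).hh hfam2 A2 A3
    beta_reduce at v2
    rw [← NN_congr E0b E0n, NN_congr E1b E1n] at v1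
    rw [hsh, hnu] at v2
    exact v1.trans v2

end Vale.Agent.P268.T
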