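import Vale.Agent.P268.T.Reg

/-!
# P268, topological half: weighted homogeneous functions are of class `O`

`Wt w` is the homeomorphism of `ℂⁿ` which conjugates the linear dilation to the dilation with
weights `w`.
-/

set_option linter.unusedSectionVars false

namespace Vale.Agent.P268.T

open Set Filter Topology

section Weight

variable {n : Type*} [Fintype n]

/-- The map `x ↦ (‖x‖ ^ (w i - 1) x i)_i`. -/
noncomputable def Wt (w : n → ℝ) (x : EuclideanSpace ℂ n) : EuclideanSpace ℂ n :=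
  WithLp.toLp 2 (fun i => (‖x‖ ^ (w i - 1) : ℝ) • x i)

theorem Wt_apply (w : n → ℝ) (x : EuclideanSpace ℂ n) (i : n) :
    Wt w x i = (‖x‖ ^ (w i - 1) : ℝ) • x i := rfl

theorem Wt_zero (w : n → ℝ) : Wt w 0 = 0 := by
  ext i
  simp [Wt_apply]

theorem norm_Wt_apply (w : n → ℝ) (x : EuclideanSpace ℂ n) (i : n) :
    ‖Wt w x i‖ = ‖x‖ ^ (w i - 1) * ‖x i‖ := by
  rw [Wt_apply, norm_smul, Real.norm_eq_abs, abs_of_nonneg (Real.rpow_nonneg (norm_nonneg _) _)]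

theorem Wt_smul {w : n → ℝ} (hw : ∀ i, 0 < w i) {r : ℝ} (hr : 0 ≤ r) (x : EuclideanSpace ℂ n)
    (i : n) : Wt w (r • x) i = (r ^ (w i) : ℝ) • Wt w x i := by
  rcases hr.eq_or_lt with rfl | hr
  · rw [zero_smul, Wt_zero, Real.zero_rpow (hw i).ne', zero_smul]; rfl
  · rw [Wt_apply, Wt_apply, norm_smul, Real.norm_eq_abs, abs_of_pos hr,
      Real.mul_rpow hr.le (norm_nonneg _), PiLp.smul_apply, smul_smul, smul_smul]
    congr 1
    rw [Real.rpow_sub_one hr.ne']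
    field_simp

theorem norm_Wt_apply_le {w : n → ℝ} (x : EuclideanSpace ℂ n) (i : n) (hx : x ≠ 0) :
    ‖Wt w x i‖ ≤ ‖x‖ ^ (w i) := by
  have hx' : 0 < ‖x‖ := norm_pos_iff.mpr hx
  rw [norm_Wt_apply]
  calc ‖x‖ ^ (w i - 1) * ‖x i‖ ≤ ‖x‖ ^ (w i - 1) * ‖x‖ :=
        mul_le_mul_of_nonneg_left (PiLp.norm_apply_le x i) (Real.rpow_nonneg (norm_nonneg _) _)
    _ = ‖x‖ ^ (w i) := by rw [Real.rpow_sub_one hx'.ne']; field_simp

theorem continuous_Wt {w : n → ℝ} (hw : ∀ i, 0 < w i) : Continuous (Wt w) := by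
  refine (PiLp.continuous_toLp 2 _).comp (continuous_pi fun i => ?_)
  rw [continuous_iff_continuousAt]
  intro x
  rcases eq_or_ne x 0 with rfl | hx
  · rw [ContinuousAt]
    have h0 : (‖(0 : EuclideanSpace ℂ n)‖ ^ (w i - 1) : ℝ) • (0 : EuclideanSpace ℂ n) i = 0 := by
      simp
    rw [h0]
    have hlim : Tendsto (fun x : EuclideanSpace ℂ n => ‖x‖ ^ (w i)) (𝓝 0) (𝓝 0) := by
      have h1 : Continuous fun x : EuclideanSpace ℂ n => ‖x‖ ^ (w i) :=
        continuous_norm.rpow_const fun _ => Or.inr (hw i).le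
      have := h1.tendsto 0
      simpa [Real.zero_rpow (hw i).ne'] using this
    refine squeeze_zero_norm (fun x => ?_) hlim
    rcases eq_or_ne x 0 with rfl | hx
    · simp [Real.zero_rpow (hw i).ne']
    · exact norm_Wt_apply_le x i hx
  · have h1 : ContinuousAt (fun x : EuclideanSpace ℂ n => (‖x‖ ^ (w i - 1) : ℝ)) x :=
      continuous_norm.continuousAt.rpow_const (Or.inl (norm_ne_zero_iff.mpr hx))
    have h2 : Continuous (fun x : EuclideanSpace ℂ n => x i) := by fun_prop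
    exact h1.smul h2.continuousAt

/-- The function `r ↦ ∑ r ^ (-2 w i) ‖z i‖ ^ 2`, whose level `1` gives the radius. -/
theorem norm_sq_eq_sum (z : EuclideanSpace ℂ n) : ‖z‖ ^ 2 = ∑ i, ‖z i‖ ^ 2 :=
  EuclideanSpace.norm_sq_eq z

theorem radius_inj {w : n → ℝ} (hw : ∀ i, 0 < w i) {z : EuclideanSpace ℂ n} {r s : ℝ}
    (hr : 0 < r) (hs : 0 < s) (h1 : ∑ i, (r ^ (-w i) * ‖z i‖) ^ 2 = 1)
    (h2 : ∑ i, (s ^ (-w i) * ‖z i‖) ^ 2 = 1) : r = s := by
  have key : ∀ r s : ℝ, 0 < r → r < s → ∑ i, (r ^ (-w i) * ‖z i‖) ^ 2 = 1 →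
      ∑ i, (s ^ (-w i) * ‖z i‖) ^ 2 < 1 := by
    intro r s hr hrs h1
    rw [← h1]
    have hne : ∃ i, z i ≠ 0 := by
      by_contra hcon
      push Not at hcon
      rw [Finset.sum_eq_zero (fun i _ => by rw [hcon i]; simp)] at h1
      exact zero_ne_one h1
    obtain ⟨i, hi⟩ := hne
    have hlt : ∀ i, s ^ (-w i) < r ^ (-w i) := fun i =>
      Real.rpow_lt_rpow_of_neg hr hrs (neg_lt_zero.mpr (hw i))
    refine Finset.sum_lt_sum (fun j _ => ?_) ⟨i, Finset.mem_univ _, ?_⟩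
    · have := mul_le_mul_of_nonneg_right (hlt j).le (norm_nonneg (z j))
      exact pow_le_pow_left₀ (mul_nonneg (Real.rpow_nonneg (hr.trans hrs).le _)
        (norm_nonneg _)) this 2
    · have := mul_lt_mul_of_pos_right (hlt i) (norm_pos_iff.mpr hi)
      exact pow_lt_pow_left₀ this (mul_nonneg (Real.rpow_nonneg (hr.trans hrs).le _)
        (norm_nonneg _)) two_ne_zero
  rcases lt_trichotomy r s with h | h | h
  · exact absurd h2 (key r s hr h h1).ne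
  · exact h
  · exact absurd h1 (key s r hs h h2).ne

theorem radius_of_Wt {w : n → ℝ} {x : EuclideanSpace ℂ n} (hx : x ≠ 0) :
    ∑ i, (‖x‖ ^ (-w i) * ‖Wt w x i‖) ^ 2 = 1 := by
  have hx' : 0 < ‖x‖ := norm_pos_iff.mpr hx
  have h1 : ∀ i, ‖x‖ ^ (-w i) * ‖Wt w x i‖ = ‖x‖⁻¹ * ‖x i‖ := by
    intro i
    rw [norm_Wt_apply, ← mul_assoc, ← Real.rpow_add hx', ← Real.rpow_neg_one]
    congr 2
    ring
  simp_rw [h1, mul_pow]
  rw [← Finset.mul_sum, ← norm_sq_eq_sum]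
  field_simp

theorem injective_Wt {w : n → ℝ} (hw : ∀ i, 0 < w i) : Function.Injective (Wt w) := by
  have h0 : ∀ x, Wt w x = 0 → x = 0 := by
    intro x hx
    by_contra hne
    have h1 := radius_of_Wt (w := w) hne
    rw [hx, Finset.sum_eq_zero (fun i _ => by simp)] at h1
    exact zero_ne_one h1
  intro x y hxy
  rcases eq_or_ne x 0 with rfl | hx
  · rw [Wt_zero] at hxy
    exact (h0 y hxy.symm).symm
  · have hy : y ≠ 0 := by
      rintro rfl
      rw [Wt_zero] at hxy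
      exact hx (h0 x hxy)
    have h1 := radius_of_Wt (w := w) hx
    have h2 := radius_of_Wt (w := w) hy
    rw [hxy] at h1
    have hr : ‖x‖ = ‖y‖ := radius_inj hw (norm_pos_iff.mpr hx) (norm_pos_iff.mpr hy) h1 h2
    ext i
    have h3 : Wt w x i = Wt w y i := by rw [hxy]
    rw [Wt_apply, Wt_apply, hr] at h3
    have h4 : (‖y‖ ^ (w i - 1) : ℝ) ≠ 0 := (Real.rpow_pos_of_pos (norm_pos_iff.mpr hy) _).ne'
    exact smul_right_injective ℂ h4 h3

theorem exists_radius {w : n → ℝ} (hw : ∀ i, 0 < w i) {z : EuclideanSpace ℂ n} (hz : z ≠ 0) :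
    ∃ r : ℝ, 0 < r ∧ ∑ i, (r ^ (-w i) * ‖z i‖) ^ 2 = 1 := by
  -- substitute `r = t⁻¹`, `t ≥ 0`
  have hcont : Continuous fun t : ℝ => ∑ i, (t ^ (w i) * ‖z i‖) ^ 2 := by
    refine continuous_finsetSum _ fun i _ => ?_
    exact ((continuous_id.rpow_const fun _ => Or.inr (hw i).le).mul continuous_const).pow 2
  obtain ⟨i, hi⟩ : ∃ i, z i ≠ 0 := by
    by_contra hcon
    push Not at hcon
    exact hz (by ext i; simpa using hcon i)
  have hi' : 0 < ‖z i‖ := norm_pos_iff.mpr hi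
  have h0 : ∑ i, ((0 : ℝ) ^ (w i) * ‖z i‖) ^ 2 = 0 :=
    Finset.sum_eq_zero fun i _ => by rw [Real.zero_rpow (hw i).ne']; simp
  set t₁ : ℝ := (‖z i‖⁻¹) ^ (w i)⁻¹ with ht₁
  have ht₁0 : 0 < t₁ := Real.rpow_pos_of_pos (inv_pos.mpr hi') _
  have h1 : 1 ≤ ∑ i, (t₁ ^ (w i) * ‖z i‖) ^ 2 := by
    have h2 : (t₁ ^ (w i) * ‖z i‖) ^ 2 = 1 := by
      rw [ht₁, ← Real.rpow_mul (inv_pos.mpr hi').le, inv_mul_cancel₀ (hw i).ne', Real.rpow_one,
        inv_mul_cancel₀ hi'.ne', one_pow]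
    rw [← h2]
    exact Finset.single_le_sum (f := fun i => (t₁ ^ (w i) * ‖z i‖) ^ 2)
      (fun j _ => sq_nonneg _) (Finset.mem_univ i)
  obtain ⟨t, ht, ht1⟩ := intermediate_value_Icc ht₁0.le hcont.continuousOn
    (show (1 : ℝ) ∈ Icc _ _ from ⟨by rw [h0]; exact zero_le_one, h1⟩)
  have ht0 : 0 < t := by
    rcases ht.1.eq_or_lt with h | h
    · rw [← h] at ht1
      exact absurd (h0.symm.trans ht1) zero_ne_one
    · exact h
  refine ⟨t⁻¹, inv_pos.mpr ht0, ?_⟩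
  rw [← ht1]
  refine Finset.sum_congr rfl fun i _ => ?_
  rw [Real.inv_rpow ht0.le, Real.rpow_neg ht0.le, inv_inv]

theorem surjective_Wt {w : n → ℝ} (hw : ∀ i, 0 < w i) : Function.Surjective (Wt w) := by
  intro z
  rcases eq_or_ne z 0 with rfl | hz
  · exact ⟨0, Wt_zero w⟩
  · obtain ⟨r, hr, hr1⟩ := exists_radius hw hz
    set x : EuclideanSpace ℂ n := WithLp.toLp 2 (fun i => (r * r ^ (-w i) : ℝ) • z i) with hx
    have hxi : ∀ i, x i = (r * r ^ (-w i) : ℝ) • z i := fun i => rfl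
    have hnx : ‖x‖ = r := by
      have h1 : ‖x‖ ^ 2 = r ^ 2 := by
        rw [norm_sq_eq_sum]
        have h2 : ∀ i, ‖x i‖ ^ 2 = r ^ 2 * (r ^ (-w i) * ‖z i‖) ^ 2 := by
          intro i
          rw [hxi, norm_smul, Real.norm_eq_abs, abs_of_pos (mul_pos hr (Real.rpow_pos_of_pos hr _))]
          ring
        simp_rw [h2]
        rw [← Finset.mul_sum, hr1, mul_one]
      exact (pow_left_inj₀ (norm_nonneg _) hr.le two_ne_zero).mp h1
    refine ⟨x, ?_⟩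
    ext i
    rw [Wt_apply, hxi, hnx, smul_smul]
    have h3 : r ^ (w i - 1) * (r * r ^ (-w i)) = 1 := by
      rw [Real.rpow_sub_one hr.ne', Real.rpow_neg hr.le]
      have : r ^ (w i) ≠ 0 := (Real.rpow_pos_of_pos hr _).ne'
      field_simp
    rw [h3, one_smul]

theorem isProperMap_Wt {w : n → ℝ} (hw : ∀ i, 0 < w i) : IsProperMap (Wt w) := by
  rw [isProperMap_iff_tendsto_cocompact]
  refine ⟨continuous_Wt hw, ?_⟩
  rcases isEmpty_or_nonempty n with hn | hn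
  · have : Subsingleton (EuclideanSpace ℂ n) := ⟨fun x y => by ext i; exact hn.elim i⟩
    rw [Filter.cocompact_eq_bot]
    exact tendsto_bot
  rw [← Metric.cobounded_eq_cocompact, ← comap_norm_atTop (E := EuclideanSpace ℂ n)]
  rw [tendsto_comap_iff]
  obtain ⟨i₀, hi₀⟩ := Finite.exists_min w
  have hlim : Tendsto (fun x : EuclideanSpace ℂ n => ‖x‖ ^ (w i₀)) (comap norm atTop) atTop :=
    (tendsto_rpow_atTop (hw i₀)).comp tendsto_comap
  refine tendsto_atTop_mono' _ ?_ hlim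
  have h1 : ∀ᶠ x : EuclideanSpace ℂ n in comap norm atTop, 1 ≤ ‖x‖ :=
    tendsto_comap.eventually (eventually_ge_atTop 1)
  filter_upwards [h1] with x hx
  have hx0 : 0 < ‖x‖ := by linarith
  have h2 : ‖x‖ ^ (w i₀ - 1) * ‖x‖ = ‖x‖ ^ (w i₀) := by
    rw [Real.rpow_sub_one hx0.ne']; field_simp
  rw [← h2]
  show ‖x‖ ^ (w i₀ - 1) * ‖x‖ ≤ ‖Wt w x‖
  refine (pow_le_pow_iff_left₀ (mul_nonneg (Real.rpow_nonneg (norm_nonneg _) _) (norm_nonneg _))
    (norm_nonneg _) two_ne_zero).mp ?_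
  rw [norm_sq_eq_sum (Wt w x), mul_pow, norm_sq_eq_sum x, Finset.mul_sum]
  refine Finset.sum_le_sum fun i _ => ?_
  rw [← mul_pow, norm_Wt_apply]
  refine pow_le_pow_left₀ (mul_nonneg (Real.rpow_nonneg (norm_nonneg _) _) (norm_nonneg _)) ?_ 2
  refine mul_le_mul_of_nonneg_right ?_ (norm_nonneg _)
  exact Real.rpow_le_rpow_of_exponent_le hx (by linarith [hi₀ i])

/-- `Wt w` as a homeomorphism. -/
noncomputable def WtHomeo {w : n → ℝ} (hw : ∀ i, 0 < w i) :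
    EuclideanSpace ℂ n ≃ₜ EuclideanSpace ℂ n :=
  (isHomeomorph_iff_continuous_isClosedMap_bijective.mpr
    ⟨continuous_Wt hw, (isProperMap_Wt hw).isClosedMap, injective_Wt hw,
      surjective_Wt hw⟩).homeomorph (Wt w)

theorem WtHomeo_apply {w : n → ℝ} (hw : ∀ i, 0 < w i) (x : EuclideanSpace ℂ n) :
    WtHomeo hw x = Wt w x := rfl

theorem Wt_ne_zero {w : n → ℝ} (hw : ∀ i, 0 < w i) {x : EuclideanSpace ℂ n} (hx : x ≠ 0) :
    Wt w x ≠ 0 := fun h => hx (injective_Wt hw (h.trans (Wt_zero w).symm))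

/-! ### The derivative off the origin -/

theorem contDiffAt_Wt (w : n → ℝ) {x : EuclideanSpace ℂ n} (hx : x ≠ 0) {k : WithTop ℕ∞} :
    ContDiffAt ℝ k (Wt w) x := by
  rw [contDiffAt_piLp]
  intro i
  have h1 : ContDiffAt ℝ k (fun x : EuclideanSpace ℂ n => (‖x‖ ^ (w i - 1) : ℝ)) x :=
    (contDiffAt_norm ℝ hx).rpow_const_of_ne (norm_ne_zero_iff.mpr hx)
  have h2 : ContDiff ℝ k (fun x : EuclideanSpace ℂ n => x i) :=
    (PiLp.proj 2 (fun _ : n => ℂ) i : EuclideanSpace ℂ n →L[ℝ] ℂ).contDiff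
  exact h1.smul h2.contDiffAt

theorem real_inner_eq_sum (x y : EuclideanSpace ℂ n) :
    inner ℝ x y = ∑ i, inner ℝ (x i) (y i) := rfl

theorem hasStrictFDerivAt_norm_rpow (a : ℝ) {x : EuclideanSpace ℂ n} (hx : x ≠ 0) :
    HasStrictFDerivAt (fun x : EuclideanSpace ℂ n => ‖x‖ ^ a)
      ((a * ‖x‖ ^ (a - 2)) • innerSL ℝ x) x := by
  have hx' : 0 < ‖x‖ := norm_pos_iff.mpr hx
  have h1 := (hasStrictFDerivAt_norm_sq (F := EuclideanSpace ℂ n) x).rpow_const (p := a / 2)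
    (Or.inl (by positivity))
  have h2 : (fun x : EuclideanSpace ℂ n => (‖x‖ ^ 2) ^ (a / 2)) = fun x => ‖x‖ ^ a := by
    funext y
    rw [← Real.rpow_natCast_mul (norm_nonneg _)]
    congr 1
    push_cast
    ring
  rw [h2] at h1
  refine h1.congr_fderiv ?_
  ext v
  simp only [smul_apply, smul_eq_mul]
  rw [← Real.rpow_natCast_mul (norm_nonneg _)]
  have h3 : ((2 : ℕ) : ℝ) * (a / 2 - 1) = a - 2 := by push_cast; ring
  rw [h3]
  simp only [nsmul_eq_mul, Nat.cast_ofNat]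
  ring

theorem fderiv_Wt_apply (w : n → ℝ) {x : EuclideanSpace ℂ n} (hx : x ≠ 0)
    (v : EuclideanSpace ℂ n) (i : n) :
    fderiv ℝ (Wt w) x v i = (‖x‖ ^ (w i - 1) : ℝ) • v i +
      ((w i - 1) * ‖x‖ ^ (w i - 1 - 2) * inner ℝ x v) • x i := by
  have h1 : HasStrictFDerivAt (Wt w) (fderiv ℝ (Wt w) x) x :=
    (contDiffAt_Wt w hx (k := 1)).hasStrictFDerivAt one_ne_zero
  have h2 : HasStrictFDerivAt (fun x => Wt w x i)
      ((PiLp.proj 2 (fun _ : n => ℂ) i : EuclideanSpace ℂ n →L[ℝ] ℂ).comp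
        (fderiv ℝ (Wt w) x)) x :=
    (PiLp.proj 2 (fun _ : n => ℂ) i : EuclideanSpace ℂ n →L[ℝ] ℂ).hasStrictFDerivAt.comp x h1
  have h3 := (hasStrictFDerivAt_norm_rpow (w i - 1) hx).fun_smul
    (PiLp.proj 2 (fun _ : n => ℂ) i : EuclideanSpace ℂ n →L[ℝ] ℂ).hasStrictFDerivAt
  have h4 := h2.hasFDerivAt.unique h3.hasFDerivAt
  have h5 := congrArg (fun L : EuclideanSpace ℂ n →L[ℝ] ℂ => L v) h4
  simpa using h5

theorem injective_fderiv_Wt {w : n → ℝ} (hw : ∀ i, 0 < w i) {x : EuclideanSpace ℂ n}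
    (hx : x ≠ 0) : Function.Injective (fderiv ℝ (Wt w) x) := by
  have hx' : 0 < ‖x‖ := norm_pos_iff.mpr hx
  rw [injective_iff_map_eq_zero]
  intro v hv
  have h1 : ∀ i, v i = -(((w i - 1) * (‖x‖ ^ 2)⁻¹ * inner ℝ x v) • x i) := by
    intro i
    have h2 : fderiv ℝ (Wt w) x v i = 0 := by rw [hv]; rfl
    rw [fderiv_Wt_apply w hx, Real.rpow_sub hx' (w i - 1) 2, Real.rpow_two] at h2
    have h3 : (‖x‖ ^ (w i - 1) : ℝ) • (v i + ((w i - 1) * (‖x‖ ^ 2)⁻¹ * inner ℝ x v) • x i) = 0 := by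
      rw [← h2, smul_add, smul_smul]
      congr 2
      ring
    have h4 : (‖x‖ ^ (w i - 1) : ℝ) ≠ 0 := (Real.rpow_pos_of_pos hx' _).ne'
    exact eq_neg_of_add_eq_zero_left ((smul_eq_zero.mp h3).resolve_left h4)
  have h2 : (inner ℝ x v : ℝ) = -(∑ i, (w i - 1) * (‖x‖ ^ 2)⁻¹ * inner ℝ x v * ‖x i‖ ^ 2) := by
    conv_lhs => rw [real_inner_eq_sum]
    rw [← Finset.sum_neg_distrib]
    refine Finset.sum_congr rfl fun i _ => ?_
    rw [h1 i, inner_neg_right, inner_smul_right, real_inner_self_eq_norm_sq]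
  obtain ⟨j, hj⟩ : ∃ i, x i ≠ 0 := by
    by_contra hcon
    push Not at hcon
    exact hx (by ext i; simpa using hcon i)
  have hS : 0 < ∑ i, w i * ‖x i‖ ^ 2 := by
    refine Finset.sum_pos' (fun i _ => mul_nonneg (hw i).le (sq_nonneg _)) ⟨j, Finset.mem_univ _, ?_⟩
    exact mul_pos (hw j) (pow_pos (norm_pos_iff.mpr hj) 2)
  have h4 : ∑ i, (w i - 1) * (‖x‖ ^ 2)⁻¹ * inner ℝ x v * ‖x i‖ ^ 2 =
      (‖x‖ ^ 2)⁻¹ * inner ℝ x v * (∑ i, w i * ‖x i‖ ^ 2 - ‖x‖ ^ 2) := by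
    rw [norm_sq_eq_sum x, ← Finset.sum_sub_distrib, Finset.mul_sum]
    refine Finset.sum_congr rfl fun i _ => ?_
    ring
  have h5 : (inner ℝ x v : ℝ) = 0 := by
    rw [h4] at h2
    have h6 : (‖x‖ ^ 2)⁻¹ * inner ℝ x v * ∑ i, w i * ‖x i‖ ^ 2 = 0 := by
      have h7 : (‖x‖ ^ 2)⁻¹ * ‖x‖ ^ 2 = 1 := inv_mul_cancel₀ (by positivity)
      linear_combination h2 + inner ℝ x v * h7
    rcases mul_eq_zero.mp h6 with h7 | h7
    · rcases mul_eq_zero.mp h7 with h8 | h8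
      · exact absurd h8 (by positivity)
      · exact h8
    · exact absurd h7 hS.ne'
  ext i
  rw [h1 i, h5, mul_zero, zero_smul, neg_zero]
  rfl

/-- The derivative of `Wt w` off the origin is invertible. -/
theorem bijective_fderiv_Wt {w : n → ℝ} (hw : ∀ i, 0 < w i) {x : EuclideanSpace ℂ n}
    (hx : x ≠ 0) : Function.Bijective (fderiv ℝ (Wt w) x) :=
  ⟨injective_fderiv_Wt hw hx,
    (LinearMap.injective_iff_surjective
      (f := (fderiv ℝ (Wt w) x : EuclideanSpace ℂ n →ₗ[ℝ] EuclideanSpace ℂ n))).mp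
      (injective_fderiv_Wt hw hx)⟩

/-! ### Weighted homogeneous functions -/

variable {Z : Type*} [NormedAddCommGroup Z] [NormedSpace ℝ Z] {T : Type*} [TopologicalSpace T]

/-- The coordinates of `Wt w x`. -/
noncomputable def Wc (w : n → ℝ) (x : EuclideanSpace ℂ n) : n → ℂ := (Wt w x).ofLp

theorem Wc_apply (w : n → ℝ) (x : EuclideanSpace ℂ n) (i : n) :
    Wc w x i = (‖x‖ ^ (w i - 1) : ℝ) • x i := rfl

theorem continuous_Wc {w : n → ℝ} (hw : ∀ i, 0 < w i) : Continuous (Wc w) :=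
  (PiLp.continuous_ofLp 2 _).comp (continuous_Wt hw)

theorem Wc_zero (w : n → ℝ) : Wc w 0 = 0 := by
  rw [Wc, Wt_zero]; rfl

theorem Wc_ne_zero {w : n → ℝ} (hw : ∀ i, 0 < w i) {x : EuclideanSpace ℂ n} (hx : x ≠ 0) :
    Wc w x ≠ 0 := fun h => Wt_ne_zero hw hx (by ext i; exact congrFun h i)

theorem Wc_smul {w : n → ℝ} (hw : ∀ i, 0 < w i) {r : ℝ} (hr : 0 ≤ r) (x : EuclideanSpace ℂ n) :
    Wc w (r • x) = fun i => (r ^ (w i) : ℝ) • Wc w x i :=
  funext fun i => Wt_smul hw hr x i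

/-- The homeomorphism `Wc w` between the euclidean space and the space of coordinates. -/
noncomputable def WcHomeo {w : n → ℝ} (hw : ∀ i, 0 < w i) : EuclideanSpace ℂ n ≃ₜ (n → ℂ) :=
  (WtHomeo hw).trans (PiLp.homeomorph 2 (fun _ : n => ℂ))

theorem WcHomeo_apply {w : n → ℝ} (hw : ∀ i, 0 < w i) (x : EuclideanSpace ℂ n) :
    WcHomeo hw x = Wc w x := rfl

theorem contDiffAt_Wc (w : n → ℝ) {x : EuclideanSpace ℂ n} (hx : x ≠ 0) {k : WithTop ℕ∞} :
    ContDiffAt ℝ k (Wc w) x :=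
  contDiffAt_pi.mpr fun i => contDiffAt_piLp (p := 2) |>.mp (contDiffAt_Wt w hx) i

theorem surjective_fderiv_Wc {w : n → ℝ} (hw : ∀ i, 0 < w i) {x : EuclideanSpace ℂ n}
    (hx : x ≠ 0) : Function.Surjective (fderiv ℝ (Wc w) x) := by
  have h1 : HasFDerivAt (Wt w) (fderiv ℝ (Wt w) x) x :=
    ((contDiffAt_Wt w hx (k := 1)).differentiableAt one_ne_zero).hasFDerivAt
  have h2 : HasFDerivAt (Wc w) ((PiLp.continuousLinearEquiv 2 ℝ (fun _ : n => ℂ) :
      EuclideanSpace ℂ n →L[ℝ] (n → ℂ)).comp (fderiv ℝ (Wt w) x)) x :=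
    (PiLp.continuousLinearEquiv 2 ℝ (fun _ : n => ℂ)).hasFDerivAt.comp x h1
  rw [h2.fderiv]
  exact (PiLp.continuousLinearEquiv 2 ℝ (fun _ : n => ℂ)).surjective.comp
    (bijective_fderiv_Wt hw hx).2

/-- Regularity of weighted homogeneous families. -/
theorem regAt_weighted [FiniteDimensional ℝ Z] {w : n → ℝ} (hw : ∀ i, 0 < w i) {s : Set T}
    {p : T → (n → ℂ) → Z} {D : T → (n → ℂ) → ((n → ℂ) →L[ℝ] Z)} {D₀ : (n → ℂ) →L[ℝ] Z} {t₀ : T}
    {x₀ : EuclideanSpace ℂ n} (hx₀ : x₀ ≠ 0)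
    (hD : ∀ᶠ q : T × (n → ℂ) in 𝓝[s] t₀ ×ˢ 𝓝 (Wc w x₀), HasFDerivAt (p q.1) (D q.1 q.2) q.2)
    (hlim : Tendsto (fun q : T × (n → ℂ) => D q.1 q.2) (𝓝[s] t₀ ×ˢ 𝓝 (Wc w x₀)) (𝓝 D₀))
    (hsurj : Function.Surjective D₀) : RegAt s (fun t x => p t (Wc w x)) t₀ x₀ := by
  have hmap : Tendsto (fun q : T × EuclideanSpace ℂ n => (q.1, Wc w q.2))
      (𝓝[s] t₀ ×ˢ 𝓝 x₀) (𝓝[s] t₀ ×ˢ 𝓝 (Wc w x₀)) :=
    Tendsto.prodMap tendsto_id ((continuous_Wc hw).tendsto x₀)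
  have hW1 : ∀ᶠ x in 𝓝 x₀, HasFDerivAt (Wc w) (fderiv ℝ (Wc w) x) x := by
    filter_upwards [isOpen_ne.mem_nhds hx₀] with x hx
    exact ((contDiffAt_Wc w hx (k := 1)).differentiableAt one_ne_zero).hasFDerivAt
  have hW2 : Tendsto (fderiv ℝ (Wc w)) (𝓝 x₀) (𝓝 (fderiv ℝ (Wc w) x₀)) :=
    (contDiffAt_Wc w hx₀ (k := 1)).continuousAt_fderiv one_ne_zero
  refine RegAt.of_fderiv (D := fun t x => (D t (Wc w x)).comp (fderiv ℝ (Wc w) x))
    (F' := D₀.comp (fderiv ℝ (Wc w) x₀)) ?_ ?_ (hsurj.comp (surjective_fderiv_Wc hw hx₀))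
  · filter_upwards [hmap.eventually hD, tendsto_snd.eventually hW1] with q e1 e2
    exact e1.comp q.2 e2
  · have hc : Continuous fun q : ((n → ℂ) →L[ℝ] Z) × (EuclideanSpace ℂ n →L[ℝ] (n → ℂ)) =>
        q.1.comp q.2 := continuous_fst.clm_comp continuous_snd
    exact (hc.tendsto (D₀, fderiv ℝ (Wc w) x₀)).comp
      ((hlim.comp hmap).prodMk_nhds (hW2.comp tendsto_snd))

theorem surjective_restrictScalars {V : Type*} [NormedAddCommGroup V] [NormedSpace ℂ V]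
    {L : V →L[ℂ] ℂ} (hL : L ≠ 0) : Function.Surjective (L.restrictScalars ℝ) := by
  have h1 : Function.Surjective (L : V →ₗ[ℂ] ℂ) := by
    apply LinearMap.surjective
    intro h0
    apply hL
    ext v
    exact LinearMap.congr_fun h0 v
  exact h1

/-- A family of holomorphic functions which are weighted homogeneous with the same weights,
each with the origin as only critical point. -/
structure WFam (w : n → ℝ) (s : Set T) (p : T → (n → ℂ) → ℂ) : Prop where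
  cont : ContinuousOn (fun q : T × (n → ℂ) => p q.1 q.2) (s ×ˢ univ)
  hom : ∀ t ∈ s, ∀ r : ℝ, 0 ≤ r → ∀ z, p t (fun i => (r ^ (w i) : ℝ) • z i) = r • p t z
  diff : ∀ t ∈ s, Differentiable ℂ (p t)
  cont' : ContinuousOn (fun q : T × (n → ℂ) => fderiv ℂ (p q.1) q.2) (s ×ˢ univ)
  crit : ∀ t ∈ s, ∀ z, fderiv ℂ (p t) z = 0 → z = 0

theorem WFam.oFam {w : n → ℝ} (hw : ∀ i, 0 < w i) {s : Set T} {p : T → (n → ℂ) → ℂ}
    (h : WFam w s p) : OFam s (fun t x => p t (Wc w x)) where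
  cont := by
    have h1 : ContinuousOn (fun q : T × EuclideanSpace ℂ n => (q.1, Wc w q.2)) (s ×ˢ univ) :=
      (continuous_fst.prodMk ((continuous_Wc hw).comp continuous_snd)).continuousOn
    exact h.cont.comp h1 (fun q hq => ⟨hq.1, mem_univ _⟩)
  hom := fun t ht r hr x => by
    show p t (Wc w (r • x)) = r • p t (Wc w x)
    rw [Wc_smul hw hr, h.hom t ht r hr]
  reg := fun t ht x hx => by
    have hz : Wc w x ≠ 0 := Wc_ne_zero hw hx
    have hmem : ∀ᶠ q : T × (n → ℂ) in 𝓝[s] t ×ˢ 𝓝 (Wc w x), q.1 ∈ s :=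
      tendsto_fst.eventually (eventually_mem_nhdsWithin)
    have hcont : Tendsto (fun q : T × (n → ℂ) => fderiv ℂ (p q.1) q.2)
        (𝓝[s] t ×ˢ 𝓝 (Wc w x)) (𝓝 (fderiv ℂ (p t) (Wc w x))) := by
      have h1 := h.cont' (t, Wc w x) ⟨ht, mem_univ _⟩
      rw [ContinuousWithinAt, nhdsWithin_prod_eq, nhdsWithin_univ] at h1
      exact h1
    refine regAt_weighted hw hx (D := fun t z => (fderiv ℂ (p t) z).restrictScalars ℝ)
      (D₀ := (fderiv ℂ (p t) (Wc w x)).restrictScalars ℝ) ?_ ?_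
      (surjective_restrictScalars fun h0 => hz (h.crit t ht _ h0))
    · filter_upwards [hmem] with q hq
      exact ((h.diff q.1 hq) q.2).hasFDerivAt.restrictScalars ℝ
    · exact ((ContinuousLinearMap.restrictScalarsL ℂ (n → ℂ) ℂ ℝ ℝ).continuous.tendsto _).comp
        hcont

/-- A single weighted homogeneous function as a constant family. -/
theorem WFam.const {w : n → ℝ} {p : (n → ℂ) → ℂ}
    (hom : ∀ r : ℝ, 0 ≤ r → ∀ z, p (fun i => (r ^ (w i) : ℝ) • z i) = r • p z)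
    (hp : ContDiff ℂ 1 p) (crit : ∀ z, fderiv ℂ p z = 0 → z = 0) (s : Set T) :
    WFam w s (fun _ => p) where
  cont := (hp.continuous.comp continuous_snd).continuousOn
  hom := fun _ _ => hom
  diff := fun _ _ => hp.differentiable one_ne_zero
  cont' := ((hp.continuous_fderiv one_ne_zero).comp continuous_snd).continuousOn
  crit := fun _ _ => crit

end Weight

end Vale.Agent.P268.T
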