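import Vale.Agent.P268.T.RS
import Vale.Agent.P268.T.H
import Vale.Agent.P268.T.Weight

/-!
# P268, topological half: loops of unfoldings of weighted homogeneous functions

`M q z` is a family of holomorphic functions of `z`, weighted homogeneous together with the
parameter `q` (scaling `δ r q`), and `q t : W → V` is homogeneous for `δ`.  Then
`(x, y) ↦ M (q t y) (Z2 w x ‖y‖)` is homogeneous of degree one; it is regular wherever
`z ↦ M (q t y) z` is regular or `y ↦ M (q t y) z` is regular for fixed `z`.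
-/

set_option linter.unusedSectionVars false

namespace Vale.Agent.P268.T

open Set Filter Topology

section Z2

variable {n : Type*} [Fintype n]

/-- The weights of `Option n`: weight one for the new coordinate. -/
def optW (w : n → ℝ) (o : Option n) : ℝ := o.elim 1 w

theorem optW_pos {w : n → ℝ} (hw : ∀ i, 0 < w i) (o : Option n) : 0 < optW w o := by
  cases o with
  | none => exact one_pos
  | some i => exact hw i

/-- The point `(s, x)` of the larger euclidean space, linear version. -/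
noncomputable def JL (n : Type*) [Fintype n] :
    (EuclideanSpace ℂ n × ℝ) →ₗ[ℝ] EuclideanSpace ℂ (Option n) where
  toFun p := WithLp.toLp 2 (fun o : Option n => o.elim (p.2 : ℂ) p.1)
  map_add' p q := by
    ext o
    cases o with
    | none => simp
    | some i => simp
  map_smul' r p := by
    ext o
    cases o with
    | none => simp
    | some i => simp

/-- The point `(s, x)` of the larger euclidean space. -/
noncomputable def J (n : Type*) [Fintype n] :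
    (EuclideanSpace ℂ n × ℝ) →L[ℝ] EuclideanSpace ℂ (Option n) :=
  LinearMap.toContinuousLinearMap (JL n)

theorem J_some (x : EuclideanSpace ℂ n) (s : ℝ) (i : n) : J n (x, s) (some i) = x i := rfl

theorem J_none (x : EuclideanSpace ℂ n) (s : ℝ) : J n (x, s) none = (s : ℂ) := rfl

/-- The radius. -/
noncomputable def rho (x : EuclideanSpace ℂ n) (s : ℝ) : ℝ := Real.sqrt (‖x‖ ^ 2 + s ^ 2)

theorem norm_J (x : EuclideanSpace ℂ n) (s : ℝ) : ‖J n (x, s)‖ = rho x s := by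
  rw [rho, ← Real.sqrt_sq (norm_nonneg (J n (x, s)))]
  congr 1
  rw [norm_sq_eq_sum, norm_sq_eq_sum, Fintype.sum_option, J_none, Complex.norm_real,
    Real.norm_eq_abs, sq_abs, add_comm]
  rfl

/-- The weighted coordinates: `Z2 w x s i = ρ ^ (w i - 1) • x i`, `ρ² = ‖x‖² + s²`. -/
noncomputable def Z2 (w : n → ℝ) (x : EuclideanSpace ℂ n) (s : ℝ) (i : n) : ℂ :=
  (rho x s ^ (w i - 1) : ℝ) • x i

theorem Z2_apply (w : n → ℝ) (x : EuclideanSpace ℂ n) (s : ℝ) (i : n) :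
    Z2 w x s i = (rho x s ^ (w i - 1) : ℝ) • x i := rfl

theorem Z2_eq (w : n → ℝ) (x : EuclideanSpace ℂ n) (s : ℝ) (i : n) :
    Z2 w x s i = Wc (optW w) (J n (x, s)) (some i) := by
  rw [Wc_apply, norm_J]
  rfl

theorem Z2_zero_right (w : n → ℝ) (x : EuclideanSpace ℂ n) : Z2 w x 0 = Wc w x := by
  funext i
  rw [Z2, Wc_apply, rho]
  simp [Real.sqrt_sq (norm_nonneg x)]

theorem Z2_zero_left (w : n → ℝ) (s : ℝ) : Z2 w (0 : EuclideanSpace ℂ n) s = 0 := by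
  funext i
  simp [Z2]

/-- Forgetting the new coordinate. -/
noncomputable def tailL (n : Type*) [Fintype n] : (Option n → ℂ) →L[ℝ] (n → ℂ) :=
  LinearMap.toContinuousLinearMap
    { toFun := fun z i => z (some i)
      map_add' := fun _ _ => rfl
      map_smul' := fun _ _ => rfl }

theorem tailL_apply (z : Option n → ℂ) (i : n) : tailL n z i = z (some i) := rfl

theorem Z2_fun (w : n → ℝ) (p : EuclideanSpace ℂ n × ℝ) :
    Z2 w p.1 p.2 = tailL n (Wc (optW w) (J n p)) := funext fun i => Z2_eq w p.1 p.2 i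

theorem continuous_Z2 {w : n → ℝ} (hw : ∀ i, 0 < w i) :
    Continuous fun p : EuclideanSpace ℂ n × ℝ => Z2 w p.1 p.2 := by
  have : (fun p : EuclideanSpace ℂ n × ℝ => Z2 w p.1 p.2) =
      fun p => tailL n (Wc (optW w) (J n p)) := funext fun p => Z2_fun w p
  rw [this]
  exact (tailL n).continuous.comp ((continuous_Wc (optW_pos hw)).comp (J n).continuous)

theorem rho_smul {r : ℝ} (hr : 0 ≤ r) (x : EuclideanSpace ℂ n) (s : ℝ) :
    rho (r • x) (r * s) = r * rho x s := by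
  rw [rho, rho, norm_smul, Real.norm_eq_abs, abs_of_nonneg hr]
  rw [show (r * ‖x‖) ^ 2 + (r * s) ^ 2 = r ^ 2 * (‖x‖ ^ 2 + s ^ 2) by ring,
    Real.sqrt_mul (sq_nonneg r), Real.sqrt_sq hr]

theorem rho_nonneg (x : EuclideanSpace ℂ n) (s : ℝ) : 0 ≤ rho x s := Real.sqrt_nonneg _

theorem rho_pos {x : EuclideanSpace ℂ n} {s : ℝ} (h : x ≠ 0 ∨ s ≠ 0) : 0 < rho x s := by
  rw [rho, Real.sqrt_pos]
  rcases h with h | h
  · have := norm_pos_iff.mpr h
    positivity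
  · have := sq_pos_of_ne_zero h
    positivity

theorem Z2_smul {w : n → ℝ} (hw : ∀ i, 0 < w i) {r : ℝ} (hr : 0 ≤ r)
    (x : EuclideanSpace ℂ n) (s : ℝ) :
    Z2 w (r • x) (r * s) = fun i => (r ^ (w i) : ℝ) • Z2 w x s i := by
  funext i
  rcases hr.eq_or_lt with rfl | hr
  · rw [Real.zero_rpow (hw i).ne', zero_smul, zero_smul, Z2_zero_left]
    rfl
  · rw [Z2, Z2, rho_smul hr.le, Real.mul_rpow hr.le (rho_nonneg x s), PiLp.smul_apply, smul_smul,
      smul_smul]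
    congr 1
    rw [show r ^ (w i - 1) * rho x s ^ (w i - 1) * r = (r ^ (w i - 1) * r) * rho x s ^ (w i - 1) by
      ring]
    congr 1
    rw [← Real.rpow_add_one hr.ne', sub_add_cancel]

theorem J_ne_zero {x : EuclideanSpace ℂ n} {s : ℝ} (h : x ≠ 0 ∨ s ≠ 0) : J n (x, s) ≠ 0 := by
  rw [← norm_pos_iff, norm_J]
  exact rho_pos h

theorem contDiffAt_Z2 (w : n → ℝ) {x : EuclideanSpace ℂ n} {s : ℝ} (h : x ≠ 0 ∨ s ≠ 0) :
    ContDiffAt ℝ 1 (fun p : EuclideanSpace ℂ n × ℝ => Z2 w p.1 p.2) (x, s) := by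
  have : (fun p : EuclideanSpace ℂ n × ℝ => Z2 w p.1 p.2) =
      fun p => tailL n (Wc (optW w) (J n p)) := funext fun p => Z2_fun w p
  rw [this]
  exact (tailL n).contDiff.contDiffAt.comp _
    ((contDiffAt_Wc (optW w) (J_ne_zero h)).comp _ (J n).contDiff.contDiffAt)

/-- The partial derivative of `Z2` with respect to `x`. -/
noncomputable def DZ2 (w : n → ℝ) (x : EuclideanSpace ℂ n) (s : ℝ) :
    EuclideanSpace ℂ n →L[ℝ] (n → ℂ) :=
  (fderiv ℝ (fun p : EuclideanSpace ℂ n × ℝ => Z2 w p.1 p.2) (x, s)).comp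
    (ContinuousLinearMap.inl ℝ (EuclideanSpace ℂ n) ℝ)

theorem hasFDerivAt_Z2 (w : n → ℝ) {x : EuclideanSpace ℂ n} {s : ℝ} (h : x ≠ 0 ∨ s ≠ 0) :
    HasFDerivAt (fun x => Z2 w x s) (DZ2 w x s) x := by
  have h1 := ((contDiffAt_Z2 w h).differentiableAt one_ne_zero).hasFDerivAt
  have h2 : HasFDerivAt (fun x : EuclideanSpace ℂ n => (x, s))
      (ContinuousLinearMap.inl ℝ (EuclideanSpace ℂ n) ℝ) x := hasFDerivAt_prodMk_left x s
  exact HasFDerivAt.comp (f := fun x : EuclideanSpace ℂ n => (x, s)) x h1 h2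

theorem continuousAt_DZ2 (w : n → ℝ) {x : EuclideanSpace ℂ n} {s : ℝ} (h : x ≠ 0 ∨ s ≠ 0) :
    ContinuousAt (fun p : EuclideanSpace ℂ n × ℝ => DZ2 w p.1 p.2) (x, s) := by
  have h1 := (contDiffAt_Z2 w h).continuousAt_fderiv one_ne_zero
  exact ContinuousAt.clm_comp h1 continuousAt_const

theorem surjective_DZ2 {w : n → ℝ} (hw : ∀ i, 0 < w i) {x : EuclideanSpace ℂ n} {s : ℝ}
    (h : x ≠ 0 ∨ s ≠ 0) : Function.Surjective (DZ2 w x s) := by
  classical
  have hne := J_ne_zero h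
  have hW : HasFDerivAt (Wc (optW w)) (fderiv ℝ (Wc (optW w)) (J n (x, s))) (J n (x, s)) :=
    ((contDiffAt_Wc (optW w) hne (k := 1)).differentiableAt one_ne_zero).hasFDerivAt
  have h1 : HasFDerivAt (fun x => Z2 w x s)
      ((tailL n).comp ((fderiv ℝ (Wc (optW w)) (J n (x, s))).comp ((J n).comp
        (ContinuousLinearMap.inl ℝ (EuclideanSpace ℂ n) ℝ)))) x := by
    have e : (fun x => Z2 w x s) =
        fun x => tailL n (Wc (optW w) (J n (x, s))) := funext fun x => Z2_fun w (x, s)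
    rw [e]
    have h2 : HasFDerivAt (fun x : EuclideanSpace ℂ n => J n (x, s))
        ((J n).comp (ContinuousLinearMap.inl ℝ (EuclideanSpace ℂ n) ℝ)) x :=
      HasFDerivAt.comp (f := fun x : EuclideanSpace ℂ n => (x, s)) x
        ((J n).hasFDerivAt) (hasFDerivAt_prodMk_left x s)
    have h3 := HasFDerivAt.comp (f := fun x : EuclideanSpace ℂ n => J n (x, s)) x hW h2
    exact HasFDerivAt.comp (f := fun x : EuclideanSpace ℂ n => Wc (optW w) (J n (x, s))) x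
      ((tailL n).hasFDerivAt) h3
  rw [(hasFDerivAt_Z2 w h).unique h1]
  intro ζ
  -- the derivative of `Wc` is surjective
  obtain ⟨η, hη⟩ := surjective_fderiv_Wc (optW_pos hw) hne
    (fun o : Option n => o.elim 0 ζ)
  -- the new coordinate of `η` vanishes
  have h0 : η none = 0 := by
    have h4 : HasFDerivAt (fun y : EuclideanSpace ℂ (Option n) => Wc (optW w) y none)
        ((ContinuousLinearMap.proj (R := ℝ) (φ := fun _ : Option n => ℂ) none).comp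
          (fderiv ℝ (Wc (optW w)) (J n (x, s)))) (J n (x, s)) :=
      HasFDerivAt.comp (f := Wc (optW w)) _
        (ContinuousLinearMap.proj (R := ℝ) (φ := fun _ : Option n => ℂ) none).hasFDerivAt hW
    have h5 : (fun y : EuclideanSpace ℂ (Option n) => Wc (optW w) y none) =
        fun y => (EuclideanSpace.proj (none : Option n) : EuclideanSpace ℂ (Option n) →L[ℂ] ℂ) y := by
      funext y
      rw [Wc_apply]
      simp [optW]
    rw [h5] at h4
    have h6 : HasFDerivAt (fun y : EuclideanSpace ℂ (Option n) =>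
        (EuclideanSpace.proj (none : Option n) : EuclideanSpace ℂ (Option n) →L[ℂ] ℂ) y)
        ((EuclideanSpace.proj (none : Option n) :
          EuclideanSpace ℂ (Option n) →L[ℂ] ℂ).restrictScalars ℝ) (J n (x, s)) :=
      (EuclideanSpace.proj (none : Option n) :
        EuclideanSpace ℂ (Option n) →L[ℂ] ℂ).hasFDerivAt.restrictScalars ℝ
    have h7 := congrArg (fun L : EuclideanSpace ℂ (Option n) →L[ℝ] ℂ => L η) (h4.unique h6)
    have h8 : (fderiv ℝ (Wc (optW w)) (J n (x, s))) η none = η none := h7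
    rw [hη] at h8
    exact h8.symm
  refine ⟨WithLp.toLp 2 fun i => η (some i), ?_⟩
  have h9 : J n (WithLp.toLp 2 fun i => η (some i), 0) = η := by
    ext o
    cases o with
    | none => rw [J_none, h0]; simp
    | some i => rfl
  show tailL n ((fderiv ℝ (Wc (optW w)) (J n (x, s))) (J n (WithLp.toLp 2 fun i => η (some i), 0)))
    = ζ
  rw [h9, hη]
  rfl

end Z2

attribute [irreducible] Z2 rho

section Main

variable {n : Type*} [Fintype n] {V : Type*} [NormedAddCommGroup V] [NormedSpace ℝ V]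
  {W : Type*} [NormedAddCommGroup W] [NormedSpace ℝ W] {T : Type*} [TopologicalSpace T]

/-- An unfolding `M q`, `q ∈ V`, of a weighted homogeneous function: `M q` is holomorphic,
`M (δ r q) (r^w z) = r M q z`, and `M (δ 0 q)` has no critical point off the origin. -/
structure WUnf (w : n → ℝ) (δ : ℝ → V → V) (M : V → (n → ℂ) → ℂ) : Prop where
  cont : Continuous fun p : V × (n → ℂ) => M p.1 p.2
  diff : ∀ q, Differentiable ℂ (M q)
  cont' : Continuous fun p : V × (n → ℂ) => fderiv ℂ (M p.1) p.2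
  hom : ∀ r : ℝ, 0 ≤ r → ∀ q z, M (δ r q) (fun i => (r ^ (w i) : ℝ) • z i) = r • M q z
  crit : ∀ q z, fderiv ℂ (M (δ 0 q)) z = 0 → z = 0

/-- Families of homogeneous maps `q t : W → V`. -/
structure WLoop (δ : ℝ → V → V) (s : Set T) (q : T → W → V) : Prop where
  cont : ContinuousOn (fun p : T × W => q p.1 p.2) (s ×ˢ univ)
  hom : ∀ t ∈ s, ∀ r : ℝ, 0 ≤ r → ∀ y, q t (r • y) = δ r (q t y)

/-- The function defined by a homogeneous map `q` and an unfolding. -/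
noncomputable def wfun (w : n → ℝ) (M : V → (n → ℂ) → ℂ) (q : W → V)
    (p : EuclideanSpace ℂ n × W) : ℂ := M (q p.2) (Z2 w p.1 ‖p.2‖)

variable {w : n → ℝ} {δ : ℝ → V → V} {M : V → (n → ℂ) → ℂ} {s : Set T} {q : T → W → V}

theorem hom1_wfun (hw : ∀ i, 0 < w i) (hM : WUnf w δ M) {q : W → V}
    (hq : ∀ r : ℝ, 0 ≤ r → ∀ y, q (r • y) = δ r (q y)) : Hom1 (wfun w M q) := by
  rintro r hr ⟨x, y⟩
  show M (q (r • y)) (Z2 w (r • x) ‖r • y‖) = r • M (q y) (Z2 w x ‖y‖)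
  rw [norm_smul, Real.norm_eq_abs, abs_of_nonneg hr, hq r hr, Z2_smul hw hr, hM.hom r hr]

theorem continuousOn_wfun (hw : ∀ i, 0 < w i) (hM : WUnf w δ M) (hq : WLoop δ s q) :
    ContinuousOn (fun p : T × (EuclideanSpace ℂ n × W) => wfun w M (q p.1) p.2) (s ×ˢ univ) := by
  have h1 : ContinuousOn (fun p : T × (EuclideanSpace ℂ n × W) => (p.1, p.2.2)) (s ×ˢ univ) :=
    (continuous_fst.prodMk (continuous_snd.comp continuous_snd)).continuousOn
  have h2 : ContinuousOn (fun p : T × (EuclideanSpace ℂ n × W) => q p.1 p.2.2) (s ×ˢ univ) :=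
    hq.cont.comp h1 (fun p hp => ⟨hp.1, mem_univ _⟩)
  have h3 : Continuous fun p : T × (EuclideanSpace ℂ n × W) => (p.2.1, ‖p.2.2‖) :=
    (continuous_fst.comp continuous_snd).prodMk (continuous_snd.comp continuous_snd).norm
  have h4 : ContinuousOn (fun p : T × (EuclideanSpace ℂ n × W) => Z2 w p.2.1 ‖p.2.2‖)
      (s ×ˢ univ) := ((continuous_Z2 hw).comp h3).continuousOn
  exact hM.cont.comp_continuousOn (h2.prodMk h4)

/-- Regularity from the derivative in the direction of `z`, with general parameters. -/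
theorem RegAt.fibreZ2 {B : Type*} [TopologicalSpace B] {S : Set B} {Q : B → V} {σ : B → ℝ}
    {b₀ : B} (hw : ∀ i, 0 < w i) (hM : WUnf w δ M) (hQ : Tendsto Q (𝓝[S] b₀) (𝓝 (Q b₀)))
    (hσ : Tendsto σ (𝓝[S] b₀) (𝓝 (σ b₀))) {x₀ : EuclideanSpace ℂ n}
    (hne : x₀ ≠ 0 ∨ σ b₀ ≠ 0) (hD : fderiv ℂ (M (Q b₀)) (Z2 w x₀ (σ b₀)) ≠ 0) :
    RegAt S (fun b x => M (Q b) (Z2 w x (σ b))) b₀ x₀ := by
  have hx0 : Tendsto (fun p : B × EuclideanSpace ℂ n => (p.2, σ p.1))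
      (𝓝[S] b₀ ×ˢ 𝓝 x₀) (𝓝 (x₀, σ b₀)) :=
    tendsto_snd.prodMk_nhds (hσ.comp tendsto_fst)
  have hz0 : Tendsto (fun p : B × EuclideanSpace ℂ n => Z2 w p.2 (σ p.1))
      (𝓝[S] b₀ ×ˢ 𝓝 x₀) (𝓝 (Z2 w x₀ (σ b₀))) :=
    ((continuous_Z2 hw).tendsto (x₀, σ b₀)).comp hx0
  have hDM : Tendsto (fun p : B × EuclideanSpace ℂ n =>
      (fderiv ℂ (M (Q p.1)) (Z2 w p.2 (σ p.1))).restrictScalars ℝ)
      (𝓝[S] b₀ ×ˢ 𝓝 x₀)
      (𝓝 ((fderiv ℂ (M (Q b₀)) (Z2 w x₀ (σ b₀))).restrictScalars ℝ)) := by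
    have h1 : Tendsto (fun p : B × EuclideanSpace ℂ n => (Q p.1, Z2 w p.2 (σ p.1)))
        (𝓝[S] b₀ ×ˢ 𝓝 x₀) (𝓝 (Q b₀, Z2 w x₀ (σ b₀))) :=
      (hQ.comp tendsto_fst).prodMk_nhds hz0
    have h2 := (hM.cont'.tendsto (Q b₀, Z2 w x₀ (σ b₀))).comp h1
    exact ((ContinuousLinearMap.restrictScalarsL ℂ (n → ℂ) ℂ ℝ ℝ).continuous.tendsto _).comp h2
  have hDZ : Tendsto (fun p : B × EuclideanSpace ℂ n => DZ2 w p.2 (σ p.1))
      (𝓝[S] b₀ ×ˢ 𝓝 x₀) (𝓝 (DZ2 w x₀ (σ b₀))) :=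
    (continuousAt_DZ2 w hne).tendsto.comp hx0
  have hne' : ∀ᶠ p : B × EuclideanSpace ℂ n in 𝓝[S] b₀ ×ˢ 𝓝 x₀, p.2 ≠ 0 ∨ σ p.1 ≠ 0 := by
    rcases hne with h1 | h1
    · have := (tendsto_snd (f := 𝓝[S] b₀) (g := 𝓝 x₀)).eventually_ne h1
      filter_upwards [this] with p hp using Or.inl hp
    · have := (hσ.comp (tendsto_fst (g := 𝓝 x₀))).eventually_ne h1
      filter_upwards [this] with p hp using Or.inr hp
  refine RegAt.of_fderiv (D := fun b x =>
    ((fderiv ℂ (M (Q b)) (Z2 w x (σ b))).restrictScalars ℝ).comp (DZ2 w x (σ b)))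
    (F' := ((fderiv ℂ (M (Q b₀)) (Z2 w x₀ (σ b₀))).restrictScalars ℝ).comp (DZ2 w x₀ (σ b₀)))
    ?_ ?_ ((surjective_restrictScalars hD).comp (surjective_DZ2 hw hne))
  · filter_upwards [hne'] with p hp
    exact HasFDerivAt.comp (f := fun x => Z2 w x (σ p.1)) p.2
      ((hM.diff _ _).hasFDerivAt.restrictScalars ℝ) (hasFDerivAt_Z2 w hp)
  · have hc : Continuous fun q : ((n → ℂ) →L[ℝ] ℂ) × (EuclideanSpace ℂ n →L[ℝ] (n → ℂ)) =>
        q.1.comp q.2 := continuous_fst.clm_comp continuous_snd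
    exact (hc.tendsto _).comp (hDM.prodMk_nhds hDZ)

/-- Regularity from the derivative in the direction of `z`. -/
theorem RegAt.wfun_fst (hw : ∀ i, 0 < w i) (hM : WUnf w δ M) (hq : WLoop δ s q) {t₀ : T}
    (ht₀ : t₀ ∈ s) {x₀ : EuclideanSpace ℂ n} {y₀ : W} (h : x₀ ≠ 0 ∨ y₀ ≠ 0)
    (hD : fderiv ℂ (M (q t₀ y₀)) (Z2 w x₀ ‖y₀‖) ≠ 0) :
    RegAt s (fun t => wfun w M (q t)) t₀ (x₀, y₀) := by
  have hq0 : Tendsto (fun tb : T × W => q tb.1 tb.2) (𝓝[s ×ˢ (univ : Set W)] (t₀, y₀))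
      (𝓝 (q t₀ y₀)) := hq.cont (t₀, y₀) ⟨ht₀, mem_univ _⟩
  have hn0 : Tendsto (fun tb : T × W => ‖tb.2‖) (𝓝[s ×ˢ (univ : Set W)] (t₀, y₀))
      (𝓝 ‖y₀‖) := (continuous_snd.norm.tendsto (t₀, y₀)).mono_left nhdsWithin_le_nhds
  have key : RegAt (s ×ˢ univ) (fun (tb : T × W) x => M (q tb.1 tb.2) (Z2 w x ‖tb.2‖))
      (t₀, y₀) x₀ :=
    RegAt.fibreZ2 (Q := fun tb : T × W => q tb.1 tb.2) (σ := fun tb : T × W => ‖tb.2‖)
      (b₀ := (t₀, y₀)) hw hM hq0 hn0 (h.imp id norm_ne_zero_iff.mpr) hD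
  exact RegAt.fst (F := fun t => wfun w M (q t)) (x₀ := (x₀, y₀)) key

/-- Regularity from the direction of the parameters, at critical points of `M (q t y)`. -/
theorem RegAt.wfun_snd (hw : ∀ i, 0 < w i) (hM : WUnf w δ M) (hq : WLoop δ s q) {t₀ : T}
    (ht₀ : t₀ ∈ s) {x₀ : EuclideanSpace ℂ n} {y₀ : W} (hy₀ : y₀ ≠ 0)
    (hD : fderiv ℂ (M (q t₀ y₀)) (Z2 w x₀ ‖y₀‖) = 0)
    (h : RegAt (s ×ˢ univ) (fun (tz : T × (n → ℂ)) y => M (q tz.1 y) tz.2)
      (t₀, Z2 w x₀ ‖y₀‖) y₀) : RegAt s (fun t => wfun w M (q t)) t₀ (x₀, y₀) := by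
  obtain ⟨k, hk0, hk1, A, U, hU, hev⟩ := h
  set z₀ : n → ℂ := Z2 w x₀ ‖y₀‖ with hz₀
  have hne : x₀ ≠ 0 ∨ ‖y₀‖ ≠ 0 := Or.inr (norm_ne_zero_iff.mpr hy₀)
  -- a local Lipschitz constant of `Z2`
  obtain ⟨L, Ω, hΩ, hL⟩ := (contDiffAt_Z2 w hne).exists_lipschitzOnWith
  set ε : ℝ := (1 - k) / (2 * ((L : ℝ) * (‖A‖ + 1) + 1)) with hε
  have hLA : 0 < (L : ℝ) * (‖A‖ + 1) + 1 := by positivity
  have hε0 : 0 < ε := by
    have : 0 < 1 - k := by linarith
    positivity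
  -- the derivative of `M` is small near `z₀`
  have hsmall : ∀ᶠ p : V × (n → ℂ) in 𝓝 (q t₀ y₀, z₀), ‖fderiv ℂ (M p.1) p.2‖ ≤ ε := by
    have h1 : Tendsto (fun p : V × (n → ℂ) => ‖fderiv ℂ (M p.1) p.2‖) (𝓝 (q t₀ y₀, z₀))
        (𝓝 ‖fderiv ℂ (M (q t₀ y₀)) z₀‖) := hM.cont'.norm.tendsto _
    rw [hD, norm_zero] at h1
    filter_upwards [h1.eventually (gt_mem_nhds hε0)] with p hp using hp.le
  rw [nhds_prod_eq, eventually_prod_iff] at hsmall
  obtain ⟨pq, hpq, pz, hpz, hsm⟩ := hsmall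
  obtain ⟨r, hr, hball⟩ := Metric.eventually_nhds_iff_ball.mp hpz
  -- the family along the parameters
  rw [nhdsWithin_prod_eq, nhdsWithin_univ, eventually_prod_iff] at hev
  obtain ⟨pt, hpt, pζ, hpζ, htz⟩ := hev
  have hq0 : ∀ᶠ tb : T × W in 𝓝[s] t₀ ×ˢ 𝓝 y₀, pq (q tb.1 tb.2) := by
    have h1 : Tendsto (fun tb : T × W => q tb.1 tb.2) (𝓝[s ×ˢ (univ : Set W)] (t₀, y₀))
        (𝓝 (q t₀ y₀)) := hq.cont (t₀, y₀) ⟨ht₀, mem_univ _⟩
    rw [nhdsWithin_prod_eq, nhdsWithin_univ] at h1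
    exact h1.eventually hpq
  rw [eventually_prod_iff] at hq0
  obtain ⟨pt', hpt', py, hpy, hqy⟩ := hq0
  have hZc : Tendsto (fun p : EuclideanSpace ℂ n × W => Z2 w p.1 ‖p.2‖) (𝓝 (x₀, y₀)) (𝓝 z₀) := by
    have h1 : Continuous fun p : EuclideanSpace ℂ n × W => (p.1, ‖p.2‖) :=
      continuous_fst.prodMk continuous_snd.norm
    exact ((continuous_Z2 hw).comp h1).tendsto (x₀, y₀)
  refine ⟨(k + 1) / 2, by linarith, by linarith,
    (ContinuousLinearMap.inr ℝ (EuclideanSpace ℂ n) W).comp A,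
    {p | p.2 ∈ U ∧ py p.2 ∧ (p.1, ‖p.2‖) ∈ Ω ∧ pζ (Z2 w p.1 ‖p.2‖) ∧
      Z2 w p.1 ‖p.2‖ ∈ Metric.ball z₀ r}, ?_, ?_⟩
  · have c1 : ∀ᶠ p : EuclideanSpace ℂ n × W in 𝓝 (x₀, y₀), p.2 ∈ U ∧ py p.2 :=
      (continuous_snd.tendsto (x₀, y₀)).eventually ((eventually_mem_set.mpr hU).and hpy)
    have c2 : ∀ᶠ p : EuclideanSpace ℂ n × W in 𝓝 (x₀, y₀), (p.1, ‖p.2‖) ∈ Ω :=
      ((continuous_fst.prodMk continuous_snd.norm :
        Continuous fun p : EuclideanSpace ℂ n × W => (p.1, ‖p.2‖)).tendsto (x₀, y₀)) hΩ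
    filter_upwards [c1, c2, hZc.eventually hpζ, hZc (Metric.ball_mem_nhds z₀ hr)] with p e1 e2 e3 e4
    exact ⟨e1.1, e1.2, e2, e3, e4⟩
  · filter_upwards [hpt, hpt'] with t ht ht' p hp c hc
    obtain ⟨x, y⟩ := p
    have e1 : ((x, y) : EuclideanSpace ℂ n × W) +
        ((ContinuousLinearMap.inr ℝ (EuclideanSpace ℂ n) W).comp A) c = (x, y + A c) := by
      simp
    rw [e1] at hc ⊢
    obtain ⟨hyU, hy2, hyΩ, hyz, hyr⟩ := hp
    obtain ⟨hyU', hy2', hyΩ', hyz', hyr'⟩ := hc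
    show ‖M (q t (y + A c)) (Z2 w x ‖y + A c‖) - M (q t y) (Z2 w x ‖y‖) - c‖ ≤ _
    have h1 := htz ht hyz y hyU c hyU'
    have h1' : ‖M (q t (y + A c)) (Z2 w x ‖y‖) - M (q t y) (Z2 w x ‖y‖) - c‖ ≤ k * ‖c‖ := h1
    -- the change of `z`
    have h2 : ‖M (q t (y + A c)) (Z2 w x ‖y + A c‖) - M (q t (y + A c)) (Z2 w x ‖y‖)‖ ≤
        ε * ‖Z2 w x ‖y + A c‖ - Z2 w x ‖y‖‖ := by
      refine (convex_ball z₀ r).norm_image_sub_le_of_norm_hasFDerivWithin_le (𝕜 := ℂ)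
        (f := M (q t (y + A c))) (f' := fun z => fderiv ℂ (M (q t (y + A c))) z)
        (fun z _ => ((hM.diff _) z).hasFDerivAt.hasFDerivWithinAt) (fun z hz => ?_) hyr hyr'
      exact hsm (hqy ht' hy2') (hball z hz)
    have h3 : ‖Z2 w x ‖y + A c‖ - Z2 w x ‖y‖‖ ≤ L * ((‖A‖ + 1) * ‖c‖) := by
      have h4 := hL.dist_le_mul (x, ‖y + A c‖) hyΩ' (x, ‖y‖) hyΩ
      rw [dist_eq_norm] at h4
      refine h4.trans (mul_le_mul_of_nonneg_left ?_ L.coe_nonneg)
      rw [Prod.dist_eq, dist_self, Real.dist_eq]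
      refine max_le (by positivity) ?_
      calc |‖y + A c‖ - ‖y‖| ≤ ‖y + A c - y‖ := abs_norm_sub_norm_le _ _
        _ = ‖A c‖ := by rw [add_sub_cancel_left]
        _ ≤ ‖A‖ * ‖c‖ := A.le_opNorm c
        _ ≤ (‖A‖ + 1) * ‖c‖ := mul_le_mul_of_nonneg_right (by linarith) (norm_nonneg _)
    have h5 : ε * ‖Z2 w x ‖y + A c‖ - Z2 w x ‖y‖‖ ≤ (1 - k) / 2 * ‖c‖ := by
      calc ε * ‖Z2 w x ‖y + A c‖ - Z2 w x ‖y‖‖ ≤ ε * (L * ((‖A‖ + 1) * ‖c‖)) :=
            mul_le_mul_of_nonneg_left h3 hε0.le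
        _ ≤ ε * (((L : ℝ) * (‖A‖ + 1) + 1) * ‖c‖) := by
            refine mul_le_mul_of_nonneg_left ?_ hε0.le
            have := norm_nonneg c
            nlinarith
        _ = (1 - k) / 2 * ‖c‖ := by
            rw [hε]
            field_simp
    have e2 : M (q t (y + A c)) (Z2 w x ‖y + A c‖) - M (q t y) (Z2 w x ‖y‖) - c =
        (M (q t (y + A c)) (Z2 w x ‖y‖) - M (q t y) (Z2 w x ‖y‖) - c) +
          (M (q t (y + A c)) (Z2 w x ‖y + A c‖) - M (q t (y + A c)) (Z2 w x ‖y‖)) := by ring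
    rw [e2]
    refine (norm_add_le _ _).trans ?_
    calc _ ≤ k * ‖c‖ + (1 - k) / 2 * ‖c‖ := add_le_add h1' (h2.trans h5)
      _ = (k + 1) / 2 * ‖c‖ := by ring

/-- **Loops of unfoldings**: regularity away from the values in `S`. -/
theorem nfam_wfun {S : Set ℂ} (hw : ∀ i, 0 < w i) (hM : WUnf w δ M) (hq : WLoop δ s q)
    (hreg : ∀ t ∈ s, ∀ y ≠ 0, ∀ z, fderiv ℂ (M (q t y)) z = 0 → M (q t y) z ∉ S →
      RegAt (s ×ˢ univ) (fun (tz : T × (n → ℂ)) y' => M (q tz.1 y') tz.2) (t, z) y) :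
    NFam S s (fun t => wfun w M (q t)) where
  cont := continuousOn_wfun hw hM hq
  hom := fun t ht => hom1_wfun hw hM (hq.hom t ht)
  reg := by
    rintro t ht ⟨x, y⟩ hp hval
    by_cases hD : fderiv ℂ (M (q t y)) (Z2 w x ‖y‖) = 0
    · have hy : y ≠ 0 := by
        rintro rfl
        have h1 : q t (0 : W) = δ 0 (q t 0) := by
          have := hq.hom t ht 0 le_rfl 0
          rwa [smul_zero] at this
        rw [h1, norm_zero, Z2_zero_right] at hD
        have h2 := hM.crit _ _ hD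
        have hx : x ≠ 0 := by rintro rfl; exact hp rfl
        exact Wc_ne_zero hw hx h2
      exact RegAt.wfun_snd hw hM hq ht hy hD (hreg t ht y hy _ hD hval)
    · refine RegAt.wfun_fst hw hM hq ht ?_ hD
      by_contra hcon
      push Not at hcon
      exact hp (by rw [hcon.1, hcon.2]; rfl)

/-- **Loops of unfoldings**, class `R`: if `0` is never a critical value of `M (q t y)`. -/
theorem rfam_wfun (hw : ∀ i, 0 < w i) (hM : WUnf w δ M) (hq : WLoop δ s q)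
    (hreg : ∀ t ∈ s, ∀ y ≠ 0, ∀ z, fderiv ℂ (M (q t y)) z = 0 → M (q t y) z = 0 →
      RegAt (s ×ˢ univ) (fun (tz : T × (n → ℂ)) y' => M (q tz.1 y') tz.2) (t, z) y) :
    RFam s (fun t => wfun w M (q t)) := by
  rw [← nfam_compl]
  exact nfam_wfun hw hM hq fun t ht y hy z hD hv => hreg t ht y hy z hD (by simpa using hv)

/-- **Loops of unfoldings**, class `H`. -/
theorem hfam_wfun (hw : ∀ i, 0 < w i) (hM : WUnf w δ M) (hq : WLoop δ s q)
    (hreg : ∀ t ∈ s, ∀ y ≠ 0, ∀ z, fderiv ℂ (M (q t y)) z = 0 → 0 ≤ (M (q t y) z).re →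
      RegAt (s ×ˢ univ) (fun (tz : T × (n → ℂ)) y' => M (q tz.1 y') tz.2) (t, z) y) :
    HFam s (fun t => wfun w M (q t)) := by
  have h := nfam_wfun (S := {z : ℂ | z.re < 0}) hw hM hq
    fun t ht y hy z hD hv => hreg t ht y hy z hD (by simpa using hv)
  exact ⟨h.cont, h.hom, fun t ht x hx h0 => h.reg t ht x hx (by simpa using h0)⟩

end Main

end Vale.Agent.P268.T
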