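import Vale.Agent.P268.T.NF
import Vale.Agent.P268.T.H863.SwingNF
import Vale.Agent.P268.H288.KTypeThm
import Vale.Agent.P268.T.B4.KFormKA921
import Vale.Agent.P268.T.H719.B3
import Vale.Agent.P268.T.BlockChain
import Vale.Agent.P268.T.H277.StepDone
import Vale.Agent.P268.T.H903.ZipProp
import Vale.Agent.P268.T.H654.LeftProp

/-!
# P268, topological half: the final theorem

`zariski_false`: there are reduced germs of holomorphic functions whose zero sets are ambiently
homeomorphic, with different multiplicities.
-/

namespace Vale.Agent.P268.T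

open Matrix Set Filter Topology Vale.Agent.P268.Z Vale.Agent.P268.H288 Vale.Agent.P268.T.A109

/-- The swing (863, 655). -/
theorem kSwing : KSwing := fun _ _ _ _ _ _ he hb _ _ _ _ _ h0 hr hB hb0 hε hadm =>
  swing he hb h0 hr hB hb0 hε hadm

/-- **Block B4**: normal forms of the ray functions. -/
theorem blockNF : BlockNF Nfb (typb gk) := blockNF_of kFormB3 kFormKA kSwing kType

/-- **Block B6**: the geometric slide. -/
theorem blockStep : BlockStep := blockStep_of_left Z903.zipProp H654.leftProp

/-- **Zariski's multiplicity conjecture is false.** -/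
theorem zariski_false :
    ∃ (N : ℕ) (f g : (Fin N → ℂ) → ℂ), Red f ∧ Red g ∧ AmbHomeo f g ∧ mult f ≠ mult g :=
  zariski_of_rest blockChain blockStep gk blockNF

end Vale.Agent.P268.T
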